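import Vale.Agent.P054.MathlibUsed
attribute [-instance] ProperSMul.toContinuousSMul IsTopologicalTorsor.toContinuousSMul IdemSemiring.toCanonicallyOrderedAdd IdemSemiring.toMulLeftMono IdemSemiring.toMulRightMono AddQuantale.instAddLeftMono AddQuantale.instAddRightMono Quantale.instMulLeftMono Quantale.instMulRightMono FiniteDimensional.rclike_to_real IsScalarTower.complexToReal FiniteDimensional.complexToReal

set_option linter.all false

section

set_option autoImplicit false

open Finset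

namespace Vale.Agent.P054K

open scoped Classical in
/-- the set of distances determined by a finite point set -/
noncomputable def distances {d : ℕ} (P : Finset (EuclideanSpace ℝ (Fin d))) : Finset ℝ :=
  P.offDiag.image (fun pq => dist pq.1 pq.2)

/-- strict sign vectors of the affine functions realised on the sphere of radius `r` -/
def Realized {E : Type*} [NormedAddCommGroup E] [InnerProductSpace ℝ E] {J : Type*}
    (r : ℝ) (a : J → E) (c : J → ℝ) : Set (J → Bool) :=
  {σ | ∃ ω : E, ‖ω‖ = r ∧ ∀ j, 0 < (if σ j then (1:ℝ) else -1) * (inner ℝ (a j) ω + c j)}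

/-- dual vector of a pair -/
noncomputable def dualVec {d : ℕ} (π : EuclideanSpace ℝ (Fin d) × EuclideanSpace ℝ (Fin d)) :
    EuclideanSpace ℝ (Fin d) × ℝ :=
  (π.1 - π.2, ‖π.1‖ ^ 2 - ‖π.2‖ ^ 2)

open scoped Classical in
/-- mass of a subspace -/
noncomputable def mass {V ι : Type} [AddCommGroup V] [Module ℝ V] (I : Finset ι) (v : ι → V)
    (A : Submodule ℝ V) : ℝ :=
  ((I.filter (fun i => v i ∈ A)).card : ℝ)

end Vale.Agent.P054K
end

section

set_option autoImplicit false

open Finset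

namespace Vale.Agent.P054K

/-! ### trapezoids of a line arrangement -/

/-- incidence of the point `z` with the line `y = l.1 x + l.2` -/
def Onl (l z : ℝ × ℝ) : Prop := z.2 = l.1 * z.1 + l.2

/-- order of the lines just to the right of abscissa `x` -/
noncomputable def key (x : ℝ) (l : ℝ × ℝ) : ℝ ×ₗ ℝ := toLex (l.1 * x + l.2, l.1)

/-- crossing abscissa -/
noncomputable def xc (c l : ℝ × ℝ) : ℝ := (l.2 - c.2) / (c.1 - l.1)

theorem xc_symm (c l : ℝ × ℝ) : xc c l = xc l c := by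
  unfold xc
  rw [← neg_div_neg_eq, neg_sub, neg_sub]

theorem key_lt {x : ℝ} {c l : ℝ × ℝ} :
    key x c < key x l ↔ c.1 * x + c.2 < l.1 * x + l.2 ∨
      (c.1 * x + c.2 = l.1 * x + l.2 ∧ c.1 < l.1) := by
  unfold key
  rw [Prod.Lex.toLex_lt_toLex]

theorem key_inj {x : ℝ} {c l : ℝ × ℝ} (h : key x c = key x l) : c = l := by
  unfold key at h
  have h2 := toLex.injective h
  rw [Prod.mk.injEq] at h2
  obtain ⟨h3, h4⟩ := h2
  rw [h4] at h3
  exact Prod.ext h4 (by linarith only [h3])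

theorem key_lt_iff_of_slope_lt {x : ℝ} {c l : ℝ × ℝ} (h : c.1 < l.1) :
    key x c < key x l ↔ xc c l ≤ x := by
  rw [key_lt]
  have hp : c.1 - l.1 < 0 := by linarith only [h]
  have h1 : xc c l ≤ x ↔ x * (c.1 - l.1) ≤ l.2 - c.2 := by
    unfold xc
    rw [div_le_iff_of_neg hp]
  rw [h1]
  constructor
  · rintro (h2 | ⟨h2, _⟩) <;> nlinarith only [h2]
  · intro h2
    rcases lt_or_eq_of_le h2 with h3 | h3
    · left; linarith only [h3]
    · right; exact ⟨by linarith only [h3], h⟩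

theorem key_lt_iff_of_slope_gt {x : ℝ} {c l : ℝ × ℝ} (h : l.1 < c.1) :
    key x c < key x l ↔ x < xc c l := by
  rw [key_lt]
  have hp : 0 < c.1 - l.1 := by linarith only [h]
  have h1 : x < xc c l ↔ x * (c.1 - l.1) < l.2 - c.2 := by
    unfold xc
    rw [lt_div_iff₀ hp]
  rw [h1]
  constructor
  · rintro (h2 | ⟨_, h2⟩)
    · linarith only [h2]
    · linarith
  · intro h2
    left; linarith only [h2]

theorem noncross {c l : ℝ × ℝ} {x x' : ℝ} (hxx : x ≤ x')
    (h : c.1 ≠ l.1 → ¬ (x < xc c l ∧ xc c l ≤ x')) :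
    key x c < key x l ↔ key x' c < key x' l := by
  rcases lt_trichotomy c.1 l.1 with h1 | h1 | h1
  · rw [key_lt_iff_of_slope_lt h1, key_lt_iff_of_slope_lt h1]
    have h2 := h h1.ne
    constructor
    · intro h3; exact h3.trans hxx
    · intro h3
      by_contra h4
      push Not at h4
      exact h2 ⟨h4, h3⟩
  · rw [key_lt, key_lt, h1]
    simp only [add_lt_add_iff_left, add_right_inj, lt_self_iff_false, and_false, or_false]
  · rw [key_lt_iff_of_slope_gt h1, key_lt_iff_of_slope_gt h1]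
    have h2 := h h1.ne'
    constructor
    · intro h3
      by_contra h4
      push Not at h4
      exact h2 ⟨h3, h4⟩
    · intro h3; exact lt_of_le_of_lt hxx h3

open scoped Classical in
/-- optional maximum -/
noncomputable def omax {α β : Type} [LinearOrder β] (F : Finset α) (k : α → β) : Option α :=
  if h : F.Nonempty then some (Classical.choose (F.exists_max_image k h)) else none

theorem omax_mem {α β : Type} [LinearOrder β] {F : Finset α} {k : α → β} {l : α}
    (h : l ∈ omax F k) : l ∈ F := by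
  unfold omax at h
  split_ifs at h with hF
  · rw [Option.mem_some_iff] at h
    rw [← h]
    exact (Classical.choose_spec (F.exists_max_image k hF)).1
  · simp at h

theorem omax_le {α β : Type} [LinearOrder β] {F : Finset α} {k : α → β} {l : α}
    (h : l ∈ F) : ∃ c ∈ omax F k, k l ≤ k c := by
  unfold omax
  have hF : F.Nonempty := ⟨l, h⟩
  rw [dif_pos hF]
  exact ⟨_, rfl, (Classical.choose_spec (F.exists_max_image k hF)).2 l h⟩

/-- optional minimum -/
noncomputable def omin {α β : Type} [LinearOrder β] (F : Finset α) (k : α → β) : Option α :=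
  omax F (fun a => OrderDual.toDual (k a))

theorem omin_mem {α β : Type} [LinearOrder β] {F : Finset α} {k : α → β} {l : α}
    (h : l ∈ omin F k) : l ∈ F := omax_mem h

theorem omin_le {α β : Type} [LinearOrder β] {F : Finset α} {k : α → β} {l : α}
    (h : l ∈ F) : ∃ c ∈ omin F k, k c ≤ k l := by
  obtain ⟨c, hc, hc2⟩ := omax_le (k := fun a => OrderDual.toDual (k a)) h
  exact ⟨c, hc, hc2⟩

theorem omax_congr {α β : Type} [LinearOrder β] {F : Finset α} {k k' : α → β}
    (hk : ∀ a ∈ F, ∀ b ∈ F, k a = k b → a = b)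
    (h : ∀ c ∈ omax F k', ∀ l ∈ F, k l ≤ k c) : omax F k = omax F k' := by
  rcases F.eq_empty_or_nonempty with hF | hF
  · subst hF
    unfold omax
    simp
  · obtain ⟨l, hl⟩ := hF
    obtain ⟨c, hc, _⟩ := omax_le (k := k') hl
    have hcF := omax_mem hc
    obtain ⟨c', hc', h2⟩ := omax_le (k := k) hcF
    have h3 := h c hc c' (omax_mem hc')
    have h4 := hk c hcF c' (omax_mem hc') (le_antisymm h2 h3)
    subst h4
    rw [Option.mem_def] at hc hc'
    rw [hc, hc']

theorem omin_congr {α β : Type} [LinearOrder β] {F : Finset α} {k k' : α → β}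
    (hk : ∀ a ∈ F, ∀ b ∈ F, k a = k b → a = b)
    (h : ∀ c ∈ omin F k', ∀ l ∈ F, k c ≤ k l) : omin F k = omin F k' := by
  unfold omin
  apply omax_congr
  · intro a ha b hb hab
    exact hk a ha b hb hab
  · intro c hc l hl
    exact h c hc l hl

open scoped Classical in
/-- crossing abscissas of the optional line `b` with the lines of `G` -/
noncomputable def crs (G : Finset (ℝ × ℝ)) (b : Option (ℝ × ℝ)) : Finset ℝ :=
  ((b.toFinset ×ˢ G).filter (fun p => p.1.1 ≠ p.2.1)).image (fun p => xc p.1 p.2)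

theorem mem_crs {G : Finset (ℝ × ℝ)} {b : Option (ℝ × ℝ)} {a : ℝ} :
    a ∈ crs G b ↔ ∃ c ∈ b, ∃ l ∈ G, c.1 ≠ l.1 ∧ xc c l = a := by
  unfold crs
  simp only [mem_image, mem_filter, mem_product, Option.mem_toFinset, Prod.exists]
  constructor
  · rintro ⟨c1, c2, l1, l2, ⟨⟨h1, h2⟩, h3⟩, h4⟩
    exact ⟨c1, c2, h1, l1, l2, h2, h3, h4⟩
  · rintro ⟨c1, c2, h1, l1, l2, h2, h3, h4⟩
    exact ⟨c1, c2, l1, l2, ⟨⟨h1, h2⟩, h3⟩, h4⟩

open scoped Classical in
/-- lines of `G` strictly below `z` -/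
noncomputable def Fb (G : Finset (ℝ × ℝ)) (z : ℝ × ℝ) : Finset (ℝ × ℝ) :=
  G.filter (fun l => l.1 * z.1 + l.2 < z.2)

open scoped Classical in
/-- lines of `G` strictly above `z` -/
noncomputable def Ft (G : Finset (ℝ × ℝ)) (z : ℝ × ℝ) : Finset (ℝ × ℝ) :=
  G.filter (fun l => z.2 < l.1 * z.1 + l.2)

noncomputable def bot (G : Finset (ℝ × ℝ)) (z : ℝ × ℝ) : Option (ℝ × ℝ) :=
  omax (Fb G z) (key z.1)

noncomputable def top (G : Finset (ℝ × ℝ)) (z : ℝ × ℝ) : Option (ℝ × ℝ) :=
  omin (Ft G z) (key z.1)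

noncomputable def crz (G : Finset (ℝ × ℝ)) (b t : Option (ℝ × ℝ)) : Finset ℝ :=
  crs G b ∪ crs G t

open scoped Classical in
noncomputable def lft (G : Finset (ℝ × ℝ)) (z : ℝ × ℝ) : Option ℝ :=
  omax ((crz G (bot G z) (top G z)).filter (fun a => a ≤ z.1)) id

open scoped Classical in
noncomputable def rgt (G : Finset (ℝ × ℝ)) (z : ℝ × ℝ) : Option ℝ :=
  omin ((crz G (bot G z) (top G z)).filter (fun a => z.1 < a)) id

/-- trapezoid data: bottom, top, left, right -/
noncomputable def tra (G : Finset (ℝ × ℝ)) (z : ℝ × ℝ) :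
    Option (ℝ × ℝ) × Option (ℝ × ℝ) × Option ℝ × Option ℝ :=
  (bot G z, top G z, lft G z, rgt G z)

/-- the line `l` crosses the open trapezoid `τ` -/
def Cr (τ : Option (ℝ × ℝ) × Option (ℝ × ℝ) × Option ℝ × Option ℝ) (l : ℝ × ℝ) : Prop :=
  ∃ x : ℝ, (∀ a ∈ τ.2.2.1, a < x) ∧ (∀ a ∈ τ.2.2.2, x < a) ∧
    (∀ c ∈ τ.1, c.1 * x + c.2 < l.1 * x + l.2) ∧ (∀ c ∈ τ.2.1, l.1 * x + l.2 < c.1 * x + c.2)

/-- `z` is on no line of `G` -/
def Off (G : Finset (ℝ × ℝ)) (z : ℝ × ℝ) : Prop := ∀ l ∈ G, ¬ Onl l z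

theorem off_cases {G : Finset (ℝ × ℝ)} {z : ℝ × ℝ} (hz : Off G z) {l : ℝ × ℝ} (hl : l ∈ G) :
    l.1 * z.1 + l.2 < z.2 ∨ z.2 < l.1 * z.1 + l.2 := by
  have := hz l hl
  unfold Onl at this
  rcases lt_trichotomy (l.1 * z.1 + l.2) z.2 with h | h | h
  · left; exact h
  · exact absurd h.symm this
  · right; exact h

theorem bot_lt {G : Finset (ℝ × ℝ)} {z c : ℝ × ℝ} (hc : c ∈ bot G z) :
    c ∈ G ∧ c.1 * z.1 + c.2 < z.2 := by
  have := omax_mem hc
  unfold Fb at this
  rw [mem_filter] at this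
  exact this

theorem lt_top' {G : Finset (ℝ × ℝ)} {z c : ℝ × ℝ} (hc : c ∈ top G z) :
    c ∈ G ∧ z.2 < c.1 * z.1 + c.2 := by
  have := omin_mem hc
  unfold Ft at this
  rw [mem_filter] at this
  exact this

theorem above_iff {G : Finset (ℝ × ℝ)} {z : ℝ × ℝ} (hz : Off G z) {t : ℝ × ℝ} (ht : t ∈ G) :
    z.2 < t.1 * z.1 + t.2 ↔ ∀ c ∈ bot G z, key z.1 c < key z.1 t := by
  constructor
  · intro h c hc
    rw [key_lt]; left
    exact (bot_lt hc).2.trans h
  · intro h
    rcases off_cases hz ht with h1 | h1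
    · exfalso
      have h2 : t ∈ Fb G z := by unfold Fb; rw [mem_filter]; exact ⟨ht, h1⟩
      obtain ⟨c, hc, hc2⟩ := omax_le (k := key z.1) h2
      exact absurd (h c hc) (not_lt.mpr hc2)
    · exact h1

theorem below_iff {G : Finset (ℝ × ℝ)} {z : ℝ × ℝ} (hz : Off G z) {t : ℝ × ℝ} (ht : t ∈ G) :
    t.1 * z.1 + t.2 < z.2 ↔ ∀ c ∈ top G z, key z.1 t < key z.1 c := by
  constructor
  · intro h c hc
    rw [key_lt]; left
    exact h.trans (lt_top' hc).2
  · intro h
    rcases off_cases hz ht with h1 | h1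
    · exact h1
    · exfalso
      have h2 : t ∈ Ft G z := by unfold Ft; rw [mem_filter]; exact ⟨ht, h1⟩
      obtain ⟨c, hc, hc2⟩ := omin_le (k := key z.1) h2
      exact absurd (h c hc) (not_lt.mpr hc2)

theorem Ft_congr {G : Finset (ℝ × ℝ)} {z z' : ℝ × ℝ} (hz : Off G z) (hz' : Off G z')
    (hx : z.1 ≤ z'.1) (hb : bot G z = bot G z')
    (hn : ∀ a ∈ crs G (bot G z'), ¬ (z.1 < a ∧ a ≤ z'.1)) : Ft G z = Ft G z' := by
  unfold Ft
  apply Finset.filter_congr
  intro t ht
  rw [above_iff hz ht, above_iff hz' ht, hb]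
  apply forall₂_congr
  intro c hc
  apply noncross hx
  intro h
  exact hn _ (mem_crs.mpr ⟨c, hc, t, ht, h, rfl⟩)

theorem Fb_congr {G : Finset (ℝ × ℝ)} {z z' : ℝ × ℝ} (hz : Off G z) (hz' : Off G z')
    (hx : z.1 ≤ z'.1) (hb : top G z = top G z')
    (hn : ∀ a ∈ crs G (top G z'), ¬ (z.1 < a ∧ a ≤ z'.1)) : Fb G z = Fb G z' := by
  unfold Fb
  apply Finset.filter_congr
  intro t ht
  rw [below_iff hz ht, below_iff hz' ht, hb]
  apply forall₂_congr
  intro c hc
  apply noncross hx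
  intro h
  rw [xc_symm]
  exact hn _ (mem_crs.mpr ⟨c, hc, t, ht, h.symm, rfl⟩)

theorem top_congr {G : Finset (ℝ × ℝ)} {z z' : ℝ × ℝ} (hz : Off G z) (hz' : Off G z')
    (hx : z.1 ≤ z'.1) (hb : bot G z = bot G z')
    (hn : ∀ a ∈ crz G (bot G z') (top G z'), ¬ (z.1 < a ∧ a ≤ z'.1)) : top G z = top G z' := by
  have h1 := Ft_congr hz hz' hx hb (fun a ha => hn a (mem_union_left _ ha))
  have h2 : top G z' = omin (Ft G z) (key z'.1) := by unfold top; rw [h1]
  rw [h2]
  unfold top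
  apply omin_congr
  · intro a _ b _ hab; exact key_inj hab
  · intro c hc l hl
    by_contra h
    push Not at h
    have hcG : c ∈ G := by
      have := omin_mem hc
      unfold Ft at this
      exact (mem_filter.mp this).1
    have hlG : l ∈ G := by
      unfold Ft at hl
      exact (mem_filter.mp hl).1
    have hct : c ∈ top G z' := by rw [h2]; exact hc
    have h3 : key z'.1 l < key z'.1 c := by
      rw [← noncross hx]
      · exact h
      · intro hne
        rw [xc_symm]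
        exact hn _ (mem_union_right _ (mem_crs.mpr ⟨c, hct, l, hlG, hne.symm, rfl⟩))
    obtain ⟨c', hc', h4⟩ := omin_le (k := key z'.1) hl
    rw [Option.mem_def] at hc hc'
    rw [hc] at hc'
    obtain rfl := Option.some.inj hc'
    exact absurd h3 (not_lt.mpr h4)

theorem bot_congr {G : Finset (ℝ × ℝ)} {z z' : ℝ × ℝ} (hz : Off G z) (hz' : Off G z')
    (hx : z.1 ≤ z'.1) (hb : top G z = top G z')
    (hn : ∀ a ∈ crz G (bot G z') (top G z'), ¬ (z.1 < a ∧ a ≤ z'.1)) : bot G z = bot G z' := by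
  have h1 := Fb_congr hz hz' hx hb (fun a ha => hn a (mem_union_right _ ha))
  have h2 : bot G z' = omax (Fb G z) (key z'.1) := by unfold bot; rw [h1]
  rw [h2]
  unfold bot
  apply omax_congr
  · intro a _ b _ hab; exact key_inj hab
  · intro c hc l hl
    by_contra h
    push Not at h
    have hcG : c ∈ G := by
      have := omax_mem hc
      unfold Fb at this
      exact (mem_filter.mp this).1
    have hlG : l ∈ G := by
      unfold Fb at hl
      exact (mem_filter.mp hl).1
    have hct : c ∈ bot G z' := by rw [h2]; exact hc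
    have h3 : key z'.1 c < key z'.1 l := by
      rw [← noncross hx]
      · exact h
      · intro hne
        exact hn _ (mem_union_left _ (mem_crs.mpr ⟨c, hct, l, hlG, hne, rfl⟩))
    obtain ⟨c', hc', h4⟩ := omax_le (k := key z'.1) hl
    rw [Option.mem_def] at hc hc'
    rw [hc] at hc'
    obtain rfl := Option.some.inj hc'
    exact absurd h3 (not_lt.mpr h4)

theorem lft_le {G : Finset (ℝ × ℝ)} {z : ℝ × ℝ} {a : ℝ} (h : a ∈ lft G z) : a ≤ z.1 :=
  (mem_filter.mp (omax_mem h)).2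

theorem lt_rgt {G : Finset (ℝ × ℝ)} {z : ℝ × ℝ} {a : ℝ} (h : a ∈ rgt G z) : z.1 < a :=
  (mem_filter.mp (omin_mem h)).2

theorem no_cross_of_lft {G : Finset (ℝ × ℝ)} {z z' : ℝ × ℝ} (hl : lft G z = lft G z') :
    ∀ a ∈ crz G (bot G z') (top G z'), ¬ (z.1 < a ∧ a ≤ z'.1) := by
  rintro a ha ⟨h1, h2⟩
  have h3 : a ∈ (crz G (bot G z') (top G z')).filter (fun a => a ≤ z'.1) := by
    rw [mem_filter]; exact ⟨ha, h2⟩
  obtain ⟨u, hu, hu2⟩ := omax_le (k := id) h3
  have hu3 : u ∈ lft G z := by rw [hl]; exact hu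
  have := lft_le hu3
  simp only [id] at hu2
  linarith only [h1, hu2, this]

theorem tra_congr_aux {G : Finset (ℝ × ℝ)} {z z' : ℝ × ℝ} (hz : Off G z) (hz' : Off G z')
    (hx : z.1 ≤ z'.1) (hl : lft G z = lft G z')
    (h : bot G z = bot G z' ∨ top G z = top G z') : tra G z = tra G z' := by
  have hn := no_cross_of_lft hl
  have hb : bot G z = bot G z' := by
    rcases h with h | h
    · exact h
    · exact bot_congr hz hz' hx h hn
  have ht : top G z = top G z' := by
    rcases h with h | h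
    · exact top_congr hz hz' hx h hn
    · exact h
  have hr : rgt G z = rgt G z' := by
    unfold rgt
    rw [hb, ht]
    congr 1
    apply Finset.filter_congr
    intro a ha
    constructor
    · intro h1
      by_contra h2
      push Not at h2
      exact hn a ha ⟨h1, h2⟩
    · intro h1; linarith only [hx, h1]
  unfold tra
  rw [hb, ht, hl, hr]

theorem tra_congr {G : Finset (ℝ × ℝ)} {z z' : ℝ × ℝ} (hz : Off G z) (hz' : Off G z')
    (hl : lft G z = lft G z') (h : bot G z = bot G z' ∨ top G z = top G z') :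
    tra G z = tra G z' := by
  rcases le_total z.1 z'.1 with hx | hx
  · exact tra_congr_aux hz hz' hx hl h
  · exact (tra_congr_aux hz' hz hx hl.symm (h.imp Eq.symm Eq.symm)).symm

end Vale.Agent.P054K
end

section

set_option autoImplicit false

open Finset

namespace Vale.Agent.P054K

open scoped Classical in
/-- greedy choice of `k` elements hitting most objects -/
theorem greedy_hitting {β ι : Type} (Bad : Finset β) (S : Finset ι) (w : ι → ℝ)
    (hw : ∀ σ ∈ S, 0 < w σ) (hS : S.Nonempty) (hit : ι → β → Prop) (ε : ℝ) (hε1 : ε ≤ 1)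
    (hbad : ∀ b ∈ Bad, ε * ∑ σ ∈ S, w σ ≤ ∑ σ ∈ S with hit σ b, w σ) (k : ℕ) :
    ∃ g : Fin k → ι, (∀ i, g i ∈ S) ∧
      ((Bad.filter (fun b => ∀ i, ¬ hit (g i) b)).card : ℝ) ≤ Bad.card * (1 - ε) ^ k := by
  induction k with
  | zero =>
    refine ⟨fun i => i.elim0, fun i => i.elim0, ?_⟩
    simp
  | succ k ih =>
    obtain ⟨g, hg, hcard⟩ := ih
    set U := Bad.filter (fun b => ∀ i, ¬ hit (g i) b) with hU
    have hUsub : U ⊆ Bad := filter_subset _ _
    have hswap : ∑ σ ∈ S, w σ * ((U.filter (fun b => hit σ b)).card : ℝ)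
        = ∑ b ∈ U, ∑ σ ∈ S with hit σ b, w σ := by
      have h1 : ∀ σ ∈ S, w σ * ((U.filter (fun b => hit σ b)).card : ℝ)
          = ∑ b ∈ U, if hit σ b then w σ else 0 := by
        intro σ _
        rw [Finset.sum_ite, Finset.sum_const, Finset.sum_const_zero, nsmul_eq_mul]
        ring
      rw [Finset.sum_congr rfl h1, Finset.sum_comm]
      apply Finset.sum_congr rfl
      intro b _
      rw [Finset.sum_filter]
    have hge : (U.card : ℝ) * (ε * ∑ σ ∈ S, w σ)
        ≤ ∑ σ ∈ S, w σ * ((U.filter (fun b => hit σ b)).card : ℝ) := by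
      rw [hswap, ← nsmul_eq_mul]
      apply Finset.card_nsmul_le_sum
      intro b hb
      exact hbad b (hUsub hb)
    have hex : ∃ σ ∈ S, ε * (U.card : ℝ) ≤ ((U.filter (fun b => hit σ b)).card : ℝ) := by
      by_contra hcon
      push Not at hcon
      have : ∑ σ ∈ S, w σ * ((U.filter (fun b => hit σ b)).card : ℝ)
          < ∑ σ ∈ S, w σ * (ε * (U.card : ℝ)) := by
        apply Finset.sum_lt_sum_of_nonempty hS
        intro σ hσ
        exact mul_lt_mul_of_pos_left (hcon σ hσ) (hw σ hσ)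
      rw [← Finset.sum_mul] at this
      linarith only [hge, this]
    obtain ⟨σ, hσ, hσU⟩ := hex
    refine ⟨Fin.cons σ g, ?_, ?_⟩
    · intro i
      refine Fin.cases ?_ ?_ i
      · simpa using hσ
      · intro j; simpa using hg j
    · have heq : Bad.filter (fun b => ∀ i, ¬ hit ((Fin.cons σ g : Fin (k+1) → ι) i) b)
          = U.filter (fun b => ¬ hit σ b) := by
        ext b
        simp only [hU, mem_filter, Fin.forall_fin_succ, Fin.cons_zero, Fin.cons_succ]
        (clear * -; tauto)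
      rw [heq]
      have hsplit : ((U.filter (fun b => hit σ b)).card : ℝ)
          + ((U.filter (fun b => ¬ hit σ b)).card : ℝ) = U.card := by
        exact_mod_cast Finset.card_filter_add_card_filter_not (s := U) (fun b => hit σ b)
      have h1 : ((U.filter (fun b => ¬ hit σ b)).card : ℝ) ≤ (1 - ε) * U.card := by linarith only [hσU,
                                                                                      hsplit]
      calc ((U.filter (fun b => ¬ hit σ b)).card : ℝ) ≤ (1 - ε) * U.card := h1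
        _ ≤ (1 - ε) * (Bad.card * (1 - ε) ^ k) := by
            apply mul_le_mul_of_nonneg_left hcard; linarith only [hε1]
        _ = Bad.card * (1 - ε) ^ (k + 1) := by ring

open scoped Classical in
theorem exists_net {α ι : Type} (P : Finset α) (hP : P.Nonempty) (S : Finset ι) (hS : S.Nonempty)
    (R : ι → α → Bool) (w : ι → ℝ) (hw : ∀ σ ∈ S, 0 < w σ) (s : ℕ) (hs : 1 ≤ s) :
    ∃ g : Fin s → ι, (∀ k, g k ∈ S) ∧ ∀ q ∈ P, ∀ q' ∈ P, (∀ k, R (g k) q = R (g k) q') →
      ∑ σ ∈ S with R σ q ≠ R σ q', w σ ≤ ((2 * Real.log P.card + 1) / s) * ∑ σ ∈ S, w σ := by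
  set ε : ℝ := (2 * Real.log P.card + 1) / s with hε
  have hn : (1:ℝ) ≤ P.card := by exact_mod_cast hP.card_pos
  have hlog : 0 ≤ Real.log P.card := Real.log_nonneg hn
  have hs' : (0:ℝ) < s := by exact_mod_cast hs
  have hW : 0 < ∑ σ ∈ S, w σ := Finset.sum_pos hw hS
  rcases le_or_gt 1 ε with h1 | h1
  · obtain ⟨σ₀, hσ₀⟩ := hS
    refine ⟨fun _ => σ₀, fun _ => hσ₀, ?_⟩
    intro q _ q' _ _
    calc ∑ σ ∈ S with R σ q ≠ R σ q', w σ ≤ ∑ σ ∈ S, w σ := by
          apply Finset.sum_le_sum_of_subset_of_nonneg (filter_subset _ _)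
          intro σ hσ _
          exact (hw σ hσ).le
      _ ≤ ε * ∑ σ ∈ S, w σ := le_mul_of_one_le_left hW.le h1
  · set Bad := (P ×ˢ P).filter (fun p => ε * ∑ σ ∈ S, w σ < ∑ σ ∈ S with R σ p.1 ≠ R σ p.2, w σ)
      with hBad
    obtain ⟨g, hg, hcard⟩ := greedy_hitting Bad S w hw hS (fun σ p => R σ p.1 ≠ R σ p.2) ε h1.le
      (fun b hb => by
        rw [hBad, mem_filter] at hb
        refine (hb.2.le).trans (le_of_eq ?_)
        congr) s
    refine ⟨g, hg, ?_⟩
    intro q hq q' hq' hqq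
    by_contra hcon
    push Not at hcon
    have hmem : (q, q') ∈ Bad.filter (fun b => ∀ i, ¬ (R (g i) b.1 ≠ R (g i) b.2)) := by
      rw [mem_filter, hBad, mem_filter, mem_product]
      refine ⟨⟨⟨hq, hq'⟩, hcon⟩, ?_⟩
      intro i
      simpa using hqq i
    have hpos : (1:ℝ) ≤ ((Bad.filter (fun b => ∀ i, ¬ (R (g i) b.1 ≠ R (g i) b.2))).card : ℝ) := by
      exact_mod_cast Finset.card_pos.mpr ⟨_, hmem⟩
    have hBadcard : (Bad.card : ℝ) ≤ (P.card : ℝ) ^ 2 := by
      have : Bad.card ≤ (P ×ˢ P).card := card_filter_le _ _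
      rw [card_product] at this
      calc (Bad.card : ℝ) ≤ ((P.card * P.card : ℕ) : ℝ) := by exact_mod_cast this
        _ = (P.card : ℝ) ^ 2 := by push_cast; ring
    have hpow : (1 - ε) ^ s ≤ Real.exp (-(2 * Real.log P.card + 1)) := by
      have h2 : 1 - ε ≤ Real.exp (-ε) := Real.one_sub_le_exp_neg ε
      calc (1 - ε) ^ s ≤ (Real.exp (-ε)) ^ s := by
            apply pow_le_pow_left₀ _ h2; linarith only [h1]
        _ = Real.exp (-(2 * Real.log P.card + 1)) := by
            rw [← Real.exp_nat_mul]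
            congr 1
            rw [hε]; field_simp
    have hexp : Real.exp (-(2 * Real.log P.card + 1)) * (P.card : ℝ) ^ 2 = Real.exp (-1) := by
      have h3 : (P.card : ℝ) ^ 2 = Real.exp (2 * Real.log P.card) := by
        rw [mul_comm, Real.exp_mul, Real.exp_log (by linarith only [hn])]
        norm_cast
      rw [h3, ← Real.exp_add]; congr 1; ring
    have hlt : Real.exp (-1) < 1 := by
      rw [Real.exp_lt_one_iff]; norm_num
    have hε0 : 0 ≤ (1 - ε) ^ s := pow_nonneg (by linarith only [h1]) s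
    have : (1:ℝ) < 1 := by
      calc (1:ℝ) ≤ _ := hpos
        _ ≤ Bad.card * (1 - ε) ^ s := by convert hcard
        _ ≤ (P.card : ℝ) ^ 2 * (1 - ε) ^ s := by gcongr
        _ ≤ (P.card : ℝ) ^ 2 * Real.exp (-(2 * Real.log P.card + 1)) := by (clear * - hP hpow; gcongr)
        _ = Real.exp (-1) := by rw [mul_comm]; exact hexp
        _ < 1 := hlt
    exact lt_irrefl _ this

open scoped Classical in
theorem exists_class {α ι : Type} (P Q : Finset α) (hQ : Q ⊆ P) (hP : P.Nonempty)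
    (S : Finset ι) (hS : S.Nonempty)
    (R : ι → α → Bool) (w : ι → ℝ) (hw : ∀ σ ∈ S, 0 < w σ) (B x s : ℕ) (hs : 1 ≤ s) (hx : 1 ≤ x)
    (hB : ∀ g : Fin s → ι, (∀ k, g k ∈ S) →
      (P.image (fun y => fun k => R (g k) y)).card ≤ B) (hB1 : 1 ≤ B)
    (hcard : x * B ≤ Q.card) :
    ∃ X ⊆ Q, X.card = x ∧ ∀ q ∈ X, ∀ q' ∈ X,
      ∑ σ ∈ S with R σ q ≠ R σ q', w σ ≤ ((2 * Real.log P.card + 1) / s) * ∑ σ ∈ S, w σ := by
  obtain ⟨g, hg, hsep⟩ := exists_net P hP S hS R w hw s hs
  have hQne : Q.Nonempty := by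
    rw [← Finset.card_pos]
    exact lt_of_lt_of_le (Nat.mul_pos hx hB1) hcard
  have hcard2 : (Q.image (fun y => fun k => R (g k) y)).card * x ≤ Q.card := by
    calc (Q.image (fun y => fun k => R (g k) y)).card * x
        ≤ (P.image (fun y => fun k => R (g k) y)).card * x :=
          Nat.mul_le_mul_right x (card_le_card (image_subset_image hQ))
      _ ≤ B * x := Nat.mul_le_mul_right x (hB g hg)
      _ = x * B := mul_comm _ _
      _ ≤ Q.card := hcard
  obtain ⟨c, _, hc⟩ := exists_le_card_fiber_of_mul_le_card_of_maps_to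
    (f := fun y => fun k => R (g k) y) (fun a ha => mem_image_of_mem _ ha)
    (hQne.image _) hcard2
  obtain ⟨X, hXsub, hXcard⟩ := exists_subset_card_eq hc
  refine ⟨X, hXsub.trans (filter_subset _ _), hXcard, ?_⟩
  intro q hq q' hq'
  have h1 := mem_filter.mp (hXsub hq)
  have h2 := mem_filter.mp (hXsub hq')
  apply hsep q (hQ h1.1) q' (hQ h2.1)
  intro k
  have := h1.2.trans h2.2.symm
  exact congrFun this k


open scoped Classical in
/-- number of ordered pairs of `X` separated by the range `σ` -/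
noncomputable def sepc {α ι : Type} (R : ι → α → Bool) (σ : ι) (X : Finset α) : ℝ :=
  (((X ×ˢ X).filter (fun p => R σ p.1 ≠ R σ p.2)).card : ℝ)

theorem sepc_nonneg {α ι : Type} (R : ι → α → Bool) (σ : ι) (X : Finset α) :
    0 ≤ sepc R σ X := by
  unfold sepc; (clear * -; positivity)

theorem sepc_le {α ι : Type} (R : ι → α → Bool) (σ : ι) (X : Finset α) :
    sepc R σ X ≤ (X.card : ℝ) ^ 2 := by
  classical
  unfold sepc
  calc (((X ×ˢ X).filter (fun p => R σ p.1 ≠ R σ p.2)).card : ℝ) ≤ ((X ×ˢ X).card : ℝ) := by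
        exact_mod_cast card_filter_le _ _
    _ = (X.card : ℝ) ^ 2 := by rw [card_product]; push_cast; ring

open scoped Classical in
theorem sum_mul_sepc {α ι : Type} (S : Finset ι) (R : ι → α → Bool) (w : ι → ℝ) (X : Finset α)
    (D : ℝ) (hX : ∀ q ∈ X, ∀ q' ∈ X, ∑ σ ∈ S with R σ q ≠ R σ q', w σ ≤ D) :
    ∑ σ ∈ S, w σ * sepc R σ X ≤ (X.card : ℝ) ^ 2 * D := by
  have h1 : ∀ σ ∈ S, w σ * sepc R σ X
      = ∑ p ∈ X ×ˢ X, if R σ p.1 ≠ R σ p.2 then w σ else 0 := by
    intro σ _
    rw [Finset.sum_ite, Finset.sum_const, Finset.sum_const_zero, nsmul_eq_mul]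
    unfold sepc
    ring
  rw [Finset.sum_congr rfl h1, Finset.sum_comm]
  have h2 : ∀ p ∈ X ×ˢ X, ∑ σ ∈ S, (if R σ p.1 ≠ R σ p.2 then w σ else 0) ≤ D := by
    intro p hp
    rw [mem_product] at hp
    have := hX p.1 hp.1 p.2 hp.2
    rwa [Finset.sum_filter] at this
  calc ∑ p ∈ X ×ˢ X, ∑ σ ∈ S, (if R σ p.1 ≠ R σ p.2 then w σ else 0)
      ≤ (X ×ˢ X).card • D := Finset.sum_le_card_nsmul _ _ _ h2
    _ = (X.card : ℝ) ^ 2 * D := by
        rw [nsmul_eq_mul, card_product]; push_cast; ring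

theorem half_le_log {φ : ℝ} (h0 : 0 ≤ φ) (h1 : φ ≤ 1) : φ / 2 ≤ Real.log (1 + φ) := by
  refine le_trans ?_ (Real.le_log_one_add_of_nonneg h0)
  rw [div_le_div_iff₀ (by norm_num) (by linarith only [h0])]
  linarith only [mul_nonneg (sub_nonneg.2 h0) (sub_nonneg.2 h1), mul_nonneg (sub_nonneg.2 h0) (sub_nonneg.2 h0)]

open scoped Classical in
/-- iteration of `exists_class` -/
theorem partition_aux {α ι : Type} (P : Finset α) (S : Finset ι) (hS : S.Nonempty)
    (R : ι → α → Bool) (B x s : ℕ) (hs : 1 ≤ s) (hx : 1 ≤ x)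
    (hB : ∀ g : Fin s → ι, (∀ k, g k ∈ S) →
      (P.image (fun y => fun k => R (g k) y)).card ≤ B) (hB1 : 1 ≤ B) (hP : P.Nonempty)
    (hcard : 2 * x * B ≤ P.card) (i : ℕ) (hi : 2 * (i * x) ≤ P.card + 2 * x) (hi' : i = 0 ∨ 2 * ((i - 1) * x) ≤ P.card) :
    ∃ (X : Fin i → Finset α), (∀ k, X k ⊆ P) ∧ (∀ k, (X k).card = x) ∧
      (∀ k l, k ≠ l → Disjoint (X k) (X l)) ∧
      ∑ σ ∈ S, ∏ k, (1 + sepc R σ (X k) / (x:ℝ) ^ 2)
        ≤ S.card * (1 + (2 * Real.log P.card + 1) / s) ^ i := by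
  set ε : ℝ := (2 * Real.log P.card + 1) / s with hε
  have hn : (1:ℝ) ≤ P.card := by exact_mod_cast hP.card_pos
  have hlog : 0 ≤ Real.log P.card := Real.log_nonneg hn
  have hs' : (0:ℝ) < s := by exact_mod_cast hs
  have hε0 : 0 ≤ ε := by rw [hε]; (clear * - hs; positivity)
  induction i with
  | zero =>
    refine ⟨fun k => k.elim0, fun k => k.elim0, fun k => k.elim0, fun k => k.elim0, ?_⟩
    simp
  | succ i ih =>
    have hi2 : 2 * (i * x) ≤ P.card := by
      rcases hi' with h | h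
      · (clear * - h; omega)
      · simpa only [add_tsub_cancel_right] using h
    obtain ⟨X, hXP, hXc, hXd, hXpot⟩ := ih (by omega) (by
      rcases Nat.eq_zero_or_pos i with h | h
      · left; exact h
      · right
        have : (i - 1) * x ≤ i * x := Nat.mul_le_mul_right x (by omega)
        omega)
    set Q := P \ (Finset.univ.biUnion X) with hQ
    have hbi : (Finset.univ.biUnion X).card = i * x := by
      rw [Finset.card_biUnion (fun k _ l _ hkl => hXd k l hkl)]
      simp only [hXc, sum_const, card_univ, Fintype.card_fin, smul_eq_mul]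
    have hbisub : Finset.univ.biUnion X ⊆ P := by
      intro y hy
      rw [mem_biUnion] at hy
      obtain ⟨k, _, hk⟩ := hy
      exact hXP k hk
    have hQcard : Q.card = P.card - i * x := by
      rw [hQ, card_sdiff_of_subset hbisub, hbi]
    have hQcard2 : x * B ≤ Q.card := by
      rw [hQcard]
      have : 2 * x * B = 2 * (x * B) := by ring
      (clear * - hcard hi2 hbi this; omega)
    set w : ι → ℝ := fun σ => ∏ k, (1 + sepc R σ (X k) / (x:ℝ) ^ 2) with hw
    have hwpos : ∀ σ ∈ S, 0 < w σ := by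
      intro σ _
      apply Finset.prod_pos
      intro k _
      have := sepc_nonneg R σ (X k)
      positivity
    obtain ⟨Y, hYQ, hYc, hYsep⟩ := exists_class P Q sdiff_subset hP S hS R w hwpos B x s hs hx hB
      hB1 hQcard2
    refine ⟨Fin.snoc X Y, ?_, ?_, ?_, ?_⟩
    · intro k
      refine Fin.lastCases ?_ (fun k => ?_) k
      · simpa only [Fin.snoc_last] using hYQ.trans sdiff_subset
      · simpa only [Fin.snoc_castSucc] using hXP k
    · intro k
      refine Fin.lastCases ?_ (fun k => ?_) k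
      · simpa using hYc
      · simpa using hXc k
    · have hdis : ∀ k, Disjoint (X k) Y := by
        intro k
        rw [Finset.disjoint_left]
        intro y hy hyY
        have := hYQ hyY
        rw [hQ, mem_sdiff, mem_biUnion] at this
        exact this.2 ⟨k, mem_univ _, hy⟩
      intro k l
      refine Fin.lastCases ?_ (fun k => ?_) k
      · refine Fin.lastCases ?_ (fun l => ?_) l
        · intro h; exact absurd rfl h
        · intro _
          simpa using (hdis l).symm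
      · refine Fin.lastCases ?_ (fun l => ?_) l
        · intro _
          simpa using hdis k
        · intro h
          have h' : k ≠ l := by
            intro hkl; apply h; rw [hkl]
          simpa using hXd k l h'
    · have h1 : ∀ σ ∈ S, ∏ k, (1 + sepc R σ ((Fin.snoc X Y : Fin (i+1) → Finset α) k) / (x:ℝ) ^ 2)
          = w σ + (w σ * sepc R σ Y) / (x:ℝ) ^ 2 := by
        intro σ _
        rw [Fin.prod_univ_castSucc]
        simp only [Fin.snoc_castSucc, Fin.snoc_last, hw]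
        ring
      rw [Finset.sum_congr rfl h1, Finset.sum_add_distrib, ← Finset.sum_div]
      have h2 := sum_mul_sepc S R w Y (ε * ∑ σ ∈ S, w σ) hYsep
      rw [hYc] at h2
      have hx' : (0:ℝ) < x := by exact_mod_cast hx
      have h3 : (∑ σ ∈ S, w σ * sepc R σ Y) / (x:ℝ) ^ 2 ≤ ε * ∑ σ ∈ S, w σ := by
        rw [div_le_iff₀ (by positivity)]
        linarith only [h2]
      have h4 : ∑ σ ∈ S, w σ ≤ S.card * (1 + ε) ^ i := hXpot
      calc ∑ σ ∈ S, w σ + (∑ σ ∈ S, w σ * sepc R σ Y) / (x:ℝ) ^ 2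
          ≤ ∑ σ ∈ S, w σ + ε * ∑ σ ∈ S, w σ := by linarith only [h3]
        _ = (1 + ε) * ∑ σ ∈ S, w σ := by ring
        _ ≤ (1 + ε) * (S.card * (1 + ε) ^ i) := by
            apply mul_le_mul_of_nonneg_left h4; linarith only [hε0]
        _ = S.card * (1 + ε) ^ (i + 1) := by ring

/-- partition: `r` disjoint classes of size `x`, every range in `S` separates few same-class pairs -/
theorem partition {α ι : Type} (P : Finset α) (S : Finset ι) (hS : S.Nonempty)
    (R : ι → α → Bool) (B x s : ℕ) (hs : 1 ≤ s) (hx : 1 ≤ x)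
    (hB : open scoped Classical in ∀ g : Fin s → ι, (∀ k, g k ∈ S) →
      (P.image (fun y => fun k => R (g k) y)).card ≤ B)
    (hcard : 2 * x * B ≤ P.card) (hcard2 : 4 * x ≤ P.card) :
    ∃ (r : ℕ) (X : Fin r → Finset α), (∀ i, X i ⊆ P) ∧ (∀ i, (X i).card = x) ∧
      (∀ i j, i ≠ j → Disjoint (X i) (X j)) ∧ P.card ≤ 4 * (r * x) ∧
      ∀ σ ∈ S, ∑ i, sepc R σ (X i) ≤
        (x:ℝ) ^ 2 * (2 * (Real.log S.card + r * ((2 * Real.log P.card + 1) / s))) := by
  classical
  have hP : P.Nonempty := by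
    rw [← Finset.card_pos]; omega
  have hB1 : 1 ≤ B := by
    obtain ⟨σ₀, hσ₀⟩ := hS
    have h := hB (fun _ => σ₀) (fun _ => hσ₀)
    refine le_trans ?_ h
    exact Finset.card_pos.mpr (hP.image _)
  set r := P.card / (2 * x) with hr
  have hr1 : 2 * (r * x) ≤ P.card := by
    have := Nat.div_mul_le_self P.card (2 * x)
    rw [← hr] at this
    calc 2 * (r * x) = r * (2 * x) := by ring
      _ ≤ P.card := this
  have hr2 : P.card ≤ 4 * (r * x) := by
    have h1 := Nat.lt_div_mul_add (a := P.card) (b := 2 * x) (by omega)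
    rw [← hr] at h1
    have h2 : 2 ≤ r := by
      rw [hr, Nat.le_div_iff_mul_le (by omega)]
      omega
    have h3 : r * (2 * x) = 2 * (r * x) := by ring
    have h4 : 2 * x ≤ r * x := Nat.mul_le_mul_right x h2
    omega
  have hr3 : r = 0 ∨ 2 * ((r - 1) * x) ≤ P.card := by
    right
    have : (r - 1) * x ≤ r * x := Nat.mul_le_mul_right x (Nat.sub_le r 1)
    (clear * - hr1 this; omega)
  obtain ⟨X, hXP, hXc, hXd, hXpot⟩ := partition_aux P S hS R B x s hs hx
    (fun g hg => by convert hB g hg) hB1 hP hcard r (by (clear * - hx hr1; omega)) hr3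
  refine ⟨r, X, hXP, hXc, hXd, hr2, ?_⟩
  intro σ hσ
  set ε : ℝ := (2 * Real.log P.card + 1) / s with hε
  have hn : (1:ℝ) ≤ P.card := by exact_mod_cast hP.card_pos
  have hlog : 0 ≤ Real.log P.card := Real.log_nonneg hn
  have hs' : (0:ℝ) < s := by exact_mod_cast hs
  have hε0 : 0 ≤ ε := by rw [hε]; positivity
  have hx' : (0:ℝ) < x := by exact_mod_cast hx
  have hφ0 : ∀ k, 0 ≤ sepc R σ (X k) / (x:ℝ) ^ 2 := fun k => by
    have := sepc_nonneg R σ (X k); positivity
  have hφ1 : ∀ k, sepc R σ (X k) / (x:ℝ) ^ 2 ≤ 1 := fun k => by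
    rw [div_le_one (by positivity)]
    have := sepc_le R σ (X k)
    rwa [hXc k] at this
  have hprodpos : ∀ τ ∈ S, 0 < ∏ k, (1 + sepc R τ (X k) / (x:ℝ) ^ 2) := by
    intro τ _
    apply Finset.prod_pos
    intro k _
    have := sepc_nonneg R τ (X k)
    (clear * - hx this; positivity)
  have h1 : ∏ k, (1 + sepc R σ (X k) / (x:ℝ) ^ 2) ≤ S.card * (1 + ε) ^ r := by
    refine le_trans ?_ hXpot
    exact Finset.single_le_sum (f := fun τ => ∏ k, (1 + sepc R τ (X k) / (x:ℝ) ^ 2))
      (fun τ hτ => (hprodpos τ hτ).le) hσ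
  have hScard : (0:ℝ) < S.card := by exact_mod_cast hS.card_pos
  have h2 : ∑ k, Real.log (1 + sepc R σ (X k) / (x:ℝ) ^ 2) ≤ Real.log S.card + r * ε := by
    rw [← Real.log_prod (fun k _ => by have := hφ0 k; (clear * - this; positivity))]
    calc Real.log (∏ k, (1 + sepc R σ (X k) / (x:ℝ) ^ 2))
        ≤ Real.log (S.card * (1 + ε) ^ r) := Real.log_le_log (hprodpos σ hσ) h1
      _ = Real.log S.card + r * Real.log (1 + ε) := by
          rw [Real.log_mul hScard.ne' (by (clear * - hs; positivity)), Real.log_pow]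
      _ ≤ Real.log S.card + r * ε := by
          have h3 : Real.log (1 + ε) ≤ ε := by
            have := Real.log_le_sub_one_of_pos (show 0 < 1 + ε by linarith only [hε0])
            linarith only [this]
          have h4 : (0:ℝ) ≤ r := by (clear * -; positivity)
          nlinarith only [h3]
  have h3 : ∑ k, (sepc R σ (X k) / (x:ℝ) ^ 2) / 2
      ≤ ∑ k, Real.log (1 + sepc R σ (X k) / (x:ℝ) ^ 2) :=
    Finset.sum_le_sum (fun k _ => half_le_log (hφ0 k) (hφ1 k))
  rw [← Finset.sum_div, ← Finset.sum_div] at h3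
  have h4 : (∑ k, sepc R σ (X k)) / (x:ℝ) ^ 2 ≤ 2 * (Real.log S.card + r * ε) := by linarith only [h2,
                                                                                      h3]
  rw [div_le_iff₀ (by positivity)] at h4
  linarith only [h4]

end Vale.Agent.P054K
end

section

set_option autoImplicit false

open Finset

namespace Vale.Agent.P054K

/-- no line of `G` crosses the trapezoid of `z` -/
theorem tra_unhit {G : Finset (ℝ × ℝ)} {z : ℝ × ℝ} (hz : Off G z) {g : ℝ × ℝ} (hg : g ∈ G) :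
    ¬ Cr (tra G z) g := by
  rintro ⟨x, h1, h2, h3, h4⟩
  simp only [tra] at h1 h2 h3 h4
  have hleft : ∀ a ∈ crz G (bot G z) (top G z), a ≤ z.1 → a < x := by
    intro a ha hax
    have h5 : a ∈ (crz G (bot G z) (top G z)).filter (fun a => a ≤ z.1) := by
      rw [mem_filter]; exact ⟨ha, hax⟩
    obtain ⟨u, hu, hu2⟩ := omax_le (k := id) h5
    have := h1 u hu
    simp only [id] at hu2
    linarith only [hu2, this]
  have hright : ∀ a ∈ crz G (bot G z) (top G z), z.1 < a → x < a := by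
    intro a ha hax
    have h5 : a ∈ (crz G (bot G z) (top G z)).filter (fun a => z.1 < a) := by
      rw [mem_filter]; exact ⟨ha, hax⟩
    obtain ⟨u, hu, hu2⟩ := omin_le (k := id) h5
    have := h2 u hu
    simp only [id] at hu2
    linarith only [hu2, this]
  -- transfer of comparisons
  have htr : ∀ c l : ℝ × ℝ, (c.1 ≠ l.1 → xc c l ∈ crz G (bot G z) (top G z)) →
      (key x c < key x l ↔ key z.1 c < key z.1 l) := by
    intro c l hcl
    rcases le_total x z.1 with hx | hx
    · apply noncross hx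
      rintro hne ⟨h5, h6⟩
      have := hleft _ (hcl hne) h6
      linarith
    · symm
      apply noncross hx
      rintro hne ⟨h5, h6⟩
      have := hright _ (hcl hne) h5
      linarith only [h6, this]
  rcases off_cases hz hg with h5 | h5
  · -- `g` below `z`
    have h6 : g ∈ Fb G z := by unfold Fb; rw [mem_filter]; exact ⟨hg, h5⟩
    obtain ⟨c, hc, hc2⟩ := omax_le (k := key z.1) h6
    have h7 : key x c < key x g := by rw [key_lt]; left; exact h3 c hc
    rw [htr c g (fun hne => mem_union_left _ (mem_crs.mpr ⟨c, hc, g, hg, hne, rfl⟩))] at h7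
    exact absurd h7 (not_lt.mpr hc2)
  · have h6 : g ∈ Ft G z := by unfold Ft; rw [mem_filter]; exact ⟨hg, h5⟩
    obtain ⟨c, hc, hc2⟩ := omin_le (k := key z.1) h6
    have h7 : key x g < key x c := by rw [key_lt]; left; exact h4 c hc
    rw [htr g c (fun hne => mem_union_right _ (mem_crs.mpr ⟨c, hc, g, hg, hne.symm, xc_symm _ _⟩))] at h7
    exact absurd h7 (not_lt.mpr hc2)

/-- a line through `z` crosses the trapezoid of `z` -/
theorem tra_hit {G : Finset (ℝ × ℝ)} {z : ℝ × ℝ} {l : ℝ × ℝ} (hl : Onl l z) :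
    Cr (tra G z) l := by
  unfold Onl at hl
  have h1 : ∀ᶠ x in nhdsWithin z.1 (Set.Ioi z.1), ∀ a ∈ rgt G z, x < a := by
    rcases h : rgt G z with _ | a
    · simp
    · have h2 : z.1 < a := lt_rgt (by rw [h]; rfl)
      filter_upwards [mem_nhdsWithin_of_mem_nhds (Iio_mem_nhds h2)] with x hx
      intro a' ha'
      rw [Option.mem_some_iff] at ha'
      rw [← ha']; exact hx
  have hcont : ∀ c c' : ℝ × ℝ, c.1 * z.1 + c.2 < c'.1 * z.1 + c'.2 →
      ∀ᶠ x in nhdsWithin z.1 (Set.Ioi z.1), c.1 * x + c.2 < c'.1 * x + c'.2 := by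
    intro c c' h
    have h2 : ∀ᶠ x in nhds z.1, c.1 * x + c.2 < c'.1 * x + c'.2 :=
      (ContinuousAt.eventually_lt (by fun_prop) (by fun_prop) h)
    exact mem_nhdsWithin_of_mem_nhds h2
  have h2 : ∀ᶠ x in nhdsWithin z.1 (Set.Ioi z.1), ∀ c ∈ bot G z, c.1 * x + c.2 < l.1 * x + l.2 := by
    rcases h : bot G z with _ | c
    · simp
    · have h3 := (bot_lt (G := G) (z := z) (c := c) (by rw [h]; rfl)).2
      rw [hl] at h3
      filter_upwards [hcont c l h3] with x hx
      intro a' ha'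
      rw [Option.mem_some_iff] at ha'
      rw [← ha']; exact hx
  have h3 : ∀ᶠ x in nhdsWithin z.1 (Set.Ioi z.1), ∀ c ∈ top G z, l.1 * x + l.2 < c.1 * x + c.2 := by
    rcases h : top G z with _ | c
    · simp
    · have h3 := (lt_top' (G := G) (z := z) (c := c) (by rw [h]; rfl)).2
      rw [hl] at h3
      filter_upwards [hcont l c h3] with x hx
      intro a' ha'
      rw [Option.mem_some_iff] at ha'
      rw [← ha']; exact hx
  obtain ⟨x, ⟨hx1, hx2, hx3⟩, hx4⟩ := ((h1.and (h2.and h3)).and self_mem_nhdsWithin).exists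
  refine ⟨x, ?_, hx1, hx2, hx3⟩
  intro a ha
  have h5 : a ≤ z.1 := lft_le ha
  have h6 : z.1 < x := hx4
  linarith only [hx4, h5]

/-- labels of trapezoids -/
abbrev Lab : Type := (Bool × (ℝ × ℝ) × (ℝ × ℝ)) ⊕ Option (ℝ × ℝ)

def Rel (G : Finset (ℝ × ℝ)) (k : Lab) (z : ℝ × ℝ) : Prop :=
  match k with
  | Sum.inl (true, c, l) => bot G z = some c ∧ lft G z = some (xc c l)
  | Sum.inl (false, c, l) => top G z = some c ∧ lft G z = some (xc c l)
  | Sum.inr b => bot G z = b ∧ lft G z = none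

theorem rel_congr {G : Finset (ℝ × ℝ)} {k : Lab} {z z' : ℝ × ℝ} (hz : Off G z) (hz' : Off G z')
    (h : Rel G k z) (h' : Rel G k z') : tra G z = tra G z' := by
  rcases k with ⟨b, c, l⟩ | b
  · cases b
    · exact tra_congr hz hz' (h.2.trans h'.2.symm) (Or.inr (h.1.trans h'.1.symm))
    · exact tra_congr hz hz' (h.2.trans h'.2.symm) (Or.inl (h.1.trans h'.1.symm))
  · exact tra_congr hz hz' (h.2.trans h'.2.symm) (Or.inl (h.1.trans h'.1.symm))

open scoped Classical in
noncomputable def labs (G : Finset (ℝ × ℝ)) : Finset Lab :=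
  (Finset.univ ×ˢ (G ×ˢ G)).disjSum (Finset.insertNone G)

theorem card_labs (G : Finset (ℝ × ℝ)) : (labs G).card = 2 * G.card ^ 2 + (G.card + 1) := by
  unfold labs
  rw [Finset.card_disjSum, card_product, card_product, Finset.card_insertNone, Finset.card_univ,
    Fintype.card_bool]
  ring

theorem exists_rel {G : Finset (ℝ × ℝ)} (z : ℝ × ℝ) : ∃ k ∈ labs G, Rel G k z := by
  rcases h : lft G z with _ | a
  · refine ⟨Sum.inr (bot G z), ?_, rfl, h⟩
    unfold labs
    rw [Finset.inr_mem_disjSum, Finset.mem_insertNone]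
    intro c hc
    exact (bot_lt hc).1
  · have h1 : a ∈ lft G z := by rw [h]; rfl
    have h2 := (mem_filter.mp (omax_mem h1)).1
    unfold crz at h2
    rcases mem_union.mp h2 with h3 | h3
    · obtain ⟨c, hc, l, hl, hne, hx⟩ := mem_crs.mp h3
      refine ⟨Sum.inl (true, c, l), ?_, hc, ?_⟩
      · unfold labs
        rw [Finset.inl_mem_disjSum, mem_product, mem_product]
        exact ⟨mem_univ _, (bot_lt hc).1, hl⟩
      · rw [h, hx]
    · obtain ⟨c, hc, l, hl, hne, hx⟩ := mem_crs.mp h3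
      refine ⟨Sum.inl (false, c, l), ?_, hc, ?_⟩
      · unfold labs
        rw [Finset.inl_mem_disjSum, mem_product, mem_product]
        exact ⟨mem_univ _, (lt_top' hc).1, hl⟩
      · rw [h, hx]

open scoped Classical in
/-- all trapezoids determined by `L` -/
noncomputable def allTra (L : Finset (ℝ × ℝ)) :
    Finset (Option (ℝ × ℝ) × Option (ℝ × ℝ) × Option ℝ × Option ℝ) :=
  (Finset.insertNone L) ×ˢ ((Finset.insertNone L) ×ˢ
    ((Finset.insertNone ((L ×ˢ L).image (fun p => xc p.1 p.2))) ×ˢ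
      (Finset.insertNone ((L ×ˢ L).image (fun p => xc p.1 p.2)))))

theorem card_allTra (L : Finset (ℝ × ℝ)) : (allTra L).card ≤ (L.card + 1) ^ 6 := by
  unfold allTra
  rw [card_product, card_product, card_product, Finset.card_insertNone, Finset.card_insertNone]
  have h1 : ((L ×ˢ L).image (fun p => xc p.1 p.2)).card ≤ L.card ^ 2 := by
    refine card_image_le.trans ?_
    rw [card_product, pow_two]
  have h2 : ((L ×ˢ L).image (fun p => xc p.1 p.2)).card + 1 ≤ (L.card + 1) ^ 2 := by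
    have : (L.card + 1) ^ 2 = L.card ^ 2 + 2 * L.card + 1 := by ring
    omega
  calc (L.card + 1) * ((L.card + 1) *
        ((((L ×ˢ L).image (fun p => xc p.1 p.2)).card + 1) *
          (((L ×ˢ L).image (fun p => xc p.1 p.2)).card + 1)))
      ≤ (L.card + 1) * ((L.card + 1) * ((L.card + 1) ^ 2 * (L.card + 1) ^ 2)) := by
        gcongr
    _ = (L.card + 1) ^ 6 := by ring

theorem tra_mem_allTra {L G : Finset (ℝ × ℝ)} (hG : G ⊆ L) (z : ℝ × ℝ) :
    tra G z ∈ allTra L := by
  have hcr : ∀ a ∈ crz G (bot G z) (top G z), a ∈ (L ×ˢ L).image (fun p => xc p.1 p.2) := by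
    intro a ha
    unfold crz at ha
    rcases mem_union.mp ha with h | h
    · obtain ⟨c, hc, l, hl, _, hx⟩ := mem_crs.mp h
      rw [mem_image]
      exact ⟨(c, l), mem_product.mpr ⟨hG (bot_lt hc).1, hG hl⟩, hx⟩
    · obtain ⟨c, hc, l, hl, _, hx⟩ := mem_crs.mp h
      rw [mem_image]
      exact ⟨(c, l), mem_product.mpr ⟨hG (lt_top' hc).1, hG hl⟩, hx⟩
  unfold allTra tra
  rw [mem_product, mem_product, mem_product, mem_insertNone, mem_insertNone, mem_insertNone,
    mem_insertNone]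
  refine ⟨fun c hc => hG (bot_lt hc).1, fun c hc => hG (lt_top' hc).1, ?_, ?_⟩
  · intro a ha
    exact hcr a (mem_filter.mp (omax_mem ha)).1
  · intro a ha
    exact hcr a (mem_filter.mp (omin_mem ha)).1

end Vale.Agent.P054K
end

section

set_option autoImplicit false

open Finset

namespace Vale.Agent.P054K

open scoped Classical in
theorem cutting (L : Finset (ℝ × ℝ)) (hL : L.Nonempty) (s : ℕ) (hs : 1 ≤ s) :
    ∃ G ⊆ L, G.card ≤ s ∧ ∃ lab : ℝ × ℝ → Lab, (∀ z, lab z ∈ labs G) ∧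
      ∀ z, Off G z → ((L.filter (fun l => ∃ z', Off G z' ∧ lab z' = lab z ∧ Onl l z')).card : ℝ) ≤
        ((6 * Real.log (L.card + 1) + 1) / s) * L.card := by
  set ε : ℝ := (6 * Real.log (L.card + 1) + 1) / s with hε
  have hs' : (0:ℝ) < s := by exact_mod_cast hs
  have hN : (1:ℝ) ≤ L.card := by exact_mod_cast hL.card_pos
  have hlog : 0 ≤ Real.log ((L.card : ℝ) + 1) := Real.log_nonneg (by linarith only [])
  -- choose the sample
  have hsample : ∃ g : Fin s → ℝ × ℝ, (∀ i, g i ∈ L) ∧ ∀ τ ∈ allTra L, (∀ i, ¬ Cr τ (g i)) →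
      ((L.filter (fun l => Cr τ l)).card : ℝ) ≤ ε * L.card := by
    rcases le_or_gt 1 ε with h1 | h1
    · obtain ⟨l₀, hl₀⟩ := hL
      refine ⟨fun _ => l₀, fun _ => hl₀, ?_⟩
      intro τ _ _
      have h2 : ((L.filter (fun l => Cr τ l)).card : ℝ) ≤ L.card := by
        exact_mod_cast card_filter_le _ _
      nlinarith only [h2, h1]
    · set Bad := (allTra L).filter (fun τ => ε * L.card < ((L.filter (fun l => Cr τ l)).card : ℝ))
        with hBad
      obtain ⟨g, hg, hcard⟩ := greedy_hitting Bad L (fun _ => (1:ℝ)) (fun _ _ => one_pos) hL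
        (fun l τ => Cr τ l) ε h1.le
        (fun b hb => by
          rw [hBad, mem_filter] at hb
          rw [Finset.sum_const, Finset.sum_const, nsmul_eq_mul, nsmul_eq_mul, mul_one, mul_one]
          exact (hb.2.le).trans (le_of_eq (by congr))) s
      refine ⟨g, hg, ?_⟩
      intro τ hτ hunhit
      by_contra hcon
      push Not at hcon
      have hmem : τ ∈ Bad.filter (fun b => ∀ i, ¬ Cr b (g i)) := by
        rw [mem_filter, hBad, mem_filter]
        exact ⟨⟨hτ, hcon⟩, hunhit⟩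
      have hpos : (1:ℝ) ≤ ((Bad.filter (fun b => ∀ i, ¬ Cr b (g i))).card : ℝ) := by
        exact_mod_cast Finset.card_pos.mpr ⟨_, hmem⟩
      have hBadcard : (Bad.card : ℝ) ≤ ((L.card : ℝ) + 1) ^ 6 := by
        have h2 : Bad.card ≤ (L.card + 1) ^ 6 := (card_filter_le _ _).trans (card_allTra L)
        exact_mod_cast h2
      have hpow : (1 - ε) ^ s ≤ Real.exp (-(6 * Real.log (L.card + 1) + 1)) := by
        have h2 : 1 - ε ≤ Real.exp (-ε) := Real.one_sub_le_exp_neg ε
        calc (1 - ε) ^ s ≤ (Real.exp (-ε)) ^ s := by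
              apply pow_le_pow_left₀ _ h2; linarith only [h1]
          _ = Real.exp (-(6 * Real.log (L.card + 1) + 1)) := by
              rw [← Real.exp_nat_mul]
              congr 1
              rw [hε]; field_simp
      have hexp : ((L.card : ℝ) + 1) ^ 6 * Real.exp (-(6 * Real.log (L.card + 1) + 1))
          = Real.exp (-1) := by
        have h3 : ((L.card : ℝ) + 1) ^ 6 = Real.exp (6 * Real.log (L.card + 1)) := by
          rw [mul_comm, Real.exp_mul, Real.exp_log (by linarith only [])]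
          norm_cast
        rw [h3, ← Real.exp_add]; congr 1; ring
      have hlt : Real.exp (-1) < 1 := by
        rw [Real.exp_lt_one_iff]; norm_num
      have hε0 : 0 ≤ (1 - ε) ^ s := pow_nonneg (by linarith only [h1]) s
      have : (1:ℝ) < 1 := by
        calc (1:ℝ) ≤ _ := hpos
          _ ≤ Bad.card * (1 - ε) ^ s := by convert hcard
          _ ≤ ((L.card : ℝ) + 1) ^ 6 * (1 - ε) ^ s := by (clear * - h1 hBadcard; gcongr)
          _ ≤ ((L.card : ℝ) + 1) ^ 6 * Real.exp (-(6 * Real.log (L.card + 1) + 1)) := by (clear * - hL hpow; gcongr)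
          _ = Real.exp (-1) := hexp
          _ < 1 := hlt
      exact lt_irrefl _ this
  obtain ⟨g, hg, hunhit⟩ := hsample
  set G : Finset (ℝ × ℝ) := Finset.univ.image g with hG
  have hGL : G ⊆ L := by
    intro l hl
    rw [hG, mem_image] at hl
    obtain ⟨i, _, rfl⟩ := hl
    exact hg i
  have hGc : G.card ≤ s := by
    refine card_image_le.trans ?_
    rw [Finset.card_univ, Fintype.card_fin]
  choose lab hlab hrel using fun z => exists_rel (G := G) z
  refine ⟨G, hGL, hGc, lab, hlab, ?_⟩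
  intro z hz
  refine le_trans ?_ (hunhit (tra G z) (tra_mem_allTra hGL z) ?_)
  · have hsub : L.filter (fun l => ∃ z', Off G z' ∧ lab z' = lab z ∧ Onl l z') ⊆
        L.filter (fun l => Cr (tra G z) l) := by
      intro l hl
      rw [mem_filter] at hl ⊢
      obtain ⟨hlL, z', hz', hlz, hon⟩ := hl
      refine ⟨hlL, ?_⟩
      have h1 : tra G z' = tra G z := by
        apply rel_congr hz' hz (hrel z')
        rw [hlz]
        exact hrel z
      rw [← h1]
      exact tra_hit hon
    exact_mod_cast card_le_card hsub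
  · intro i
    apply tra_unhit hz
    rw [hG]
    exact mem_image_of_mem g (mem_univ i)

/-- two distinct lines meet in at most one point -/
theorem onl_unique {l l' z z' : ℝ × ℝ} (h : l ≠ l') (h1 : Onl l z) (h2 : Onl l' z)
    (h3 : Onl l z') (h4 : Onl l' z') : z = z' := by
  unfold Onl at *
  have hx : (l.1 - l'.1) * (z.1 - z'.1) = 0 := by linarith only [h1, h2, h3, h4]
  rcases mul_eq_zero.mp hx with h5 | h5
  · exfalso
    apply h
    have h6 : l.1 = l'.1 := by linarith only [h5]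
    apply Prod.ext h6
    rw [h6] at h1
    linarith only [h1, h2]
  · have h6 : z.1 = z'.1 := by linarith only [h5]
    apply Prod.ext h6
    rw [h1, h3, h6]

open scoped Classical in
/-- weight of the points of `Q` on `l` -/
noncomputable def wt (Q : Finset (ℝ × ℝ)) (μ : ℝ × ℝ → ℝ) (l : ℝ × ℝ) : ℝ :=
  ∑ z ∈ Q with Onl l z, μ z

open scoped Classical in
theorem wt_nonneg {Q : Finset (ℝ × ℝ)} {μ : ℝ × ℝ → ℝ} (hμ0 : ∀ z ∈ Q, 0 ≤ μ z) (l : ℝ × ℝ) :
    0 ≤ wt Q μ l :=
  Finset.sum_nonneg (fun z hz => hμ0 z (mem_filter.mp hz).1)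

open scoped Classical in
/-- incidence bound in one cell -/
theorem cell_bound (Q L : Finset (ℝ × ℝ)) (μ : ℝ × ℝ → ℝ) (m : ℝ)
    (hμ0 : ∀ z ∈ Q, 0 ≤ μ z) (hμ : ∀ z ∈ Q, μ z ≤ m) :
    (∑ l ∈ L, wt Q μ l) ^ 2 ≤ L.card * ((∑ z ∈ Q, μ z) ^ 2 + m * ∑ l ∈ L, wt Q μ l) := by
  have h1 : (∑ l ∈ L, wt Q μ l) ^ 2 ≤ L.card * ∑ l ∈ L, wt Q μ l ^ 2 :=
    sq_sum_le_card_mul_sum_sq
  refine h1.trans ?_
  apply mul_le_mul_of_nonneg_left _ (by (clear * -; positivity))
  -- sum of squares
  have h2 : ∀ l ∈ L, wt Q μ l ^ 2 = ∑ z ∈ Q, ∑ z' ∈ Q,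
      if (Onl l z ∧ Onl l z') then μ z * μ z' else 0 := by
    intro l _
    unfold wt
    rw [pow_two, Finset.sum_mul_sum, Finset.sum_filter]
    apply Finset.sum_congr rfl
    intro z _
    rw [Finset.sum_filter]
    by_cases h : Onl l z
    · simp only [h, if_true, true_and]
    · simp only [h, if_false, false_and]
      simp
  rw [Finset.sum_congr rfl h2]
  have h3 : ∑ l ∈ L, ∑ z ∈ Q, ∑ z' ∈ Q, (if (Onl l z ∧ Onl l z') then μ z * μ z' else 0)
      = ∑ z ∈ Q, ∑ z' ∈ Q, (μ z * μ z') * ((L.filter (fun l => Onl l z ∧ Onl l z')).card : ℝ) := by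
    rw [Finset.sum_comm]
    apply Finset.sum_congr rfl
    intro z _
    rw [Finset.sum_comm]
    apply Finset.sum_congr rfl
    intro z' _
    rw [← Finset.sum_filter, Finset.sum_const, nsmul_eq_mul]
    ring
  rw [h3]
  have h4 : ∀ z ∈ Q, ∀ z' ∈ Q, (μ z * μ z') * ((L.filter (fun l => Onl l z ∧ Onl l z')).card : ℝ)
      ≤ μ z * μ z' + (if z' = z then m * (μ z * ((L.filter (fun l => Onl l z)).card : ℝ)) else 0) := by
    intro z hz z' hz'
    have h0 := hμ0 z hz
    have h0' := hμ0 z' hz'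
    split_ifs with h
    · subst h
      have h5 : (L.filter (fun l => Onl l z' ∧ Onl l z')) = L.filter (fun l => Onl l z') := by
        apply Finset.filter_congr; intro l _; exact and_self_iff
      rw [h5]
      have h6 : (0:ℝ) ≤ ((L.filter (fun l => Onl l z')).card : ℝ) := by (clear * -; positivity)
      have h7 := mul_le_mul_of_nonneg_right (hμ z' hz) (mul_nonneg h0 h6)
      linarith only [h7, mul_nonneg h0 h0]
    · have h5 : (L.filter (fun l => Onl l z ∧ Onl l z')).card ≤ 1 := by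
        rw [Finset.card_le_one]
        intro a ha b hb
        by_contra hab
        have ha' := (mem_filter.mp ha).2
        have hb' := (mem_filter.mp hb).2
        exact h (onl_unique hab ha'.1 hb'.1 ha'.2 hb'.2).symm
      have h6 : ((L.filter (fun l => Onl l z ∧ Onl l z')).card : ℝ) ≤ 1 := by exact_mod_cast h5
      have h7 := mul_le_mul_of_nonneg_left h6 (mul_nonneg h0 h0')
      linarith only [h7]
  refine (Finset.sum_le_sum (fun z hz => Finset.sum_le_sum (fun z' hz' => h4 z hz z' hz'))).trans ?_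
  have h5 : ∑ z ∈ Q, ∑ z' ∈ Q, (μ z * μ z' +
      (if z' = z then m * (μ z * ((L.filter (fun l => Onl l z)).card : ℝ)) else 0))
      = (∑ z ∈ Q, μ z) ^ 2 + m * ∑ z ∈ Q, μ z * ((L.filter (fun l => Onl l z)).card : ℝ) := by
    have h6 : ∀ z ∈ Q, ∑ z' ∈ Q, (μ z * μ z' +
        (if z' = z then m * (μ z * ((L.filter (fun l => Onl l z)).card : ℝ)) else 0))
        = μ z * ∑ z' ∈ Q, μ z' + m * (μ z * ((L.filter (fun l => Onl l z)).card : ℝ)) := by
      intro z hz
      rw [Finset.sum_add_distrib, ← Finset.mul_sum, Finset.sum_ite_eq' Q z, if_pos hz]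
    rw [Finset.sum_congr rfl h6, Finset.sum_add_distrib, ← Finset.sum_mul, ← Finset.mul_sum]
    ring
  rw [h5]
  have h7 : ∑ z ∈ Q, μ z * ((L.filter (fun l => Onl l z)).card : ℝ) = ∑ l ∈ L, wt Q μ l := by
    unfold wt
    have h8 : ∀ z ∈ Q, μ z * ((L.filter (fun l => Onl l z)).card : ℝ)
        = ∑ l ∈ L, if Onl l z then μ z else 0 := by
      intro z _
      rw [← Finset.sum_filter, Finset.sum_const, nsmul_eq_mul]; ring
    rw [Finset.sum_congr rfl h8, Finset.sum_comm]
    apply Finset.sum_congr rfl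
    intro l _
    rw [Finset.sum_filter]
  rw [h7]

theorem quad_le {I a b M : ℝ} (ha : 0 ≤ a) (hb : 0 ≤ b) (hM : 0 ≤ M)
    (h : I ^ 2 ≤ b ^ 2 * (M ^ 2 + a * I)) : I ≤ a * b ^ 2 + M * b := by
  by_contra hcon
  push Not at hcon
  have h1 : 0 ≤ a * b ^ 2 + M * b := by (clear * - ha hb hM; positivity)
  have hI : 0 ≤ I := h1.trans hcon.le
  nlinarith only [h, hcon, mul_nonneg hM hb, mul_nonneg ha (sq_nonneg b)]

end Vale.Agent.P054K
end

section

set_option autoImplicit false

open Finset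

namespace Vale.Agent.P054K

open scoped Classical in
theorem sum_mu_deg (Q L : Finset (ℝ × ℝ)) (μ : ℝ × ℝ → ℝ) :
    ∑ z ∈ Q, μ z * ((L.filter (fun l => Onl l z)).card : ℝ) = ∑ l ∈ L, wt Q μ l := by
  unfold wt
  have h8 : ∀ z ∈ Q, μ z * ((L.filter (fun l => Onl l z)).card : ℝ)
      = ∑ l ∈ L, if Onl l z then μ z else 0 := by
    intro z _
    rw [← Finset.sum_filter, Finset.sum_const, nsmul_eq_mul]; ring
  rw [Finset.sum_congr rfl h8, Finset.sum_comm]
  apply Finset.sum_congr rfl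
  intro l _
  rw [Finset.sum_filter]

open scoped Classical in
theorem wt_inter_le (Q : Finset (ℝ × ℝ)) (μ : ℝ × ℝ → ℝ) (m : ℝ) (hm : 0 ≤ m)
    (hμ : ∀ z ∈ Q, μ z ≤ m) (l l' : ℝ × ℝ) (h : l ≠ l') :
    ∑ z ∈ Q with (Onl l z ∧ Onl l' z), μ z ≤ m := by
  have h1 : (Q.filter (fun z => Onl l z ∧ Onl l' z)).card ≤ 1 := by
    rw [Finset.card_le_one]
    intro a ha b hb
    have ha' := (mem_filter.mp ha).2
    have hb' := (mem_filter.mp hb).2
    exact onl_unique h ha'.1 ha'.2 hb'.1 hb'.2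
  rcases Finset.eq_empty_or_nonempty (Q.filter (fun z => Onl l z ∧ Onl l' z)) with h2 | h2
  · rw [h2]; simpa only [sum_empty, ge_iff_le] using hm
  · obtain ⟨z, hz⟩ := h2
    have h3 : Q.filter (fun z => Onl l z ∧ Onl l' z) = {z} := by
      apply Finset.eq_singleton_iff_unique_mem.mpr
      refine ⟨hz, ?_⟩
      intro z' hz'
      exact (Finset.card_le_one.mp h1) z' hz' z hz
    rw [h3, Finset.sum_singleton]
    exact hμ z (mem_filter.mp hz).1

open scoped Classical in
theorem sum_mu_deg_sq (Q L : Finset (ℝ × ℝ)) (μ : ℝ × ℝ → ℝ) (m : ℝ) (hm : 0 ≤ m)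
    (hμ : ∀ z ∈ Q, μ z ≤ m) :
    ∑ z ∈ Q, μ z * ((L.filter (fun l => Onl l z)).card : ℝ) ^ 2
      ≤ ∑ l ∈ L, wt Q μ l + m * (L.card : ℝ) ^ 2 := by
  have h1 : ∀ z ∈ Q, μ z * ((L.filter (fun l => Onl l z)).card : ℝ) ^ 2
      = ∑ l ∈ L, ∑ l' ∈ L, if (Onl l z ∧ Onl l' z) then μ z else 0 := by
    intro z _
    have h2 : ((L.filter (fun l => Onl l z)).card : ℝ) = ∑ l ∈ L, if Onl l z then (1:ℝ) else 0 := by
      rw [← Finset.sum_filter, Finset.sum_const, nsmul_eq_mul, mul_one]
    rw [h2, pow_two, Finset.sum_mul_sum, Finset.mul_sum]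
    apply Finset.sum_congr rfl
    intro l _
    rw [Finset.mul_sum]
    apply Finset.sum_congr rfl
    intro l' _
    by_cases h3 : Onl l z <;> by_cases h4 : Onl l' z <;> simp [h3, h4]
  rw [Finset.sum_congr rfl h1]
  have h2 : ∑ z ∈ Q, ∑ l ∈ L, ∑ l' ∈ L, (if (Onl l z ∧ Onl l' z) then μ z else 0)
      = ∑ l ∈ L, ∑ l' ∈ L, ∑ z ∈ Q with (Onl l z ∧ Onl l' z), μ z := by
    rw [Finset.sum_comm]
    apply Finset.sum_congr rfl
    intro l _
    rw [Finset.sum_comm]
    apply Finset.sum_congr rfl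
    intro l' _
    rw [Finset.sum_filter]
  rw [h2]
  have h3 : ∀ l ∈ L, ∀ l' ∈ L, ∑ z ∈ Q with (Onl l z ∧ Onl l' z), μ z
      ≤ (if l' = l then wt Q μ l else 0) + m := by
    intro l _ l' _
    split_ifs with h
    · subst h
      have h4 : ∑ z ∈ Q with (Onl l' z ∧ Onl l' z), μ z = wt Q μ l' := by
        unfold wt
        apply Finset.sum_congr _ (fun _ _ => rfl)
        apply Finset.filter_congr; intro z _; exact and_self_iff
      rw [h4]; linarith only [hm]
    · have := wt_inter_le Q μ m hm hμ l l' (fun h' => h h'.symm)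
      linarith only [this]
  refine (Finset.sum_le_sum (fun l hl => Finset.sum_le_sum (fun l' hl' => h3 l hl l' hl'))).trans ?_
  have h4 : ∀ l ∈ L, ∑ l' ∈ L, ((if l' = l then wt Q μ l else 0) + m)
      = wt Q μ l + L.card * m := by
    intro l hl
    rw [Finset.sum_add_distrib, Finset.sum_ite_eq' L l, if_pos hl, Finset.sum_const, nsmul_eq_mul]
  rw [Finset.sum_congr rfl h4, Finset.sum_add_distrib, Finset.sum_const, nsmul_eq_mul]
  apply le_of_eq; ring

open scoped Classical in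
/-- few lines: inclusion-exclusion -/
theorem few_lines (Q L : Finset (ℝ × ℝ)) (μ : ℝ × ℝ → ℝ) (m M κ : ℝ)
    (hμ0 : ∀ z ∈ Q, 0 ≤ μ z) (hμ : ∀ z ∈ Q, μ z ≤ m) (hm : 0 ≤ m)
    (hM : ∑ z ∈ Q, μ z ≤ M)
    (hκ : ∀ l ∈ L, κ ≤ wt Q μ l) (hfew : 2 * (m * L.card) ≤ κ) :
    (L.card : ℝ) * κ ≤ 2 * M := by
  have h1 := sum_mu_deg Q L μ
  have h2 := sum_mu_deg_sq Q L μ m hm hμ
  have h3 : ∑ z ∈ Q, (2 * (μ z * ((L.filter (fun l => Onl l z)).card : ℝ))
      - μ z * ((L.filter (fun l => Onl l z)).card : ℝ) ^ 2) ≤ ∑ z ∈ Q, μ z := by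
    apply Finset.sum_le_sum
    intro z hz
    linarith only [mul_nonneg (hμ0 z hz) (sq_nonneg (((L.filter (fun l => Onl l z)).card : ℝ) - 1)),
      hμ0, hz]
  rw [Finset.sum_sub_distrib, ← Finset.mul_sum, h1] at h3
  have h4 : (L.card : ℝ) * κ ≤ ∑ l ∈ L, wt Q μ l := by
    rw [← nsmul_eq_mul]
    exact Finset.card_nsmul_le_sum _ _ _ hκ
  have h5 : (0:ℝ) ≤ L.card := by (clear * -; positivity)
  nlinarith only [hM, h2, h3, h4, hfew]

open scoped Classical in
theorem sum_cells (Q L G : Finset (ℝ × ℝ)) (μ : ℝ × ℝ → ℝ) (m b : ℝ) (hm : 0 ≤ m) (hb : 0 ≤ b)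
    (hμ0 : ∀ z ∈ Q, 0 ≤ μ z) (hμ : ∀ z ∈ Q, μ z ≤ m) (lab : ℝ × ℝ → Lab)
    (hlab : ∀ z, lab z ∈ labs G)
    (hcell : ∀ z, Off G z →
      ((L.filter (fun l => ∃ z', Off G z' ∧ lab z' = lab z ∧ Onl l z')).card : ℝ) ≤ b ^ 2) :
    ∑ l ∈ L, wt (Q.filter (fun z => Off G z)) μ l ≤
      (labs G).card * (m * b ^ 2) + (∑ z ∈ Q, μ z) * b := by
  set Qk : Lab → Finset (ℝ × ℝ) := fun k => (Q.filter (fun z => Off G z)).filter (fun z => lab z = k)
    with hQk
  have h1 : ∀ l ∈ L, wt (Q.filter (fun z => Off G z)) μ l = ∑ k ∈ labs G, wt (Qk k) μ l := by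
    intro l _
    unfold wt
    rw [← Finset.sum_fiberwise_of_maps_to (g := lab) (t := labs G) (fun z _ => hlab z)]
    apply Finset.sum_congr rfl
    intro k _
    apply Finset.sum_congr _ (fun _ _ => rfl)
    rw [hQk]; simp only
    rw [Finset.filter_comm]
  rw [Finset.sum_congr rfl h1, Finset.sum_comm]
  have h2 : ∀ k ∈ labs G, ∑ l ∈ L, wt (Qk k) μ l ≤ m * b ^ 2 + (∑ z ∈ Qk k, μ z) * b := by
    intro k _
    have hsub : Qk k ⊆ Q := (filter_subset _ _).trans (filter_subset _ _)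
    rcases (Qk k).eq_empty_or_nonempty with h3 | ⟨z₀, hz₀⟩
    · have h4 : ∑ l ∈ L, wt (Qk k) μ l = 0 := by
        apply Finset.sum_eq_zero
        intro l _
        unfold wt
        rw [h3]; simp
      rw [h4, h3]
      simp only [Finset.sum_empty, zero_mul, add_zero]
      (clear * - hm; positivity)
    · have hz₁ := mem_filter.mp hz₀
      have hz₂ := (mem_filter.mp hz₁.1).2
      have h3 := hcell z₀ hz₂
      rw [hz₁.2] at h3
      set Lk := L.filter (fun l => ∃ z', Off G z' ∧ lab z' = k ∧ Onl l z') with hLk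
      have h4 : ∑ l ∈ L, wt (Qk k) μ l = ∑ l ∈ Lk, wt (Qk k) μ l := by
        symm
        apply Finset.sum_subset (filter_subset _ _)
        intro l hl hl2
        unfold wt
        apply Finset.sum_eq_zero
        intro z hz
        exfalso
        apply hl2
        rw [mem_filter]
        have h5 := mem_filter.mp hz
        have h6 := mem_filter.mp h5.1
        exact ⟨hl, z, (mem_filter.mp h6.1).2, h6.2, h5.2⟩
      rw [h4]
      have h5 := cell_bound (Qk k) Lk μ m (fun z hz => hμ0 z (hsub hz)) (fun z hz => hμ z (hsub hz))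
      have h6 : 0 ≤ ∑ z ∈ Qk k, μ z := Finset.sum_nonneg (fun z hz => hμ0 z (hsub hz))
      apply quad_le hm hb h6
      refine h5.trans ?_
      apply mul_le_mul_of_nonneg_right h3
      have h7 : 0 ≤ ∑ l ∈ Lk, wt (Qk k) μ l :=
        Finset.sum_nonneg (fun l _ => wt_nonneg (fun z hz => hμ0 z (hsub hz)) l)
      (clear * - hm h7; positivity)
  refine (Finset.sum_le_sum h2).trans ?_
  rw [Finset.sum_add_distrib, Finset.sum_const, nsmul_eq_mul, ← Finset.sum_mul]
  have h3 : ∑ k ∈ labs G, ∑ z ∈ Qk k, μ z ≤ ∑ z ∈ Q, μ z := by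
    have h4 : ∑ k ∈ labs G, ∑ z ∈ Qk k, μ z = ∑ z ∈ Q.filter (fun z => Off G z), μ z :=
      Finset.sum_fiberwise_of_maps_to (g := lab) (t := labs G) (fun z _ => hlab z) μ
    rw [h4]
    exact Finset.sum_le_sum_of_subset_of_nonneg (filter_subset _ _) (fun z hz _ => hμ0 z hz)
  have := mul_le_mul_of_nonneg_right h3 hb
  linarith only [this]

open scoped Classical in
theorem sum_cover_le {β ι : Type} (A : Finset β) (G : Finset ι) (t : ι → Finset β) (μ : β → ℝ)
    (hA : ∀ z ∈ A, ∃ g ∈ G, z ∈ t g) (hμ : ∀ g ∈ G, ∀ z ∈ t g, 0 ≤ μ z) :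
    ∑ z ∈ A, μ z ≤ ∑ g ∈ G, ∑ z ∈ t g, μ z := by
  have h1 : ∀ z ∈ A, μ z ≤ ∑ g ∈ G, if z ∈ t g then μ z else 0 := by
    intro z hz
    obtain ⟨g, hg, hzg⟩ := hA z hz
    have h2 : (if z ∈ t g then μ z else 0) ≤ ∑ g ∈ G, if z ∈ t g then μ z else 0 := by
      apply Finset.single_le_sum (f := fun g => if z ∈ t g then μ z else 0) _ hg
      intro g' hg'
      split_ifs with h
      · exact hμ g' hg' z h
      · exact le_rfl
    rwa [if_pos hzg] at h2
  refine (Finset.sum_le_sum h1).trans ?_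
  rw [Finset.sum_comm]
  apply Finset.sum_le_sum
  intro g hg
  rw [← Finset.sum_filter]
  apply Finset.sum_le_sum_of_subset_of_nonneg
  · intro z hz
    exact (mem_filter.mp hz).2
  · intro z hz _
    exact hμ g hg z hz

theorem st_numeric (N s m M κ Λ b K S : ℝ) (hm : 0 < m) (hΛ1 : 1 ≤ Λ) (hκ0 : 0 < κ) (hs' : 0 < s)
    (hN : 0 < N) (hb0 : 0 ≤ b) (hb2 : b ^ 2 = Λ / s * N)
    (hs3 : κ / (64 * m * Λ) ≤ s) (hs4 : s * (32 * m * Λ) ≤ κ) (hc' : 2 * s ≤ N)
    (hK : K ≤ 4 * s ^ 2) (hS : S ≤ M)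
    (h12 : (N - s) * (κ - s * m) ≤ K * (m * b ^ 2) + S * b) :
    N ≤ 2 ^ 12 * Λ ^ 2 * (m * M ^ 2 / κ ^ 3) := by
  have hsm : s * m * 32 ≤ κ := by
    refine le_trans ?_ hs4
    have h1 : s * m * 32 * 1 ≤ s * m * 32 * Λ := mul_le_mul_of_nonneg_left hΛ1 (by positivity)
    linarith only [h1]
  have h3 : (N - s) * (κ - s * m) ≥ 31 / 64 * (N * κ) := by
    have h4 : N / 2 ≤ N - s := by linarith only [hc']
    have h5 : 31 / 32 * κ ≤ κ - s * m := by linarith only [hsm]
    calc (N - s) * (κ - s * m) ≥ (N / 2) * (31 / 32 * κ) := by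
          apply mul_le_mul h4 h5 (by positivity) (by linarith only [hs', hc'])
      _ = 31 / 64 * (N * κ) := by ring
  have h4 : K * (m * b ^ 2) ≤ 8 / 64 * (N * κ) := by
    calc K * (m * b ^ 2) ≤ 4 * s ^ 2 * (m * b ^ 2) :=
          mul_le_mul_of_nonneg_right hK (by positivity)
      _ = (s * (32 * m * Λ)) * N * (8 / 64) := by
          rw [hb2]; field_simp; ring
      _ ≤ κ * N * (8 / 64) := by
          apply mul_le_mul_of_nonneg_right _ (by norm_num)
          apply mul_le_mul_of_nonneg_right hs4 (by positivity)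
      _ = 8 / 64 * (N * κ) := by ring
  have h5 : S * b ≤ M * b := mul_le_mul_of_nonneg_right hS hb0
  have h6 : 23 / 64 * (N * κ) ≤ M * b := by linarith only [h12, h3, h4, h5]
  have h7 : (23 / 64 * (N * κ)) ^ 2 ≤ (M * b) ^ 2 := pow_le_pow_left₀ (by positivity) h6 2
  have h8 : (M * b) ^ 2 = M ^ 2 * (Λ / s * N) := by rw [mul_pow, hb2]
  rw [h8] at h7
  have h9 : (23 / 64) ^ 2 * N * κ ^ 2 ≤ M ^ 2 * (Λ / s) := by
    have : (23 / 64) ^ 2 * N * κ ^ 2 * N ≤ M ^ 2 * (Λ / s) * N := by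
      calc (23 / 64) ^ 2 * N * κ ^ 2 * N = (23 / 64 * (N * κ)) ^ 2 := by ring
        _ ≤ M ^ 2 * (Λ / s * N) := h7
        _ = M ^ 2 * (Λ / s) * N := by ring
    exact le_of_mul_le_mul_right this hN
  have h10 : Λ / s ≤ 64 * m * Λ ^ 2 / κ := by
    rw [div_le_div_iff₀ hs' hκ0]
    rw [div_le_iff₀ (by positivity)] at hs3
    have h11 := mul_le_mul_of_nonneg_left hs3 (show 0 ≤ Λ by linarith only [hΛ1])
    calc Λ * κ ≤ Λ * (s * (64 * m * Λ)) := h11
      _ = 64 * m * Λ ^ 2 * s := by ring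
  have h11 : (23 / 64) ^ 2 * N * κ ^ 2 ≤ M ^ 2 * (64 * m * Λ ^ 2 / κ) :=
    h9.trans (mul_le_mul_of_nonneg_left h10 (by (clear * -; positivity)))
  rw [mul_div_assoc', le_div_iff₀ (by positivity)]
  have h13 : (23 / 64) ^ 2 * N * κ ^ 2 * κ ≤ M ^ 2 * (64 * m * Λ ^ 2) := by
    calc (23 / 64) ^ 2 * N * κ ^ 2 * κ ≤ M ^ 2 * (64 * m * Λ ^ 2 / κ) * κ :=
          mul_le_mul_of_nonneg_right h11 hκ0.le
      _ = M ^ 2 * (64 * m * Λ ^ 2) := by field_simp
  have h14 : 0 ≤ M ^ 2 * (m * Λ ^ 2) := by (clear * - hm hΛ1; positivity)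
  calc N * κ ^ 3 = (64 / 23) ^ 2 * ((23 / 64) ^ 2 * N * κ ^ 2 * κ) := by ring
    _ ≤ (64 / 23) ^ 2 * (M ^ 2 * (64 * m * Λ ^ 2)) := mul_le_mul_of_nonneg_left h13 (by norm_num)
    _ = (64 / 23) ^ 2 * 64 * (M ^ 2 * (m * Λ ^ 2)) := by ring
    _ ≤ 2 ^ 12 * (M ^ 2 * (m * Λ ^ 2)) := mul_le_mul_of_nonneg_right (by norm_num) h14
    _ = 2 ^ 12 * Λ ^ 2 * (m * M ^ 2) := by ring

open scoped Classical in
/-- weighted Szemeredi-Trotter bound with logarithmic loss -/
theorem planarST (Q L : Finset (ℝ × ℝ)) (μ : ℝ × ℝ → ℝ) (m M κ Λ : ℝ)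
    (hμ0 : ∀ z ∈ Q, 0 ≤ μ z) (hμ : ∀ z ∈ Q, μ z ≤ m) (hm : 0 < m)
    (hM : ∑ z ∈ Q, μ z ≤ M)
    (hκ : ∀ l ∈ L, κ ≤ wt Q μ l)
    (hΛ : 6 * Real.log (L.card + 1) + 1 ≤ Λ) (hκm : 64 * m * Λ ≤ κ) :
    (L.card : ℝ) ≤ 2 ^ 12 * Λ ^ 2 * (m * M ^ 2 / κ ^ 3) + 2 * (M / κ) := by
  have hM0 : 0 ≤ M := (Finset.sum_nonneg hμ0).trans hM
  have hlog : 0 ≤ Real.log ((L.card : ℝ) + 1) := Real.log_nonneg (by
    have : (0:ℝ) ≤ L.card := by (clear * -; positivity)
    linarith only [])
  have hΛ1 : 1 ≤ Λ := by linarith only [hΛ, hlog]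
  have hκ0 : 0 < κ := lt_of_lt_of_le (by positivity) hκm
  rcases L.eq_empty_or_nonempty with hL | hL
  · subst hL
    rw [card_empty]
    push_cast
    (clear * - hm hM0 hΛ1 hκ0; positivity)
  have hN : (1:ℝ) ≤ L.card := by exact_mod_cast hL.card_pos
  have hy2 : 2 ≤ κ / (32 * m * Λ) := by
    rw [le_div_iff₀ (by positivity)]; linarith only [hκm]
  set s : ℕ := ⌊κ / (32 * m * Λ)⌋₊ with hs
  have hs1 : (s:ℝ) ≤ κ / (32 * m * Λ) := Nat.floor_le (by positivity)
  have hs2 : κ / (32 * m * Λ) < (s:ℝ) + 1 := Nat.lt_floor_add_one _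
  have hs3 : κ / (64 * m * Λ) ≤ s := by
    have : κ / (64 * m * Λ) = κ / (32 * m * Λ) / 2 := by field_simp; norm_num
    rw [this]; linarith only [hy2, hs2]
  have hs4 : (s:ℝ) * (32 * m * Λ) ≤ κ := by rwa [le_div_iff₀ (by positivity)] at hs1
  have hs5 : 1 ≤ s := by
    have : (1:ℝ) ≤ s := by linarith only [hy2, hs2]
    exact_mod_cast this
  have hs' : (0:ℝ) < s := by exact_mod_cast hs5
  have hsm : (s:ℝ) * m * 32 ≤ κ := by
    refine le_trans ?_ hs4
    have h1 : (s:ℝ) * m * 32 * 1 ≤ (s:ℝ) * m * 32 * Λ := mul_le_mul_of_nonneg_left hΛ1 (by positivity)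
    linarith only [h1]
  rcases lt_or_ge (L.card) (2 * s) with hcase | hcase
  · -- few lines
    have hc' : (L.card : ℝ) ≤ 2 * s := by exact_mod_cast hcase.le
    have hfew : 2 * (m * L.card) ≤ κ := by
      have := mul_le_mul_of_nonneg_left hc' hm.le
      linarith only [hκ0, hsm, this]
    have h1 := few_lines Q L μ m M κ hμ0 hμ hm.le hM hκ hfew
    have h2 : (L.card : ℝ) ≤ 2 * (M / κ) := by
      rw [mul_div_assoc', le_div_iff₀ hκ0]; exact h1
    have h3 : 0 ≤ 2 ^ 12 * Λ ^ 2 * (m * M ^ 2 / κ ^ 3) := by (clear * - hm hΛ1 hκ0; positivity)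
    linarith only [h2, h3]
  · have hc' : 2 * (s:ℝ) ≤ L.card := by exact_mod_cast hcase
    obtain ⟨G, hGL, hGs, lab, hlab, hcell⟩ := cutting L hL s hs5
    set N : ℝ := (L.card : ℝ) with hNdef
    set b : ℝ := Real.sqrt (Λ / s * N) with hb
    have hb0 : 0 ≤ b := Real.sqrt_nonneg _
    have hb2 : b ^ 2 = Λ / s * N := Real.sq_sqrt (by (clear * - hΛ1 hL hs5; positivity))
    have hcell' : ∀ z, Off G z →
        ((L.filter (fun l => ∃ z', Off G z' ∧ lab z' = lab z ∧ Onl l z')).card : ℝ) ≤ b ^ 2 := by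
      intro z hz
      refine (hcell z hz).trans ?_
      rw [hb2]
      apply mul_le_mul_of_nonneg_right _ (by (clear * - hL; positivity))
      exact div_le_div_of_nonneg_right hΛ hs'.le
    have h1 := sum_cells Q L G μ m b hm.le hb0 hμ0 hμ lab hlab hcell'
    -- number of cells
    have hK : ((labs G).card : ℝ) ≤ 4 * (s:ℝ) ^ 2 := by
      rw [card_labs]
      push_cast
      have hg : (G.card : ℝ) ≤ s := by exact_mod_cast hGs
      have hs6 : (1:ℝ) ≤ s := by exact_mod_cast hs5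
      have hg0 : (0:ℝ) ≤ G.card := by (clear * -; positivity)
      nlinarith only [hy2, hs2, hg]
    -- lower bound for lines off the sample
    have hlow : ∀ l ∈ L \ G, κ - s * m ≤ wt (Q.filter (fun z => Off G z)) μ l := by
      intro l hl
      rw [mem_sdiff] at hl
      have h2 : wt Q μ l ≤ wt (Q.filter (fun z => Off G z)) μ l +
          ∑ g ∈ G, ∑ z ∈ Q with (Onl g z ∧ Onl l z), μ z := by
        unfold wt
        have h3 : ∑ z ∈ Q with Onl l z, μ z =
            ∑ z ∈ (Q.filter (fun z => Onl l z)).filter (fun z => Off G z), μ z +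
            ∑ z ∈ (Q.filter (fun z => Onl l z)).filter (fun z => ¬ Off G z), μ z :=
          (Finset.sum_filter_add_sum_filter_not _ _ _).symm
        rw [h3, Finset.filter_comm]
        apply add_le_add le_rfl
        apply sum_cover_le _ G (fun g => Q.filter (fun z => Onl g z ∧ Onl l z))
        · intro z hz
          have h5 := mem_filter.mp hz
          have h6 := mem_filter.mp h5.1
          have h7 := h5.2
          unfold Off at h7
          push Not at h7
          obtain ⟨g, hg, hgz⟩ := h7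
          exact ⟨g, hg, mem_filter.mpr ⟨h6.1, hgz, h6.2⟩⟩
        · intro g _ z hz
          exact hμ0 z (mem_filter.mp hz).1
      have h3 : ∑ g ∈ G, ∑ z ∈ Q with (Onl g z ∧ Onl l z), μ z ≤ s * m := by
        calc ∑ g ∈ G, ∑ z ∈ Q with (Onl g z ∧ Onl l z), μ z ≤ ∑ _g ∈ G, m := by
              apply Finset.sum_le_sum
              intro g hg
              apply wt_inter_le Q μ m hm.le hμ g l
              rintro rfl
              exact hl.2 hg
          _ = G.card * m := by rw [Finset.sum_const, nsmul_eq_mul]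
          _ ≤ s * m := by
              apply mul_le_mul_of_nonneg_right _ hm.le
              exact_mod_cast hGs
      have h4 := hκ l hl.1
      linarith only [h2, h3, h4]
    have h2 : (N - s) * (κ - s * m) ≤ ∑ l ∈ L, wt (Q.filter (fun z => Off G z)) μ l := by
      have h3 : ((L \ G).card : ℝ) * (κ - s * m) ≤
          ∑ l ∈ L \ G, wt (Q.filter (fun z => Off G z)) μ l := by
        rw [← nsmul_eq_mul]
        exact Finset.card_nsmul_le_sum _ _ _ hlow
      have h4 : ∑ l ∈ L \ G, wt (Q.filter (fun z => Off G z)) μ l ≤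
          ∑ l ∈ L, wt (Q.filter (fun z => Off G z)) μ l := by
        apply Finset.sum_le_sum_of_subset_of_nonneg sdiff_subset
        intro l _ _
        exact wt_nonneg (fun z hz => hμ0 z (mem_filter.mp hz).1) l
      have h5 : N - s ≤ ((L \ G).card : ℝ) := by
        have h6 := le_card_sdiff G L
        have h7 : L.card ≤ (L \ G).card + s := by omega
        have h8 : N ≤ ((L \ G).card : ℝ) + s := by rw [hNdef]; exact_mod_cast h7
        linarith only [h8]
      have h6 : 0 ≤ κ - s * m := by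
        have : (s:ℝ) * m ≤ s * m * 32 := by linarith only [mul_pos hs' hm]
        linarith only [hκ0, hsm]
      linarith only [mul_nonneg (sub_nonneg.2 h5) (sub_nonneg.2 hsm), mul_nonneg (le_of_lt (sub_pos.2 hκ0)) (sub_nonneg.2 h5), h4, h3]
    have h12 := st_numeric N s m M κ Λ b _ _ hm hΛ1 hκ0 hs' (by linarith only [hy2, hs2, hc']) hb0 hb2 hs3 hs4 hc' hK hM
      (h2.trans h1)
    have h15 : 0 ≤ 2 * (M / κ) := by (clear * - hM0 hκ0; positivity)
    linarith only [h12, h15]

end Vale.Agent.P054K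
end

section

set_option autoImplicit false

open Finset

namespace Vale.Agent.P054K

/-- generic planar coordinates for finitely many vectors -/
theorem exists_coords {V ι : Type} [AddCommGroup V] [Module ℝ V] (I : Finset ι) (v : ι → V)
    (hv : ∀ i ∈ I, v i ≠ 0) :
    ∃ (u : ι → V) (f0 f1 f2 : Module.Dual ℝ V), 
      (∀ i ∈ I, f0 (u i) = 1) ∧ (∀ i ∈ I, ∃ c : ℝ, c ≠ 0 ∧ v i = c • u i) ∧
      (∀ i ∈ I, ∀ j ∈ I, u i ≠ u j → f1 (u i) ≠ f1 (u j)) ∧
      (∀ i ∈ I, ∀ j ∈ I, ∀ k ∈ I,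
        (f2 (u k) - f2 (u i)) * (f1 (u j) - f1 (u i)) = (f2 (u j) - f2 (u i)) * (f1 (u k) - f1 (u i)) →
        (f1 (u j) - f1 (u i)) • (u k - u i) = (f1 (u k) - f1 (u i)) • (u j - u i)) := by
  classical
  obtain ⟨f0, hf0⟩ := Module.exists_dual_forall_apply_ne_zero (K := ℝ)
    (fun i : {i // i ∈ I} => v i.1) (fun i => hv i.1 i.2)
  set u : ι → V := fun i => (f0 (v i))⁻¹ • v i with hu
  obtain ⟨f1, hf1⟩ := Module.exists_dual_forall_apply_ne_zero (K := ℝ)
    (fun p : {p : {i // i ∈ I} × {i // i ∈ I} // u p.1.1 ≠ u p.2.1} => u p.1.1.1 - u p.1.2.1)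
    (fun p => sub_ne_zero.mpr p.2)
  obtain ⟨f2, hf2⟩ := Module.exists_dual_forall_apply_ne_zero (K := ℝ)
    (fun p : {p : {i // i ∈ I} × {i // i ∈ I} × {i // i ∈ I} //
        (f1 (u p.2.1.1) - f1 (u p.1.1)) • (u p.2.2.1 - u p.1.1) -
          (f1 (u p.2.2.1) - f1 (u p.1.1)) • (u p.2.1.1 - u p.1.1) ≠ 0} =>
        (f1 (u p.1.2.1.1) - f1 (u p.1.1.1)) • (u p.1.2.2.1 - u p.1.1.1) -
          (f1 (u p.1.2.2.1) - f1 (u p.1.1.1)) • (u p.1.2.1.1 - u p.1.1.1))
    (fun p => p.2)
  refine ⟨u, f0, f1, f2, ?_, ?_, ?_, ?_⟩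
  · intro i hi
    have := hf0 ⟨i, hi⟩
    simp only [hu, map_smul, smul_eq_mul]
    exact inv_mul_cancel₀ this
  · intro i hi
    have := hf0 ⟨i, hi⟩
    refine ⟨f0 (v i), this, ?_⟩
    simp only [hu]
    rw [smul_smul, mul_inv_cancel₀ this, one_smul]
  · intro i hi j hj hij
    have := hf1 ⟨(⟨i, hi⟩, ⟨j, hj⟩), hij⟩
    simp only [map_sub] at this
    exact sub_ne_zero.mp this
  · intro i hi j hj k hk h
    by_contra hne
    have := hf2 ⟨(⟨i, hi⟩, ⟨j, hj⟩, ⟨k, hk⟩), sub_ne_zero.mpr hne⟩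
    apply this
    simp only [map_sub, map_smul, smul_eq_mul]
    linarith

open scoped Classical in
/-- linear form of Szemeredi-Trotter -/
theorem linearST {V ι : Type} [AddCommGroup V] [Module ℝ V]
    (I : Finset ι) (v : ι → V) (m κ Λ : ℝ)
    (hv : ∀ i ∈ I, v i ≠ 0) (hm : ∀ i ∈ I, mass I v (Submodule.span ℝ {v i}) ≤ m) (hm0 : 0 < m)
    (Z : Finset (Submodule ℝ V))
    (hZ : ∀ A ∈ Z, Module.finrank ℝ A = 2 ∧ κ ≤ mass I v A)
    (hΛ : 12 * Real.log (I.card + 1) + 1 ≤ Λ) (hκ : 64 * m * Λ ≤ κ) :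
    (Z.card : ℝ) ≤ 2 ^ 12 * Λ ^ 2 * (m * (I.card:ℝ) ^ 2 / κ ^ 3) + 2 * (I.card / κ) := by
  have hlog : 0 ≤ Real.log ((I.card : ℝ) + 1) := Real.log_nonneg (by
    have : (0:ℝ) ≤ I.card := by positivity
    linarith only [])
  have hΛ1 : 1 ≤ Λ := by linarith only [hΛ, hlog]
  have hmκ : m < κ := by nlinarith only [hm0, hΛ, hκ, hlog]
  obtain ⟨u, f0, f1, f2, hu0, huv, hf1, hf2⟩ := exists_coords I v hv
  set pt : ι → ℝ × ℝ := fun i => (f1 (u i), f2 (u i)) with hpt
  -- membership
  have hmem : ∀ A : Submodule ℝ V, ∀ i ∈ I, (v i ∈ A ↔ u i ∈ A) := by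
    intro A i hi
    obtain ⟨c, hc, hcv⟩ := huv i hi
    rw [hcv]
    exact Submodule.smul_mem_iff A hc
  -- two independent vectors in each A
  have hpair : ∀ A ∈ Z, ∃ i ∈ I, ∃ j ∈ I, v i ∈ A ∧ v j ∈ A ∧ u i ≠ u j := by
    intro A hA
    have hpos : 0 < mass I v A := lt_of_lt_of_le (lt_trans hm0 hmκ) (hZ A hA).2
    unfold mass at hpos
    have hpos' : 0 < (I.filter (fun i => v i ∈ A)).card := by exact_mod_cast hpos
    obtain ⟨i, hi⟩ := Finset.card_pos.mp hpos'
    rw [mem_filter] at hi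
    by_contra hcon
    push Not at hcon
    have h1 : mass I v A ≤ mass I v (Submodule.span ℝ {v i}) := by
      unfold mass
      have h2 : I.filter (fun i => v i ∈ A) ⊆ I.filter (fun j => v j ∈ Submodule.span ℝ {v i}) := by
        intro j hj
        rw [mem_filter] at hj ⊢
        refine ⟨hj.1, ?_⟩
        have h3 := hcon i hi.1 j hj.1 hi.2 hj.2
        obtain ⟨c, hc, hcv⟩ := huv j hj.1
        obtain ⟨c', hc', hcv'⟩ := huv i hi.1
        rw [hcv, ← h3, Submodule.mem_span_singleton]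
        refine ⟨c * c'⁻¹, ?_⟩
        rw [hcv', smul_smul, mul_assoc, inv_mul_cancel₀ hc', mul_one]
      exact_mod_cast card_le_card h2
    have h2 := hm i hi.1
    have h3 := (hZ A hA).2
    linarith only [hmκ, h1, h2, h3]
  have hκ0 : 0 < κ := lt_trans hm0 hmκ
  rcases Z.eq_empty_or_nonempty with hZe | ⟨A₀, hA₀⟩
  · rw [hZe, card_empty]
    push_cast
    (clear * - hm0 hΛ1 hκ0; positivity)
  obtain ⟨i₀, _⟩ := hpair A₀ hA₀
  have : Nonempty ι := ⟨i₀⟩
  choose! ii hii jj hjj hiA hjA hne using hpair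
  set ln : Submodule ℝ V → ℝ × ℝ := fun A =>
    ((f2 (u (jj A)) - f2 (u (ii A))) / (f1 (u (jj A)) - f1 (u (ii A))),
      f2 (u (ii A)) - (f2 (u (jj A)) - f2 (u (ii A))) / (f1 (u (jj A)) - f1 (u (ii A))) *
        f1 (u (ii A))) with hln
  have hx : ∀ A ∈ Z, f1 (u (jj A)) - f1 (u (ii A)) ≠ 0 := by
    intro A hA
    exact sub_ne_zero.mpr (hf1 _ (hjj A hA) _ (hii A hA) (hne A hA).symm)
  -- incidence characterisation
  have honl : ∀ A ∈ Z, ∀ k : ι, (Onl (ln A) (pt k) ↔
      (f2 (u k) - f2 (u (ii A))) * (f1 (u (jj A)) - f1 (u (ii A)))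
        = (f2 (u (jj A)) - f2 (u (ii A))) * (f1 (u k) - f1 (u (ii A)))) := by
    intro A hA k
    have h := hx A hA
    unfold Onl
    simp only [hln, hpt]
    constructor
    · intro h2
      rw [h2]; field_simp; ring
    · intro h2
      field_simp
      linarith only [h2]
  -- span
  have hspan : ∀ A ∈ Z, Submodule.span ℝ {u (ii A), u (jj A)} = A := by
    intro A hA
    have hle : Submodule.span ℝ {u (ii A), u (jj A)} ≤ A := by
      rw [Submodule.span_le]
      intro w hw
      simp only [Set.mem_insert_iff, Set.mem_singleton_iff] at hw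
      rcases hw with rfl | rfl
      · exact (hmem A _ (hii A hA)).mp (hiA A hA)
      · exact (hmem A _ (hjj A hA)).mp (hjA A hA)
    have hfin : FiniteDimensional ℝ A := by
      apply Module.finite_of_finrank_pos
      rw [(hZ A hA).1]; norm_num
    apply Submodule.eq_of_le_of_finrank_le hle
    rw [(hZ A hA).1]
    have hli : LinearIndependent ℝ ![u (ii A), u (jj A)] := by
      rw [LinearIndependent.pair_iff]
      intro s t hst
      have h1 := congrArg f0 hst
      simp only [map_add, map_smul, hu0 _ (hii A hA), smul_eq_mul, mul_one, hu0 _ (hjj A hA),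
        map_zero] at h1
      have h2 := congrArg f1 hst
      simp only [map_add, map_smul, smul_eq_mul, map_zero] at h2
      have h3 : t * (f1 (u (jj A)) - f1 (u (ii A))) = 0 := by
        have : s = -t := by linarith only [h1]
        rw [this] at h2
        linarith only [h2]
      have h4 : t = 0 := by
        rcases mul_eq_zero.mp h3 with h | h
        · exact h
        · exact absurd h (hx A hA)
      exact ⟨by linarith only [h1, h4], h4⟩
    have h5 := finrank_span_eq_card hli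
    rw [Matrix.range_cons, Matrix.range_cons, Matrix.range_empty, Set.union_empty] at h5
    rw [Fintype.card_fin] at h5
    have h6 : ({u (ii A)} ∪ {u (jj A)} : Set V) = {u (ii A), u (jj A)} := rfl
    rw [h6] at h5
    rw [h5]
  -- vectors of A lie on the line
  have hon : ∀ A ∈ Z, ∀ k ∈ I, v k ∈ A → Onl (ln A) (pt k) := by
    intro A hA k hk hkA
    rw [honl A hA k]
    have h1 : u k ∈ Submodule.span ℝ {u (ii A), u (jj A)} := by
      rw [hspan A hA]; exact (hmem A k hk).mp hkA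
    rw [Submodule.mem_span_pair] at h1
    obtain ⟨a, b, hab⟩ := h1
    have h2 := congrArg f0 hab
    simp only [map_add, map_smul, hu0 _ (hii A hA), smul_eq_mul, mul_one, hu0 _ (hjj A hA),
      hu0 _ hk] at h2
    have h3 := congrArg f1 hab
    have h4 := congrArg f2 hab
    simp only [map_add, map_smul, smul_eq_mul] at h3 h4
    rw [← h3, ← h4]
    have h5 : a = 1 - b := by linarith only [h2]
    rw [h5]; ring
  have honback : ∀ A ∈ Z, ∀ k ∈ I, Onl (ln A) (pt k) → u k ∈ A := by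
    intro A hA k hk h
    rw [honl A hA k] at h
    have h2 := hf2 _ (hii A hA) _ (hjj A hA) k hk h
    have h3 := hx A hA
    have h4 : u k = u (ii A) + ((f1 (u (jj A)) - f1 (u (ii A)))⁻¹ * (f1 (u k) - f1 (u (ii A)))) •
        (u (jj A) - u (ii A)) := by
      rw [mul_smul, ← h2, smul_smul, inv_mul_cancel₀ h3, one_smul]
      abel
    rw [h4]
    apply A.add_mem ((hmem A _ (hii A hA)).mp (hiA A hA))
    apply A.smul_mem
    exact A.sub_mem ((hmem A _ (hjj A hA)).mp (hjA A hA)) ((hmem A _ (hii A hA)).mp (hiA A hA))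
  have hinj : Set.InjOn ln (Z : Set (Submodule ℝ V)) := by
    intro A hA A' hA' h
    have hle : ∀ A ∈ Z, ∀ A' ∈ Z, ln A = ln A' → A ≤ A' := by
      intro A hA A' hA' h
      rw [← hspan A hA, Submodule.span_le]
      intro w hw
      simp only [Set.mem_insert_iff, Set.mem_singleton_iff] at hw
      rcases hw with rfl | rfl
      · apply honback A' hA' _ (hii A hA)
        rw [← h]
        exact hon A hA _ (hii A hA) (hiA A hA)
      · apply honback A' hA' _ (hjj A hA)
        rw [← h]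
        exact hon A hA _ (hjj A hA) (hjA A hA)
    exact le_antisymm (hle A hA A' hA' h) (hle A' hA' A hA h.symm)
  -- set up planarST
  set L := Z.image ln with hL
  have hLcard : L.card = Z.card := Finset.card_image_of_injOn hinj
  set Q := I.image pt with hQ
  set μ : ℝ × ℝ → ℝ := fun z => ((I.filter (fun i => pt i = z)).card : ℝ) with hμdef
  have hμ0 : ∀ z ∈ Q, 0 ≤ μ z := by
    intro z _; simp only [hμdef]; (clear * -; positivity)
  have hμm : ∀ z ∈ Q, μ z ≤ m := by
    intro z hz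
    rw [hQ, mem_image] at hz
    obtain ⟨i, hi, rfl⟩ := hz
    refine le_trans ?_ (hm i hi)
    simp only [hμdef]
    unfold mass
    have h2 : I.filter (fun j => pt j = pt i) ⊆ I.filter (fun j => v j ∈ Submodule.span ℝ {v i}) := by
      intro j hj
      rw [mem_filter] at hj ⊢
      refine ⟨hj.1, ?_⟩
      have h3 : u j = u i := by
        by_contra hne
        apply hf1 j hj.1 i hi hne
        have := hj.2
        simp only [hpt, Prod.mk.injEq] at this
        exact this.1
      obtain ⟨c, hc, hcv⟩ := huv j hj.1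
      obtain ⟨c', hc', hcv'⟩ := huv i hi
      rw [hcv, h3, Submodule.mem_span_singleton]
      refine ⟨c * c'⁻¹, ?_⟩
      rw [hcv', smul_smul, mul_assoc, inv_mul_cancel₀ hc', mul_one]
    exact_mod_cast card_le_card h2
  have hsumfib : ∀ p : ℝ × ℝ → Prop, ∑ z ∈ Q with p z, μ z = ((I.filter (fun i => p (pt i))).card : ℝ) := by
    intro p
    have h1 : (I.filter (fun i => p (pt i))).card
        = ∑ z ∈ Q.filter p, ((I.filter (fun i => p (pt i))).filter (fun i => pt i = z)).card := by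
      apply Finset.card_eq_sum_card_fiberwise
      intro i hi
      have := mem_filter.mp hi
      rw [mem_coe, mem_filter]
      exact ⟨mem_image_of_mem pt this.1, this.2⟩
    rw [h1]
    push_cast
    apply Finset.sum_congr rfl
    intro z hz
    have hz2 := (mem_filter.mp hz).2
    simp only [hμdef]
    congr 2
    ext i
    simp only [mem_filter]
    constructor
    · rintro ⟨h3, h4⟩
      exact ⟨⟨h3, by rw [h4]; exact hz2⟩, h4⟩
    · rintro ⟨⟨h3, _⟩, h4⟩
      exact ⟨h3, h4⟩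
  have hM : ∑ z ∈ Q, μ z ≤ (I.card : ℝ) := by
    have := hsumfib (fun _ => True)
    simp only [Finset.filter_true] at this
    rw [this]
  have hκ' : ∀ l ∈ L, κ ≤ wt Q μ l := by
    intro l hl
    rw [hL, mem_image] at hl
    obtain ⟨A, hA, rfl⟩ := hl
    refine le_trans (hZ A hA).2 ?_
    unfold wt
    rw [hsumfib (fun z => Onl (ln A) z)]
    unfold mass
    have h2 : I.filter (fun i => v i ∈ A) ⊆ I.filter (fun i => Onl (ln A) (pt i)) := by
      intro i hi
      rw [mem_filter] at hi ⊢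
      exact ⟨hi.1, hon A hA i hi.1 hi.2⟩
    exact_mod_cast card_le_card h2
  -- number of subspaces
  have hZcard : Z.card ≤ I.card ^ 2 := by
    have h1 : Z.card ≤ (I ×ˢ I).card := by
      apply Finset.card_le_card_of_injOn (fun A => (ii A, jj A))
      · intro A hA
        rw [mem_coe, mem_product]
        exact ⟨hii A hA, hjj A hA⟩
      · intro A hA A' hA' h
        simp only [Prod.mk.injEq] at h
        rw [← hspan A hA, ← hspan A' hA', h.1, h.2]
    rw [card_product] at h1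
    rw [pow_two]; exact h1
  have hΛ' : 6 * Real.log (L.card + 1) + 1 ≤ Λ := by
    refine le_trans ?_ hΛ
    rw [hLcard]
    have h1 : Real.log ((Z.card : ℝ) + 1) ≤ 2 * Real.log ((I.card:ℝ) + 1) := by
      have h2 : (2:ℝ) * Real.log ((I.card:ℝ) + 1) = Real.log (((I.card:ℝ) + 1) ^ 2) := by
        rw [Real.log_pow]; norm_num
      rw [h2]
      apply Real.log_le_log (by (clear * -; positivity))
      have h3 : (Z.card : ℝ) ≤ (I.card:ℝ) ^ 2 := by exact_mod_cast hZcard
      have h4 : (0:ℝ) ≤ I.card := by (clear * -; positivity)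
      linarith only [h4, h3]
    linarith only [h1]
  have := planarST Q L μ m (I.card : ℝ) κ Λ hμ0 hμm hm0 hM hκ' hΛ' hκ
  rw [hLcard] at this
  exact this

end Vale.Agent.P054K
end
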