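import Vale.Agent.P054.MathlibUsed
import Vale.Agent.P054.Bdl.B1
attribute [-instance] ProperSMul.toContinuousSMul IsTopologicalTorsor.toContinuousSMul IdemSemiring.toCanonicallyOrderedAdd IdemSemiring.toMulLeftMono IdemSemiring.toMulRightMono AddQuantale.instAddLeftMono AddQuantale.instAddRightMono Quantale.instMulLeftMono Quantale.instMulRightMono FiniteDimensional.rclike_to_real IsScalarTower.complexToReal FiniteDimensional.complexToReal

set_option linter.all false

section

set_option autoImplicit false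

open Finset

namespace Vale.Agent.P054K

theorem finrank_pair {V : Type} [AddCommGroup V] [Module ℝ V] (x y : V) (hx : x ≠ 0)
    (hy : y ∉ Submodule.span ℝ {x}) : Module.finrank ℝ (Submodule.span ℝ {x, y}) = 2 := by
  have hli : LinearIndependent ℝ ![x, y] := by
    rw [LinearIndependent.pair_iff' hx]
    intro a ha
    apply hy
    rw [Submodule.mem_span_singleton]
    exact ⟨a, ha⟩
  have h5 := finrank_span_eq_card hli
  rw [Matrix.range_cons, Matrix.range_cons, Matrix.range_empty, Set.union_empty] at h5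
  rw [Fintype.card_fin] at h5
  have h6 : ({x} ∪ {y} : Set V) = {x, y} := rfl
  rw [h6] at h5
  exact h5

theorem mass_nonneg {V ι : Type} [AddCommGroup V] [Module ℝ V] (I : Finset ι) (v : ι → V)
    (A : Submodule ℝ V) : 0 ≤ mass I v A := by
  unfold mass; positivity

theorem mass_mono {V ι : Type} [AddCommGroup V] [Module ℝ V] {I J : Finset ι} (hIJ : I ⊆ J)
    (v : ι → V) {A B : Submodule ℝ V} (h : A ≤ B) : mass I v A ≤ mass J v B := by
  classical
  unfold mass
  have : I.filter (fun i => v i ∈ A) ⊆ J.filter (fun i => v i ∈ B) := by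
    intro i hi
    rw [mem_filter] at hi ⊢
    exact ⟨hIJ hi.1, h hi.2⟩
  exact_mod_cast card_le_card this

open scoped Classical in
theorem dyadic_level {V ι : Type} [AddCommGroup V] [Module ℝ V]
    (I : Finset ι) (v : ι → V) (m Λ κ : ℝ)
    (hv : ∀ i ∈ I, v i ≠ 0) (hm : ∀ i ∈ I, mass I v (Submodule.span ℝ {v i}) ≤ m) (hm0 : 0 < m)
    (hΛ : 20 * (Real.log (I.card + 3) + 1) ≤ Λ) (hκ : κ = 2 ^ 18 * Λ ^ 3 * m)
    (hpl : ∀ i ∈ I, ∀ j ∈ I, 64 * Λ * mass I v (Submodule.span ℝ {v i, v j}) ≤ I.card) (k : ℕ) :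
    (((I ×ˢ I).filter (fun p => v p.2 ∉ Submodule.span ℝ {v p.1} ∧
      κ ≤ mass I v (Submodule.span ℝ {v p.1, v p.2}) ∧
      (2:ℝ) ^ k ≤ mass I v (Submodule.span ℝ {v p.1, v p.2}) ∧
      mass I v (Submodule.span ℝ {v p.1, v p.2}) < (2:ℝ) ^ (k + 1))).card : ℝ) ≤
      (I.card : ℝ) ^ 2 / (4 * Λ) := by
  set H := (I ×ˢ I).filter (fun p => v p.2 ∉ Submodule.span ℝ {v p.1} ∧
      κ ≤ mass I v (Submodule.span ℝ {v p.1, v p.2}) ∧
      (2:ℝ) ^ k ≤ mass I v (Submodule.span ℝ {v p.1, v p.2}) ∧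
      mass I v (Submodule.span ℝ {v p.1, v p.2}) < (2:ℝ) ^ (k + 1)) with hH
  have hlog3 : 0 ≤ Real.log ((I.card : ℝ) + 3) := Real.log_nonneg (by
    have : (0:ℝ) ≤ I.card := by (clear * -; positivity)
    linarith only [])
  have hlog1 : Real.log ((I.card : ℝ) + 1) ≤ Real.log ((I.card : ℝ) + 3) :=
    Real.log_le_log (by (clear * -; positivity)) (by linarith only [])
  have hΛ1 : 1 ≤ Λ := by linarith only [hΛ, hlog3]
  have hΛ0 : 0 < Λ := by linarith
  rcases H.eq_empty_or_nonempty with hHe | ⟨p₀, hp₀⟩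
  · rw [hHe, card_empty]; push_cast; (clear * - hΛ1; positivity)
  rw [hH, mem_filter, mem_product] at hp₀
  obtain ⟨⟨hp1, hp2⟩, _, hp4, hp5, hp6⟩ := hp₀
  have hr := hpl p₀.1 hp1 p₀.2 hp2
  set R : ℝ := mass I v (Submodule.span ℝ {v p₀.1, v p₀.2}) with hR
  set r : ℝ := (I.card : ℝ) with hrdef
  have hr0 : 0 ≤ r := by (clear * -; positivity)
  have hk0 : (0:ℝ) < 2 ^ k := by positivity
  have hk1 : 2 ^ 17 * Λ ^ 3 * m ≤ 2 ^ k := by
    have h1 : κ < 2 ^ (k + 1) := lt_of_le_of_lt hp4 hp6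
    have h2 : (2:ℝ) ^ (k + 1) = 2 * 2 ^ k := by ring
    rw [hκ, h2] at h1
    linarith only [h1]
  have hk2 : 64 * Λ * 2 ^ k ≤ r := by
    refine le_trans ?_ hr
    apply mul_le_mul_of_nonneg_left hp5; positivity
  set 𝓑 := H.image (fun p => Submodule.span ℝ {v p.1, v p.2}) with hB
  have hST := linearST I v m (2 ^ k) Λ hv hm hm0 𝓑 (by
    intro A hA
    rw [hB, mem_image] at hA
    obtain ⟨p, hp, rfl⟩ := hA
    rw [hH, mem_filter, mem_product] at hp
    exact ⟨finrank_pair _ _ (hv _ hp.1.1) hp.2.1, hp.2.2.2.1⟩) (by linarith only [hΛ, hlog3, hlog1]) (by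
    refine le_trans ?_ hk1
    have h1 : Λ ≤ Λ ^ 3 := by
      calc Λ = Λ ^ 1 := (pow_one Λ).symm
        _ ≤ Λ ^ 3 := pow_le_pow_right₀ hΛ1 (by norm_num)
    have h2 : m * Λ ≤ m * Λ ^ 3 := mul_le_mul_of_nonneg_left h1 hm0.le
    have h3 : 0 ≤ m * Λ ^ 3 := by positivity
    linarith only [h2, h3])
  -- H is covered by the squares
  have hcov : (H.card : ℝ) ≤ 𝓑.card * (2 ^ (k + 1)) ^ 2 := by
    have h1 : H.card = ∑ B ∈ 𝓑, (H.filter (fun p => Submodule.span ℝ {v p.1, v p.2} = B)).card :=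
      Finset.card_eq_sum_card_fiberwise (fun p hp => mem_image_of_mem _ hp)
    rw [h1]
    push_cast
    calc ∑ B ∈ 𝓑, ((H.filter (fun p => Submodule.span ℝ {v p.1, v p.2} = B)).card : ℝ)
        ≤ ∑ _B ∈ 𝓑, (2 ^ (k + 1) : ℝ) ^ 2 := by
          apply Finset.sum_le_sum
          intro B hBm
          rw [hB, mem_image] at hBm
          obtain ⟨q, hq, hqB⟩ := hBm
          rw [hH, mem_filter] at hq
          have h2 : mass I v B < 2 ^ (k + 1) := by rw [← hqB]; exact hq.2.2.2.2
          have h3 : H.filter (fun p => Submodule.span ℝ {v p.1, v p.2} = B) ⊆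
              (I.filter (fun i => v i ∈ B)) ×ˢ (I.filter (fun i => v i ∈ B)) := by
            intro p hp
            rw [mem_filter] at hp
            have h4 := hp.1
            rw [hH, mem_filter, mem_product] at h4
            rw [mem_product, mem_filter, mem_filter, ← hp.2]
            refine ⟨⟨h4.1.1, ?_⟩, ⟨h4.1.2, ?_⟩⟩
            · apply Submodule.subset_span; simp
            · apply Submodule.subset_span; simp
          have h5 := card_le_card h3
          rw [card_product] at h5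
          have h6 : ((H.filter (fun p => Submodule.span ℝ {v p.1, v p.2} = B)).card : ℝ)
              ≤ mass I v B * mass I v B := by
            unfold mass; exact_mod_cast h5
          refine h6.trans ?_
          rw [pow_two]
          exact mul_le_mul h2.le h2.le (mass_nonneg _ _ _) (by positivity)
      _ = 𝓑.card * (2 ^ (k + 1)) ^ 2 := by rw [Finset.sum_const, nsmul_eq_mul]
  refine hcov.trans ?_
  set y : ℝ := 2 ^ k with hy
  have e1 : (2 ^ (k + 1) : ℝ) ^ 2 = 4 * y ^ 2 := by rw [hy]; ring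
  rw [e1]
  have e2 : (𝓑.card : ℝ) * (4 * y ^ 2) ≤
      (2 ^ 12 * Λ ^ 2 * (m * r ^ 2 / y ^ 3) + 2 * (r / y)) * (4 * y ^ 2) :=
    mul_le_mul_of_nonneg_right hST (by positivity)
  refine e2.trans ?_
  have e3 : (2 ^ 12 * Λ ^ 2 * (m * r ^ 2 / y ^ 3) + 2 * (r / y)) * (4 * y ^ 2)
      = 2 ^ 14 * Λ ^ 2 * m * r ^ 2 / y + 8 * r * y := by
    field_simp
    ring
  rw [e3]
  have e4 : 2 ^ 14 * Λ ^ 2 * m * r ^ 2 / y ≤ r ^ 2 / (8 * Λ) := by
    rw [div_le_div_iff₀ hk0 (by positivity)]
    calc 2 ^ 14 * Λ ^ 2 * m * r ^ 2 * (8 * Λ) = r ^ 2 * (2 ^ 17 * Λ ^ 3 * m) := by ring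
      _ ≤ r ^ 2 * y := mul_le_mul_of_nonneg_left hk1 (by (clear * -; positivity))
  have e5 : 8 * r * y ≤ r ^ 2 / (8 * Λ) := by
    rw [le_div_iff₀ (by positivity)]
    calc 8 * r * y * (8 * Λ) = r * (64 * Λ * y) := by ring
      _ ≤ r * r := mul_le_mul_of_nonneg_left hk2 hr0
      _ = r ^ 2 := by ring
  have e6 : r ^ 2 / (8 * Λ) + r ^ 2 / (8 * Λ) = r ^ 2 / (4 * Λ) := by field_simp; ring
  linarith only [e4, e5, e6]

open scoped Classical in
theorem light_pairs {V ι : Type} [AddCommGroup V] [Module ℝ V]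
    (I : Finset ι) (v : ι → V) (m Λ κ : ℝ)
    (hv : ∀ i ∈ I, v i ≠ 0) (hm : ∀ i ∈ I, mass I v (Submodule.span ℝ {v i}) ≤ m) (hm0 : 0 < m)
    (hΛ : 20 * (Real.log (I.card + 3) + 1) ≤ Λ) (hκ : κ = 2 ^ 18 * Λ ^ 3 * m)
    (hmr : 4 * m ≤ I.card)
    (hpl : ∀ i ∈ I, ∀ j ∈ I, 64 * Λ * mass I v (Submodule.span ℝ {v i, v j}) ≤ I.card) :
    (I.card : ℝ) ^ 2 ≤ 2 * (((I ×ˢ I).filter (fun p => v p.2 ∉ Submodule.span ℝ {v p.1} ∧
      mass I v (Submodule.span ℝ {v p.1, v p.2}) < κ)).card : ℝ) := by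
  set r : ℝ := (I.card : ℝ) with hrdef
  have hr0 : 0 ≤ r := by (clear * -; positivity)
  have hlog3 : 0 ≤ Real.log ((I.card : ℝ) + 3) := Real.log_nonneg (by
    have : (0:ℝ) ≤ I.card := by (clear * -; positivity)
    linarith only [])
  have hΛ1 : 1 ≤ Λ := by linarith only [hΛ, hlog3]
  have hΛ0 : 0 < Λ := by linarith only [hΛ, hlog3]
  have hrpos : 0 < r := by linarith
  -- three kinds of pairs
  set K := Nat.log 2 I.card + 1 with hK
  have hcov : I ×ˢ I ⊆ ((I ×ˢ I).filter (fun p => v p.2 ∉ Submodule.span ℝ {v p.1} ∧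
      mass I v (Submodule.span ℝ {v p.1, v p.2}) < κ)) ∪
      ((I ×ˢ I).filter (fun p => v p.2 ∈ Submodule.span ℝ {v p.1})) ∪
      (Finset.range K).biUnion (fun k => (I ×ˢ I).filter (fun p => v p.2 ∉ Submodule.span ℝ {v p.1} ∧
      κ ≤ mass I v (Submodule.span ℝ {v p.1, v p.2}) ∧
      (2:ℝ) ^ k ≤ mass I v (Submodule.span ℝ {v p.1, v p.2}) ∧
      mass I v (Submodule.span ℝ {v p.1, v p.2}) < (2:ℝ) ^ (k + 1))) := by
    intro p hp
    rw [mem_union, mem_union]
    by_cases h1 : v p.2 ∈ Submodule.span ℝ {v p.1}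
    · left; right
      rw [mem_filter]; exact ⟨hp, h1⟩
    · by_cases h2 : mass I v (Submodule.span ℝ {v p.1, v p.2}) < κ
      · left; left
        rw [mem_filter]; exact ⟨hp, h1, h2⟩
      · right
        push Not at h2
        rw [mem_biUnion]
        set q := (I.filter (fun i => v i ∈ Submodule.span ℝ {v p.1, v p.2})).card with hq
        have hqm : mass I v (Submodule.span ℝ {v p.1, v p.2}) = (q : ℝ) := rfl
        have hq0 : q ≠ 0 := by
          have : v p.1 ∈ Submodule.span ℝ {v p.1, v p.2} := Submodule.subset_span (by simp)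
          have h3 : p.1 ∈ I.filter (fun i => v i ∈ Submodule.span ℝ {v p.1, v p.2}) := by
            rw [mem_filter]; exact ⟨(mem_product.mp hp).1, this⟩
          exact (Finset.card_pos.mpr ⟨_, h3⟩).ne'
        have hqI : q ≤ I.card := card_filter_le _ _
        refine ⟨Nat.log 2 q, ?_, ?_⟩
        · rw [mem_range, hK]
          have := Nat.log_mono_right (b := 2) hqI
          omega
        · rw [mem_filter]
          refine ⟨hp, h1, h2, ?_, ?_⟩
          · rw [hqm]; exact_mod_cast Nat.pow_log_le_self 2 hq0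
          · rw [hqm]; exact_mod_cast Nat.lt_pow_succ_log_self (by norm_num) q
  have h1 := (card_le_card hcov).trans ((card_union_le _ _).trans
    (Nat.add_le_add_right (card_union_le _ _) _))
  rw [card_product] at h1
  have h2 : (((I ×ˢ I).filter (fun p => v p.2 ∈ Submodule.span ℝ {v p.1})).card : ℝ) ≤ r * m := by
    have h3 : ((I ×ˢ I).filter (fun p => v p.2 ∈ Submodule.span ℝ {v p.1})).card
        = ∑ i ∈ I, (I.filter (fun j => v j ∈ Submodule.span ℝ {v i})).card := by
      rw [Finset.card_filter, Finset.sum_product]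
      apply Finset.sum_congr rfl
      intro i _
      rw [Finset.card_filter]
    rw [h3]
    push_cast
    calc ∑ i ∈ I, ((I.filter (fun j => v j ∈ Submodule.span ℝ {v i})).card : ℝ) ≤ ∑ _i ∈ I, m :=
          Finset.sum_le_sum (fun i hi => hm i hi)
      _ = r * m := by rw [Finset.sum_const, nsmul_eq_mul]
  have h3 : (((Finset.range K).biUnion (fun k => (I ×ˢ I).filter
      (fun p => v p.2 ∉ Submodule.span ℝ {v p.1} ∧
      κ ≤ mass I v (Submodule.span ℝ {v p.1, v p.2}) ∧
      (2:ℝ) ^ k ≤ mass I v (Submodule.span ℝ {v p.1, v p.2}) ∧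
      mass I v (Submodule.span ℝ {v p.1, v p.2}) < (2:ℝ) ^ (k + 1)))).card : ℝ)
      ≤ K * (r ^ 2 / (4 * Λ)) := by
    calc _ ≤ ((∑ k ∈ Finset.range K, ((I ×ˢ I).filter
      (fun p => v p.2 ∉ Submodule.span ℝ {v p.1} ∧
      κ ≤ mass I v (Submodule.span ℝ {v p.1, v p.2}) ∧
      (2:ℝ) ^ k ≤ mass I v (Submodule.span ℝ {v p.1, v p.2}) ∧
      mass I v (Submodule.span ℝ {v p.1, v p.2}) < (2:ℝ) ^ (k + 1))).card : ℕ) : ℝ) := by
            exact_mod_cast card_biUnion_le
      _ ≤ ∑ _k ∈ Finset.range K, (r ^ 2 / (4 * Λ)) := by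
            push_cast
            apply Finset.sum_le_sum
            intro k _
            exact dyadic_level I v m Λ κ hv hm hm0 hΛ hκ hpl k
      _ = K * (r ^ 2 / (4 * Λ)) := by
            rw [Finset.sum_const, nsmul_eq_mul, card_range]
  have h4 : (K : ℝ) ≤ Λ := by
    have hI1 : 1 ≤ I.card := by
      have : (0:ℝ) < I.card := hrpos
      exact_mod_cast this
    have h5 : (Nat.log 2 I.card : ℝ) * Real.log 2 ≤ Real.log (I.card : ℝ) := by
      have h6 : (2:ℝ) ^ (Nat.log 2 I.card) ≤ I.card := by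
        exact_mod_cast Nat.pow_log_le_self 2 (by (clear * - hI1; omega))
      have h7 := Real.log_le_log (by positivity) h6
      rwa [Real.log_pow] at h7
    have h8 : Real.log (I.card : ℝ) ≤ Real.log ((I.card : ℝ) + 3) :=
      Real.log_le_log (by exact_mod_cast hI1) (by linarith only [])
    have h9 := Real.log_two_gt_d9
    have h10 : (0:ℝ) ≤ (Nat.log 2 I.card : ℝ) := by (clear * -; positivity)
    rw [hK]
    push_cast
    nlinarith only [hΛ, h5, h8, h9]
  have h5 : (K : ℝ) * (r ^ 2 / (4 * Λ)) ≤ r ^ 2 / 4 := by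
    calc (K : ℝ) * (r ^ 2 / (4 * Λ)) ≤ Λ * (r ^ 2 / (4 * Λ)) :=
          mul_le_mul_of_nonneg_right h4 (by (clear * - hΛ1 hrpos; positivity))
      _ = r ^ 2 / 4 := by (clear * - hΛ1 hrpos; field_simp)
  have h6 : r * m ≤ r ^ 2 / 4 := by nlinarith
  have h7 : r ^ 2 ≤ (((I ×ˢ I).filter (fun p => v p.2 ∉ Submodule.span ℝ {v p.1} ∧
      mass I v (Submodule.span ℝ {v p.1, v p.2}) < κ)).card : ℝ) +
      (((I ×ˢ I).filter (fun p => v p.2 ∈ Submodule.span ℝ {v p.1})).card : ℝ) +
      (((Finset.range K).biUnion (fun k => (I ×ˢ I).filter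
      (fun p => v p.2 ∉ Submodule.span ℝ {v p.1} ∧
      κ ≤ mass I v (Submodule.span ℝ {v p.1, v p.2}) ∧
      (2:ℝ) ^ k ≤ mass I v (Submodule.span ℝ {v p.1, v p.2}) ∧
      mass I v (Submodule.span ℝ {v p.1, v p.2}) < (2:ℝ) ^ (k + 1)))).card : ℝ) := by
    rw [pow_two, hrdef]
    exact_mod_cast h1
  linarith only [h2, h3, h5, h6, h7]

end Vale.Agent.P054K
end

section

set_option autoImplicit false

open Finset

namespace Vale.Agent.P054K

/-- bound for the number of `w`-dimensional subspaces rich in the given vectors -/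
def ETProp (w : ℕ) (K : ℝ) (c : ℕ) : Prop :=
  ∀ (V ι : Type) [AddCommGroup V] [Module ℝ V] [FiniteDimensional ℝ V]
    (I : Finset ι) (v : ι → V) (m M ρ Λ : ℝ) (Z : Finset (Submodule ℝ V)),
    (∀ i ∈ I, v i ≠ 0) → (∀ i ∈ I, mass I v (Submodule.span ℝ {v i}) ≤ m) → 0 < m →
    (I.card : ℝ) ≤ M → 20 * (Real.log (M + 3) + 1) ≤ Λ → K * Λ ^ c * m ≤ ρ →
    (∀ A ∈ Z, Module.finrank ℝ A = w ∧ ρ ≤ mass I v A ∧
      ∀ B : Submodule ℝ V, B < A → K * Λ ^ c * mass I v B ≤ mass I v A) →
    (Z.card : ℝ) ≤ K * Λ ^ c * (M ^ w * m / ρ ^ (w + 1) + M ^ (w - 1) / ρ ^ (w - 1))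

theorem et_base : ETProp 2 (2 ^ 12) 2 := by
  intro V ι _ _ _ I v m M ρ Λ Z hv hm hm0 hM hΛ hρ hZ
  have hI0 : (0:ℝ) ≤ I.card := by (clear * -; positivity)
  have hM0 : 0 ≤ M := hI0.trans hM
  have hlog : 0 ≤ Real.log (M + 3) := Real.log_nonneg (by linarith only [hM])
  have hlog1 : Real.log ((I.card : ℝ) + 1) ≤ Real.log (M + 3) :=
    Real.log_le_log (by positivity) (by linarith only [hM])
  have hΛ1 : 1 ≤ Λ := by linarith
  have hκ : 64 * m * Λ ≤ ρ := by
    refine le_trans ?_ hρ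
    have h1 : Λ ≤ Λ ^ 2 := by nlinarith only [hΛ, hlog]
    have h2 : m * Λ ≤ m * Λ ^ 2 := mul_le_mul_of_nonneg_left h1 hm0.le
    have h3 : 0 ≤ m * Λ ^ 2 := by positivity
    linarith only [h2, h3]
  have hρ0 : 0 < ρ := lt_of_lt_of_le (by positivity) hκ
  have h := linearST I v m ρ Λ hv hm hm0 Z (fun A hA => ⟨(hZ A hA).1, (hZ A hA).2.1⟩)
    (by linarith) hκ
  refine h.trans ?_
  have h1 : m * (I.card:ℝ) ^ 2 / ρ ^ 3 ≤ M ^ 2 * m / ρ ^ (2 + 1) := by
    apply div_le_div_of_nonneg_right _ (by positivity)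
    have : (I.card:ℝ) ^ 2 ≤ M ^ 2 := pow_le_pow_left₀ hI0 hM 2
    nlinarith only [hm0, this]
  have h2 : (I.card : ℝ) / ρ ≤ M ^ (2 - 1) / ρ ^ (2 - 1) := by
    simp only [Nat.add_one_sub_one, pow_one]
    exact div_le_div_of_nonneg_right hM hρ0.le
  have h3 : (0:ℝ) ≤ (I.card : ℝ) / ρ := by (clear * - hρ0; positivity)
  have h4 : (2:ℝ) ≤ 2 ^ 12 * Λ ^ 2 := by nlinarith only [hΛ, hlog]
  calc 2 ^ 12 * Λ ^ 2 * (m * (I.card:ℝ) ^ 2 / ρ ^ 3) + 2 * (I.card / ρ)
      ≤ 2 ^ 12 * Λ ^ 2 * (M ^ 2 * m / ρ ^ (2 + 1)) + 2 ^ 12 * Λ ^ 2 * (M ^ (2 - 1) / ρ ^ (2 - 1)) := by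
        apply add_le_add
        · exact mul_le_mul_of_nonneg_left h1 (by positivity)
        · exact mul_le_mul h4 h2 h3 (by positivity)
    _ = _ := by ring

theorem finrank_map_mkQ {V : Type} [AddCommGroup V] [Module ℝ V] [FiniteDimensional ℝ V]
    (x : V) (hx : x ≠ 0) (A : Submodule ℝ V) (hA : x ∈ A) :
    Module.finrank ℝ (A.map (Submodule.span ℝ {x}).mkQ) + 1 = Module.finrank ℝ A := by
  set W := Submodule.span ℝ {x} with hW
  have hWA : W ≤ A := by
    rw [hW, Submodule.span_le]; intro y hy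
    rw [Set.mem_singleton_iff] at hy; rw [hy]; exact hA
  have h1 := LinearMap.finrank_range_add_finrank_ker (W.mkQ.comp A.subtype)
  rw [LinearMap.range_comp, Submodule.range_subtype, LinearMap.ker_comp, Submodule.ker_mkQ] at h1
  rw [← h1]
  congr 1
  rw [LinearEquiv.finrank_eq (Submodule.comapSubtypeEquivOfLe hWA), hW, finrank_span_singleton hx]

open scoped Classical in
theorem mass_restrict {V ι : Type} [AddCommGroup V] [Module ℝ V] (I : Finset ι) (v : ι → V)
    (A B : Submodule ℝ V) (h : B ≤ A) : mass (I.filter (fun i => v i ∈ A)) v B = mass I v B := by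
  unfold mass
  congr 2
  rw [Finset.filter_filter]
  apply Finset.filter_congr
  intro i _
  constructor
  · rintro ⟨_, h2⟩; exact h2
  · intro h2; exact ⟨h h2, h2⟩

/-- partners of `i` spanning a light plane with it -/
noncomputable def partners {V ι : Type} [AddCommGroup V] [Module ℝ V] (I : Finset ι) (v : ι → V)
    (κ : ℝ) (i : ι) : Finset ι :=
  open scoped Classical in
  I.filter (fun j => v j ∉ Submodule.span ℝ {v i} ∧ mass I v (Submodule.span ℝ {v i, v j}) < κ)

open scoped Classical in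
/-- many good centres in a nondegenerate subspace -/
theorem good_centres {V ι : Type} [AddCommGroup V] [Module ℝ V]
    (I : Finset ι) (v : ι → V) (m Λ κ : ℝ) (A : Submodule ℝ V)
    (hv : ∀ i ∈ I, v i ≠ 0) (hm : ∀ i ∈ I, mass I v (Submodule.span ℝ {v i}) ≤ m) (hm0 : 0 < m)
    (hΛ : 20 * (Real.log (I.card + 3) + 1) ≤ Λ) (hκ : κ = 2 ^ 18 * Λ ^ 3 * m)
    (hmr : 4 * m ≤ mass I v A)
    (hpl : ∀ i ∈ I, ∀ j ∈ I, v i ∈ A → v j ∈ A →
      64 * Λ * mass I v (Submodule.span ℝ {v i, v j}) ≤ mass I v A) :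
    mass I v A ≤ 4 * (((I.filter (fun i => v i ∈ A ∧
      mass I v A ≤ 4 * mass (partners I v κ i) v A)).card : ℕ) : ℝ) := by
  set IA := I.filter (fun i => v i ∈ A) with hIA
  have hcard : (IA.card : ℝ) = mass I v A := rfl
  have hspan : ∀ i ∈ IA, ∀ j ∈ IA, Submodule.span ℝ {v i, v j} ≤ A := by
    intro i hi j hj
    rw [Submodule.span_le]
    intro y hy
    simp only [Set.mem_insert_iff, Set.mem_singleton_iff] at hy
    rcases hy with rfl | rfl
    · exact (mem_filter.mp hi).2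
    · exact (mem_filter.mp hj).2
  have hIc : (IA.card : ℝ) ≤ I.card := by exact_mod_cast card_filter_le _ _
  have hlight := light_pairs IA v m Λ κ (fun i hi => hv i (mem_filter.mp hi).1)
    (fun i hi => (mass_mono (filter_subset _ _) v le_rfl).trans (hm i (mem_filter.mp hi).1)) hm0
    (by
      refine le_trans ?_ hΛ
      have : Real.log ((IA.card:ℝ) + 3) ≤ Real.log ((I.card:ℝ) + 3) :=
        Real.log_le_log (by (clear * -; positivity)) (by linarith only [hIc])
      linarith only [this]) hκ (by rw [hcard]; exact hmr)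
    (by
      intro i hi j hj
      rw [hcard, mass_restrict I v A _ (hspan i hi j hj)]
      exact hpl i (mem_filter.mp hi).1 j (mem_filter.mp hj).1 (mem_filter.mp hi).2
        (mem_filter.mp hj).2)
  set r := mass I v A with hr
  rw [hcard] at hlight
  have h1 : ((IA ×ˢ IA).filter (fun p => v p.2 ∉ Submodule.span ℝ {v p.1} ∧
      mass IA v (Submodule.span ℝ {v p.1, v p.2}) < κ)).card
      = ∑ i ∈ IA, (IA.filter (fun j => v j ∉ Submodule.span ℝ {v i} ∧
        mass IA v (Submodule.span ℝ {v i, v j}) < κ)).card := by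
    rw [Finset.card_filter, Finset.sum_product]
    apply Finset.sum_congr rfl
    intro i _
    rw [Finset.card_filter]
  have h2 : ∀ i ∈ IA, ((IA.filter (fun j => v j ∉ Submodule.span ℝ {v i} ∧
        mass IA v (Submodule.span ℝ {v i, v j}) < κ)).card : ℝ) = mass (partners I v κ i) v A := by
    intro i hi
    unfold mass partners
    congr 2
    rw [hIA, Finset.filter_filter, Finset.filter_filter]
    apply Finset.filter_congr
    intro j hj
    constructor
    · rintro ⟨h3, h4, h5⟩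
      have h6 : mass IA v (Submodule.span ℝ {v i, v j}) = mass I v (Submodule.span ℝ {v i, v j}) :=
        mass_restrict I v A _ (hspan i hi j (mem_filter.mpr ⟨hj, h3⟩))
      exact ⟨⟨h4, by rw [← h6]; exact h5⟩, h3⟩
    · rintro ⟨⟨h4, h5⟩, h3⟩
      have h6 : mass IA v (Submodule.span ℝ {v i, v j}) = mass I v (Submodule.span ℝ {v i, v j}) :=
        mass_restrict I v A _ (hspan i hi j (mem_filter.mpr ⟨hj, h3⟩))
      exact ⟨h3, h4, by
        have h7 : mass IA v (Submodule.span ℝ {v i, v j}) < κ := by rw [h6]; exact h5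
        exact h7⟩
  rw [h1] at hlight
  push_cast at hlight
  rw [Finset.sum_congr rfl h2] at hlight
  have h3 : I.filter (fun i => v i ∈ A ∧ r ≤ 4 * mass (partners I v κ i) v A)
      = IA.filter (fun i => r ≤ 4 * mass (partners I v κ i) v A) := by
    rw [hIA, Finset.filter_filter]
  rw [h3]
  set G := IA.filter (fun i => r ≤ 4 * mass (partners I v κ i) v A) with hG
  have hr0 : 0 < r := by linarith only [hm0, hmr]
  have h4 : ∑ i ∈ IA, mass (partners I v κ i) v A ≤ G.card * r + r * (r / 4) := by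
    rw [← Finset.sum_filter_add_sum_filter_not IA (fun i => r ≤ 4 * mass (partners I v κ i) v A)]
    apply add_le_add
    · rw [← nsmul_eq_mul]
      apply Finset.sum_le_card_nsmul
      intro i _
      exact mass_mono (by unfold partners; exact filter_subset _ _) v le_rfl
    · calc ∑ i ∈ IA with ¬ r ≤ 4 * mass (partners I v κ i) v A, mass (partners I v κ i) v A
          ≤ ∑ _i ∈ IA with ¬ r ≤ 4 * mass (partners I v κ _i) v A, r / 4 := by
            apply Finset.sum_le_sum
            intro i hi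
            have := (mem_filter.mp hi).2
            push Not at this
            linarith only [this]
        _ = ((IA.filter (fun i => ¬ r ≤ 4 * mass (partners I v κ i) v A)).card : ℝ) * (r / 4) := by
            rw [Finset.sum_const, nsmul_eq_mul]
        _ ≤ r * (r / 4) := by
            apply mul_le_mul_of_nonneg_right _ (by linarith only [hm0, hmr])
            rw [← hcard]
            exact_mod_cast card_filter_le _ _
  have h5 : r * r ≤ r * (4 * (G.card : ℝ)) := by linarith only [hlight, h4]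
  exact le_of_mul_le_mul_left h5 hr0

end Vale.Agent.P054K
end

section

set_option autoImplicit false

open Finset

namespace Vale.Agent.P054K

open scoped Classical in
/-- the projected configuration seen from `v i` -/
theorem et_local {w : ℕ} {K : ℝ} {c : ℕ} (h : ETProp w K c)
    {V ι : Type} [AddCommGroup V] [Module ℝ V] [FiniteDimensional ℝ V]
    (I : Finset ι) (v : ι → V) (M ρ Λ κ : ℝ) (Z : Finset (Submodule ℝ V)) (i : ι) (hi : i ∈ I)
    (hv : ∀ i ∈ I, v i ≠ 0) (hκ0 : 0 < κ)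
    (hM : (I.card : ℝ) ≤ M) (hΛ : 20 * (Real.log (M + 3) + 1) ≤ Λ)
    (hρ : K * Λ ^ c * κ ≤ ρ)
    (hZ : ∀ A ∈ Z, v i ∈ A ∧ Module.finrank ℝ A = w + 1 ∧
      ρ ≤ mass (partners I v κ i) v A ∧
      ∀ B : Submodule ℝ V, B < A → K * Λ ^ c * mass (partners I v κ i) v B ≤
        mass (partners I v κ i) v A) :
    (Z.card : ℝ) ≤ K * Λ ^ c * (M ^ w * κ / ρ ^ (w + 1) + M ^ (w - 1) / ρ ^ (w - 1)) := by
  set W := Submodule.span ℝ {v i} with hW
  have hWle : ∀ A ∈ Z, W ≤ A := by
    intro A hA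
    rw [hW, Submodule.span_le]
    intro y hy
    rw [Set.mem_singleton_iff] at hy
    rw [hy]; exact (hZ A hA).1
  have hcm : ∀ A ∈ Z, (A.map W.mkQ).comap W.mkQ = A := by
    intro A hA
    rw [Submodule.comap_map_mkQ, sup_eq_right]
    exact hWle A hA
  have hinj : Set.InjOn (fun A : Submodule ℝ V => A.map W.mkQ) (Z : Set (Submodule ℝ V)) := by
    intro A hA A' hA' hAA
    simp only at hAA
    rw [← hcm A hA, ← hcm A' hA', hAA]
  have hmass : ∀ (J : Finset ι) (B' : Submodule ℝ (V ⧸ W)),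
      mass J (fun j => W.mkQ (v j)) B' = mass J v (B'.comap W.mkQ) := by
    intro J B'
    rfl
  have hpsub : partners I v κ i ⊆ I := by unfold partners; exact filter_subset _ _
  have hpm : ∀ j ∈ partners I v κ i, v j ∉ W ∧
      mass I v (Submodule.span ℝ {v i, v j}) < κ := by
    intro j hj
    unfold partners at hj
    exact (mem_filter.mp hj).2
  have h1 := h (V ⧸ W) ι (partners I v κ i) (fun j => W.mkQ (v j)) κ M ρ Λ
    (Z.image (fun A => A.map W.mkQ))
    (by
      intro j hj hzero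
      have h2 : v j ∈ LinearMap.ker W.mkQ := hzero
      rw [Submodule.ker_mkQ] at h2
      exact (hpm j hj).1 h2)
    (by
      intro j hj
      rw [hmass]
      refine le_trans (mass_mono hpsub v ?_) (hpm j hj).2.le
      intro y hy
      rw [Submodule.mem_comap, Submodule.mem_span_singleton] at hy
      obtain ⟨a, ha⟩ := hy
      have h2 : y - a • v j ∈ LinearMap.ker W.mkQ := by
        rw [LinearMap.mem_ker, map_sub, map_smul, ← ha, sub_self]
      rw [Submodule.ker_mkQ, hW, Submodule.mem_span_singleton] at h2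
      obtain ⟨b, hb⟩ := h2
      rw [Submodule.mem_span_pair]
      exact ⟨b, a, by rw [hb]; abel⟩)
    hκ0
    (le_trans (by exact_mod_cast card_le_card hpsub) hM) hΛ hρ
    (by
      intro A' hA'
      rw [mem_image] at hA'
      obtain ⟨A, hA, rfl⟩ := hA'
      obtain ⟨h2, h3, h4, h5⟩ := hZ A hA
      refine ⟨?_, ?_, ?_⟩
      · have h6 := finrank_map_mkQ (v i) (hv i hi) A h2
        rw [h3] at h6
        exact Nat.succ_injective h6
      · rw [hmass, hcm A hA]; exact h4
      · intro B' hB'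
        rw [hmass, hmass, hcm A hA]
        apply h5
        have h6 : B'.comap W.mkQ < (A.map W.mkQ).comap W.mkQ := by
          refine lt_of_le_of_ne (Submodule.comap_mono hB'.le) ?_
          intro heq
          have h7 := congrArg (Submodule.map W.mkQ) heq
          rw [Submodule.map_comap_eq_of_surjective (Submodule.mkQ_surjective W),
            Submodule.map_comap_eq_of_surjective (Submodule.mkQ_surjective W)] at h7
          exact hB'.ne h7
        rw [hcm A hA] at h6
        exact h6)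
  rw [Finset.card_image_of_injOn hinj] at h1
  exact h1

/-- numerics of the induction step -/
theorem et_numeric (k c : ℕ) (K M m ρ Λ N : ℝ) (hK : 1 ≤ K) (hM : 0 ≤ M) (hm : 0 < m) (hρ : 0 < ρ)
    (hΛ : 1 ≤ Λ)
    (h : N * (ρ / 4) ≤ M * (K * Λ ^ c * (M ^ (k + 1) * (2 ^ 18 * Λ ^ 3 * m) / (ρ / 4) ^ (k + 1 + 1) +
      M ^ k / (ρ / 4) ^ k))) :
    N ≤ (K * 4 ^ (k + 1 + 2) * 2 ^ 20) * Λ ^ (c + 3) *
      (M ^ (k + 1 + 1) * m / ρ ^ (k + 1 + 1 + 1) + M ^ (k + 1) / ρ ^ (k + 1)) := by
  have h1 : N ≤ (4 / ρ) * (M * (K * Λ ^ c * (M ^ (k + 1) * (2 ^ 18 * Λ ^ 3 * m) / (ρ / 4) ^ (k + 1 + 1) +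
      M ^ k / (ρ / 4) ^ k))) := by
    calc N = (4 / ρ) * (N * (ρ / 4)) := by field_simp
      _ ≤ _ := mul_le_mul_of_nonneg_left h (by positivity)
  refine h1.trans ?_
  have e1 : (4 / ρ) * (M * (K * Λ ^ c * (M ^ (k + 1) * (2 ^ 18 * Λ ^ 3 * m) / (ρ / 4) ^ (k + 1 + 1) +
      M ^ k / (ρ / 4) ^ k)))
      = (K * 4 ^ (k + 1 + 2) * 2 ^ 18) * Λ ^ (c + 3) * (M ^ (k + 1 + 1) * m / ρ ^ (k + 1 + 1 + 1)) +
        (K * 4 ^ (k + 1)) * Λ ^ c * (M ^ (k + 1) / ρ ^ (k + 1)) := by
    rw [div_pow, div_pow]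
    field_simp
    ring
  rw [e1, mul_add]
  apply add_le_add
  · apply mul_le_mul_of_nonneg_right _ (by positivity)
    apply mul_le_mul_of_nonneg_right _ (by positivity)
    apply mul_le_mul_of_nonneg_left _ (by positivity)
    norm_num
  · apply mul_le_mul_of_nonneg_right _ (by positivity)
    have h2 : Λ ^ c ≤ Λ ^ (c + 3) := pow_le_pow_right₀ hΛ (by omega)
    have h3 : K * 4 ^ (k + 1) ≤ K * 4 ^ (k + 1 + 2) * 2 ^ 20 := by
      have : (4:ℝ) ^ (k + 1 + 2) = 16 * 4 ^ (k + 1) := by ring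
      rw [this]
      have h4 : 0 < K * 4 ^ (k + 1) := by positivity
      linarith only [h4]
    exact mul_le_mul h3 h2 (by positivity) (by positivity)

open scoped Classical in
theorem et_step {w : ℕ} {K : ℝ} {c : ℕ} (hw : 2 ≤ w) (hK : 1 ≤ K) (h : ETProp w K c) :
    ETProp (w + 1) (K * 4 ^ (w + 2) * 2 ^ 20) (c + 3) := by
  intro V ι _ _ _ I v m M ρ Λ Z hv hm hm0 hM hΛ hρ hZ
  have hI0 : (0:ℝ) ≤ I.card := by (clear * -; positivity)
  have hM0 : 0 ≤ M := hI0.trans hM
  have hlog : 0 ≤ Real.log (M + 3) := Real.log_nonneg (by linarith only [hM])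
  have hlog1 : Real.log ((I.card : ℝ) + 3) ≤ Real.log (M + 3) :=
    Real.log_le_log (by (clear * -; positivity)) (by linarith only [hM])
  have hΛ1 : 1 ≤ Λ := by linarith only [hΛ, hlog]
  set κ : ℝ := 2 ^ 18 * Λ ^ 3 * m with hκ
  have hκ0 : 0 < κ := by positivity
  set K' : ℝ := K * 4 ^ (w + 2) * 2 ^ 20 with hK'
  -- size of the constant
  have h4w : (16:ℝ) ≤ 4 ^ (w + 2) := by
    calc (16:ℝ) = 4 ^ 2 := by norm_num
      _ ≤ 4 ^ (w + 2) := pow_le_pow_right₀ (by norm_num) (by omega)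
  have hF1 : 4 * (K * Λ ^ c * (2 ^ 18 * Λ ^ 3)) ≤ K' * Λ ^ (c + 3) := by
    have e : Λ ^ (c + 3) = Λ ^ c * Λ ^ 3 := pow_add _ _ _
    rw [hK', e]
    have h1 : 0 < K * (Λ ^ c * Λ ^ 3) := by positivity
    nlinarith only [h1, h4w]
  have hF2 : 64 * Λ ≤ K' * Λ ^ (c + 3) := by
    refine le_trans ?_ hF1
    have h1 : Λ ≤ Λ ^ (c + 3) := by
      calc Λ = Λ ^ 1 := (pow_one Λ).symm
        _ ≤ Λ ^ (c + 3) := pow_le_pow_right₀ hΛ1 (by omega)
    have h2 : Λ ^ (c + 3) ≤ K * Λ ^ (c + 3) := le_mul_of_one_le_left (by positivity) hK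
    have h3 : 4 * (K * Λ ^ c * (2 ^ 18 * Λ ^ 3)) = 2 ^ 20 * (K * Λ ^ (c + 3)) := by
      rw [pow_add]; ring
    rw [h3]
    linarith only [hΛ, hlog, h1, h2]
  have hF3 : 4 * (K * Λ ^ c) ≤ K' * Λ ^ (c + 3) := by
    refine le_trans ?_ hF1
    have h1 : (1:ℝ) ≤ 2 ^ 18 * Λ ^ 3 := by
      have : (1:ℝ) ≤ Λ ^ 3 := one_le_pow₀ hΛ1
      linarith only [this]
    have h2 : 0 ≤ K * Λ ^ c := by positivity
    nlinarith only [h1, h2]
  have hρ4 : K * Λ ^ c * κ ≤ ρ / 4 := by
    have h1 := mul_le_mul_of_nonneg_right hF1 hm0.le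
    rw [hκ]
    linarith only [hρ, h1]
  have hρ0 : 0 < ρ := by
    refine lt_of_lt_of_le ?_ hρ
    have : 0 < K' := by positivity
    positivity
  have h4m : 4 * m ≤ ρ := by
    refine le_trans ?_ hρ
    have h1 : 4 ≤ K' * Λ ^ (c + 3) := by
      refine le_trans ?_ hF2
      linarith only [hΛ, hlog]
    exact mul_le_mul_of_nonneg_right h1 hm0.le
  -- good centres
  have hgood : ∀ A ∈ Z, ρ ≤ 4 * (((I.filter (fun i => v i ∈ A ∧
      mass I v A ≤ 4 * mass (partners I v κ i) v A)).card : ℕ) : ℝ) := by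
    intro A hA
    obtain ⟨h1, h2, h3⟩ := hZ A hA
    refine h2.trans (good_centres I v m Λ κ A hv hm hm0 (by linarith only [hΛ, hlog1]) hκ (h4m.trans h2) ?_)
    intro i _ j _ hiA hjA
    have hlt : Submodule.span ℝ {v i, v j} < A := by
      refine lt_of_le_of_ne ?_ ?_
      · rw [Submodule.span_le]
        intro y hy
        simp only [Set.mem_insert_iff, Set.mem_singleton_iff] at hy
        rcases hy with rfl | rfl
        · exact hiA
        · exact hjA
      · intro heq
        have h4 : Module.finrank ℝ (Submodule.span ℝ {v i, v j}) ≤ 2 := by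
          have h5 : ({v i, v j} : Set V) = ((({v i, v j} : Finset V)) : Set V) := by simp
          rw [h5]
          exact (finrank_span_finset_le_card _).trans Finset.card_le_two
        rw [heq, h1] at h4
        omega
    have h4 := h3 _ hlt
    refine le_trans ?_ h4
    exact mul_le_mul_of_nonneg_right hF2 (mass_nonneg _ _ _)
  -- local bounds
  have hloc : ∀ i ∈ I, ((Z.filter (fun A => v i ∈ A ∧
      mass I v A ≤ 4 * mass (partners I v κ i) v A)).card : ℝ) ≤
      K * Λ ^ c * (M ^ w * κ / (ρ / 4) ^ (w + 1) + M ^ (w - 1) / (ρ / 4) ^ (w - 1)) := by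
    intro i hi
    apply et_local h I v M (ρ / 4) Λ κ _ i hi hv hκ0 hM hΛ hρ4
    intro A hA
    rw [mem_filter] at hA
    obtain ⟨hAZ, hiA, hA4⟩ := hA
    obtain ⟨h1, h2, h3⟩ := hZ A hAZ
    refine ⟨hiA, h1, by linarith only [hA4, h2], ?_⟩
    intro B hB
    have h5 := h3 B hB
    have hpsub : partners I v κ i ⊆ I := by unfold partners; exact filter_subset _ _
    have h6 : mass (partners I v κ i) v B ≤ mass I v B := mass_mono hpsub v le_rfl
    have h7 : K * Λ ^ c * mass (partners I v κ i) v B ≤ K * Λ ^ c * mass I v B :=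
      mul_le_mul_of_nonneg_left h6 (by positivity)
    have h8 := mul_le_mul_of_nonneg_right hF3 (mass_nonneg I v B)
    linarith only [hA4, h5, h7, h8]
  -- double counting
  have hdc : ∑ A ∈ Z, (((I.filter (fun i => v i ∈ A ∧
      mass I v A ≤ 4 * mass (partners I v κ i) v A)).card : ℕ) : ℝ)
      = ∑ i ∈ I, ((Z.filter (fun A => v i ∈ A ∧
      mass I v A ≤ 4 * mass (partners I v κ i) v A)).card : ℝ) := by
    have h1 : ∑ A ∈ Z, (I.filter (fun i => v i ∈ A ∧
      mass I v A ≤ 4 * mass (partners I v κ i) v A)).card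
      = ∑ i ∈ I, (Z.filter (fun A => v i ∈ A ∧
      mass I v A ≤ 4 * mass (partners I v κ i) v A)).card := by
      simp only [Finset.card_filter]
      rw [Finset.sum_comm]
    exact_mod_cast h1
  have hlow : (Z.card : ℝ) * (ρ / 4) ≤ ∑ A ∈ Z, (((I.filter (fun i => v i ∈ A ∧
      mass I v A ≤ 4 * mass (partners I v κ i) v A)).card : ℕ) : ℝ) := by
    rw [← nsmul_eq_mul]
    apply Finset.card_nsmul_le_sum
    intro A hA
    have := hgood A hA
    linarith only [this]
  have hRHS0 : 0 ≤ K * Λ ^ c * (M ^ w * κ / (ρ / 4) ^ (w + 1) + M ^ (w - 1) / (ρ / 4) ^ (w - 1)) := by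
    (clear * - hK hm0 hM0 hΛ1 hρ0; positivity)
  have hup : ∑ i ∈ I, ((Z.filter (fun A => v i ∈ A ∧
      mass I v A ≤ 4 * mass (partners I v κ i) v A)).card : ℝ) ≤
      M * (K * Λ ^ c * (M ^ w * κ / (ρ / 4) ^ (w + 1) + M ^ (w - 1) / (ρ / 4) ^ (w - 1))) := by
    refine (Finset.sum_le_card_nsmul _ _ _ hloc).trans ?_
    rw [nsmul_eq_mul]
    exact mul_le_mul_of_nonneg_right hM hRHS0
  have htot := hlow.trans (hdc.le.trans hup)
  obtain ⟨k, rfl⟩ : ∃ k, w = k + 1 := ⟨w - 1, by omega⟩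
  simp only [Nat.add_sub_cancel] at htot ⊢
  exact et_numeric k c K M m ρ Λ _ hK hM0 hm0 hρ0 hΛ1 htot

theorem elekesToth (w : ℕ) (hw : 2 ≤ w) : ∃ (K : ℝ) (c : ℕ), 1 ≤ K ∧ ETProp w K c := by
  induction w, hw using Nat.le_induction with
  | base => exact ⟨2 ^ 12, 2, by norm_num, et_base⟩
  | succ w hw ih =>
    obtain ⟨K, c, hK, h⟩ := ih
    refine ⟨_, _, ?_, et_step hw hK h⟩
    have h1 : (1:ℝ) ≤ 4 ^ (w + 2) := one_le_pow₀ (by norm_num)
    have h2 : 1 ≤ K * 4 ^ (w + 2) := by nlinarith only [hK, h1]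
    linarith only [h2]

end Vale.Agent.P054K
end

section

set_option autoImplicit false

open Finset

namespace Vale.Agent.P054K

/-- smooth curve on a sphere joining two points -/
theorem exists_curve {E : Type} [NormedAddCommGroup E] [InnerProductSpace ℝ E]
    [FiniteDimensional ℝ E] (hE : 2 ≤ Module.finrank ℝ E) (ω b : E) (r : ℝ)
    (hω : ‖ω‖ = r) (hb : ‖b‖ = r) :
    ∃ γ : ℝ → E, ContDiff ℝ 1 γ ∧ γ 0 = ω ∧ γ 1 = b ∧ ∀ u, ‖γ u‖ = r := by
  rcases eq_or_ne ω 0 with h0 | h0
  · subst h0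
    have hr : r = 0 := by rw [← hω]; simp
    have hb0 : b = 0 := by rw [← norm_eq_zero, hb, hr]
    refine ⟨fun _ => 0, contDiff_const, rfl, hb0.symm, fun u => by simp [hr]⟩
  have hr : 0 < r := by rw [← hω]; exact norm_pos_iff.mpr h0
  -- there is a unit vector `e` orthogonal to ω with b ∈ span {ω, e}
  have key : ∃ e : E, ‖e‖ = 1 ∧ inner ℝ ω e = 0 ∧ ∃ α β : ℝ, b = α • ω + β • e := by
    set α : ℝ := inner ℝ ω b / r ^ 2 with hα
    set b' : E := b - α • ω with hb'
    have horth : inner ℝ ω b' = 0 := by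
      rw [hb', inner_sub_right, inner_smul_right, real_inner_self_eq_norm_sq, hω, hα]
      field_simp
      ring
    rcases eq_or_ne b' 0 with h | h
    · -- choose any unit vector orthogonal to ω
      have hfin : 0 < Module.finrank ℝ (ℝ ∙ ω)ᗮ := by
        have h1 := Submodule.finrank_add_finrank_orthogonal (ℝ ∙ ω)
        have h2 : Module.finrank ℝ (ℝ ∙ ω) = 1 := finrank_span_singleton h0
        omega
      have : Nontrivial (ℝ ∙ ω)ᗮ := Module.finrank_pos_iff.mp hfin
      obtain ⟨v, hv⟩ := exists_ne (0 : (ℝ ∙ ω)ᗮ)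
      have hv' : (v : E) ≠ 0 := by simpa using hv
      refine ⟨(‖(v:E)‖⁻¹) • (v:E), ?_, ?_, α, 0, ?_⟩
      · rw [norm_smul, norm_inv, norm_norm, inv_mul_cancel₀ (norm_ne_zero_iff.mpr hv')]
      · rw [inner_smul_right]
        have := (Submodule.mem_orthogonal_singleton_iff_inner_right.mp v.2)
        rw [this]; simp
      · have : b = α • ω := by rw [← sub_eq_zero]; exact h
        simpa only [zero_smul, add_zero] using this
    · refine ⟨(‖b'‖⁻¹) • b', ?_, ?_, α, ‖b'‖, ?_⟩
      · rw [norm_smul, norm_inv, norm_norm, inv_mul_cancel₀ (norm_ne_zero_iff.mpr h)]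
      · rw [inner_smul_right, horth]; simp
      · rw [smul_smul, mul_inv_cancel₀ (norm_ne_zero_iff.mpr h), one_smul, hb']; abel
  obtain ⟨e, he, hωe, α, β, hbe⟩ := key
  have hsq : ∀ x y : ℝ, ‖x • ω + y • e‖ ^ 2 = x ^ 2 * r ^ 2 + y ^ 2 := by
    intro x y
    rw [norm_add_sq_real, norm_smul, norm_smul, inner_smul_left, inner_smul_right, hωe, hω, he]
    simp [mul_pow]
  have hab : α ^ 2 * r ^ 2 + β ^ 2 = r ^ 2 := by
    rw [← hsq, ← hbe, hb]
  -- angle
  have hz : ‖(⟨α, β / r⟩ : ℂ)‖ = 1 := by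
    rw [Complex.norm_eq_sqrt_sq_add_sq]
    have : α ^ 2 + (β / r) ^ 2 = 1 := by
      field_simp
      linarith only [hab]
    simp [this]
  have hz0 : (⟨α, β / r⟩ : ℂ) ≠ 0 := by
    intro h; rw [h] at hz; simp at hz
  set θ : ℝ := Complex.arg ⟨α, β / r⟩ with hθ
  have hc : Real.cos θ = α := by
    rw [hθ, Complex.cos_arg hz0, hz]; simp
  have hs : Real.sin θ = β / r := by
    rw [hθ, Complex.sin_arg, hz]; simp
  refine ⟨fun u => Real.cos (u * θ) • ω + (r * Real.sin (u * θ)) • e, ?_, ?_, ?_, ?_⟩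
  · fun_prop
  · simp
  · simp only [one_mul, hc, hs]
    rw [hbe]
    congr 2
    (clear * - hr; field_simp)
  · intro u
    have h1 : ‖Real.cos (u * θ) • ω + (r * Real.sin (u * θ)) • e‖ ^ 2 = r ^ 2 := by
      rw [hsq, mul_pow]
      have := Real.sin_sq_add_cos_sq (u * θ)
      nlinarith only [this]
    have h2 := norm_nonneg (Real.cos (u * θ) • ω + (r * Real.sin (u * θ)) • e)
    exact (pow_left_inj₀ h2 hr.le two_ne_zero).mp h1

/-- generic perturbation -/
theorem exists_perturb {J Sg : Type} [Fintype J] [Finite Sg] (F : Sg → ℝ → J → ℝ)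
    (hF : ∀ σ j, ContDiff ℝ 1 (fun u => F σ u j)) (β : J → ℝ) (η : ℝ) (hη : 0 < η) :
    ∃ δ : J → ℝ, (∀ j, |δ j| < η) ∧ (∀ j, β j + δ j ≠ 0) ∧
      ∀ σ i j, i ≠ j → ∀ u ∈ Set.Icc (0:ℝ) 1, ¬ (F σ u i + δ i = 0 ∧ F σ u j + δ j = 0) := by
  classical
  -- open dense sets
  let G : (Sg × J × J) ⊕ J → Set (J → ℝ) := fun k => match k with
    | Sum.inl (σ, i, j) => {δ | i ≠ j → ∀ u ∈ Set.Icc (0:ℝ) 1,
        ¬ (F σ u i + δ i = 0 ∧ F σ u j + δ j = 0)}
    | Sum.inr j => {δ | β j + δ j ≠ 0}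
  have hG : ∀ k, IsOpen (G k) ∧ Dense (G k) := by
    rintro (⟨σ, i, j⟩ | j)
    · by_cases hij : i = j
      · have : G (Sum.inl (σ, i, j)) = Set.univ := by
          ext δ; simp only [ne_eq, Set.mem_Icc, not_and, and_imp, hij, not_true_eq_false,
                   imp_not_self, IsEmpty.forall_iff, Set.ofPred_true, Set.mem_univ, G]
        rw [this]; exact ⟨isOpen_univ, dense_univ⟩
      · let π : (J → ℝ) →L[ℝ] ℝ × ℝ :=
          (ContinuousLinearMap.proj i).prod (ContinuousLinearMap.proj j)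
        have hπ : ∀ δ, π δ = (δ i, δ j) := fun δ => rfl
        have hsurj : Function.Surjective π := by
          rintro ⟨x, y⟩
          refine ⟨fun k => if k = i then x else y, ?_⟩
          rw [hπ]; simp [Ne.symm hij]
        let g : ℝ → ℝ × ℝ := fun u => (-F σ u i, -F σ u j)
        have hg : ContDiff ℝ 1 g := (hF σ i).neg.prodMk (hF σ j).neg
        have hset : G (Sum.inl (σ, i, j)) = π ⁻¹' ((g '' Set.Icc 0 1)ᶜ) := by
          ext δ
          simp only [G, Set.mem_ofPred_eq, Set.mem_preimage, Set.mem_compl_iff, Set.mem_image,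
            not_exists, not_and, hπ, g, Prod.mk.injEq]
          constructor
          · intro h u hu h1 h2
            exact h hij u hu (by linarith only [h1]) (by linarith only [h2])
          · intro h _ u hu h1 h2
            exact h u hu (by linarith) (by linarith)
        rw [hset]
        constructor
        · apply IsOpen.preimage π.continuous
          rw [isOpen_compl_iff]
          exact (isCompact_Icc.image hg.continuous).isClosed
        · apply Dense.preimage _ (π.isOpenMap hsurj)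
          have h1 : Dense (Set.range g)ᶜ := by
            apply hg.dense_compl_range_of_finrank_lt_finrank
            simp
          apply h1.mono
          intro x hx
          simp only [Set.mem_compl_iff, Set.mem_image, Set.mem_range, not_exists, not_and] at hx ⊢
          intro u _ 
          exact hx u
    · have hset : G (Sum.inr j) = (fun δ : J → ℝ => δ j) ⁻¹' ({-β j}ᶜ) := by
        ext δ
        simp only [G, Set.mem_ofPred_eq, Set.mem_preimage, Set.mem_compl_iff, Set.mem_singleton_iff]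
        constructor
        · intro h h1; apply h; rw [h1]; ring
        · intro h h1; apply h; linarith only [h1]
      rw [hset]
      constructor
      · exact (isOpen_compl_singleton).preimage (continuous_apply j)
      · apply Dense.preimage (dense_compl_singleton _)
        exact isOpenMap_eval j
  have hdense : Dense (⋂ k, G k) := dense_iInter_of_isOpen (fun k => (hG k).1) (fun k => (hG k).2)
  have hball : IsOpen {δ : J → ℝ | ∀ j, |δ j| < η} := by
    have : {δ : J → ℝ | ∀ j, |δ j| < η} = ⋂ j, {δ : J → ℝ | |δ j| < η} := by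
      ext; simp only [Set.mem_ofPred_eq, Set.mem_iInter]
    rw [this]
    apply isOpen_iInter_of_finite
    intro j
    exact isOpen_lt (by fun_prop) continuous_const
  obtain ⟨δ, hδ1, hδ2⟩ := hdense.inter_open_nonempty _ hball ⟨0, by intro j; simpa only [Pi.zero_apply,
                                                                               abs_zero] using hη⟩
  rw [Set.mem_iInter] at hδ2
  refine ⟨δ, hδ1, fun j => hδ2 (Sum.inr j), fun σ i j hij => hδ2 (Sum.inl (σ, i, j)) hij⟩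


/-- sign of a Bool -/
def sgn (b : Bool) : ℝ := if b then 1 else -1

theorem first_zero {J : Type} [Fintype J] (F : ℝ → J → ℝ) (hF : ∀ j, Continuous (fun u => F u j))
    (σ : J → Bool) (h0 : ∀ j, 0 < sgn (σ j) * F 0 j)
    (hz : ∃ u ∈ Set.Icc (0:ℝ) 1, ∃ i, F u i = 0)
    (hgen : ∀ i j, i ≠ j → ∀ u ∈ Set.Icc (0:ℝ) 1, ¬ (F u i = 0 ∧ F u j = 0)) :
    ∃ u ∈ Set.Icc (0:ℝ) 1, ∃ i, F u i = 0 ∧ ∀ j, j ≠ i → 0 < sgn (σ j) * F u j := by
  set Z : Set ℝ := {u | u ∈ Set.Icc (0:ℝ) 1 ∧ ∃ i, F u i = 0} with hZ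
  have hZne : Z.Nonempty := by
    obtain ⟨u, hu, i, hi⟩ := hz
    exact ⟨u, hu, i, hi⟩
  have hZcl : IsClosed Z := by
    have : Z = Set.Icc (0:ℝ) 1 ∩ ⋃ i, {u | F u i = 0} := by
      ext u; simp only [hZ, Set.mem_Icc, Set.mem_ofPred_eq, Set.mem_inter_iff, Set.mem_iUnion]
    rw [this]
    apply isClosed_Icc.inter
    apply isClosed_iUnion_of_finite
    intro i
    exact isClosed_eq (hF i) continuous_const
  have hZb : BddBelow Z := ⟨0, fun u hu => hu.1.1⟩
  set v := sInf Z with hv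
  have hvZ : v ∈ Z := hZcl.csInf_mem hZne hZb
  obtain ⟨hv01, i, hi⟩ := hvZ
  refine ⟨v, hv01, i, hi, ?_⟩
  intro j hji
  by_contra hneg
  have hne : F v j ≠ 0 := fun h => hgen j i hji v hv01 ⟨h, hi⟩
  have hsne : sgn (σ j) * F v j ≠ 0 := by
    intro h
    rcases mul_eq_zero.mp h with h | h
    · cases hσ : σ j <;> simp [sgn, hσ] at h
    · exact hne h
  have hlt : sgn (σ j) * F v j < 0 := lt_of_le_of_ne (not_lt.mp hneg) hsne
  -- intermediate value theorem on [0, v]
  have hcont : ContinuousOn (fun u => sgn (σ j) * F u j) (Set.Icc 0 v) :=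
    (continuous_const.mul (hF j)).continuousOn
  have hivt := intermediate_value_Icc' hv01.1 hcont
  have h0mem : (0:ℝ) ∈ Set.Icc (sgn (σ j) * F v j) (sgn (σ j) * F 0 j) :=
    ⟨hlt.le, (h0 j).le⟩
  obtain ⟨u, hu, hu0⟩ := hivt h0mem
  have hu0' : F u j = 0 := by
    rcases mul_eq_zero.mp hu0 with h | h
    · cases hσ : σ j <;> simp [sgn, hσ] at h
    · exact h
  have huZ : u ∈ Z := ⟨⟨hu.1, hu.2.trans hv01.2⟩, j, hu0'⟩
  have : v ≤ u := csInf_le hZb huZ
  have huv : u = v := le_antisymm hu.2 this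
  rw [huv] at hu0'
  exact hne hu0'

/-- no zero on the whole curve: sign vector equals the one at the end point -/
theorem no_zero {J : Type} (F : ℝ → J → ℝ) (hF : ∀ j, Continuous (fun u => F u j))
    (σ : J → Bool) (h0 : ∀ j, 0 < sgn (σ j) * F 0 j)
    (hz : ¬ ∃ u ∈ Set.Icc (0:ℝ) 1, ∃ i, F u i = 0) :
    ∀ j, 0 < sgn (σ j) * F 1 j := by
  intro j
  by_contra hneg
  push Not at hz hneg
  have hcont : ContinuousOn (fun u => sgn (σ j) * F u j) (Set.Icc 0 1) :=
    (continuous_const.mul (hF j)).continuousOn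
  have hivt := intermediate_value_Icc' zero_le_one hcont
  obtain ⟨u, hu, hu0⟩ := hivt ⟨hneg, (h0 j).le⟩
  rcases mul_eq_zero.mp hu0 with h | h
  · cases hσ : σ j <;> simp [sgn, hσ] at h
  · exact hz u hu j h


theorem eq_of_sgn {J : Type} (σ : J → Bool) (x : J → ℝ) (h : ∀ j, 0 < sgn (σ j) * x j) :
    σ = fun j => decide (0 < x j) := by
  funext j
  have := h j
  cases hσ : σ j
  · simp only [sgn, hσ, Bool.false_eq_true, if_false] at this
    symm
    rw [decide_eq_false_iff_not]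
    linarith only [this]
  · simp only [sgn, hσ, if_true] at this
    symm
    rw [decide_eq_true_iff]
    linarith only [this]

theorem exists_lb {ι : Type} [Finite ι] (f : ι → ℝ) (hf : ∀ i, 0 < f i) :
    ∃ η > 0, ∀ i, η ≤ f i := by
  rcases isEmpty_or_nonempty ι with h | h
  · exact ⟨1, one_pos, fun i => (h.false i).elim⟩
  · obtain ⟨i, hi⟩ := Finite.exists_min f
    exact ⟨f i, hf i, hi⟩

theorem base_case (E : Type) [NormedAddCommGroup E] [InnerProductSpace ℝ E]
    [FiniteDimensional ℝ E] (hE : Module.finrank ℝ E = 1)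
    (J : Type) [Fintype J] (r : ℝ) (a : J → E) (c : J → ℝ) :
    (Realized r a c).ncard ≤ 2 := by
  rcases Set.eq_empty_or_nonempty (Realized r a c) with h | ⟨σ₀, ω₀, hω₀, hσ₀⟩
  · rw [h]; simp
  · let f : E → (J → Bool) := fun ω => fun j => decide (0 < inner ℝ (a j) ω + c j)
    have hsub : Realized r a c ⊆ {f ω₀, f (-ω₀)} := by
      rintro σ ⟨ω, hω, hσ⟩
      have h1 : σ = f ω := eq_of_sgn σ _ hσ
      have h2 : ω = ω₀ ∨ ω = -ω₀ := by
        rcases eq_or_ne ω₀ 0 with h0 | h0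
        · left
          rw [h0] at hω₀ ⊢
          rw [norm_zero] at hω₀
          rw [← norm_eq_zero, hω, hω₀]
        · obtain ⟨t, ht⟩ := exists_smul_eq_of_finrank_eq_one hE h0 ω
          have h3 : |t| = 1 := by
            have h4 : ‖t • ω₀‖ = ‖ω₀‖ := by rw [ht, hω, hω₀]
            rw [norm_smul, Real.norm_eq_abs] at h4
            have h5 : ‖ω₀‖ ≠ 0 := norm_ne_zero_iff.mpr h0
            exact mul_right_cancel₀ h5 (by rw [h4, one_mul])
          rcases eq_or_eq_neg_of_abs_eq h3 with h6 | h6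
          · left; rw [← ht, h6, one_smul]
          · right; rw [← ht, h6, neg_one_smul]
      rcases h2 with h2 | h2
      · left; rw [h1, h2]
      · right; rw [h1, h2]; rfl
    calc (Realized r a c).ncard ≤ ({f ω₀, f (-ω₀)} : Set (J → Bool)).ncard :=
          Set.ncard_le_ncard hsub
      _ ≤ 2 := (Set.ncard_insert_le _ _).trans (by simp)

theorem restrict_card {J : Type} [Fintype J] (i : J) (R : Set ({j // j ≠ i} → Bool)) :
    ({σ : J → Bool | (fun j : {j // j ≠ i} => σ j) ∈ R}).ncard ≤ 2 * R.ncard := by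
  classical
  have h : (Set.univ ×ˢ R : Set (Bool × ({j // j ≠ i} → Bool))).ncard = 2 * R.ncard := by
    rw [Set.ncard_prod, Set.ncard_univ]; simp
  rw [← h]
  apply Set.ncard_le_ncard_of_injOn (fun σ => (σ i, fun j : {j // j ≠ i} => σ j))
  · intro σ hσ
    exact ⟨Set.mem_univ _, hσ⟩
  · intro σ _ τ _ hst
    simp only [Prod.mk.injEq] at hst
    funext j
    by_cases hj : j = i
    · rw [hj]; exact hst.1
    · exact congrFun hst.2 ⟨j, hj⟩


/-- restriction of an affine function to the hyperplane section of a sphere -/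
theorem section_mem {E : Type} [NormedAddCommGroup E] [InnerProductSpace ℝ E]
    [FiniteDimensional ℝ E] {J : Type} (r : ℝ) (a : J → E) (c : J → ℝ)
    (i : J) (hai : a i ≠ 0) (ω : E) (hω : ‖ω‖ = r) (hi : inner ℝ (a i) ω + c i = 0)
    (τ : {j // j ≠ i} → Bool)
    (hτ : ∀ j : {j // j ≠ i}, 0 < sgn (τ j) * (inner ℝ (a j) ω + c j)) :
    τ ∈ Realized (Real.sqrt (r ^ 2 - ‖(-(c i / ‖a i‖ ^ 2)) • a i‖ ^ 2))
      (fun j : {j // j ≠ i} => (ℝ ∙ a i)ᗮ.orthogonalProjectionOnto (a j))
      (fun j : {j // j ≠ i} => inner ℝ (a j) ((-(c i / ‖a i‖ ^ 2)) • a i) + c j) := by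
  set ω₀ : E := (-(c i / ‖a i‖ ^ 2)) • a i with hω₀
  have hn : ‖a i‖ ^ 2 ≠ 0 := pow_ne_zero 2 (norm_ne_zero_iff.mpr hai)
  have h1 : inner ℝ (a i) (ω - ω₀) = 0 := by
    rw [inner_sub_right, hω₀, inner_smul_right, real_inner_self_eq_norm_sq]
    field_simp
    linarith only [hi]
  have hmem : ω - ω₀ ∈ (ℝ ∙ a i)ᗮ :=
    Submodule.mem_orthogonal_singleton_iff_inner_right.mpr h1
  refine ⟨⟨ω - ω₀, hmem⟩, ?_, ?_⟩
  · rw [Submodule.coe_norm]
    simp only
    have h2 : inner ℝ ω₀ (ω - ω₀) = 0 := by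
      rw [hω₀, inner_smul_left, h1]; simp only [Real.ringHom_apply, mul_zero]
    have h3 : ‖ω‖ ^ 2 = ‖ω₀‖ ^ 2 + ‖ω - ω₀‖ ^ 2 := by
      have : ω = ω₀ + (ω - ω₀) := by abel
      conv_lhs => rw [this]
      rw [norm_add_sq_real, h2]; ring
    rw [← hω, h3]
    rw [add_sub_cancel_left, Real.sqrt_sq (norm_nonneg _)]
  · intro j
    have h4 : inner ℝ ((ℝ ∙ a i)ᗮ.orthogonalProjectionOnto (a j)) (⟨ω - ω₀, hmem⟩ : (ℝ ∙ a i)ᗮ)
        = inner ℝ (a j) (ω - ω₀) := by
      rw [Submodule.inner_orthogonalProjectionOnto_eq_of_mem_right]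
    rw [h4]
    have h5 : inner ℝ (a j) (ω - ω₀) + (inner ℝ (a j) ω₀ + c j) = inner ℝ (a j) ω + c j := by
      rw [inner_sub_right]; ring
    rw [h5]
    exact hτ j

theorem sphere_cells (e : ℕ) : ∀ (E : Type) [NormedAddCommGroup E] [InnerProductSpace ℝ E]
    [FiniteDimensional ℝ E], Module.finrank ℝ E = e + 1 →
    ∀ (J : Type) [Fintype J] (r : ℝ) (a : J → E) (c : J → ℝ),
      (Realized r a c).ncard ≤ 2 * (2 * Fintype.card J + 1) ^ e := by
  induction e with
  | zero =>
    intro E _ _ _ hE J _ r a c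
    simpa only [pow_zero, mul_one] using base_case E (by simpa using hE) J r a c
  | succ e ih =>
    intro E _ _ _ hE J _ r a c
    classical
    rcases Set.eq_empty_or_nonempty (Realized r a c) with h | ⟨σ₀, b, hb, hσ₀⟩
    · rw [h]; simp only [Set.ncard_empty, zero_le]
    -- choose realising points and curves
    have hch : ∀ σ : Realized r a c, ∃ ω : E, ‖ω‖ = r ∧
        ∀ j, 0 < sgn (σ.1 j) * (inner ℝ (a j) ω + c j) := fun σ => σ.2
    choose ω hω hσω using hch
    have hcurve : ∀ σ : Realized r a c, ∃ γ : ℝ → E, ContDiff ℝ 1 γ ∧ γ 0 = ω σ ∧ γ 1 = b ∧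
        ∀ u, ‖γ u‖ = r := fun σ => exists_curve (by omega) (ω σ) b r (hω σ) hb
    choose γ hγ hγ0 hγ1 hγr using hcurve
    obtain ⟨η, hη, hηle⟩ := exists_lb (fun p : Realized r a c × J =>
      sgn (p.1.1 p.2) * (inner ℝ (a p.2) (ω p.1) + c p.2)) (fun p => hσω p.1 p.2)
    obtain ⟨δ, hδη, hδb, hδ⟩ := exists_perturb (Sg := Realized r a c)
      (fun σ u j => inner ℝ (a j) (γ σ u) + c j)
      (fun σ j => (contDiff_const.inner ℝ (hγ σ)).add contDiff_const) (fun j => inner ℝ (a j) b + c j) η hη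
    set c' : J → ℝ := fun j => c j + δ j with hc'
    set σb : J → Bool := fun j => decide (0 < inner ℝ (a j) b + c' j) with hσb
    -- the sections
    let R : (i : J) → Set ({j // j ≠ i} → Bool) := fun i =>
      if a i = 0 then ∅ else
        Realized (Real.sqrt (r ^ 2 - ‖(-(c' i / ‖a i‖ ^ 2)) • a i‖ ^ 2))
          (fun j : {j // j ≠ i} => (ℝ ∙ a i)ᗮ.orthogonalProjectionOnto (a j))
          (fun j : {j // j ≠ i} => inner ℝ (a j) ((-(c' i / ‖a i‖ ^ 2)) • a i) + c' j)
    have hR : ∀ i, (R i).ncard ≤ 2 * (2 * (Fintype.card J - 1) + 1) ^ e := by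
      intro i
      by_cases hai : a i = 0
      · simp only [R, hai, if_true]; simp only [ne_eq, Set.ncard_empty, zero_le]
      · have hfin : Module.finrank ℝ (ℝ ∙ a i)ᗮ = e + 1 := by
          have h1 := Submodule.finrank_add_finrank_orthogonal (ℝ ∙ a i)
          have h2 : Module.finrank ℝ (ℝ ∙ a i) = 1 := finrank_span_singleton hai
          omega
        have h3 := ih (ℝ ∙ a i)ᗮ hfin {j // j ≠ i}
          (Real.sqrt (r ^ 2 - ‖(-(c' i / ‖a i‖ ^ 2)) • a i‖ ^ 2))
          (fun j : {j // j ≠ i} => (ℝ ∙ a i)ᗮ.orthogonalProjectionOnto (a j))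
          (fun j : {j // j ≠ i} => inner ℝ (a j) ((-(c' i / ‖a i‖ ^ 2)) • a i) + c' j)
        have h4 : Fintype.card {j // j ≠ i} = Fintype.card J - 1 := by
          rw [Fintype.card_subtype_compl]; simp only [Fintype.card_unique]
        rw [h4] at h3
        simp only [R, hai, if_false]
        exact h3
    have hsub : Realized r a c ⊆ {σb} ∪ ⋃ i, {σ : J → Bool | (fun j : {j // j ≠ i} => σ j) ∈ R i} := by
      intro σ hσ
      set s : Realized r a c := ⟨σ, hσ⟩ with hs
      set F : ℝ → J → ℝ := fun u j => inner ℝ (a j) (γ s u) + c' j with hF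
      have hFc : ∀ j, Continuous (fun u => F u j) := by
        intro j
        have := (hγ s).continuous
        fun_prop
      have h0 : ∀ j, 0 < sgn (σ j) * F 0 j := by
        intro j
        have h1 := hηle (s, j)
        have h2 := hδη j
        simp only [hF, hγ0, hc'] at h1 ⊢
        have h3 : sgn (σ j) * (inner ℝ (a j) (ω s) + (c j + δ j))
            = sgn (σ j) * (inner ℝ (a j) (ω s) + c j) + sgn (σ j) * δ j := by ring
        rw [h3]
        have h4 : |sgn (σ j) * δ j| = |δ j| := by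
          rw [abs_mul]
          cases σ j <;> simp [sgn]
        have h5 := neg_abs_le (sgn (σ j) * δ j)
        rw [h4] at h5
        have h6 : η ≤ sgn (σ j) * (inner ℝ (a j) (ω s) + c j) := h1
        linarith only [h1, h2, h5]
      by_cases hz : ∃ u ∈ Set.Icc (0:ℝ) 1, ∃ i, F u i = 0
      · right
        have hgen : ∀ i j, i ≠ j → ∀ u ∈ Set.Icc (0:ℝ) 1, ¬ (F u i = 0 ∧ F u j = 0) := by
          intro i j hij u hu h
          apply hδ s i j hij u hu
          simp only [hF, hc'] at h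
          exact ⟨by linarith only [h.1], by linarith only [h.2]⟩
        obtain ⟨u, hu, i, hi, hj⟩ := first_zero F hFc σ h0 hz hgen
        rw [Set.mem_iUnion]
        refine ⟨i, ?_⟩
        have hai : a i ≠ 0 := by
          intro hai
          have h1 := h0 i
          simp only [hF, hai, inner_zero_left, zero_add] at hi h1
          rw [hi] at h1
          simp at h1
        simp only [R, hai, if_false, Set.mem_ofPred_eq]
        exact section_mem r a c' i hai (γ s u) (hγr s u) hi _ (fun j => hj j.1 j.2)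
      · left
        have h1 := no_zero F hFc σ h0 hz
        have h2 := eq_of_sgn σ _ h1
        rw [Set.mem_singleton_iff, h2]
        funext j
        simp only [hF, hγ1, hσb]
    calc (Realized r a c).ncard
        ≤ ({σb} ∪ ⋃ i, {σ : J → Bool | (fun j : {j // j ≠ i} => σ j) ∈ R i} : Set (J → Bool)).ncard :=
          Set.ncard_le_ncard hsub
      _ ≤ ({σb} : Set (J → Bool)).ncard +
          (⋃ i, {σ : J → Bool | (fun j : {j // j ≠ i} => σ j) ∈ R i} : Set (J → Bool)).ncard :=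
          Set.ncard_union_le _ _
      _ ≤ 1 + ∑ i : J, ({σ : J → Bool | (fun j : {j // j ≠ i} => σ j) ∈ R i} : Set (J → Bool)).ncard := by
          apply Nat.add_le_add
          · simp
          · exact Set.ncard_iUnion_le_of_fintype _
      _ ≤ 1 + ∑ i : J, 2 * (2 * (2 * (Fintype.card J - 1) + 1) ^ e) := by
          apply Nat.add_le_add_left
          apply Finset.sum_le_sum
          intro i _
          exact (restrict_card i (R i)).trans (Nat.mul_le_mul_left 2 (hR i))
      _ = 1 + Fintype.card J * (2 * (2 * (2 * (Fintype.card J - 1) + 1) ^ e)) := by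
          simp only [sum_const, card_univ, smul_eq_mul, Nat.add_left_cancel_iff]
      _ ≤ 2 * (2 * Fintype.card J + 1) ^ (e + 1) := by
          set m := Fintype.card J
          have h1 : (2 * (m - 1) + 1) ^ e ≤ (2 * m + 1) ^ e := Nat.pow_le_pow_left (by omega) e
          have h2 : 1 ≤ (2 * m + 1) ^ e := Nat.one_le_pow _ _ (by omega)
          calc 1 + m * (2 * (2 * (2 * (m - 1) + 1) ^ e)) ≤ 1 + m * (2 * (2 * (2 * m + 1) ^ e)) := by
                (clear * - h1; gcongr)
            _ ≤ 2 * (2 * m + 1) ^ e + m * (2 * (2 * (2 * m + 1) ^ e)) := by omega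
            _ = 2 * (2 * m + 1) ^ (e + 1) := by ring

end Vale.Agent.P054K
end

section

set_option autoImplicit false

open Finset

namespace Vale.Agent.P054K

theorem finrank_lift (d : ℕ) :
    Module.finrank ℝ (WithLp 2 (EuclideanSpace ℝ (Fin d) × ℝ)) = d + 1 := by
  rw [LinearEquiv.finrank_eq (WithLp.linearEquiv 2 ℝ (EuclideanSpace ℝ (Fin d) × ℝ))]
  simp

/-- inverse stereographic projection -/
noncomputable def lift {d : ℕ} (x : EuclideanSpace ℝ (Fin d)) :
    WithLp 2 (EuclideanSpace ℝ (Fin d) × ℝ) :=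
  WithLp.toLp 2 ((2 / (‖x‖ ^ 2 + 1)) • x, (‖x‖ ^ 2 - 1) / (‖x‖ ^ 2 + 1))

theorem norm_lift {d : ℕ} (x : EuclideanSpace ℝ (Fin d)) : ‖lift x‖ = 1 := by
  have h : ‖lift x‖ ^ 2 = 1 := by
    rw [WithLp.prod_norm_sq_eq_of_L2]
    simp only [lift, WithLp.toLp_fst, WithLp.toLp_snd]
    rw [norm_smul, Real.norm_eq_abs, Real.norm_eq_abs, mul_pow, sq_abs, sq_abs]
    have h1 : ‖x‖ ^ 2 + 1 ≠ 0 := by positivity
    field_simp
    ring
  have h2 := norm_nonneg (lift x)
  nlinarith only [h, h2]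

theorem inner_lift {d : ℕ} (x : EuclideanSpace ℝ (Fin d)) (α γ : ℝ)
    (β : EuclideanSpace ℝ (Fin d)) :
    inner ℝ (WithLp.toLp 2 (β, α - γ) : WithLp 2 (EuclideanSpace ℝ (Fin d) × ℝ)) (lift x)
      + (α + γ) = (2 / (‖x‖ ^ 2 + 1)) * (α * ‖x‖ ^ 2 + inner ℝ β x + γ) := by
  rw [WithLp.prod_inner_apply]
  simp only [lift]
  rw [inner_smul_right]
  have h1 : ‖x‖ ^ 2 + 1 ≠ 0 := by positivity
  simp only [RCLike.inner_apply, conj_trivial]
  field_simp
  ring

open scoped Classical in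
theorem quad_cells (d : ℕ) (J : Type) [Fintype J] (α : J → ℝ) (β : J → EuclideanSpace ℝ (Fin d))
    (γ : J → ℝ) (P : Finset (EuclideanSpace ℝ (Fin d))) :
    (P.image (fun x => fun j => decide (α j * ‖x‖ ^ 2 + inner ℝ (β j) x + γ j ≤ 0))).card
      ≤ 2 * (2 * Fintype.card J + 1) ^ d := by
  set f : J → EuclideanSpace ℝ (Fin d) → ℝ := fun j x => α j * ‖x‖ ^ 2 + inner ℝ (β j) x + γ j
    with hf
  obtain ⟨η, hη, hηle⟩ := exists_lb
    (fun p : P × J => if 0 < f p.2 p.1 then f p.2 p.1 else 1) (by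
      intro p
      by_cases h : 0 < f p.2 p.1
      · simp only [h, if_true]
      · simp only [h, if_false]; exact one_pos)
  set R := Realized 1
    (fun j => (WithLp.toLp 2 (β j, α j - (γ j - η / 2)) : WithLp 2 (EuclideanSpace ℝ (Fin d) × ℝ)))
    (fun j => α j + (γ j - η / 2)) with hR
  have hcells := sphere_cells d _ (finrank_lift d) J 1
    (fun j => (WithLp.toLp 2 (β j, α j - (γ j - η / 2)) : WithLp 2 (EuclideanSpace ℝ (Fin d) × ℝ)))
    (fun j => α j + (γ j - η / 2))
  refine le_trans ?_ hcells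
  rw [← Set.ncard_coe_finset]
  apply Set.ncard_le_ncard_of_injOn (fun p => fun j => !(p j))
  · intro p hp
    simp only [coe_image, Set.mem_image, mem_coe] at hp
    obtain ⟨x, hx, rfl⟩ := hp
    refine ⟨lift x, norm_lift x, ?_⟩
    intro j
    rw [inner_lift]
    have hpos : 0 < 2 / (‖x‖ ^ 2 + 1) := by (clear * -; positivity)
    have hfj : α j * ‖x‖ ^ 2 + inner ℝ (β j) x + (γ j - η / 2) = f j x - η / 2 := by
      simp only [hf]; ring
    rw [hfj]
    by_cases h : f j x ≤ 0
    · have h' : α j * ‖x‖ ^ 2 + inner ℝ (β j) x + γ j ≤ 0 := h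
      simp only [h', decide_true, Bool.not_true, Bool.false_eq_true, if_false]
      have : f j x - η / 2 < 0 := by linarith only [hη, h]
      nlinarith only [hη, hpos, h]
    · have h' : ¬ (α j * ‖x‖ ^ 2 + inner ℝ (β j) x + γ j ≤ 0) := h
      simp only [h', decide_false, Bool.not_false, if_true]
      have h1 := hηle (⟨x, hx⟩, j)
      push Not at h
      simp only [h, if_true] at h1
      have : 0 < f j x - η / 2 := by linarith only [h', h1]
      (clear * - this; positivity)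
  · intro p _ q _ hpq
    funext j
    have := congrFun hpq j
    simpa using this

end Vale.Agent.P054K
end

section

set_option autoImplicit false

open Finset

namespace Vale.Agent.P054K

/-! ### pairs with equal rank -/

open scoped Classical in
theorem shift_count {α : Type} (X : Finset α) (R : α → ℤ) (a : ℤ) :
    ((X ×ˢ X).filter (fun p => R p.2 = R p.1 + a)).card ≤
      ((X ×ˢ X).filter (fun p => R p.2 = R p.1)).card := by
  set c : ℤ → ℕ := fun j => (X.filter (fun q => R q = j)).card with hc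
  set J := X.image R with hJ
  have hc0 : ∀ j, j ∉ J → c j = 0 := by
    intro j hj
    rw [hc]; simp only
    rw [Finset.card_eq_zero, Finset.filter_eq_empty_iff]
    intro q hq hqj
    exact hj (hqj ▸ mem_image_of_mem R hq)
  have hN : ∀ b : ℤ, ((X ×ˢ X).filter (fun p => R p.2 = R p.1 + b)).card
      = ∑ j ∈ J, c j * c (j + b) := by
    intro b
    have h1 : ((X ×ˢ X).filter (fun p => R p.2 = R p.1 + b)).card
        = ∑ q ∈ X, c (R q + b) := by
      rw [Finset.card_filter, Finset.sum_product]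
      apply Finset.sum_congr rfl
      intro q _
      rw [hc]; simp only
      rw [Finset.card_filter]
    rw [h1, ← Finset.sum_fiberwise_of_maps_to (g := R) (t := J)
      (fun q hq => mem_image_of_mem R hq)]
    apply Finset.sum_congr rfl
    intro j _
    have h2 : ∀ q ∈ X.filter (fun q => R q = j), c (R q + b) = c (j + b) := by
      intro q hq
      rw [(mem_filter.mp hq).2]
    rw [Finset.sum_congr rfl h2, Finset.sum_const, smul_eq_mul]
  have h0 := hN 0
  simp only [add_zero] at h0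
  rw [hN a, h0]
  have h3 : ∑ j ∈ J, c (j + a) * c (j + a) ≤ ∑ j ∈ J, c j * c j := by
    have h4 : ∑ j ∈ J, c (j + a) * c (j + a) = ∑ j ∈ J.image (fun j => j + a), c j * c j := by
      symm
      exact Finset.sum_image (f := fun j => c j * c j) (g := fun j => j + a)
        (fun x _ y _ hxy => by simpa using hxy)
    rw [h4]
    calc ∑ j ∈ J.image (fun j => j + a), c j * c j
        ≤ ∑ j ∈ J ∪ J.image (fun j => j + a), c j * c j :=
          Finset.sum_le_sum_of_subset subset_union_right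
      _ = ∑ j ∈ J, c j * c j := by
          symm
          apply Finset.sum_subset subset_union_left
          intro j _ hj
          simp [hc0 j hj]
  have h5 : 2 * ∑ j ∈ J, c j * c (j + a) ≤ ∑ j ∈ J, c j * c j + ∑ j ∈ J, c (j + a) * c (j + a) := by
    rw [Finset.mul_sum, ← Finset.sum_add_distrib]
    apply Finset.sum_le_sum
    intro j _
    linarith only [two_mul_le_add_sq (c j) (c (j+a))]
  omega

open scoped Classical in
theorem window_count {α : Type} (X : Finset α) (R : α → ℤ) (K : ℕ) :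
    ((X ×ˢ X).filter (fun p => |R p.2 - R p.1| ≤ K)).card ≤
      (2 * K + 1) * ((X ×ˢ X).filter (fun p => R p.2 = R p.1)).card := by
  have hsub : (X ×ˢ X).filter (fun p => |R p.2 - R p.1| ≤ K) ⊆
      (Finset.Icc (-(K:ℤ)) K).biUnion (fun a => (X ×ˢ X).filter (fun p => R p.2 = R p.1 + a)) := by
    intro p hp
    rw [mem_filter] at hp
    rw [mem_biUnion]
    refine ⟨R p.2 - R p.1, ?_, ?_⟩
    · rw [mem_Icc]; exact abs_le.mp hp.2
    · rw [mem_filter]; exact ⟨hp.1, by ring⟩
  calc _ ≤ _ := card_le_card hsub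
    _ ≤ ∑ a ∈ Finset.Icc (-(K:ℤ)) K, ((X ×ˢ X).filter (fun p => R p.2 = R p.1 + a)).card :=
        card_biUnion_le
    _ ≤ ∑ a ∈ Finset.Icc (-(K:ℤ)) K, ((X ×ˢ X).filter (fun p => R p.2 = R p.1)).card :=
        Finset.sum_le_sum (fun a _ => shift_count X R a)
    _ = _ := by
        rw [Finset.sum_const, Int.card_Icc, smul_eq_mul]
        congr 1
        omega

open scoped Classical in
/-- few levels on average implies many equal pairs -/
theorem equal_pairs {α : Type} (X : Finset α) (R : α → ℤ) (hX : 0 < X.card) (D : ℝ)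
    (hD : ∑ p ∈ X ×ˢ X, (|R p.2 - R p.1| : ℝ) ≤ D * (X.card : ℝ) ^ 2) :
    (X.card : ℝ) ^ 2 ≤ 2 * (4 * D + 1) * ((X ×ˢ X).filter (fun p => R p.2 = R p.1)).card := by
  have hx : (0:ℝ) < X.card := by exact_mod_cast hX
  have hD0 : 0 ≤ D := by
    have h1 : 0 ≤ ∑ p ∈ X ×ˢ X, (|R p.2 - R p.1| : ℝ) := Finset.sum_nonneg (fun p _ => by positivity)
    by_contra h
    push Not at h
    have : D * (X.card : ℝ) ^ 2 < 0 := mul_neg_of_neg_of_pos h (by positivity)
    linarith only [hD, h1, this]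
  set K : ℕ := ⌊2 * D⌋₊ with hK
  have hK1 : (K:ℝ) ≤ 2 * D := Nat.floor_le (by positivity)
  have hK2 : 2 * D < (K:ℝ) + 1 := Nat.lt_floor_add_one _
  have hw := window_count X R K
  have hsplit : ((X ×ˢ X).filter (fun p => |R p.2 - R p.1| ≤ K)).card +
      ((X ×ˢ X).filter (fun p => ¬ |R p.2 - R p.1| ≤ K)).card = (X ×ˢ X).card :=
    Finset.card_filter_add_card_filter_not (s := X ×ˢ X) (fun p => |R p.2 - R p.1| ≤ K)
  have hmarkov : (((X ×ˢ X).filter (fun p => ¬ |R p.2 - R p.1| ≤ K)).card : ℝ) * (K + 1)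
      ≤ D * (X.card : ℝ) ^ 2 := by
    calc (((X ×ˢ X).filter (fun p => ¬ |R p.2 - R p.1| ≤ K)).card : ℝ) * (K + 1)
        = ∑ p ∈ (X ×ˢ X).filter (fun p => ¬ |R p.2 - R p.1| ≤ K), ((K:ℝ) + 1) := by
          rw [Finset.sum_const, nsmul_eq_mul]
      _ ≤ ∑ p ∈ (X ×ˢ X).filter (fun p => ¬ |R p.2 - R p.1| ≤ K), (|R p.2 - R p.1| : ℝ) := by
          apply Finset.sum_le_sum
          intro p hp
          have h1 := (mem_filter.mp hp).2
          push Not at h1
          have h2 : (K:ℤ) + 1 ≤ |R p.2 - R p.1| := h1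
          exact_mod_cast h2
      _ ≤ ∑ p ∈ X ×ˢ X, (|R p.2 - R p.1| : ℝ) :=
          Finset.sum_le_sum_of_subset_of_nonneg (filter_subset _ _) (fun p _ _ => by (clear * -; positivity))
      _ ≤ _ := hD
  set E : ℝ := (((X ×ˢ X).filter (fun p => R p.2 = R p.1)).card : ℝ) with hE
  have hE0 : 0 ≤ E := by rw [hE]; (clear * -; positivity)
  have h1 : (((X ×ˢ X).filter (fun p => |R p.2 - R p.1| ≤ K)).card : ℝ) ≤ (2 * K + 1) * E := by
    rw [hE]; exact_mod_cast hw
  have h2 : (X.card : ℝ) ^ 2 = (((X ×ˢ X).filter (fun p => |R p.2 - R p.1| ≤ K)).card : ℝ) +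
      (((X ×ˢ X).filter (fun p => ¬ |R p.2 - R p.1| ≤ K)).card : ℝ) := by
    have h3 : ((X ×ˢ X).card : ℝ) = (X.card : ℝ) ^ 2 := by
      rw [card_product]; push_cast; ring
    rw [← h3, ← hsplit]; push_cast; ring
  set B : ℝ := (((X ×ˢ X).filter (fun p => ¬ |R p.2 - R p.1| ≤ K)).card : ℝ) with hB
  have hB0 : 0 ≤ B := by rw [hB]; (clear * -; positivity)
  have h4 : B ≤ (X.card : ℝ) ^ 2 / 2 := by
    by_contra hcon
    push Not at hcon
    have h5 : (X.card : ℝ) ^ 2 / 2 * (2 * D) ≤ B * (2 * D) := by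
      apply mul_le_mul_of_nonneg_right hcon.le; linarith only [hD0]
    have hBpos : 0 < B := lt_of_le_of_lt (by (clear * - hX; positivity)) hcon
    have h6 : B * (2 * D) < B * (K + 1) := mul_lt_mul_of_pos_left hK2 hBpos
    linarith only [hmarkov, h5, h6]
  have h7 : (2 * (K:ℝ) + 1) * E ≤ (4 * D + 1) * E := by
    apply mul_le_mul_of_nonneg_right _ hE0; linarith only [hK1]
  linarith only [h1, h2, h4, h7]

end Vale.Agent.P054K
end

section

set_option autoImplicit false

open Finset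

namespace Vale.Agent.P054K

/-- the ranges: balls (`true`) and half spaces (`false`) -/
noncomputable def rng {d : ℕ}
    (i : (EuclideanSpace ℝ (Fin d) × EuclideanSpace ℝ (Fin d)) × Bool)
    (y : EuclideanSpace ℝ (Fin d)) : Bool :=
  open scoped Classical in
  decide ((if i.2 then (1:ℝ) else 0) * ‖y‖ ^ 2 +
    inner ℝ (if i.2 then (-2:ℝ) • i.1.1 else (2:ℝ) • (i.1.1 - i.1.2)) y +
    (if i.2 then ‖i.1.1‖ ^ 2 - dist i.1.1 i.1.2 ^ 2 else -(‖i.1.1‖ ^ 2 - ‖i.1.2‖ ^ 2)) ≤ 0)

theorem rng_ball {d : ℕ} (p z y : EuclideanSpace ℝ (Fin d)) :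
    rng ((p, z), true) y = true ↔ dist p y ≤ dist p z := by
  unfold rng
  rw [decide_eq_true_iff]
  simp only [if_true]
  rw [inner_smul_left]
  simp only [conj_trivial]
  have h1 : dist p y ^ 2 = ‖p‖ ^ 2 - 2 * inner ℝ p y + ‖y‖ ^ 2 := by
    rw [dist_eq_norm, norm_sub_sq_real]
  constructor
  · intro h
    apply le_of_sq_le_sq _ dist_nonneg
    rw [h1]; linarith only [h]
  · intro h
    have h2 : dist p y ^ 2 ≤ dist p z ^ 2 := pow_le_pow_left₀ dist_nonneg h 2
    rw [h1] at h2; linarith only [h2]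

theorem rng_half {d : ℕ} (a b y : EuclideanSpace ℝ (Fin d)) :
    rng ((a, b), false) y = true ↔ 2 * inner ℝ (a - b) y - (‖a‖ ^ 2 - ‖b‖ ^ 2) ≤ 0 := by
  unfold rng
  rw [decide_eq_true_iff]
  simp only [Bool.false_eq_true, if_false]
  rw [inner_smul_left]
  simp only [conj_trivial]
  constructor <;> intro h <;> linarith only [h]

open scoped Classical in
/-- rank of `q` as seen from `p` -/
noncomputable def rk {d : ℕ} (P : Finset (EuclideanSpace ℝ (Fin d)))
    (p q : EuclideanSpace ℝ (Fin d)) : ℤ :=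
  (((P.image (dist p)).filter (fun ρ => ρ < dist p q)).card : ℤ)

open scoped Classical in
theorem abs_rk {d : ℕ} (P : Finset (EuclideanSpace ℝ (Fin d)))
    (p q q' : EuclideanSpace ℝ (Fin d)) :
    |rk P p q' - rk P p q| =
      (((P.image (dist p)).filter (fun ρ => ¬ (dist p q ≤ ρ ↔ dist p q' ≤ ρ))).card : ℤ) := by
  set D := P.image (dist p) with hD
  have key : ∀ a b : ℝ, a ≤ b →
      ((D.filter (fun ρ => ρ < b)).card : ℤ) - ((D.filter (fun ρ => ρ < a)).card : ℤ)
        = ((D.filter (fun ρ => ¬ (a ≤ ρ ↔ b ≤ ρ))).card : ℤ) := by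
    intro a b hab
    have hsub : D.filter (fun ρ => ρ < a) ⊆ D.filter (fun ρ => ρ < b) := by
      intro ρ hρ
      rw [mem_filter] at hρ ⊢
      exact ⟨hρ.1, lt_of_lt_of_le hρ.2 hab⟩
    have h1 := card_sdiff_add_card_eq_card hsub
    have h2 : (D.filter (fun ρ => ρ < b)) \ (D.filter (fun ρ => ρ < a))
        = D.filter (fun ρ => ¬ (a ≤ ρ ↔ b ≤ ρ)) := by
      ext ρ
      simp only [mem_sdiff, mem_filter, not_and, not_lt]
      constructor
      · rintro ⟨⟨h3, h4⟩, h5⟩
        refine ⟨h3, ?_⟩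
        intro h6
        have := h6.mp (h5 h3)
        linarith only [h4, this]
      · rintro ⟨h3, h4⟩
        have h7 : a ≤ ρ ∧ ρ < b := by
          by_contra hcon
          apply h4
          constructor
          · intro h8
            by_contra h9
            exact hcon ⟨h8, not_le.mp h9⟩
          · intro h8; linarith only [hab, h8]
        exact ⟨⟨h3, h7.2⟩, fun _ => h7.1⟩
    rw [h2] at h1
    omega
  unfold rk
  rcases le_total (dist p q) (dist p q') with h | h
  · rw [key _ _ h, abs_of_nonneg (by (clear * -; positivity))]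
  · rw [abs_sub_comm, key _ _ h, abs_of_nonneg (by (clear * -; positivity))]
    congr 2
    ext ρ
    simp only [mem_filter]
    tauto

theorem rk_eq_iff {d : ℕ} (P : Finset (EuclideanSpace ℝ (Fin d)))
    (p q q' : EuclideanSpace ℝ (Fin d)) (hq : q ∈ P) (hq' : q' ∈ P) :
    rk P p q' = rk P p q ↔ dist p q = dist p q' := by
  classical
  constructor
  · intro h
    have h1 := abs_rk P p q q'
    rw [h, sub_self, abs_zero] at h1
    have h2 : ((P.image (dist p)).filter (fun ρ => ¬ (dist p q ≤ ρ ↔ dist p q' ≤ ρ))).card = 0 := by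
      exact_mod_cast h1.symm
    rw [Finset.card_eq_zero, Finset.filter_eq_empty_iff] at h2
    have h3 := h2 (mem_image_of_mem (dist p) hq)
    have h4 := h2 (mem_image_of_mem (dist p) hq')
    push Not at h3 h4
    exact le_antisymm (h4.mpr le_rfl) (h3.mp le_rfl)
  · intro h
    unfold rk
    rw [h]

open scoped Classical in
theorem sum_rk {d : ℕ} (P : Finset (EuclideanSpace ℝ (Fin d)))
    (p : EuclideanSpace ℝ (Fin d)) :
    ∃ z : ℝ → EuclideanSpace ℝ (Fin d), (∀ ρ ∈ P.image (dist p), z ρ ∈ P) ∧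
    ∀ X : Finset (EuclideanSpace ℝ (Fin d)), ∑ π ∈ X ×ˢ X, (|rk P p π.2 - rk P p π.1| : ℝ)
      = ∑ ρ ∈ P.image (dist p), sepc rng ((p, z ρ), true) X := by
  have hz : ∀ ρ : ℝ, ∃ z : EuclideanSpace ℝ (Fin d), ρ ∈ P.image (dist p) → (z ∈ P ∧ dist p z = ρ) := by
    intro ρ
    by_cases h : ρ ∈ P.image (dist p)
    · obtain ⟨z, hz, hz2⟩ := mem_image.mp h
      exact ⟨z, fun _ => ⟨hz, hz2⟩⟩
    · exact ⟨p, fun h' => absurd h' h⟩
  choose z hz using hz
  refine ⟨z, fun ρ hρ => (hz ρ hρ).1, ?_⟩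
  intro X
  have h1 : ∀ ρ ∈ P.image (dist p), sepc rng ((p, z ρ), true) X
      = ∑ π ∈ X ×ˢ X, if ¬ (dist p π.1 ≤ ρ ↔ dist p π.2 ≤ ρ) then (1:ℝ) else 0 := by
    intro ρ hρ
    unfold sepc
    rw [Finset.card_filter]
    push_cast
    apply Finset.sum_congr rfl
    intro π _
    have h2 := rng_ball p (z ρ) π.1
    have h3 := rng_ball p (z ρ) π.2
    rw [(hz ρ hρ).2] at h2 h3
    congr 1
    rw [← h2, ← h3]
    rw [eq_iff_iff, not_iff_not]
    exact Bool.eq_iff_iff
  rw [Finset.sum_congr rfl h1, Finset.sum_comm]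
  apply Finset.sum_congr rfl
  intro π _
  have h2 := abs_rk P p π.1 π.2
  rw [Finset.card_filter] at h2
  have h3 : ((|rk P p π.2 - rk P p π.1| : ℤ) : ℝ)
      = ∑ ρ ∈ P.image (dist p), if ¬ (dist p π.1 ≤ ρ ↔ dist p π.2 ≤ ρ) then (1:ℝ) else 0 := by
    rw [h2]; push_cast; rfl
  rw [← h3]; push_cast; rfl

end Vale.Agent.P054K
end

section

set_option autoImplicit false

open Finset

namespace Vale.Agent.P054K

theorem refl_pair {d : ℕ} (a b q q' : EuclideanSpace ℝ (Fin d)) (hq : q ≠ q')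
    (h : dualVec (q, q') ∈ Submodule.span ℝ {dualVec (a, b)}) :
    ∃ c : ℝ, c ≠ 0 ∧ q - q' = c • (a - b) ∧
      2 * inner ℝ (a - b) q - (‖a‖ ^ 2 - ‖b‖ ^ 2) = c * ‖a - b‖ ^ 2 ∧
      2 * inner ℝ (a - b) q' - (‖a‖ ^ 2 - ‖b‖ ^ 2) = - (c * ‖a - b‖ ^ 2) := by
  rw [Submodule.mem_span_singleton] at h
  obtain ⟨c, hc⟩ := h
  unfold dualVec at hc
  simp only [Prod.smul_mk, Prod.mk.injEq, smul_eq_mul] at hc
  obtain ⟨h1, h2⟩ := hc
  have hc0 : c ≠ 0 := by
    rintro rfl
    rw [zero_smul] at h1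
    exact hq (sub_eq_zero.mp h1.symm)
  have h3 : inner ℝ (q - q') (q + q') = ‖q‖ ^ 2 - ‖q'‖ ^ 2 := by
    rw [inner_sub_left, inner_add_right, inner_add_right, real_inner_self_eq_norm_sq,
      real_inner_self_eq_norm_sq, real_inner_comm q q']
    ring
  have h4 : inner ℝ (a - b) (q + q') = ‖a‖ ^ 2 - ‖b‖ ^ 2 := by
    rw [← h1, inner_smul_left, ← h2] at h3
    simp only [conj_trivial] at h3
    exact mul_left_cancel₀ hc0 h3
  have h5 : inner ℝ (a - b) (q - q') = c * ‖a - b‖ ^ 2 := by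
    rw [← h1, inner_smul_right, real_inner_self_eq_norm_sq]
  refine ⟨c, hc0, h1.symm, ?_, ?_⟩
  · rw [← h4, ← h5, inner_add_right, inner_sub_right]; ring
  · rw [← h4, ← h5, inner_add_right, inner_sub_right]; ring

open scoped Classical in
theorem sepc_split {α ι : Type} (R : ι → α → Bool) (σ : ι) (X : Finset α) :
    sepc R σ X = 2 * ((X.filter (fun y => R σ y = true)).card : ℝ) *
      ((X.filter (fun y => ¬ R σ y = true)).card : ℝ) := by
  unfold sepc
  have h1 : (X ×ˢ X).filter (fun p => R σ p.1 ≠ R σ p.2) =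
      ((X.filter (fun y => R σ y = true)) ×ˢ (X.filter (fun y => ¬ R σ y = true))) ∪
      ((X.filter (fun y => ¬ R σ y = true)) ×ˢ (X.filter (fun y => R σ y = true))) := by
    ext p
    simp only [mem_filter, mem_product, mem_union]
    cases h1 : R σ p.1 <;> cases h2 : R σ p.2 <;> simp
  rw [h1, card_union_of_disjoint]
  · rw [card_product, card_product]; push_cast; ring
  · rw [Finset.disjoint_left]
    intro p hp hp'
    simp only [mem_filter, mem_product] at hp hp'
    exact hp'.1.2 hp.1.2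

open scoped Classical in
/-- mirrored pairs in a class -/
theorem mirror_count {d : ℕ} (X : Finset (EuclideanSpace ℝ (Fin d)))
    (a b : EuclideanSpace ℝ (Fin d)) (hab : a ≠ b) :
    ((X.offDiag.filter (fun π => dualVec π ∈ Submodule.span ℝ {dualVec (a, b)})).card : ℝ) *
      X.card ≤ 2 * sepc rng ((a, b), false) X := by
  set A := X.offDiag.filter (fun π => dualVec π ∈ Submodule.span ℝ {dualVec (a, b)}) with hA
  set U := X.filter (fun y => rng ((a, b), false) y = true) with hU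
  set W := X.filter (fun y => ¬ rng ((a, b), false) y = true) with hW
  have hpos : 0 < ‖a - b‖ ^ 2 := by
    have : 0 < ‖a - b‖ := norm_pos_iff.mpr (sub_ne_zero.mpr hab)
    positivity
  -- basic facts
  have key : ∀ π ∈ A, π.1 ∈ X ∧ π.2 ∈ X ∧
      π.1 - π.2 = ((2 * inner ℝ (a - b) π.1 - (‖a‖ ^ 2 - ‖b‖ ^ 2)) / ‖a - b‖ ^ 2) • (a - b) ∧
      π.2 - π.1 = ((2 * inner ℝ (a - b) π.2 - (‖a‖ ^ 2 - ‖b‖ ^ 2)) / ‖a - b‖ ^ 2) • (a - b) ∧
      (rng ((a, b), false) π.1 = true ↔ ¬ rng ((a, b), false) π.2 = true) := by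
    intro π hπ
    rw [hA, mem_filter, mem_offDiag] at hπ
    obtain ⟨⟨h1, h2, h3⟩, h4⟩ := hπ
    obtain ⟨c, hc0, hc1, hc2, hc3⟩ := refl_pair a b π.1 π.2 h3 h4
    refine ⟨h1, h2, ?_, ?_, ?_⟩
    · rw [hc2, hc1, mul_div_assoc, div_self hpos.ne', mul_one]
    · rw [hc3, ← neg_sub, hc1, ← neg_smul, neg_div, mul_div_assoc, div_self hpos.ne', mul_one]
    · rw [rng_half, rng_half, hc2, hc3]
      constructor
      · intro h5 h6
        have h7 : c * ‖a - b‖ ^ 2 = 0 := by linarith only [h6, h5]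
        rcases mul_eq_zero.mp h7 with h8 | h8
        · exact hc0 h8
        · exact hpos.ne' h8
      · intro h5
        linarith only [h5]
  have inj1 : ∀ π ∈ A, ∀ π' ∈ A, π.1 = π'.1 → π = π' := by
    intro π hπ π' hπ' h
    have h1 := (key π hπ).2.2.1
    have h2 := (key π' hπ').2.2.1
    rw [← h] at h2
    have h3 : π.1 - π.2 = π.1 - π'.2 := by rw [h1, h2]
    exact Prod.ext h (sub_right_injective h3)
  have inj2 : ∀ π ∈ A, ∀ π' ∈ A, π.2 = π'.2 → π = π' := by
    intro π hπ π' hπ' h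
    have h1 := (key π hπ).2.2.2.1
    have h2 := (key π' hπ').2.2.2.1
    rw [← h] at h2
    have h3 : π.2 - π.1 = π.2 - π'.1 := by rw [h1, h2]
    exact Prod.ext (sub_right_injective h3) h
  have hsplit : (A.filter (fun π => rng ((a, b), false) π.1 = true)).card +
      (A.filter (fun π => ¬ rng ((a, b), false) π.1 = true)).card = A.card :=
    Finset.card_filter_add_card_filter_not _
  have hc1 : (A.filter (fun π => rng ((a, b), false) π.1 = true)).card ≤ U.card := by
    apply Finset.card_le_card_of_injOn (fun π => π.1)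
    · intro π hπ
      have h1 := mem_filter.mp hπ
      rw [mem_coe, hU, mem_filter]
      exact ⟨(key π h1.1).1, h1.2⟩
    · intro π hπ π' hπ' h
      exact inj1 π (mem_filter.mp hπ).1 π' (mem_filter.mp hπ').1 h
  have hc2 : (A.filter (fun π => rng ((a, b), false) π.1 = true)).card ≤ W.card := by
    apply Finset.card_le_card_of_injOn (fun π => π.2)
    · intro π hπ
      have h1 := mem_filter.mp hπ
      rw [mem_coe, hW, mem_filter]
      exact ⟨(key π h1.1).2.1, (key π h1.1).2.2.2.2.mp h1.2⟩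
    · intro π hπ π' hπ' h
      exact inj2 π (mem_filter.mp hπ).1 π' (mem_filter.mp hπ').1 h
  have hc3 : (A.filter (fun π => ¬ rng ((a, b), false) π.1 = true)).card ≤ W.card := by
    apply Finset.card_le_card_of_injOn (fun π => π.1)
    · intro π hπ
      have h1 := mem_filter.mp hπ
      rw [mem_coe, hW, mem_filter]
      exact ⟨(key π h1.1).1, h1.2⟩
    · intro π hπ π' hπ' h
      exact inj1 π (mem_filter.mp hπ).1 π' (mem_filter.mp hπ').1 h
  have hc4 : (A.filter (fun π => ¬ rng ((a, b), false) π.1 = true)).card ≤ U.card := by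
    apply Finset.card_le_card_of_injOn (fun π => π.2)
    · intro π hπ
      have h1 := mem_filter.mp hπ
      rw [mem_coe, hU, mem_filter]
      refine ⟨(key π h1.1).2.1, ?_⟩
      by_contra h2
      exact h1.2 ((key π h1.1).2.2.2.2.mpr h2)
    · intro π hπ π' hπ' h
      exact inj2 π (mem_filter.mp hπ).1 π' (mem_filter.mp hπ').1 h
  have hX : U.card + W.card = X.card := Finset.card_filter_add_card_filter_not _
  rw [sepc_split]
  have e1 : (A.card : ℝ) ≤ 2 * U.card := by
    rw [← hsplit]; push_cast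
    have := (Nat.cast_le (α := ℝ)).mpr hc1
    have := (Nat.cast_le (α := ℝ)).mpr hc4
    linarith
  have e2 : (A.card : ℝ) ≤ 2 * W.card := by
    rw [← hsplit]; push_cast
    have := (Nat.cast_le (α := ℝ)).mpr hc2
    have := (Nat.cast_le (α := ℝ)).mpr hc3
    linarith
  have e3 : (X.card : ℝ) = U.card + W.card := by rw [← hX]; push_cast; ring
  rw [e3]
  have hu : (0:ℝ) ≤ U.card := by (clear * -; positivity)
  have hw : (0:ℝ) ≤ W.card := by (clear * -; positivity)
  have e4 := mul_le_mul_of_nonneg_right e1 hw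
  have e5 := mul_le_mul_of_nonneg_right e2 hu
  calc (A.card : ℝ) * (U.card + W.card) = A.card * W.card + A.card * U.card := by ring
    _ ≤ 2 * U.card * W.card + 2 * W.card * U.card := by linarith only [e4, e5]
    _ = 2 * (2 * U.card * W.card) := by ring

end Vale.Agent.P054K
end

section

set_option autoImplicit false

open Finset

namespace Vale.Agent.P054K

/-- potential bound -/
theorem phi_bound (n x s r : ℕ) (d : ℕ) (hd : 1 ≤ d) (hx : 1 ≤ x) (hs : 1 ≤ s) (Λ : ℝ)
    (hΛ : 16 * (Real.log (n + 3) + 1) ≤ Λ) (h1 : 4 * x * (2 * s + 1) ^ d ≤ n)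
    (hr : n ≤ 4 * (r * x)) :
    2 * (Real.log ((2 * n ^ 2 : ℕ) : ℝ) + r * ((2 * Real.log n + 1) / s)) ≤ r * Λ / (2 * s) := by
  have hn : 1 ≤ n := by
    have : 0 < 4 * x * (2 * s + 1) ^ d := by positivity
    omega
  have hn' : (1:ℝ) ≤ n := by exact_mod_cast hn
  have hs' : (0:ℝ) < s := by exact_mod_cast hs
  have hrs : s ≤ r := by
    have h2 : x * (2 * s + 1) ^ d ≤ r * x := by
      have : 4 * x * (2 * s + 1) ^ d = 4 * (x * (2 * s + 1) ^ d) := by ring
      omega
    rw [mul_comm r x] at h2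
    have h3 := Nat.le_of_mul_le_mul_left h2 (by omega)
    have h4 : (2 * s + 1) ^ 1 ≤ (2 * s + 1) ^ d := Nat.pow_le_pow_right (by omega) hd
    rw [pow_one] at h4
    omega
  have hrs' : (s:ℝ) ≤ r := by exact_mod_cast hrs
  have hlog : 0 ≤ Real.log n := Real.log_nonneg hn'
  have h5 : Real.log ((2 * n ^ 2 : ℕ) : ℝ) ≤ 2 * Real.log n + 1 := by
    push_cast
    rw [Real.log_mul (by norm_num) (by positivity), Real.log_pow]
    have := Real.log_two_lt_d9
    push_cast
    linarith only [this]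
  have h6 : Real.log n ≤ Real.log (n + 3) := Real.log_le_log (by linarith only [hn']) (by linarith only [])
  have h7 : Real.log ((2 * n ^ 2 : ℕ) : ℝ) ≤ r * ((2 * Real.log n + 1) / s) := by
    refine le_trans h5 ?_
    rw [mul_div_assoc', le_div_iff₀ hs']
    have : 0 ≤ 2 * Real.log n + 1 := by linarith only [hlog]
    nlinarith only [hrs', hlog]
  calc 2 * (Real.log ((2 * n ^ 2 : ℕ) : ℝ) + r * ((2 * Real.log n + 1) / s))
      ≤ 2 * (2 * (r * ((2 * Real.log n + 1) / s))) := by linarith only [h7]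
    _ = r * (8 * (2 * Real.log n + 1)) / (2 * s) := by field_simp; ring
    _ ≤ r * Λ / (2 * s) := by
        apply div_le_div_of_nonneg_right _ (by positivity)
        apply mul_le_mul_of_nonneg_left _ (by positivity)
        linarith only [hΛ, h6]

open scoped Classical in
theorem exists_pairs (d : ℕ) (hd : 1 ≤ d) (P : Finset (EuclideanSpace ℝ (Fin d)))
    (t x s : ℕ) (Λ : ℝ) (hΛ : 16 * (Real.log (P.card + 3) + 1) ≤ Λ)
    (ht : ∀ p ∈ P, (P.image (dist p)).card ≤ t + 1) (hs : 1 ≤ s) (hx : 1 ≤ x)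
    (h1 : 4 * x * (2 * s + 1) ^ d ≤ P.card)
    (h2 : 100 * ((t:ℝ) + 1) * Λ / s + 4 ≤ x) :
    ∃ T : Finset (EuclideanSpace ℝ (Fin d) × EuclideanSpace ℝ (Fin d)),
      (∀ π ∈ T, π.1 ∈ P ∧ π.2 ∈ P ∧ π.1 ≠ π.2) ∧ T.card ≤ P.card * x ∧
      (∀ p ∈ P, P.card ≤ 4 * (T.filter (fun π => dist p π.1 = dist p π.2)).card) ∧
      (∀ π₀ ∈ T, ((T.filter (fun π => dualVec π ∈ Submodule.span ℝ {dualVec π₀})).card : ℝ)
        ≤ P.card * Λ / s) := by
  have hP : 0 < P.card := by
    have : 0 < 4 * x * (2 * s + 1) ^ d := by positivity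
    omega
  have hs' : (0:ℝ) < s := by exact_mod_cast hs
  have hx' : (0:ℝ) < x := by exact_mod_cast hx
  set S : Finset ((EuclideanSpace ℝ (Fin d) × EuclideanSpace ℝ (Fin d)) × Bool) :=
    (P ×ˢ P) ×ˢ Finset.univ with hS
  have hScard : S.card = 2 * P.card ^ 2 := by
    rw [hS, card_product, card_product, Finset.card_univ, Fintype.card_bool]; ring
  have hSne : S.Nonempty := by
    rw [← Finset.card_pos, hScard]; (clear * - hP; positivity)
  have hB : ∀ g : Fin s → (EuclideanSpace ℝ (Fin d) × EuclideanSpace ℝ (Fin d)) × Bool,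
      (∀ k, g k ∈ S) → (P.image (fun y => fun k => rng (g k) y)).card ≤ 2 * (2 * s + 1) ^ d := by
    intro g _
    have h := quad_cells d (Fin s) (fun k => if (g k).2 then (1:ℝ) else 0)
      (fun k => if (g k).2 then (-2:ℝ) • (g k).1.1 else (2:ℝ) • ((g k).1.1 - (g k).1.2))
      (fun k => if (g k).2 then ‖(g k).1.1‖ ^ 2 - dist (g k).1.1 (g k).1.2 ^ 2
        else -(‖(g k).1.1‖ ^ 2 - ‖(g k).1.2‖ ^ 2)) P
    rw [Fintype.card_fin] at h
    refine le_trans (le_of_eq ?_) h
    congr 1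
  obtain ⟨r, X, hXP, hXc, hXd, hr, hsep⟩ := partition P S hSne rng (2 * (2 * s + 1) ^ d) x s hs hx
    (fun g hg => by convert hB g hg) (by
      calc 2 * x * (2 * (2 * s + 1) ^ d) = 4 * x * (2 * s + 1) ^ d := by ring
        _ ≤ P.card := h1) (by
      have h3 : 1 ≤ (2 * s + 1) ^ d := Nat.one_le_pow _ _ (by omega)
      calc 4 * x = 4 * x * 1 := by ring
        _ ≤ 4 * x * (2 * s + 1) ^ d := Nat.mul_le_mul_left _ h3
        _ ≤ P.card := h1)
  have hphi := phi_bound P.card x s r d hd hx hs Λ hΛ h1 hr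
  have hsep2 : ∀ σ ∈ S, ∑ i, sepc rng σ (X i) ≤ (x:ℝ) ^ 2 * (r * Λ / (2 * s)) := by
    intro σ hσ
    refine le_trans (hsep σ hσ) ?_
    apply mul_le_mul_of_nonneg_left _ (by positivity)
    rw [hScard]
    exact hphi
  have hΛ0 : 0 < Λ := by
    have : 0 ≤ Real.log ((P.card:ℝ) + 3) := Real.log_nonneg (by
      have : (0:ℝ) ≤ P.card := by (clear * - hP; positivity)
      linarith only [])
    linarith only [hΛ, this]
  -- disjointness of the offdiagonals
  have hdis : ∀ i ∈ (Finset.univ : Finset (Fin r)), ∀ j ∈ (Finset.univ : Finset (Fin r)), i ≠ j →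
      Disjoint ((X i).offDiag) ((X j).offDiag) := by
    intro i _ j _ hij
    rw [Finset.disjoint_left]
    intro π h h'
    rw [mem_offDiag] at h h'
    exact (Finset.disjoint_left.mp (hXd i j hij)) h.1 h'.1
  have hrx : r * x ≤ P.card := by
    have hbi : (Finset.univ.biUnion X).card = r * x := by
      rw [Finset.card_biUnion (fun k _ l _ hkl => hXd k l hkl)]
      simp only [hXc, sum_const, card_univ, Fintype.card_fin, smul_eq_mul]
    rw [← hbi]
    apply card_le_card
    intro y hy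
    rw [mem_biUnion] at hy
    obtain ⟨k, _, hk⟩ := hy
    exact hXP k hk
  set T := Finset.univ.biUnion (fun i => (X i).offDiag) with hT
  have hTf : ∀ p : (EuclideanSpace ℝ (Fin d) × EuclideanSpace ℝ (Fin d)) → Prop,
      (T.filter p).card = ∑ i, (((X i).offDiag).filter p).card := by
    intro p
    rw [hT, Finset.filter_biUnion, Finset.card_biUnion]
    intro i hi j hj hij
    exact Finset.disjoint_filter_filter (hdis i hi j hj hij)
  refine ⟨T, ?_, ?_, ?_, ?_⟩
  · intro π hπ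
    rw [hT, mem_biUnion] at hπ
    obtain ⟨i, _, hi⟩ := hπ
    rw [mem_offDiag] at hi
    exact ⟨hXP i hi.1, hXP i hi.2.1, hi.2.2⟩
  · rw [hT, Finset.card_biUnion hdis]
    calc ∑ i, (X i).offDiag.card ≤ ∑ _i : Fin r, x * x := by
          apply Finset.sum_le_sum
          intro i _
          rw [offDiag_card, hXc i]
          exact Nat.sub_le _ _
      _ = (r * x) * x := by
          rw [Finset.sum_const, Finset.card_univ, Fintype.card_fin, smul_eq_mul]; ring
      _ ≤ P.card * x := Nat.mul_le_mul_right x hrx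
  · intro p hp
    rw [hTf]
    obtain ⟨z, hzP, hz⟩ := sum_rk P p
    set D : Fin r → ℝ := fun i =>
      (∑ ρ ∈ P.image (dist p), sepc rng ((p, z ρ), true) (X i)) / (x:ℝ) ^ 2 with hD
    -- per class
    have hcl : ∀ i, 3 * (x:ℝ) - 32 * D i - 8 ≤
        ((((X i).offDiag).filter (fun π => dist p π.1 = dist p π.2)).card : ℝ) := by
      intro i
      have hXpos : 0 < (X i).card := by rw [hXc i]; omega
      have h3 : ∑ π ∈ X i ×ˢ X i, (|rk P p π.2 - rk P p π.1| : ℝ) ≤ D i * ((X i).card : ℝ) ^ 2 := by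
        rw [hz (X i), hXc i, hD]
        simp only
        rw [div_mul_cancel₀ _ (by positivity)]
      have h4 := equal_pairs (X i) (rk P p) hXpos (D i) h3
      rw [hXc i] at h4
      set E : ℝ := (((X i ×ˢ X i).filter (fun π => rk P p π.2 = rk P p π.1)).card : ℝ) with hE
      have hD0 : 0 ≤ D i := by
        rw [hD]; simp only
        apply div_nonneg _ (by positivity)
        exact Finset.sum_nonneg (fun ρ _ => sepc_nonneg _ _ _)
      have h5 : 4 * (x:ℝ) - 32 * D i - 8 ≤ E := by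
        by_contra hcon
        push Not at hcon
        have ha : 0 < 2 * (4 * D i + 1) := by linarith only [hD0]
        have h6 := mul_lt_mul_of_pos_left hcon ha
        linarith only [h4, h6, sq_nonneg ((x:ℝ) - 2 * (2 * (4 * D i + 1)))]
      have h6 : ((X i ×ˢ X i).filter (fun π => rk P p π.2 = rk P p π.1)) ⊆
          (((X i).offDiag).filter (fun π => dist p π.1 = dist p π.2)) ∪ (X i).diag := by
        intro π hπ
        rw [mem_filter, mem_product] at hπ
        rw [mem_union, mem_filter, mem_offDiag, mem_diag]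
        by_cases h7 : π.1 = π.2
        · right; exact ⟨hπ.1.1, h7⟩
        · left
          exact ⟨⟨hπ.1.1, hπ.1.2, h7⟩,
            (rk_eq_iff P p π.1 π.2 (hXP i hπ.1.1) (hXP i hπ.1.2)).mp hπ.2⟩
      have h7 := (card_le_card h6).trans (card_union_le _ _)
      rw [diag_card, hXc i] at h7
      have h8 : E ≤ ((((X i).offDiag).filter (fun π => dist p π.1 = dist p π.2)).card : ℝ) + x := by
        rw [hE]; exact_mod_cast h7
      linarith only [h5, h8]
    -- sum over classes
    have hDsum : ∑ i, D i ≤ ((t:ℝ) + 1) * (r * Λ / (2 * s)) := by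
      have h3 : ∑ i, D i = (∑ ρ ∈ P.image (dist p), ∑ i, sepc rng ((p, z ρ), true) (X i))
          / (x:ℝ) ^ 2 := by
        rw [Finset.sum_comm, Finset.sum_div]
      rw [h3, div_le_iff₀ (by positivity)]
      calc ∑ ρ ∈ P.image (dist p), ∑ i, sepc rng ((p, z ρ), true) (X i)
          ≤ ∑ _ρ ∈ P.image (dist p), (x:ℝ) ^ 2 * (r * Λ / (2 * s)) := by
            apply Finset.sum_le_sum
            intro ρ hρ
            apply hsep2
            rw [hS, mem_product, mem_product]
            exact ⟨⟨hp, hzP ρ hρ⟩, mem_univ _⟩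
        _ = ((P.image (dist p)).card : ℝ) * ((x:ℝ) ^ 2 * (r * Λ / (2 * s))) := by
            rw [Finset.sum_const, nsmul_eq_mul]
        _ ≤ ((t:ℝ) + 1) * ((x:ℝ) ^ 2 * (r * Λ / (2 * s))) := by
            apply mul_le_mul_of_nonneg_right _ (by (clear * - hs hx hΛ0; positivity))
            exact_mod_cast ht p hp
        _ = ((t:ℝ) + 1) * (r * Λ / (2 * s)) * (x:ℝ) ^ 2 := by ring
    have hsum : (r:ℝ) * x ≤ ∑ i, ((((X i).offDiag).filter (fun π => dist p π.1 = dist p π.2)).card : ℝ) := by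
      have h3 := Finset.sum_le_sum (s := Finset.univ) (fun i (_ : i ∈ Finset.univ) => hcl i)
      have h4 : ∑ i : Fin r, (3 * (x:ℝ) - 32 * D i - 8) = r * (3 * x - 8) - 32 * ∑ i, D i := by
        rw [Finset.sum_sub_distrib, Finset.sum_sub_distrib, Finset.mul_sum]
        simp only [Finset.sum_const, Finset.card_univ, Fintype.card_fin, nsmul_eq_mul]
        ring
      rw [h4] at h3
      refine le_trans ?_ h3
      have h5 : 32 * ∑ i, D i ≤ 0.16 * (r * (x - 4)) := by
        calc 32 * ∑ i, D i ≤ 32 * (((t:ℝ) + 1) * (r * Λ / (2 * s))) := by linarith only [hDsum]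
          _ = 0.16 * (r * (100 * ((t:ℝ) + 1) * Λ / s)) := by field_simp; ring
          _ ≤ 0.16 * (r * (x - 4)) := by
              have : (0:ℝ) ≤ r := by (clear * -; positivity)
              have h6 : 100 * ((t:ℝ) + 1) * Λ / s ≤ x - 4 := by linarith only [h2]
              nlinarith only [h2]
      have h7 : (4:ℝ) ≤ x := by
        have : 0 ≤ 100 * ((t:ℝ) + 1) * Λ / s := by (clear * - hs hΛ0; positivity)
        linarith only [h2, this]
      have h8 : (0:ℝ) ≤ r := by (clear * -; positivity)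
      nlinarith only [h5, h7]
    have h9 : (P.card : ℝ) ≤ 4 * (r * x) := by exact_mod_cast hr
    have h10 : (P.card : ℝ) ≤ 4 * ∑ i, ((((X i).offDiag).filter (fun π => dist p π.1 = dist p π.2)).card : ℝ) := by
      linarith only [hsum, h9]
    exact_mod_cast h10
  · intro π₀ hπ₀
    rw [hT, mem_biUnion] at hπ₀
    obtain ⟨j, _, hj⟩ := hπ₀
    rw [mem_offDiag] at hj
    rw [hTf]
    push_cast
    have hab : π₀.1 ≠ π₀.2 := hj.2.2
    have h3 : (∑ i, (((X i).offDiag.filter
        (fun π => dualVec π ∈ Submodule.span ℝ {dualVec π₀})).card : ℝ)) * x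
        ≤ 2 * ((x:ℝ) ^ 2 * (r * Λ / (2 * s))) := by
      rw [Finset.sum_mul]
      calc ∑ i, (((X i).offDiag.filter
            (fun π => dualVec π ∈ Submodule.span ℝ {dualVec π₀})).card : ℝ) * x
          ≤ ∑ i, 2 * sepc rng (π₀, false) (X i) := by
            apply Finset.sum_le_sum
            intro i _
            have := mirror_count (X i) π₀.1 π₀.2 hab
            rw [hXc i] at this
            exact this
        _ = 2 * ∑ i, sepc rng (π₀, false) (X i) := by rw [Finset.mul_sum]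
        _ ≤ 2 * ((x:ℝ) ^ 2 * (r * Λ / (2 * s))) := by
            apply mul_le_mul_of_nonneg_left _ (by norm_num)
            apply hsep2
            rw [hS, mem_product, mem_product]
            exact ⟨⟨hXP j hj.1, hXP j hj.2.1⟩, mem_univ _⟩
    have h4 : 2 * ((x:ℝ) ^ 2 * (r * Λ / (2 * s))) = ((r * x) * Λ / s) * x := by
      (clear * - hs hx hΛ0; field_simp)
    rw [h4] at h3
    have h5 := le_of_mul_le_mul_right h3 hx'
    refine le_trans h5 ?_
    apply div_le_div_of_nonneg_right _ hs'.le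
    apply mul_le_mul_of_nonneg_right _ hΛ0.le
    exact_mod_cast hrx

end Vale.Agent.P054K
end

section

set_option autoImplicit false

open Finset

namespace Vale.Agent.P054K

/-- every set in dimension `j` all of whose points see at most `t` nonzero distances has at most
`g` points -/
def PinnedBy (j t : ℕ) (g : ℝ) : Prop :=
  ∀ P : Finset (EuclideanSpace ℝ (Fin j)), (∀ p ∈ P, (P.image (dist p)).card ≤ t + 1) →
    (P.card : ℝ) ≤ g

/-- dual functional of a point -/
noncomputable def phi {d : ℕ} (p : EuclideanSpace ℝ (Fin d)) :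
    (EuclideanSpace ℝ (Fin d) × ℝ) →ₗ[ℝ] ℝ :=
  (2:ℝ) • ((innerₛₗ ℝ p).comp (LinearMap.fst ℝ (EuclideanSpace ℝ (Fin d)) ℝ))
    - LinearMap.snd ℝ (EuclideanSpace ℝ (Fin d)) ℝ

theorem phi_apply {d : ℕ} (p u : EuclideanSpace ℝ (Fin d)) (c : ℝ) :
    phi p (u, c) = 2 * inner ℝ p u - c := by
  simp [phi]

/-- dual hyperplane of a point -/
noncomputable def hyp {d : ℕ} (p : EuclideanSpace ℝ (Fin d)) :
    Submodule ℝ (EuclideanSpace ℝ (Fin d) × ℝ) := LinearMap.ker (phi p)

theorem mem_hyp {d : ℕ} (p u : EuclideanSpace ℝ (Fin d)) (c : ℝ) :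
    (u, c) ∈ hyp p ↔ 2 * inner ℝ p u = c := by
  unfold hyp
  rw [LinearMap.mem_ker, phi_apply, sub_eq_zero]

theorem dualVec_mem_hyp {d : ℕ} (p : EuclideanSpace ℝ (Fin d))
    (π : EuclideanSpace ℝ (Fin d) × EuclideanSpace ℝ (Fin d)) :
    dualVec π ∈ hyp p ↔ dist p π.1 = dist p π.2 := by
  unfold dualVec
  rw [mem_hyp]
  have h1 : dist p π.1 ^ 2 = ‖p‖ ^ 2 - 2 * inner ℝ p π.1 + ‖π.1‖ ^ 2 := by
    rw [dist_eq_norm, norm_sub_sq_real]
  have h2 : dist p π.2 ^ 2 = ‖p‖ ^ 2 - 2 * inner ℝ p π.2 + ‖π.2‖ ^ 2 := by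
    rw [dist_eq_norm, norm_sub_sq_real]
  rw [inner_sub_right]
  constructor
  · intro h
    have h3 : dist p π.1 ^ 2 = dist p π.2 ^ 2 := by rw [h1, h2]; linarith only [h]
    exact (sq_eq_sq₀ dist_nonneg dist_nonneg).mp h3
  · intro h
    have h3 : dist p π.1 ^ 2 = dist p π.2 ^ 2 := by rw [h]
    rw [h1, h2] at h3; linarith only [h3]

theorem finrank_hyp {d : ℕ} (p : EuclideanSpace ℝ (Fin d)) : Module.finrank ℝ (hyp p) = d := by
  have h1 := LinearMap.finrank_range_add_finrank_ker (phi p)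
  have h2 : LinearMap.range (phi p) = ⊤ := by
    rw [LinearMap.range_eq_top]
    intro y
    refine ⟨(0, -y), ?_⟩
    rw [phi_apply]; simp only [inner_zero_right, mul_zero, sub_neg_eq_add, zero_add]
  rw [h2, finrank_top, Module.finrank_self, Module.finrank_prod, finrank_euclideanSpace_fin,
    Module.finrank_self] at h1
  unfold hyp
  omega

theorem dualVec_ne_zero {d : ℕ} (π : EuclideanSpace ℝ (Fin d) × EuclideanSpace ℝ (Fin d))
    (h : π.1 ≠ π.2) : dualVec π ≠ 0 := by
  unfold dualVec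
  intro h0
  rw [Prod.mk_eq_zero] at h0
  exact h (sub_eq_zero.mp h0.1)

open scoped Classical in
/-- points sharing a `w`-dimensional dual subspace lie in a flat of dimension `d - w` -/
theorem flat_bound {d t j : ℕ} {g : ℝ} (P S : Finset (EuclideanSpace ℝ (Fin d))) (hS : S ⊆ P)
    (ht : ∀ p ∈ P, (P.image (dist p)).card ≤ t + 1)
    (A : Submodule ℝ (EuclideanSpace ℝ (Fin d) × ℝ)) (hA : ∀ p ∈ S, A ≤ hyp p)
    (hj : Module.finrank ℝ A + j = d) (hg : PinnedBy j t g) : (S.card : ℝ) ≤ g := by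
  rcases S.eq_empty_or_nonempty with hSe | ⟨p₀, hp₀⟩
  · subst hSe
    have := hg ∅ (by simp)
    simpa only [card_empty, CharP.cast_eq_zero, ge_iff_le] using this
  set U : Submodule ℝ (EuclideanSpace ℝ (Fin d)) :=
    A.map (LinearMap.fst ℝ (EuclideanSpace ℝ (Fin d)) ℝ) with hU
  have hfU : Module.finrank ℝ U = Module.finrank ℝ A := by
    have hinj : Function.Injective
        ((LinearMap.fst ℝ (EuclideanSpace ℝ (Fin d)) ℝ).domRestrict A) := by
      rw [injective_iff_map_eq_zero]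
      rintro ⟨⟨u, c⟩, hx⟩ h0
      have hu : u = 0 := h0
      subst hu
      have h1 := hA p₀ hp₀ hx
      rw [mem_hyp] at h1
      simp only [inner_zero_right, mul_zero] at h1
      subst h1
      rfl
    have h2 := LinearMap.finrank_range_of_inj hinj
    have h3 : LinearMap.range ((LinearMap.fst ℝ (EuclideanSpace ℝ (Fin d)) ℝ).domRestrict A) = U := by
      rw [hU, LinearMap.range_domRestrict]
    rw [h3] at h2
    exact h2
  have horth : ∀ p ∈ S, p - p₀ ∈ Uᗮ := by
    intro p hp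
    rw [Submodule.mem_orthogonal]
    intro u hu
    rw [hU, Submodule.mem_map] at hu
    obtain ⟨⟨u', c⟩, hx, hxu⟩ := hu
    have hxu' : u' = u := hxu
    subst hxu'
    have h1 := hA p hp hx
    have h2 := hA p₀ hp₀ hx
    rw [mem_hyp] at h1 h2
    rw [inner_sub_right, real_inner_comm, real_inner_comm p₀]
    linarith only [h1, h2]
  have hfO : Module.finrank ℝ Uᗮ = j := by
    have h1 := Submodule.finrank_add_finrank_orthogonal U
    rw [finrank_euclideanSpace_fin, hfU] at h1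
    omega
  set b : OrthonormalBasis (Fin j) ℝ Uᗮ := (stdOrthonormalBasis ℝ Uᗮ).reindex (finCongr hfO) with hb
  set f : EuclideanSpace ℝ (Fin d) → EuclideanSpace ℝ (Fin j) := fun p =>
    if h : p - p₀ ∈ Uᗮ then b.repr ⟨p - p₀, h⟩ else 0 with hf
  have hdist : ∀ p ∈ S, ∀ q ∈ S, dist (f p) (f q) = dist p q := by
    intro p hp q hq
    simp only [hf]
    rw [dif_pos (horth p hp), dif_pos (horth q hq), LinearIsometryEquiv.dist_map]
    rw [Subtype.dist_eq, dist_sub_right]
  have hinj : Set.InjOn f (S : Set (EuclideanSpace ℝ (Fin d))) := by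
    intro p hp q hq hpq
    have h1 := hdist p hp q hq
    rw [hpq, dist_self] at h1
    exact dist_eq_zero.mp h1.symm
  have h1 := hg (S.image f) (by
    intro p' hp'
    rw [mem_image] at hp'
    obtain ⟨p, hp, rfl⟩ := hp'
    refine le_trans ?_ (ht p (hS hp))
    apply card_le_card
    intro ρ hρ
    rw [mem_image] at hρ
    obtain ⟨q', hq', rfl⟩ := hρ
    rw [mem_image] at hq'
    obtain ⟨q, hq, rfl⟩ := hq'
    rw [hdist p hp q hq]
    exact mem_image_of_mem _ (hS hq))
  rwa [Finset.card_image_of_injOn hinj] at h1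

theorem et_mono {w c c' : ℕ} {K K' : ℝ} (hK : 1 ≤ K) (hKK : K ≤ K') (hcc : c ≤ c')
    (h : ETProp w K c) : ETProp w K' c' := by
  intro V ι _ _ _ I v m M ρ Λ Z hv hm hm0 hM hΛ hρ hZ
  have hI0 : (0:ℝ) ≤ I.card := by (clear * -; positivity)
  have hM0 : 0 ≤ M := hI0.trans hM
  have hlog : 0 ≤ Real.log (M + 3) := Real.log_nonneg (by linarith only [hM])
  have hΛ1 : 1 ≤ Λ := by linarith only [hΛ, hlog]
  have hL : K * Λ ^ c ≤ K' * Λ ^ c' :=
    mul_le_mul hKK (pow_le_pow_right₀ hΛ1 hcc) (by positivity) (by linarith only [hK, hKK])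
  have hρ0 : 0 < ρ := by
    refine lt_of_lt_of_le ?_ hρ
    have : 0 < K' := by linarith only [hK, hKK]
    positivity
  have h1 := h V ι I v m M ρ Λ Z hv hm hm0 hM hΛ
    ((mul_le_mul_of_nonneg_right hL hm0.le).trans hρ) (by
      intro A hA
      obtain ⟨h2, h3, h4⟩ := hZ A hA
      refine ⟨h2, h3, ?_⟩
      intro B hB
      exact (mul_le_mul_of_nonneg_right hL (mass_nonneg _ _ _)).trans (h4 B hB))
  exact h1.trans (mul_le_mul_of_nonneg_right hL (by positivity))

theorem et_uniform (d : ℕ) : ∃ (K : ℝ) (c : ℕ), 1 ≤ K ∧ ∀ w, 2 ≤ w → w ≤ d → ETProp w K c := by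
  induction d with
  | zero => exact ⟨1, 0, le_rfl, fun w h1 h2 => by omega⟩
  | succ d ih =>
    obtain ⟨K, c, hK, h⟩ := ih
    by_cases hd : 2 ≤ d + 1
    · obtain ⟨K', c', hK', h'⟩ := elekesToth (d + 1) hd
      refine ⟨K + K', c + c', by linarith only [hK, hK'], ?_⟩
      intro w hw1 hw2
      rcases Nat.lt_or_ge w (d + 1) with h3 | h3
      · exact et_mono hK (by linarith only [hK']) (by omega) (h w hw1 (by omega))
      · have : w = d + 1 := by omega
        subst this
        exact et_mono hK' (by linarith only [hK]) (by omega) h'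
    · exact ⟨K, c, hK, fun w h1 h2 => by omega⟩

end Vale.Agent.P054K
end
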