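import Vale.Agent.P054.MathlibUsed
import Vale.Agent.P054.Bdl.B1
import Vale.Agent.P054.Bdl.B2
attribute [-instance] ProperSMul.toContinuousSMul IsTopologicalTorsor.toContinuousSMul IdemSemiring.toCanonicallyOrderedAdd IdemSemiring.toMulLeftMono IdemSemiring.toMulRightMono AddQuantale.instAddLeftMono AddQuantale.instAddRightMono Quantale.instMulLeftMono Quantale.instMulRightMono FiniteDimensional.rclike_to_real IsScalarTower.complexToReal FiniteDimensional.complexToReal

set_option linter.all false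

section

set_option autoImplicit false

open Finset

namespace Vale.Agent.P054K

/-! ### blocks of prescribed size, compatible with a labelling -/

open scoped Classical in
theorem exists_blocks {α κ : Type} (x : ℕ) (hx : 1 ≤ x) (c : α → κ) (m : ℕ) :
    ∀ (Y : Finset α), Y.card = m → (∀ y ∈ Y, (Y.filter (fun z => c z = c y)).card ≤ x) →
    ∃ F : Finset (Finset α), (∀ X ∈ F, X ⊆ Y ∧ X.card = x) ∧
      (∀ X ∈ F, ∀ X' ∈ F, ∀ a ∈ X, ∀ b ∈ X', c a = c b → X = X') ∧
      Y.card ≤ 2 * x * F.card + x := by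
  induction m using Nat.strong_induction_on with
  | _ m ih =>
  intro Y hYm hfib
  by_cases hsmall : Y.card < x
  · refine ⟨∅, by simp, by simp only [notMem_empty, IsEmpty.forall_iff, implies_true], ?_⟩
    simp; omega
  push Not at hsmall
  -- minimal family of labels
  set P : Finset κ → Prop := fun T => x ≤ (Y.filter (fun z => c z ∈ T)).card with hP
  have hne : ((Y.image c).powerset.filter P).Nonempty := by
    refine ⟨Y.image c, ?_⟩
    rw [mem_filter, mem_powerset]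
    refine ⟨Finset.Subset.refl _, ?_⟩
    simp only [hP]
    have : Y.filter (fun z => c z ∈ Y.image c) = Y := by
      rw [Finset.filter_eq_self]
      intro z hz
      exact mem_image_of_mem c hz
    rw [this]; exact hsmall
  obtain ⟨T, hT, hTmin⟩ := Finset.exists_min_image _ (fun T : Finset κ => T.card) hne
  rw [mem_filter, mem_powerset] at hT
  obtain ⟨hTY, hTx⟩ := hT
  have hTx' : x ≤ (Y.filter (fun z => c z ∈ T)).card := hTx
  -- upper bound
  have hTub : (Y.filter (fun z => c z ∈ T)).card < 2 * x := by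
    have hTne : T.Nonempty := by
      rw [Finset.nonempty_iff_ne_empty]
      rintro rfl
      simp at hTx'
      omega
    obtain ⟨k, hk⟩ := hTne
    have h1 : (Y.filter (fun z => c z ∈ T.erase k)).card < x := by
      by_contra hcon
      push Not at hcon
      have h2 := hTmin (T.erase k) (by
        rw [mem_filter, mem_powerset]
        exact ⟨(erase_subset _ _).trans hTY, hcon⟩)
      have h3 := card_erase_lt_of_mem hk
      omega
    have h2 : Y.filter (fun z => c z ∈ T) ⊆ Y.filter (fun z => c z ∈ T.erase k) ∪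
        Y.filter (fun z => c z = k) := by
      intro z hz
      rw [mem_filter] at hz
      rw [mem_union, mem_filter, mem_filter, mem_erase]
      by_cases h : c z = k
      · right; exact ⟨hz.1, h⟩
      · left; exact ⟨hz.1, h, hz.2⟩
    have h3 : (Y.filter (fun z => c z = k)).card ≤ x := by
      obtain ⟨y, hy, hyk⟩ := mem_image.mp (hTY hk)
      have := hfib y hy
      rw [hyk] at this
      exact this
    have h4 := (card_le_card h2).trans (card_union_le _ _)
    omega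
  obtain ⟨X, hXsub, hXc⟩ := exists_subset_card_eq hTx'
  set Y' := Y.filter (fun z => c z ∉ T) with hY'
  have hsplit : (Y.filter (fun z => c z ∈ T)).card + Y'.card = Y.card :=
    Finset.card_filter_add_card_filter_not _
  obtain ⟨F, hF1, hF2, hF3⟩ := ih Y'.card (by (clear * - hYm hTx hTub hXc hsplit; omega)) Y' rfl (by
    intro y hy
    refine le_trans (card_le_card ?_) (hfib y (mem_filter.mp hy).1)
    exact filter_subset_filter _ (filter_subset _ _))
  have hXne : X.Nonempty := by rw [← card_pos]; omega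
  have hXF : X ∉ F := by
    intro h
    obtain ⟨a, ha⟩ := hXne
    have h1 := (hF1 X h).1 ha
    rw [hY', mem_filter] at h1
    exact h1.2 (mem_filter.mp (hXsub ha)).2
  have hcross : ∀ X' ∈ F, ∀ a ∈ X, ∀ b ∈ X', c a ≠ c b := by
    intro X' hX' a ha b hb h
    have h1 := (hF1 X' hX').1 hb
    rw [hY', mem_filter] at h1
    apply h1.2
    rw [← h]
    exact (mem_filter.mp (hXsub ha)).2
  refine ⟨insert X F, ?_, ?_, ?_⟩
  · intro X' hX'
    rw [mem_insert] at hX'
    rcases hX' with rfl | h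
    · exact ⟨hXsub.trans (filter_subset _ _), hXc⟩
    · exact ⟨(hF1 X' h).1.trans (filter_subset _ _), (hF1 X' h).2⟩
  · intro X1 hX1 X2 hX2 a ha b hb hab
    rw [mem_insert] at hX1 hX2
    rcases hX1 with rfl | h1
    · rcases hX2 with rfl | h2
      · rfl
      · exact absurd hab (hcross X2 h2 a ha b hb)
    · rcases hX2 with rfl | h2
      · exact absurd hab.symm (hcross X1 h1 b hb a ha)
      · exact hF2 X1 h1 X2 h2 a ha b hb hab
  · rw [card_insert_of_notMem hXF]
    have : 2 * x * (F.card + 1) = 2 * x * F.card + 2 * x := by ring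
    omega

open scoped Classical in
/-- blocks inside the cells of a partition -/
theorem exists_blocks_cells {α γ κ : Type} (Q : Finset α) (p : α → γ) (c : α → κ) (x : ℕ)
    (hx : 1 ≤ x) (hfib : ∀ y ∈ Q, (Q.filter (fun z => c z = c y)).card ≤ x)
    (hgood : Q.card ≤
      2 * (Q.filter (fun y => 2 * x ≤ (Q.filter (fun z => p z = p y)).card)).card) :
    ∃ F : Finset (Finset α), (∀ X ∈ F, X ⊆ Q ∧ X.card = x) ∧
      (∀ X ∈ F, ∀ a ∈ X, ∀ b ∈ X, p a = p b) ∧
      (∀ X ∈ F, ∀ X' ∈ F, ∀ a ∈ X, ∀ b ∈ X', p a = p b → c a = c b → X = X') ∧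
      Q.card ≤ 8 * x * F.card := by
  set G := Q.filter (fun y => 2 * x ≤ (Q.filter (fun z => p z = p y)).card) with hG
  have hcell : ∀ v : γ, ∃ F : Finset (Finset α),
      (∀ X ∈ F, X ⊆ Q.filter (fun z => p z = v) ∧ X.card = x) ∧
      (∀ X ∈ F, ∀ X' ∈ F, ∀ a ∈ X, ∀ b ∈ X', c a = c b → X = X') ∧
      (Q.filter (fun z => p z = v)).card ≤ 2 * x * F.card + x := by
    intro v
    apply exists_blocks x hx c _ (Q.filter (fun z => p z = v)) rfl
    intro y hy
    refine le_trans (card_le_card ?_) (hfib y (mem_filter.mp hy).1)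
    exact filter_subset_filter _ (filter_subset _ _)
  choose Fv hFv1 hFv2 hFv3 using hcell
  set F := (G.image p).biUnion Fv with hF
  have hFmem : ∀ X ∈ F, ∃ v ∈ G.image p, X ∈ Fv v := by
    intro X hX
    rw [hF, mem_biUnion] at hX
    exact hX
  refine ⟨F, ?_, ?_, ?_, ?_⟩
  · intro X hX
    obtain ⟨v, _, hv⟩ := hFmem X hX
    exact ⟨(hFv1 v X hv).1.trans (filter_subset _ _), (hFv1 v X hv).2⟩
  · intro X hX a ha b hb
    obtain ⟨v, _, hv⟩ := hFmem X hX
    have h1 := (mem_filter.mp ((hFv1 v X hv).1 ha)).2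
    have h2 := (mem_filter.mp ((hFv1 v X hv).1 hb)).2
    rw [h1, h2]
  · intro X hX X' hX' a ha b hb hp hc
    obtain ⟨v, _, hv⟩ := hFmem X hX
    obtain ⟨v', _, hv'⟩ := hFmem X' hX'
    have h1 := (mem_filter.mp ((hFv1 v X hv).1 ha)).2
    have h2 := (mem_filter.mp ((hFv1 v' X' hv').1 hb)).2
    have h3 : v = v' := by rw [← h1, ← h2, hp]
    subst h3
    exact hFv2 v X hv X' hv' a ha b hb hc
  · have hFcard : F.card = ∑ v ∈ G.image p, (Fv v).card := by
      rw [hF, card_biUnion]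
      intro v _ v' _ hvv
      change Disjoint (Fv v) (Fv v')
      rw [Finset.disjoint_left]
      intro X hX hX'
      have hXne : X.Nonempty := by
        rw [← card_pos, (hFv1 v X hX).2]; omega
      obtain ⟨a, ha⟩ := hXne
      have h1 := (mem_filter.mp ((hFv1 v X hX).1 ha)).2
      have h2 := (mem_filter.mp ((hFv1 v' X hX').1 ha)).2
      exact hvv (h1.symm.trans h2)
    have hGcard : G.card ≤ ∑ v ∈ G.image p, 4 * x * (Fv v).card := by
      rw [Finset.card_eq_sum_card_image p G]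
      apply Finset.sum_le_sum
      intro v hv
      obtain ⟨y, hy, hyv⟩ := mem_image.mp hv
      have h1 := (mem_filter.mp hy).2
      rw [hyv] at h1
      have h2 := hFv3 v
      have h3 : (G.filter (fun z => p z = v)).card ≤ (Q.filter (fun z => p z = v)).card :=
        card_le_card (filter_subset_filter _ (filter_subset _ _))
      have h4 : 4 * x * (Fv v).card = 2 * (2 * x * (Fv v).card) := by ring
      omega
    rw [← Finset.mul_sum, ← hFcard] at hGcard
    calc Q.card ≤ 2 * G.card := hgood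
      _ ≤ 2 * (4 * x * F.card) := Nat.mul_le_mul_left 2 hGcard
      _ = 8 * x * F.card := by ring

/-- multiplicative weights -/
theorem mult_weights {Ω ι : Type} (S : Finset ι) (hS : S.Nonempty) (good : Ω → Prop)
    (φ : Ω → ι → ℝ) (h0 : ∀ ω, good ω → ∀ σ ∈ S, 0 ≤ φ ω σ)
    (h1 : ∀ ω, good ω → ∀ σ ∈ S, φ ω σ ≤ 1) (ε : ℝ) (hε : 0 ≤ ε)
    (h : ∀ w : ι → ℝ, (∀ σ ∈ S, 0 < w σ) →
      ∃ ω, good ω ∧ ∑ σ ∈ S, w σ * φ ω σ ≤ ε * ∑ σ ∈ S, w σ) (R : ℕ) :
    ∃ ω : Fin R → Ω, (∀ τ, good (ω τ)) ∧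
      ∀ σ ∈ S, ∑ τ, φ (ω τ) σ ≤ 2 * (Real.log S.card + R * ε) := by
  have hpot : ∃ ω : Fin R → Ω, (∀ τ, good (ω τ)) ∧
      ∑ σ ∈ S, ∏ τ, (1 + φ (ω τ) σ) ≤ S.card * (1 + ε) ^ R := by
    induction R with
    | zero =>
      refine ⟨fun k => k.elim0, fun k => k.elim0, ?_⟩
      simp only [univ_eq_empty, prod_empty, sum_const, nsmul_eq_mul, mul_one, pow_zero, Std.le_refl]
    | succ R ih =>
      obtain ⟨ω, hω, hpot⟩ := ih
      set w : ι → ℝ := fun σ => ∏ τ, (1 + φ (ω τ) σ) with hw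
      have hwpos : ∀ σ ∈ S, 0 < w σ := by
        intro σ hσ
        apply Finset.prod_pos
        intro τ _
        have := h0 (ω τ) (hω τ) σ hσ
        linarith only [this]
      obtain ⟨ω', hω', hsum⟩ := h w hwpos
      refine ⟨Fin.snoc ω ω', ?_, ?_⟩
      · intro τ
        refine Fin.lastCases ?_ (fun k => ?_) τ
        · simpa using hω'
        · simpa using hω k
      · have h2 : ∀ σ ∈ S, ∏ τ, (1 + φ ((Fin.snoc ω ω' : Fin (R+1) → Ω) τ) σ)
            = w σ + w σ * φ ω' σ := by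
          intro σ _
          rw [Fin.prod_univ_castSucc]
          simp only [Fin.snoc_castSucc, Fin.snoc_last, hw]
          ring
        rw [Finset.sum_congr rfl h2, Finset.sum_add_distrib]
        calc ∑ σ ∈ S, w σ + ∑ σ ∈ S, w σ * φ ω' σ
            ≤ ∑ σ ∈ S, w σ + ε * ∑ σ ∈ S, w σ := by linarith
          _ = (1 + ε) * ∑ σ ∈ S, w σ := by ring
          _ ≤ (1 + ε) * (S.card * (1 + ε) ^ R) := by
              apply mul_le_mul_of_nonneg_left hpot; linarith
          _ = S.card * (1 + ε) ^ (R + 1) := by ring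
  obtain ⟨ω, hω, hpot⟩ := hpot
  refine ⟨ω, hω, ?_⟩
  intro σ hσ
  have hprodpos : ∀ τ ∈ S, 0 < ∏ k, (1 + φ (ω k) τ) := by
    intro τ hτ
    apply Finset.prod_pos
    intro k _
    have := h0 (ω k) (hω k) τ hτ
    linarith only [this]
  have h2 : ∏ k, (1 + φ (ω k) σ) ≤ S.card * (1 + ε) ^ R := by
    refine le_trans ?_ hpot
    exact Finset.single_le_sum (f := fun τ => ∏ k, (1 + φ (ω k) τ))
      (fun τ hτ => (hprodpos τ hτ).le) hσ
  have hScard : (0:ℝ) < S.card := by exact_mod_cast hS.card_pos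
  have h3 : ∑ k, Real.log (1 + φ (ω k) σ) ≤ Real.log S.card + R * ε := by
    rw [← Real.log_prod (fun k _ => by have := h0 (ω k) (hω k) σ hσ; positivity)]
    calc Real.log (∏ k, (1 + φ (ω k) σ))
        ≤ Real.log (S.card * (1 + ε) ^ R) := Real.log_le_log (hprodpos σ hσ) h2
      _ = Real.log S.card + R * Real.log (1 + ε) := by
          rw [Real.log_mul hScard.ne' (by (clear * - hε; positivity)), Real.log_pow]
      _ ≤ Real.log S.card + R * ε := by
          have h3 : Real.log (1 + ε) ≤ ε := by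
            have := Real.log_le_sub_one_of_pos (show 0 < 1 + ε by linarith only [hε])
            linarith
          have h4 : (0:ℝ) ≤ R := by positivity
          nlinarith only [h3]
  have h4 : ∑ k, (φ (ω k) σ) / 2 ≤ ∑ k, Real.log (1 + φ (ω k) σ) :=
    Finset.sum_le_sum (fun k _ => half_le_log (h0 (ω k) (hω k) σ hσ) (h1 (ω k) (hω k) σ hσ))
  rw [← Finset.sum_div] at h4
  linarith

end Vale.Agent.P054K
end

section

set_option autoImplicit false

open Finset

namespace Vale.Agent.P054K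

open scoped Classical in
/-- net property of an arrangement -/
def NetOn {α ι : Type} (Z : Finset α) (S : Finset ι) (Rg : ι → α → Bool) (w : ι → ℝ) (s : ℕ)
    (g : Fin s → ι) : Prop :=
  (∀ k, g k ∈ S) ∧ ∀ q ∈ Z, ∀ q' ∈ Z, (∀ k, Rg (g k) q = Rg (g k) q') →
      ∑ σ ∈ S with Rg σ q ≠ Rg σ q', w σ ≤ ((2 * Real.log Z.card + 1) / s) * ∑ σ ∈ S, w σ

open scoped Classical in
/-- the scale `s` is good for `Q` with cell size `x` -/
def Gd {α ι : Type} (Z Q : Finset α) (S : Finset ι) (Rg : ι → α → Bool) (s x : ℕ) : Prop :=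
  ∀ w : ι → ℝ, (∀ σ ∈ S, 0 < w σ) → ∃ g : Fin s → ι, NetOn Z S Rg w s g ∧
    Q.card ≤ 2 * (Q.filter (fun y =>
      x ≤ (Q.filter (fun z => (fun k => Rg (g k) z) = (fun k => Rg (g k) y))).card)).card

open scoped Classical in
theorem not_gd {α ι : Type} (Z Q : Finset α) (S : Finset ι) (Rg : ι → α → Bool) (s x : ℕ)
    (hZ : Z.Nonempty) (hS : S.Nonempty) (hs : 1 ≤ s) (h : ¬ Gd Z Q S Rg s x) :
    ∃ g : Fin s → ι, (∀ k, g k ∈ S) ∧ ∃ Q' ⊆ Q, Q.card ≤ 2 * Q'.card ∧
      ∀ y ∈ Q', (Q'.filter (fun z => (fun k => Rg (g k) z) = (fun k => Rg (g k) y))).card < x := by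
  unfold Gd at h
  push Not at h
  obtain ⟨w, hw, h⟩ := h
  obtain ⟨g, hg, hsep⟩ := exists_net Z hZ S hS Rg w hw s hs
  have h1 := h g ⟨hg, fun q hq q' hq' hqq => by
    refine (le_of_eq ?_).trans (hsep q hq q' hq' hqq)
    congr⟩
  refine ⟨g, hg, Q.filter (fun y =>
      ¬ x ≤ (Q.filter (fun z => (fun k => Rg (g k) z) = (fun k => Rg (g k) y))).card),
      filter_subset _ _, ?_, ?_⟩
  · have h2 := Finset.card_filter_add_card_filter_not (s := Q) (fun y =>
      x ≤ (Q.filter (fun z => (fun k => Rg (g k) z) = (fun k => Rg (g k) y))).card)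
    (clear * - h1 h2; omega)
  · intro y hy
    rw [mem_filter] at hy
    refine lt_of_le_of_lt (card_le_card ?_) (not_le.mp hy.2)
    exact filter_subset_filter _ (filter_subset _ _)

open scoped Classical in
theorem descent {α ι : Type} (Z : Finset α) (S : Finset ι) (Rg : ι → α → Bool) (s x : ℕ → ℕ)
    (I N0 : ℕ) (hZ : Z.Nonempty) (hS : S.Nonempty) (hs : ∀ i, 1 ≤ s i)
    (htop : ¬ Gd Z Z S Rg (s I) (2 * x I))
    (h0 : ∀ g : Fin (s 0) → ι, (∀ k, g k ∈ S) →
      (Z.image (fun y => fun k => Rg (g k) y)).card ≤ N0)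
    (hbig : 2 ^ (I + 1) * (2 * x 0 * N0) < Z.card) :
    ∃ i < I, ∃ Q ⊆ Z, ∃ g' : Fin (s (i + 1)) → ι, (∀ k, g' k ∈ S) ∧
      Z.card ≤ 2 ^ (I + 1) * Q.card ∧
      (∀ y ∈ Q, (Q.filter (fun z => (fun k => Rg (g' k) z) = (fun k => Rg (g' k) y))).card
        < 2 * x (i + 1)) ∧ Gd Z Q S Rg (s i) (2 * x i) := by
  by_contra hcon
  push Not at hcon
  have key : ∀ j, j ≤ I → ∃ Q ⊆ Z, ∃ g' : Fin (s (I - j)) → ι, (∀ k, g' k ∈ S) ∧
      Z.card ≤ 2 ^ (j + 1) * Q.card ∧
      (∀ y ∈ Q, (Q.filter (fun z => (fun k => Rg (g' k) z) = (fun k => Rg (g' k) y))).card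
        < 2 * x (I - j)) := by
    intro j
    induction j with
    | zero =>
      intro _
      obtain ⟨g, hg, Q', hQ', hc, hcell⟩ := not_gd Z Z S Rg (s I) (2 * x I) hZ hS (hs I) htop
      refine ⟨Q', hQ', g, hg, ?_, hcell⟩
      simpa only [zero_add, pow_one] using hc
    | succ j ih =>
      intro hj
      obtain ⟨Q, hQZ, g', hg', hc, hcell⟩ := ih (by omega)
      have hidx : I - j = (I - (j + 1)) + 1 := by (clear * - hj; omega)
      have hnot : ¬ Gd Z Q S Rg (s (I - (j + 1))) (2 * x (I - (j + 1))) := by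
        have h1 : ∀ m, m = (I - (j + 1)) + 1 → ∀ g' : Fin (s m) → ι, (∀ k, g' k ∈ S) →
            (∀ y ∈ Q, (Q.filter (fun z =>
              (fun k => Rg (g' k) z) = (fun k => Rg (g' k) y))).card < 2 * x m) →
            ¬ Gd Z Q S Rg (s (I - (j + 1))) (2 * x (I - (j + 1))) := by
          intro m hm
          subst hm
          intro g' hg' hcell
          refine hcon (I - (j + 1)) (by omega) Q hQZ g' hg' ?_ hcell
          refine hc.trans (Nat.mul_le_mul_right _ (Nat.pow_le_pow_right (by norm_num) (by omega)))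
        exact h1 _ hidx g' hg' hcell
      obtain ⟨g, hg, Q', hQ', hc', hcell'⟩ := not_gd Z Q S Rg _ _ hZ hS (hs _) hnot
      refine ⟨Q', hQ'.trans hQZ, g, hg, ?_, hcell'⟩
      calc Z.card ≤ 2 ^ (j + 1) * Q.card := hc
        _ ≤ 2 ^ (j + 1) * (2 * Q'.card) := Nat.mul_le_mul_left _ hc'
        _ = 2 ^ (j + 1 + 1) * Q'.card := by ring
  obtain ⟨Q, hQZ, g', hg', hc, hcell⟩ := key I le_rfl
  have h1 : ∀ m, m = 0 → ∀ g' : Fin (s m) → ι, (∀ k, g' k ∈ S) →
      (∀ y ∈ Q, (Q.filter (fun z =>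
        (fun k => Rg (g' k) z) = (fun k => Rg (g' k) y))).card < 2 * x m) →
      Q.card ≤ 2 * x 0 * N0 := by
    intro m hm
    subst hm
    intro g' hg' hcell
    have h2 : Q.card ≤ ∑ v ∈ Q.image (fun y => fun k => Rg (g' k) y), 2 * x 0 := by
      rw [Finset.card_eq_sum_card_image (fun y => fun k => Rg (g' k) y) Q]
      apply Finset.sum_le_sum
      intro v hv
      obtain ⟨y, hy, rfl⟩ := mem_image.mp hv
      exact (hcell y hy).le
    rw [Finset.sum_const, smul_eq_mul] at h2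
    have h3 : (Q.image (fun y => fun k => Rg (g' k) y)).card ≤ N0 :=
      (card_le_card (image_subset_image hQZ)).trans (h0 g' hg')
    calc Q.card ≤ _ := h2
      _ ≤ N0 * (2 * x 0) := Nat.mul_le_mul_right _ h3
      _ = 2 * x 0 * N0 := mul_comm _ _
  have h2 := h1 (I - I) (by omega) g' hg' hcell
  have h3 : Z.card ≤ 2 ^ (I + 1) * (2 * x 0 * N0) := hc.trans (Nat.mul_le_mul_left _ h2)
  omega

open scoped Classical in
/-- one round -/
theorem one_round {α ι : Type} (Z Q : Finset α) (hQZ : Q ⊆ Z) (S : Finset ι)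
    (Rg : ι → α → Bool) (s s' x : ℕ) (hs : 1 ≤ s) (hx : 1 ≤ x) (hQ : Q.Nonempty)
    (g' : Fin s' → ι)
    (hg' : ∀ y ∈ Q, (Q.filter (fun z => (fun k => Rg (g' k) z) = (fun k => Rg (g' k) y))).card ≤ x)
    (hG : Gd Z Q S Rg s (2 * x)) (w : ι → ℝ) (hw : ∀ σ ∈ S, 0 < w σ) :
    ∃ ω : (Fin s → ι) × Finset (Finset α),
      ((∀ k, ω.1 k ∈ S) ∧ (∀ X ∈ ω.2, X ⊆ Q ∧ X.card = x) ∧
      (∀ X ∈ ω.2, ∀ X' ∈ ω.2, ∀ a ∈ X, ∀ b ∈ X',
        (fun k => Rg (ω.1 k) a) = (fun k => Rg (ω.1 k) b) →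
        (fun k => Rg (g' k) a) = (fun k => Rg (g' k) b) → X = X') ∧
      Q.card ≤ 8 * x * ω.2.card) ∧
      ∑ σ ∈ S, w σ * ((∑ X ∈ ω.2, sepc Rg σ X) / (x * Q.card)) ≤
        ((2 * Real.log Z.card + 1) / s) * ∑ σ ∈ S, w σ := by
  obtain ⟨g, ⟨hg, hnet⟩, hcard⟩ := hG w hw
  obtain ⟨F, hF1, hF2, hF3, hF4⟩ := exists_blocks_cells Q (fun y => fun k => Rg (g k) y)
    (fun y => fun k => Rg (g' k) y) x hx (fun y hy => by convert hg' y hy) (by convert hcard)
  refine ⟨(g, F), ⟨hg, hF1, hF3, hF4⟩, ?_⟩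
  simp only
  set D : ℝ := ((2 * Real.log Z.card + 1) / s) * ∑ σ ∈ S, w σ with hD
  have hxpos : (0:ℝ) < x := by exact_mod_cast hx
  have hQpos : (0:ℝ) < Q.card := by exact_mod_cast hQ.card_pos
  have hZpos : (1:ℝ) ≤ Z.card := by exact_mod_cast (hQ.mono hQZ).card_pos
  have hD0 : 0 ≤ D := by
    rw [hD]
    apply mul_nonneg
    · have := Real.log_nonneg hZpos
      (clear * - hs; positivity)
    · exact Finset.sum_nonneg (fun σ hσ => (hw σ hσ).le)
  have hX : ∀ X ∈ F, ∑ σ ∈ S, w σ * sepc Rg σ X ≤ (x:ℝ) ^ 2 * D := by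
    intro X hX
    have h1 := sum_mul_sepc S Rg w X D (by
      intro q hq q' hq'
      have h2 := hF2 X hX q hq q' hq'
      refine (le_of_eq ?_).trans (hnet q (hQZ ((hF1 X hX).1 hq)) q' (hQZ ((hF1 X hX).1 hq'))
        (fun k => congrFun h2 k))
      congr)
    rwa [(hF1 X hX).2] at h1
  have hsum : ∑ σ ∈ S, w σ * (∑ X ∈ F, sepc Rg σ X) ≤ F.card * ((x:ℝ) ^ 2 * D) := by
    have h1 : ∑ σ ∈ S, w σ * (∑ X ∈ F, sepc Rg σ X) = ∑ X ∈ F, ∑ σ ∈ S, w σ * sepc Rg σ X := by
      rw [Finset.sum_comm]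
      apply Finset.sum_congr rfl
      intro σ _
      rw [Finset.mul_sum]
    rw [h1]
    calc _ ≤ F.card • ((x:ℝ) ^ 2 * D) := Finset.sum_le_card_nsmul _ _ _ hX
      _ = _ := by rw [nsmul_eq_mul]
  -- the blocks are disjoint
  have hFx : F.card * x ≤ Q.card := by
    have h1 : (F.biUnion id).card = F.card * x := by
      rw [Finset.card_biUnion]
      · rw [Finset.sum_congr rfl (fun X hX => show (id X).card = x from (hF1 X hX).2),
          Finset.sum_const, smul_eq_mul]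
      · intro X hX X' hX' hne
        change Disjoint (id X) (id X')
        rw [Finset.disjoint_left]
        intro a ha ha'
        exact hne (hF3 X hX X' hX' a ha a ha' rfl rfl)
    rw [← h1]
    apply card_le_card
    intro y hy
    rw [mem_biUnion] at hy
    obtain ⟨X, hX, hyX⟩ := hy
    exact (hF1 X hX).1 hyX
  have hFx' : (F.card : ℝ) * x ≤ Q.card := by exact_mod_cast hFx
  have h2 : ∑ σ ∈ S, w σ * ((∑ X ∈ F, sepc Rg σ X) / (x * Q.card))
      = (∑ σ ∈ S, w σ * (∑ X ∈ F, sepc Rg σ X)) / (x * Q.card) := by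
    rw [Finset.sum_div]
    apply Finset.sum_congr rfl
    intro σ _
    rw [mul_div_assoc]
  rw [h2, div_le_iff₀ (by (clear * - hx hQ; positivity))]
  calc _ ≤ F.card * ((x:ℝ) ^ 2 * D) := hsum
    _ = (F.card * x) * (x * D) := by ring
    _ ≤ Q.card * (x * D) := mul_le_mul_of_nonneg_right hFx' (by (clear * - hx hD0; positivity))
    _ = D * (x * Q.card) := by ring

open scoped Classical in
/-- the classes of the rounds -/
structure Rounds {α ι : Type} (Q : Finset α) (S : Finset ι) (Rg : ι → α → Bool)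
    (s s' x R : ℕ) (g' : Fin s' → ι) (g : Fin R → Fin s → ι)
    (F : Fin R → Finset (Finset α)) : Prop where
  mem : ∀ τ k, g τ k ∈ S
  sub : ∀ τ, ∀ X ∈ F τ, X ⊆ Q
  card : ∀ τ, ∀ X ∈ F τ, X.card = x
  uniq : ∀ τ, ∀ X ∈ F τ, ∀ X' ∈ F τ, ∀ a ∈ X, ∀ b ∈ X',
        (fun k => Rg (g τ k) a) = (fun k => Rg (g τ k) b) →
        (fun k => Rg (g' k) a) = (fun k => Rg (g' k) b) → X = X'
  many : ∀ τ, Q.card ≤ 8 * x * (F τ).card

open scoped Classical in
theorem rounds {α ι : Type} (Z Q : Finset α) (hQZ : Q ⊆ Z) (S : Finset ι) (hS : S.Nonempty)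
    (Rg : ι → α → Bool) (s s' x : ℕ) (hs : 1 ≤ s) (hx : 1 ≤ x) (hQ : Q.Nonempty)
    (g' : Fin s' → ι)
    (hg' : ∀ y ∈ Q, (Q.filter (fun z => (fun k => Rg (g' k) z) = (fun k => Rg (g' k) y))).card ≤ x)
    (hG : Gd Z Q S Rg s (2 * x)) (R : ℕ) :
    ∃ (g : Fin R → Fin s → ι) (F : Fin R → Finset (Finset α)),
      Rounds Q S Rg s s' x R g' g F ∧
      ∀ σ ∈ S, ∑ τ, ∑ X ∈ F τ, sepc Rg σ X ≤ (x * Q.card) *
        (2 * (Real.log S.card + R * ((2 * Real.log Z.card + 1) / s))) := by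
  have hxpos : (0:ℝ) < x := by exact_mod_cast hx
  have hQpos : (0:ℝ) < Q.card := by exact_mod_cast hQ.card_pos
  have hZpos : (1:ℝ) ≤ Z.card := by exact_mod_cast (hQ.mono hQZ).card_pos
  have hlog := Real.log_nonneg hZpos
  set good : ((Fin s → ι) × Finset (Finset α)) → Prop := fun ω =>
      (∀ k, ω.1 k ∈ S) ∧ (∀ X ∈ ω.2, X ⊆ Q ∧ X.card = x) ∧
      (∀ X ∈ ω.2, ∀ X' ∈ ω.2, ∀ a ∈ X, ∀ b ∈ X',
        (fun k => Rg (ω.1 k) a) = (fun k => Rg (ω.1 k) b) →
        (fun k => Rg (g' k) a) = (fun k => Rg (g' k) b) → X = X') ∧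
      Q.card ≤ 8 * x * ω.2.card with hgood
  set φ : ((Fin s → ι) × Finset (Finset α)) → ι → ℝ := fun ω σ =>
    (∑ X ∈ ω.2, sepc Rg σ X) / (x * Q.card) with hφ
  have h0 : ∀ ω, good ω → ∀ σ ∈ S, 0 ≤ φ ω σ := by
    intro ω _ σ _
    simp only [hφ]
    apply div_nonneg _ (by (clear * - hx hQ; positivity))
    exact Finset.sum_nonneg (fun X _ => sepc_nonneg _ _ _)
  have h1 : ∀ ω, good ω → ∀ σ ∈ S, φ ω σ ≤ 1 := by
    intro ω hω σ _
    obtain ⟨_, hF1, hF3, _⟩ := hω
    simp only [hφ]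
    rw [div_le_one (by (clear * - hx hQ; positivity))]
    have hFx : ω.2.card * x ≤ Q.card := by
      have h1 : (ω.2.biUnion id).card = ω.2.card * x := by
        rw [Finset.card_biUnion]
        · rw [Finset.sum_congr rfl (fun X hX => show (id X).card = x from (hF1 X hX).2),
            Finset.sum_const, smul_eq_mul]
        · intro X hX X' hX' hne
          change Disjoint (id X) (id X')
          rw [Finset.disjoint_left]
          intro a ha ha'
          exact hne (hF3 X hX X' hX' a ha a ha' rfl rfl)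
      rw [← h1]
      apply card_le_card
      intro y hy
      rw [mem_biUnion] at hy
      obtain ⟨X, hX, hyX⟩ := hy
      exact (hF1 X hX).1 hyX
    have hFx' : (ω.2.card : ℝ) * x ≤ Q.card := by exact_mod_cast hFx
    calc ∑ X ∈ ω.2, sepc Rg σ X ≤ ∑ _X ∈ ω.2, (x:ℝ) ^ 2 := by
          apply Finset.sum_le_sum
          intro X hX
          have := sepc_le Rg σ X
          rwa [(hF1 X hX).2] at this
      _ = (ω.2.card * x) * x := by rw [Finset.sum_const, nsmul_eq_mul]; ring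
      _ ≤ Q.card * x := mul_le_mul_of_nonneg_right hFx' hxpos.le
      _ = x * Q.card := mul_comm _ _
  obtain ⟨ω, hω, hsum⟩ := mult_weights S hS good φ h0 h1 ((2 * Real.log Z.card + 1) / s)
    (by (clear * - hs; positivity)) (fun w hw => one_round Z Q hQZ S Rg s s' x hs hx hQ g' hg' hG w hw) R
  refine ⟨fun τ => (ω τ).1, fun τ => (ω τ).2, ⟨fun τ => (hω τ).1,
    fun τ X hX => ((hω τ).2.1 X hX).1, fun τ X hX => ((hω τ).2.1 X hX).2,
    fun τ => (hω τ).2.2.1, fun τ => (hω τ).2.2.2⟩, ?_⟩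
  intro σ hσ
  have h2 := hsum σ hσ
  simp only [hφ] at h2
  rw [← Finset.sum_div, div_le_iff₀ (by (clear * - hx hQ; positivity))] at h2
  calc _ ≤ _ := h2
    _ = _ := by ring

end Vale.Agent.P054K
end

section

set_option autoImplicit false

open Finset

namespace Vale.Agent.P054K

/-- rank of a value among thresholds -/
noncomputable def rkv (D : Finset ℝ) (v : ℝ) : ℤ := ((D.filter (fun ρ => ρ < v)).card : ℤ)

open scoped Classical in
theorem abs_rkv (D : Finset ℝ) (u v : ℝ) :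
    |rkv D v - rkv D u| = ((D.filter (fun ρ => ¬ (u ≤ ρ ↔ v ≤ ρ))).card : ℤ) := by
  have key : ∀ a b : ℝ, a ≤ b →
      ((D.filter (fun ρ => ρ < b)).card : ℤ) - ((D.filter (fun ρ => ρ < a)).card : ℤ)
        = ((D.filter (fun ρ => ¬ (a ≤ ρ ↔ b ≤ ρ))).card : ℤ) := by
    intro a b hab
    have hsub : D.filter (fun ρ => ρ < a) ⊆ D.filter (fun ρ => ρ < b) := by
      intro ρ hρ
      rw [mem_filter] at hρ ⊢
      exact ⟨hρ.1, lt_of_lt_of_le hρ.2 hab⟩
    have h1 := card_sdiff_add_card_eq_card hsub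
    have h2 : (D.filter (fun ρ => ρ < b)) \ (D.filter (fun ρ => ρ < a))
        = D.filter (fun ρ => ¬ (a ≤ ρ ↔ b ≤ ρ)) := by
      ext ρ
      simp only [mem_sdiff, mem_filter, not_and, not_lt]
      constructor
      · rintro ⟨⟨h3, h4⟩, h5⟩
        refine ⟨h3, ?_⟩
        intro h6
        have := h6.mp (h5 h3)
        linarith only [h4, this]
      · rintro ⟨h3, h4⟩
        have h7 : a ≤ ρ ∧ ρ < b := by
          by_contra hcon
          apply h4
          constructor
          · intro h8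
            by_contra h9
            exact hcon ⟨h8, not_le.mp h9⟩
          · intro h8; linarith only [hab, h8]
        exact ⟨⟨h3, h7.2⟩, fun _ => h7.1⟩
    rw [h2] at h1
    omega
  unfold rkv
  rcases le_total u v with h | h
  · rw [key _ _ h, abs_of_nonneg (by (clear * -; positivity))]
  · rw [abs_sub_comm, key _ _ h, abs_of_nonneg (by positivity)]
    congr 2
    ext ρ
    simp only [mem_filter]
    tauto

theorem rkv_eq_iff (D : Finset ℝ) (u v : ℝ) (hu : u ∈ D) (hv : v ∈ D) :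
    rkv D v = rkv D u ↔ u = v := by
  classical
  constructor
  · intro h
    have h1 := abs_rkv D u v
    rw [h, sub_self, abs_zero] at h1
    have h2 : (D.filter (fun ρ => ¬ (u ≤ ρ ↔ v ≤ ρ))).card = 0 := by
      exact_mod_cast h1.symm
    rw [Finset.card_eq_zero, Finset.filter_eq_empty_iff] at h2
    have h3 := h2 hu
    have h4 := h2 hv
    push Not at h3 h4
    exact le_antisymm (h4.mpr le_rfl) (h3.mp le_rfl)
  · intro h
    rw [h]

open scoped Classical in
theorem sum_rkv {α ι : Type} (Q X : Finset α) (hX : X ⊆ Q) (f : α → ℝ) (Rg : ι → α → Bool)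
    (σ : ℝ → ι) (hσ : ∀ c ∈ Q.image f, ∀ q ∈ Q, (Rg (σ c) q = true ↔ f q ≤ c)) :
    ∑ π ∈ X ×ˢ X, (|rkv (Q.image f) (f π.2) - rkv (Q.image f) (f π.1)| : ℝ)
      = ∑ c ∈ Q.image f, sepc Rg (σ c) X := by
  have h1 : ∀ c ∈ Q.image f, sepc Rg (σ c) X
      = ∑ π ∈ X ×ˢ X, if ¬ (f π.1 ≤ c ↔ f π.2 ≤ c) then (1:ℝ) else 0 := by
    intro c hc
    unfold sepc
    rw [Finset.card_filter]
    push_cast
    apply Finset.sum_congr rfl
    intro π hπ
    rw [mem_product] at hπ
    have h2 := hσ c hc π.1 (hX hπ.1)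
    have h3 := hσ c hc π.2 (hX hπ.2)
    congr 1
    rw [← h2, ← h3]
    rw [eq_iff_iff, not_iff_not]
    exact Bool.eq_iff_iff
  rw [Finset.sum_congr rfl h1, Finset.sum_comm]
  apply Finset.sum_congr rfl
  intro π _
  have h2 := abs_rkv (Q.image f) (f π.1) (f π.2)
  rw [Finset.card_filter] at h2
  have h3 : ((|rkv (Q.image f) (f π.2) - rkv (Q.image f) (f π.1)| : ℤ) : ℝ)
      = ∑ ρ ∈ Q.image f, if ¬ (f π.1 ≤ ρ ↔ f π.2 ≤ ρ) then (1:ℝ) else 0 := by
    rw [h2]; push_cast; rfl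
  rw [← h3]; push_cast; rfl

/-- number of blocks times their size -/
theorem Rounds.card_mul_le {α ι : Type} {Q : Finset α} {S : Finset ι} {Rg : ι → α → Bool}
    {s s' x R : ℕ} {g' : Fin s' → ι} {g : Fin R → Fin s → ι} {F : Fin R → Finset (Finset α)}
    (h : Rounds Q S Rg s s' x R g' g F) (τ : Fin R) : (F τ).card * x ≤ Q.card := by
  classical
  have h1 : ((F τ).biUnion id).card = (F τ).card * x := by
    rw [Finset.card_biUnion]
    · rw [Finset.sum_congr rfl (fun X hX => show (id X).card = x from h.card τ X hX),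
        Finset.sum_const, smul_eq_mul]
    · intro X hX X' hX' hne
      change Disjoint (id X) (id X')
      rw [Finset.disjoint_left]
      intro a ha ha'
      exact hne (h.uniq τ X hX X' hX' a ha a ha' rfl rfl)
  rw [← h1]
  apply card_le_card
  intro y hy
  rw [mem_biUnion] at hy
  obtain ⟨X, hX, hyX⟩ := hy
  exact h.sub τ X hX hyX

theorem Rounds.sum_const_le {α ι : Type} {Q : Finset α} {S : Finset ι} {Rg : ι → α → Bool}
    {s s' x R : ℕ} {g' : Fin s' → ι} {g : Fin R → Fin s → ι} {F : Fin R → Finset (Finset α)}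
    (h : Rounds Q S Rg s s' x R g' g F) : ∑ τ, ∑ _X ∈ F τ, (x:ℝ) ≤ R * Q.card := by
  calc ∑ τ, ∑ _X ∈ F τ, (x:ℝ) ≤ ∑ _τ : Fin R, (Q.card : ℝ) := by
        apply Finset.sum_le_sum
        intro τ _
        rw [Finset.sum_const, nsmul_eq_mul]
        exact_mod_cast h.card_mul_le τ
    _ = R * Q.card := by rw [Finset.sum_const, Finset.card_univ, Fintype.card_fin, nsmul_eq_mul]

theorem Rounds.le_sum_const {α ι : Type} {Q : Finset α} {S : Finset ι} {Rg : ι → α → Bool}
    {s s' x R : ℕ} {g' : Fin s' → ι} {g : Fin R → Fin s → ι} {F : Fin R → Finset (Finset α)}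
    (h : Rounds Q S Rg s s' x R g' g F) : (R * Q.card : ℝ) / 8 ≤ ∑ τ, ∑ _X ∈ F τ, (x:ℝ) := by
  rw [div_le_iff₀ (by norm_num)]
  calc (R * Q.card : ℝ) = ∑ _τ : Fin R, (Q.card : ℝ) := by
        rw [Finset.sum_const, Finset.card_univ, Fintype.card_fin, nsmul_eq_mul]
    _ ≤ ∑ τ, 8 * (∑ _X ∈ F τ, (x:ℝ)) := by
        apply Finset.sum_le_sum
        intro τ _
        rw [Finset.sum_const, nsmul_eq_mul]
        have h1 : (Q.card : ℝ) ≤ 8 * x * (F τ).card := by exact_mod_cast h.many τ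
        linarith
    _ = (∑ τ, ∑ _X ∈ F τ, (x:ℝ)) * 8 := by rw [← Finset.mul_sum]; ring

open scoped Classical in
/-- many pairs with equal value -/
theorem value_pairs {α ι : Type} {Q : Finset α} {S : Finset ι} {Rg : ι → α → Bool}
    {s s' x R : ℕ} {g' : Fin s' → ι} {g : Fin R → Fin s → ι} {F : Fin R → Finset (Finset α)}
    (h : Rounds Q S Rg s s' x R g' g F) (f : α → ℝ) (t : ℕ) (ht : (Q.image f).card ≤ t)
    (hfS : ∀ c ∈ Q.image f, ∃ σ ∈ S, ∀ q ∈ Q, (Rg σ q = true ↔ f q ≤ c))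
    (Λs : ℝ) (hΛs : 0 ≤ Λs)
    (hsep : ∀ σ ∈ S, ∑ τ, ∑ X ∈ F τ, sepc Rg σ X ≤ (x * Q.card) * (4 * R * Λs))
    (hx8 : 8 ≤ x) (hx : 1024 * Λs * t ≤ x) :
    (R * Q.card : ℝ) / 8 ≤
      ∑ τ, ∑ X ∈ F τ, ((X.offDiag.filter (fun π => f π.1 = f π.2)).card : ℝ) := by
  have hx' : (8:ℝ) ≤ x := by exact_mod_cast hx8
  have hx0 : (0:ℝ) < x := by linarith only [hx']
  rcases Q.eq_empty_or_nonempty with hQe | hQne
  · subst hQe
    simp only [card_empty, Nat.cast_zero, mul_zero, zero_div]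
    exact Finset.sum_nonneg (fun τ _ => Finset.sum_nonneg (fun X _ => by (clear * -; positivity)))
  obtain ⟨σ, hσ⟩ : ∃ σ : ℝ → ι, ∀ c ∈ Q.image f, σ c ∈ S ∧ ∀ q ∈ Q, (Rg (σ c) q = true ↔ f q ≤ c) := by
    rcases (Q.image f).eq_empty_or_nonempty with h0 | ⟨c0, hc0⟩
    · exact absurd h0 (hQne.image f).ne_empty
    · obtain ⟨σ0, _, _⟩ := hfS c0 hc0
      have : ∀ c : ℝ, ∃ τ : ι, c ∈ Q.image f → τ ∈ S ∧ ∀ q ∈ Q, (Rg τ q = true ↔ f q ≤ c) := by
        intro c
        by_cases hc : c ∈ Q.image f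
        · obtain ⟨τ, h1, h2⟩ := hfS c hc
          exact ⟨τ, fun _ => ⟨h1, h2⟩⟩
        · exact ⟨σ0, fun h' => absurd h' hc⟩
      choose σ hσ using this
      exact ⟨σ, hσ⟩
  set D : Fin R → Finset α → ℝ := fun τ X => (∑ c ∈ Q.image f, sepc Rg (σ c) X) / (x:ℝ) ^ 2 with hD
  have hcl : ∀ τ, ∀ X ∈ F τ, 3 * (x:ℝ) - 32 * D τ X - 8 ≤
      ((X.offDiag.filter (fun π => f π.1 = f π.2)).card : ℝ) := by
    intro τ X hX
    have hXc := h.card τ X hX
    have hXQ := h.sub τ X hX
    have hXpos : 0 < X.card := by rw [hXc]; omega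
    have h3 : ∑ π ∈ X ×ˢ X, (|rkv (Q.image f) (f π.2) - rkv (Q.image f) (f π.1)| : ℝ) ≤
        D τ X * (X.card : ℝ) ^ 2 := by
      rw [sum_rkv Q X hXQ f Rg σ (fun c hc => (hσ c hc).2), hXc, hD]
      simp only
      rw [div_mul_cancel₀ _ (by positivity)]
    have h4 := equal_pairs X (fun q => rkv (Q.image f) (f q)) hXpos (D τ X) h3
    rw [hXc] at h4
    set E : ℝ := (((X ×ˢ X).filter (fun π => rkv (Q.image f) (f π.2) =
      rkv (Q.image f) (f π.1))).card : ℝ) with hE
    have hD0 : 0 ≤ D τ X := by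
      rw [hD]; simp only
      apply div_nonneg _ (by positivity)
      exact Finset.sum_nonneg (fun ρ _ => sepc_nonneg _ _ _)
    have h5 : 4 * (x:ℝ) - 32 * D τ X - 8 ≤ E := by
      by_contra hcon
      push Not at hcon
      have ha : 0 < 2 * (4 * D τ X + 1) := by linarith only [hD0]
      have h6 := mul_lt_mul_of_pos_left hcon ha
      linarith only [h4, h6, sq_nonneg ((x:ℝ) - 2 * (2 * (4 * D τ X + 1)))]
    have h6 : ((X ×ˢ X).filter (fun π => rkv (Q.image f) (f π.2) = rkv (Q.image f) (f π.1))) ⊆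
        (X.offDiag.filter (fun π => f π.1 = f π.2)) ∪ X.diag := by
      intro π hπ
      rw [mem_filter, mem_product] at hπ
      rw [mem_union, mem_filter, mem_offDiag, mem_diag]
      by_cases h7 : π.1 = π.2
      · right; exact ⟨hπ.1.1, h7⟩
      · left
        exact ⟨⟨hπ.1.1, hπ.1.2, h7⟩,
          (rkv_eq_iff (Q.image f) (f π.1) (f π.2) (mem_image_of_mem f (hXQ hπ.1.1))
            (mem_image_of_mem f (hXQ hπ.1.2))).mp hπ.2⟩
    have h7 := (card_le_card h6).trans (card_union_le _ _)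
    rw [diag_card, hXc] at h7
    have h8 : E ≤ ((X.offDiag.filter (fun π => f π.1 = f π.2)).card : ℝ) + x := by
      rw [hE]; exact_mod_cast h7
    linarith only [h5, h8]
  -- sum of the D
  have hDsum : ∑ τ, ∑ X ∈ F τ, D τ X ≤ t * ((Q.card) * (4 * R * Λs) / x) := by
    have h3 : ∑ τ, ∑ X ∈ F τ, D τ X =
        (∑ c ∈ Q.image f, ∑ τ, ∑ X ∈ F τ, sepc Rg (σ c) X) / (x:ℝ) ^ 2 := by
      rw [Finset.sum_comm, Finset.sum_div]
      apply Finset.sum_congr rfl
      intro τ _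
      rw [Finset.sum_comm, Finset.sum_div]
    rw [h3, div_le_iff₀ (by positivity)]
    calc ∑ c ∈ Q.image f, ∑ τ, ∑ X ∈ F τ, sepc Rg (σ c) X
        ≤ ∑ _c ∈ Q.image f, (x * Q.card) * (4 * R * Λs) := by
          apply Finset.sum_le_sum
          intro c hc
          exact hsep (σ c) (hσ c hc).1
      _ = ((Q.image f).card : ℝ) * ((x * Q.card) * (4 * R * Λs)) := by
          rw [Finset.sum_const, nsmul_eq_mul]
      _ ≤ (t:ℝ) * ((x * Q.card) * (4 * R * Λs)) := by
          apply mul_le_mul_of_nonneg_right _ (by (clear * - hΛs hx8 hQne; positivity))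
          exact_mod_cast ht
      _ = t * ((Q.card) * (4 * R * Λs) / x) * (x:ℝ) ^ 2 := by (clear * - hx8 hQne; field_simp)
  set W : ℝ := ∑ τ, ∑ _X ∈ F τ, (x:ℝ) with hW
  have hWlow := h.le_sum_const
  rw [← hW] at hWlow
  have h1 : ∑ τ, ∑ X ∈ F τ, (3 * (x:ℝ) - 32 * D τ X - 8) ≤
      ∑ τ, ∑ X ∈ F τ, ((X.offDiag.filter (fun π => f π.1 = f π.2)).card : ℝ) :=
    Finset.sum_le_sum (fun τ _ => Finset.sum_le_sum (fun X hX => hcl τ X hX))
  have h2 : 2 * W - 32 * ∑ τ, ∑ X ∈ F τ, D τ X ≤ ∑ τ, ∑ X ∈ F τ, (3 * (x:ℝ) - 32 * D τ X - 8) := by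
    rw [hW, Finset.mul_sum, Finset.mul_sum, ← Finset.sum_sub_distrib]
    apply Finset.sum_le_sum
    intro τ _
    rw [Finset.mul_sum, Finset.mul_sum, ← Finset.sum_sub_distrib]
    apply Finset.sum_le_sum
    intro X _
    linarith only [hx']
  have h3 : 32 * ∑ τ, ∑ X ∈ F τ, D τ X ≤ (R * Q.card : ℝ) / 8 := by
    calc 32 * ∑ τ, ∑ X ∈ F τ, D τ X ≤ 32 * (t * ((Q.card) * (4 * R * Λs) / x)) := by linarith only [hDsum]
      _ = (1024 * Λs * t) * ((R * Q.card : ℝ) / 8) / x := by ring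
      _ ≤ (R * Q.card : ℝ) / 8 := by
          rw [div_le_iff₀ hx0, mul_comm ((R * Q.card : ℝ) / 8)]
          exact mul_le_mul_of_nonneg_right hx (by (clear * - hQne; positivity))
  linarith only [hWlow, h1, h2, h3]

end Vale.Agent.P054K
end

section

set_option autoImplicit false

open Finset

namespace Vale.Agent.P054K

open scoped Classical in
theorem energy_lower {α κ : Type} (X : Finset α) (c : α → κ) :
    (X.card : ℝ) ^ 2 ≤ ((X.image c).card : ℝ) *
      (((X ×ˢ X).filter (fun π => c π.1 = c π.2)).card : ℝ) := by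
  have h1 : (X.card : ℝ) = ∑ v ∈ X.image c, ((X.filter (fun q => c q = v)).card : ℝ) := by
    exact_mod_cast Finset.card_eq_sum_card_image c X
  have h2 : (((X ×ˢ X).filter (fun π => c π.1 = c π.2)).card : ℝ) =
      ∑ v ∈ X.image c, ((X.filter (fun q => c q = v)).card : ℝ) ^ 2 := by
    have h3 : ((X ×ˢ X).filter (fun π => c π.1 = c π.2)).card =
        ∑ v ∈ X.image c, (((X ×ˢ X).filter (fun π => c π.1 = c π.2)).filter
          (fun π => c π.1 = v)).card := by
      apply Finset.card_eq_sum_card_fiberwise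
      intro π hπ
      rw [mem_coe, mem_filter, mem_product] at hπ
      exact mem_image_of_mem c hπ.1.1
    rw [h3]
    push_cast
    apply Finset.sum_congr rfl
    intro v _
    have h4 : ((X ×ˢ X).filter (fun π => c π.1 = c π.2)).filter (fun π => c π.1 = v)
        = (X.filter (fun q => c q = v)) ×ˢ (X.filter (fun q => c q = v)) := by
      ext π
      simp only [mem_filter, mem_product]
      constructor
      · rintro ⟨⟨⟨h5, h6⟩, h7⟩, h8⟩
        exact ⟨⟨h5, h8⟩, h6, h7 ▸ h8⟩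
      · rintro ⟨⟨h5, h6⟩, h7, h8⟩
        exact ⟨⟨⟨h5, h7⟩, h6.trans h8.symm⟩, h6⟩
    rw [h4, card_product]
    push_cast; ring
  rw [h2, h1]
  exact sq_sum_le_card_mul_sum_sq

open scoped Classical in
theorem image_count {α ι κ : Type} {Q : Finset α} {S : Finset ι} {Rg : ι → α → Bool}
    {s s' x R : ℕ} {g' : Fin s' → ι} {g : Fin R → Fin s → ι} {F : Fin R → Finset (Finset α)}
    (h : Rounds Q S Rg s s' x R g' g F) (c : α → κ) (τ : Fin R) :
    ∑ X ∈ F τ, (X.image c).card ≤ ∑ v ∈ Q.image c,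
      ((Q.filter (fun q => c q = v)).image
        (fun q => ((fun k => Rg (g τ k) q), (fun k => Rg (g' k) q)))).card := by
  have h1 : ∀ X ∈ F τ, (X.image c).card = ∑ v ∈ Q.image c, if v ∈ X.image c then 1 else 0 := by
    intro X hX
    rw [Finset.sum_ite_mem, Finset.sum_const, smul_eq_mul, mul_one]
    congr 1
    symm
    exact Finset.inter_eq_right.mpr (image_subset_image (h.sub τ X hX))
  rw [Finset.sum_congr rfl h1, Finset.sum_comm]
  apply Finset.sum_le_sum
  intro v _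
  rw [← Finset.card_filter]
  have hex : ∀ X : Finset α, ∃ a : Option α, X ∈ (F τ).filter (fun X => v ∈ X.image c) →
      ∃ b ∈ X, c b = v ∧ a = some b := by
    intro X
    by_cases hX : X ∈ (F τ).filter (fun X => v ∈ X.image c)
    · rw [mem_filter, mem_image] at hX
      obtain ⟨hX1, b, hb, hbv⟩ := hX
      exact ⟨some b, fun _ => ⟨b, hb, hbv, rfl⟩⟩
    · exact ⟨none, fun h' => absurd h' hX⟩
  choose a ha using hex
  apply Finset.card_le_card_of_injOn (fun X => match a X with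
    | some b => ((fun k => Rg (g τ k) b), (fun k => Rg (g' k) b))
    | none => ((fun _ => false), (fun _ => false)))
  · intro X hX
    obtain ⟨b, hb, hbv, hab⟩ := ha X hX
    rw [mem_coe] at hX ⊢
    simp only [hab]
    rw [mem_image]
    refine ⟨b, ?_, rfl⟩
    rw [mem_filter]
    exact ⟨h.sub τ X (mem_filter.mp hX).1 hb, hbv⟩
  · intro X hX X' hX' hXX
    obtain ⟨b, hb, hbv, hab⟩ := ha X hX
    obtain ⟨b', hb', hbv', hab'⟩ := ha X' hX'
    simp only [hab, hab', Prod.mk.injEq] at hXX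
    exact h.uniq τ X (mem_filter.mp hX).1 X' (mem_filter.mp hX').1 b hb b' hb' hXX.1 hXX.2

theorem label_num (R n N K M' : ℝ) (hR0 : 0 ≤ R) (hn0 : 0 ≤ n) (hN0 : 0 ≤ N) (hK0 : 0 < K)
    (hM'0 : 0 ≤ M') (h1 : (R * n / 8) ^ 2 ≤ (R * (K * N)) * (M' + R * n))
    (hbig : 128 * K * N ≤ n) : (R * n) * n ≤ (128 * K * N) * M' := by
  rcases eq_or_lt_of_le hR0 with hR | hR
  · rw [← hR]; simp only [zero_mul]
    positivity
  · have h2 : R * (R * n ^ 2 / 64) ≤ R * ((K * N) * (M' + R * n)) := by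
      calc R * (R * n ^ 2 / 64) = (R * n / 8) ^ 2 := by ring
        _ ≤ _ := h1
        _ = R * ((K * N) * (M' + R * n)) := by ring
    have h3 := le_of_mul_le_mul_left h2 hR
    have h4 : K * N * (R * n) ≤ R * n ^ 2 / 128 := by
      have : 128 * K * N * (R * n) ≤ n * (R * n) := mul_le_mul_of_nonneg_right hbig (by positivity)
      calc K * N * (R * n) = (128 * K * N * (R * n)) / 128 := by ring
        _ ≤ (n * (R * n)) / 128 := div_le_div_of_nonneg_right this (by norm_num)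
        _ = R * n ^ 2 / 128 := by ring
    have h5 : (K * N) * (M' + R * n) = K * N * M' + K * N * (R * n) := by ring
    rw [h5] at h3
    have h6 : R * n ^ 2 / 128 ≤ K * N * M' := by linarith only [h3, h4]
    calc (R * n) * n = 128 * (R * n ^ 2 / 128) := by ring
      _ ≤ 128 * (K * N * M') := by linarith only [h3, h4]
      _ = (128 * K * N) * M' := by ring

open scoped Classical in
/-- many pairs with equal label -/
theorem label_pairs {α ι κ : Type} {Q : Finset α} {S : Finset ι} {Rg : ι → α → Bool}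
    {s s' x R : ℕ} {g' : Fin s' → ι} {g : Fin R → Fin s → ι} {F : Fin R → Finset (Finset α)}
    (h : Rounds Q S Rg s s' x R g' g F) (c : α → κ) (K : ℝ) (hK0 : 0 < K)
    (hK : ∀ τ, ∀ v ∈ Q.image c, (((Q.filter (fun q => c q = v)).image
        (fun q => ((fun k => Rg (g τ k) q), (fun k => Rg (g' k) q)))).card : ℝ) ≤ K)
    (hbig : 128 * K * (Q.image c).card ≤ Q.card) :
    (R * Q.card : ℝ) * Q.card ≤ (128 * K * (Q.image c).card) *
      ∑ τ, ∑ X ∈ F τ, ((X.offDiag.filter (fun π => c π.1 = c π.2)).card : ℝ) := by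
  set T : Finset (Σ _τ : Fin R, Finset α) := (Finset.univ : Finset (Fin R)).sigma F with hT
  have hsig : ∀ f : Fin R → Finset α → ℝ, ∑ τ, ∑ X ∈ F τ, f τ X = ∑ y ∈ T, f y.1 y.2 := by
    intro f
    rw [hT, Finset.sum_sigma]
  set E : Finset α → ℝ := fun X => (((X ×ˢ X).filter (fun π => c π.1 = c π.2)).card : ℝ) with hE
  set E' : Finset α → ℝ := fun X => ((X.offDiag.filter (fun π => c π.1 = c π.2)).card : ℝ) with hE'
  have hEE : ∀ X : Finset α, E X ≤ E' X + X.card := by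
    intro X
    have h6 : ((X ×ˢ X).filter (fun π => c π.1 = c π.2)) ⊆
        (X.offDiag.filter (fun π => c π.1 = c π.2)) ∪ X.diag := by
      intro π hπ
      rw [mem_filter, mem_product] at hπ
      rw [mem_union, mem_filter, mem_offDiag, mem_diag]
      by_cases h7 : π.1 = π.2
      · right; exact ⟨hπ.1.1, h7⟩
      · left
        exact ⟨⟨hπ.1.1, hπ.1.2, h7⟩, hπ.2⟩
    have h7 := (card_le_card h6).trans (card_union_le _ _)
    rw [diag_card] at h7
    simp only [hE, hE']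
    exact_mod_cast h7
  have hCS : (∑ y ∈ T, (x:ℝ)) ^ 2 ≤ (∑ y ∈ T, ((y.2.image c).card : ℝ)) * ∑ y ∈ T, E y.2 := by
    apply Finset.sum_sq_le_sum_mul_sum_of_sq_le_mul
    · intro y _; (clear * -; positivity)
    · intro y _; simp only [hE]; (clear * -; positivity)
    · intro y hy
      rw [hT, mem_sigma] at hy
      have h1 := energy_lower y.2 c
      rw [h.card y.1 y.2 hy.2] at h1
      exact h1
  have hN : ∑ y ∈ T, ((y.2.image c).card : ℝ) ≤ R * (K * (Q.image c).card) := by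
    rw [← hsig (fun _ X => ((X.image c).card : ℝ))]
    calc ∑ τ, ∑ X ∈ F τ, ((X.image c).card : ℝ) ≤ ∑ _τ : Fin R, (K * (Q.image c).card) := by
          apply Finset.sum_le_sum
          intro τ _
          have h1 : (∑ X ∈ F τ, ((X.image c).card : ℝ)) ≤ ∑ v ∈ Q.image c,
              (((Q.filter (fun q => c q = v)).image
              (fun q => ((fun k => Rg (g τ k) q), (fun k => Rg (g' k) q)))).card : ℝ) := by
            exact_mod_cast image_count h c τ
          refine h1.trans ?_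
          calc _ ≤ ∑ v ∈ Q.image c, K := Finset.sum_le_sum (fun v hv => hK τ v hv)
            _ = K * (Q.image c).card := by rw [Finset.sum_const, nsmul_eq_mul, mul_comm]
      _ = R * (K * (Q.image c).card) := by
          rw [Finset.sum_const, Finset.card_univ, Fintype.card_fin, nsmul_eq_mul]
  have hlow := h.le_sum_const
  have hup := h.sum_const_le
  rw [hsig (fun _ _ => (x:ℝ))] at hlow hup
  set W : ℝ := ∑ y ∈ T, (x:ℝ) with hW
  have hEsum : ∑ y ∈ T, E y.2 ≤ ∑ y ∈ T, E' y.2 + W := by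
    rw [hW, ← Finset.sum_add_distrib]
    apply Finset.sum_le_sum
    intro y hy
    rw [hT, mem_sigma] at hy
    have h1 := hEE y.2
    rw [h.card y.1 y.2 hy.2] at h1
    exact h1
  rw [hsig (fun _ X => E' X)]
  set M' : ℝ := ∑ y ∈ T, E' y.2 with hM'
  have hM'0 : 0 ≤ M' := by
    rw [hM']; apply Finset.sum_nonneg; intro y _; simp only [hE']; (clear * -; positivity)
  have hR0 : (0:ℝ) ≤ R := by (clear * -; positivity)
  have hn0 : (0:ℝ) ≤ Q.card := by (clear * -; positivity)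
  set n : ℝ := (Q.card : ℝ) with hn
  set N : ℝ := ((Q.image c).card : ℝ) with hNdef
  have hN0 : 0 ≤ N := by rw [hNdef]; (clear * -; positivity)
  have h1 : (R * n / 8) ^ 2 ≤ (R * (K * N)) * (M' + R * n) := by
    calc (R * n / 8) ^ 2 ≤ W ^ 2 := pow_le_pow_left₀ (by (clear * -; positivity)) hlow 2
      _ ≤ _ := hCS
      _ ≤ (R * (K * N)) * (M' + R * n) := by
          apply mul_le_mul hN (by linarith only [hEsum, hup]) _ (by (clear * - hK0; positivity))
          apply Finset.sum_nonneg; intro y _; simp only [hE]; (clear * -; positivity)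
  exact label_num R n N K M' hR0 hn0 hN0 hK0 hM'0 h1 hbig

/-- index set of the pairs in the classes -/
noncomputable def idx {α : Type} {R : ℕ} (F : Fin R → Finset (Finset α)) :
    Finset (Fin R × (α × α)) :=
  open scoped Classical in
  Finset.univ.biUnion (fun τ => (F τ).biUnion (fun X => X.offDiag.image (fun π => (τ, π))))

open scoped Classical in
theorem mem_idx {α : Type} {R : ℕ} (F : Fin R → Finset (Finset α)) (i : Fin R × (α × α)) :
    i ∈ idx F ↔ ∃ X ∈ F i.1, i.2 ∈ X.offDiag := by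
  unfold idx
  rw [mem_biUnion]
  constructor
  · rintro ⟨τ, _, h⟩
    rw [mem_biUnion] at h
    obtain ⟨X, hX, h⟩ := h
    rw [mem_image] at h
    obtain ⟨π, hπ, rfl⟩ := h
    exact ⟨X, hX, hπ⟩
  · rintro ⟨X, hX, h⟩
    refine ⟨i.1, mem_univ _, ?_⟩
    rw [mem_biUnion]
    exact ⟨X, hX, mem_image.mpr ⟨i.2, h, rfl⟩⟩

open scoped Classical in
theorem idx_filter {α ι : Type} {Q : Finset α} {S : Finset ι} {Rg : ι → α → Bool}
    {s s' x R : ℕ} {g' : Fin s' → ι} {g : Fin R → Fin s → ι} {F : Fin R → Finset (Finset α)}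
    (h : Rounds Q S Rg s s' x R g' g F) (p : α × α → Prop) :
    (((idx F).filter (fun i => p i.2)).card : ℝ) =
      ∑ τ, ∑ X ∈ F τ, ((X.offDiag.filter p).card : ℝ) := by
  have h1 : (idx F).filter (fun i => p i.2) =
      Finset.univ.biUnion (fun τ => (F τ).biUnion
        (fun X => (X.offDiag.filter p).image (fun π => (τ, π)))) := by
    ext i
    rw [mem_filter, mem_idx, mem_biUnion]
    constructor
    · rintro ⟨⟨X, hX, h2⟩, h3⟩
      refine ⟨i.1, mem_univ _, ?_⟩
      rw [mem_biUnion]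
      exact ⟨X, hX, mem_image.mpr ⟨i.2, mem_filter.mpr ⟨h2, h3⟩, rfl⟩⟩
    · rintro ⟨τ, _, h2⟩
      rw [mem_biUnion] at h2
      obtain ⟨X, hX, h2⟩ := h2
      rw [mem_image] at h2
      obtain ⟨π, hπ, rfl⟩ := h2
      rw [mem_filter] at hπ
      exact ⟨⟨X, hX, hπ.1⟩, hπ.2⟩
  rw [h1, card_biUnion]
  · push_cast
    apply Finset.sum_congr rfl
    intro τ _
    rw [card_biUnion]
    · push_cast
      apply Finset.sum_congr rfl
      intro X _
      rw [card_image_of_injective]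
      intro a b hab
      exact (Prod.mk.injEq _ _ _ _ ▸ hab).2
    · intro X hX X' hX' hne
      change Disjoint _ _
      rw [Finset.disjoint_left]
      intro i hi hi'
      rw [mem_image] at hi hi'
      obtain ⟨π, hπ, rfl⟩ := hi
      obtain ⟨π', hπ', hππ⟩ := hi'
      have h2 : π' = π := (Prod.mk.injEq _ _ _ _ ▸ hππ).2
      subst h2
      rw [mem_filter, mem_offDiag] at hπ hπ'
      exact hne (h.uniq τ X hX X' hX' π'.1 hπ.1.1 π'.1 hπ'.1.1 rfl rfl)
  · intro τ _ τ' _ hne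
    change Disjoint _ _
    rw [Finset.disjoint_left]
    intro i hi hi'
    rw [mem_biUnion] at hi hi'
    obtain ⟨X, _, hi⟩ := hi
    obtain ⟨X', _, hi'⟩ := hi'
    rw [mem_image] at hi hi'
    obtain ⟨π, _, rfl⟩ := hi
    obtain ⟨π', _, hππ⟩ := hi'
    exact hne (Prod.mk.injEq _ _ _ _ ▸ hππ).1.symm

open scoped Classical in
theorem idx_card_le {α ι : Type} {Q : Finset α} {S : Finset ι} {Rg : ι → α → Bool}
    {s s' x R : ℕ} {g' : Fin s' → ι} {g : Fin R → Fin s → ι} {F : Fin R → Finset (Finset α)}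
    (h : Rounds Q S Rg s s' x R g' g F) : ((idx F).card : ℝ) ≤ R * Q.card * x := by
  have h1 := idx_filter h (fun _ => True)
  calc ((idx F).card : ℝ) ≤ (((idx F).filter (fun i => (fun _ : α × α => True) i.2)).card : ℝ) := by
        exact_mod_cast card_le_card (fun i hi => mem_filter.mpr ⟨hi, trivial⟩)
    _ = ∑ τ, ∑ X ∈ F τ, ((X.offDiag.filter (fun _ => True)).card : ℝ) := by convert h1
    _ ≤ ∑ τ, ∑ _X ∈ F τ, (x:ℝ) * x := by
        apply Finset.sum_le_sum
        intro τ _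
        apply Finset.sum_le_sum
        intro X hX
        have h3 : (X.offDiag.filter (fun _ => True)).card ≤ x * x := by
          refine (card_filter_le _ _).trans ?_
          rw [offDiag_card, h.card τ X hX]
          exact Nat.sub_le _ _
        exact_mod_cast h3
    _ = x * ∑ τ, ∑ _X ∈ F τ, (x:ℝ) := by
        rw [Finset.mul_sum]
        apply Finset.sum_congr rfl
        intro τ _
        rw [Finset.mul_sum]
    _ ≤ x * (R * Q.card) := mul_le_mul_of_nonneg_left h.sum_const_le (by positivity)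
    _ = R * Q.card * x := by ring

open scoped Classical in
theorem mirror_mass {α ι : Type} {Q : Finset α} {S : Finset ι} {Rg : ι → α → Bool}
    {s s' x R : ℕ} {g' : Fin s' → ι} {g : Fin R → Fin s → ι} {F : Fin R → Finset (Finset α)}
    (h : Rounds Q S Rg s s' x R g' g F) (hx : 1 ≤ x) (p : α × α → Prop) (σ : ι) (Λs : ℝ)
    (hsep : ∑ τ, ∑ X ∈ F τ, sepc Rg σ X ≤ (x * Q.card) * (4 * R * Λs))
    (hp : ∀ X : Finset α, ((X.offDiag.filter p).card : ℝ) * X.card ≤ 2 * sepc Rg σ X) :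
    (((idx F).filter (fun i => p i.2)).card : ℝ) ≤ 8 * R * Q.card * Λs := by
  have hx' : (0:ℝ) < x := by exact_mod_cast hx
  rw [idx_filter h]
  have h1 : (∑ τ, ∑ X ∈ F τ, ((X.offDiag.filter p).card : ℝ)) * x ≤
      2 * ∑ τ, ∑ X ∈ F τ, sepc Rg σ X := by
    rw [Finset.sum_mul, Finset.mul_sum]
    apply Finset.sum_le_sum
    intro τ _
    rw [Finset.sum_mul, Finset.mul_sum]
    apply Finset.sum_le_sum
    intro X hX
    have := hp X
    rwa [h.card τ X hX] at this
  have h2 : (∑ τ, ∑ X ∈ F τ, ((X.offDiag.filter p).card : ℝ)) * x ≤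
      (8 * R * Q.card * Λs) * x := by
    calc _ ≤ _ := h1
      _ ≤ 2 * ((x * Q.card) * (4 * R * Λs)) := by linarith only [hsep]
      _ = (8 * R * Q.card * Λs) * x := by ring
  exact le_of_mul_le_mul_right h2 hx'

end Vale.Agent.P054K
end

section

set_option autoImplicit false

open Finset

namespace Vale.Agent.P054K

/-- a subspace of minimal dimension which is rich for its dimension -/
theorem exists_minimal_rich {V ι : Type} [AddCommGroup V] [Module ℝ V] [FiniteDimensional ℝ V]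
    (I : Finset ι) (v : ι → V) (H : Submodule ℝ V) (d : ℕ) (hH : Module.finrank ℝ H = d)
    (θ : ℕ → ℝ) (hθ : θ d ≤ mass I v H) :
    ∃ w, w ≤ d ∧ ∃ A : Submodule ℝ V, A ≤ H ∧ Module.finrank ℝ A = w ∧ θ w ≤ mass I v A ∧
      ∀ B : Submodule ℝ V, B < A → Module.finrank ℝ B < w ∧ mass I v B < θ (Module.finrank ℝ B) := by
  classical
  have hex : ∃ w, ∃ A : Submodule ℝ V, A ≤ H ∧ Module.finrank ℝ A = w ∧ θ w ≤ mass I v A :=
    ⟨d, H, le_rfl, hH, hθ⟩
  refine ⟨Nat.find hex, Nat.find_le ⟨H, le_rfl, hH, hθ⟩, ?_⟩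
  obtain ⟨A, hA1, hA2, hA3⟩ := Nat.find_spec hex
  refine ⟨A, hA1, hA2, hA3, ?_⟩
  intro B hB
  have h1 : Module.finrank ℝ B < Nat.find hex := by
    rw [← hA2]
    exact Submodule.finrank_lt_finrank_of_lt hB
  refine ⟨h1, ?_⟩
  by_contra h2
  push Not at h2
  exact Nat.find_min hex h1 ⟨B, hB.le.trans hA1, rfl, h2⟩

theorem mass_of_finrank_zero {V ι : Type} [AddCommGroup V] [Module ℝ V] [FiniteDimensional ℝ V]
    (I : Finset ι) (v : ι → V) (hv : ∀ i ∈ I, v i ≠ 0) (A : Submodule ℝ V)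
    (hA : Module.finrank ℝ A = 0) : mass I v A = 0 := by
  classical
  have h1 : A = ⊥ := Submodule.finrank_eq_zero.mp hA
  subst h1
  unfold mass
  have : I.filter (fun i => v i ∈ (⊥ : Submodule ℝ V)) = ∅ := by
    rw [Finset.filter_eq_empty_iff]
    intro i hi h
    exact hv i hi ((Submodule.mem_bot ℝ).mp h)
  rw [this]; simp

theorem mass_of_finrank_one {V ι : Type} [AddCommGroup V] [Module ℝ V] [FiniteDimensional ℝ V]
    (I : Finset ι) (v : ι → V) (m : ℝ) (hm0 : 0 ≤ m) (hv : ∀ i ∈ I, v i ≠ 0)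
    (hm : ∀ i ∈ I, mass I v (Submodule.span ℝ {v i}) ≤ m) (A : Submodule ℝ V)
    (hA : Module.finrank ℝ A = 1) : mass I v A ≤ m := by
  classical
  rcases (I.filter (fun i => v i ∈ A)).eq_empty_or_nonempty with h | ⟨i, hi⟩
  · have : mass I v A = 0 := by
      unfold mass
      have h2 : ((I.filter (fun i => v i ∈ A)).card : ℝ) = 0 := by rw [h]; simp
      convert h2
    rw [this]; exact hm0
  · rw [mem_filter] at hi
    refine le_trans ?_ (hm i hi.1)
    apply mass_mono (Finset.Subset.refl _)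
    have h1 : Submodule.span ℝ {v i} ≤ A := by
      rw [Submodule.span_le]
      intro y hy
      rw [Set.mem_singleton_iff] at hy
      rw [hy]; exact hi.2
    have h2 : Submodule.span ℝ {v i} = A := by
      apply Submodule.eq_of_le_of_finrank_eq h1
      rw [hA, finrank_span_singleton (hv i hi.1)]
    exact h2.ge

/-- numerics for the number of rich subspaces -/
theorem rich_numeric (d w : ℕ) (hwd : w ≤ d) (hw : 2 ≤ w) (n x s L Λ : ℝ) (hn : 0 < n) (hx : 0 ≤ x)
    (hs : 0 < s) (hL : 1 ≤ L) (hΛ : 1 ≤ Λ) :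
    L * ((n * x) ^ w * (n * Λ / s) / (n / 4 * (L ^ w / L ^ d)) ^ (w + 1) +
      (n * x) ^ (w - 1) / (n / 4 * (L ^ w / L ^ d)) ^ (w - 1)) ≤
      5 * Λ * L * (4 * L ^ d) ^ (d + 1) * (x ^ w / s + x ^ (w - 1)) := by
  obtain ⟨k, rfl⟩ : ∃ k, w = k + 1 := ⟨w - 1, by omega⟩
  simp only [Nat.add_sub_cancel]
  set θ : ℝ := n / 4 * (L ^ (k + 1) / L ^ d) with hθ
  have hL0 : 0 < L := by linarith only [hL]
  have hθ0 : 0 < θ := by positivity
  have hLk : (1:ℝ) ≤ L ^ (k + 1) := one_le_pow₀ hL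
  have hLd : (1:ℝ) ≤ L ^ d := one_le_pow₀ hL
  have hnθ : n / θ ≤ 4 * L ^ d := by
    rw [div_le_iff₀ hθ0, hθ]
    have : 4 * L ^ d * (n / 4 * (L ^ (k + 1) / L ^ d)) = n * L ^ (k + 1) := by
      field_simp
    rw [this]
    nlinarith only [hn, hLk]
  set a : ℝ := 4 * L ^ d with ha
  have ha1 : 1 ≤ a := by rw [ha]; linarith only [hLd]
  have e1 : (n * x) ^ (k + 1) * (n * Λ / s) / θ ^ (k + 1 + 1)
      = (n / θ) ^ (k + 2) * (Λ * (x ^ (k + 1) / s)) := by
    rw [div_pow]; field_simp; ring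
  have e2 : (n * x) ^ k / θ ^ k = (n / θ) ^ k * x ^ k := by
    rw [div_pow, mul_pow]; field_simp
  rw [e1, e2]
  have hnθ0 : 0 ≤ n / θ := by positivity
  have h1 : (n / θ) ^ (k + 2) ≤ a ^ (d + 1) :=
    (pow_le_pow_left₀ hnθ0 hnθ _).trans (pow_le_pow_right₀ ha1 (by omega))
  have h2 : (n / θ) ^ k ≤ a ^ (d + 1) :=
    (pow_le_pow_left₀ hnθ0 hnθ _).trans (pow_le_pow_right₀ ha1 (by omega))
  have h3 : (n / θ) ^ (k + 2) * (Λ * (x ^ (k + 1) / s)) ≤ a ^ (d + 1) * (Λ * (x ^ (k + 1) / s)) :=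
    mul_le_mul_of_nonneg_right h1 (by (clear * - hx hs hΛ; positivity))
  have h4 : (n / θ) ^ k * x ^ k ≤ a ^ (d + 1) * (Λ * x ^ k) := by
    apply mul_le_mul h2 _ (by (clear * - hx; positivity)) (by positivity)
    exact le_mul_of_one_le_left (by (clear * - hx; positivity)) hΛ
  calc L * ((n / θ) ^ (k + 2) * (Λ * (x ^ (k + 1) / s)) + (n / θ) ^ k * x ^ k)
      ≤ L * (a ^ (d + 1) * (Λ * (x ^ (k + 1) / s)) + a ^ (d + 1) * (Λ * x ^ k)) := by
        apply mul_le_mul_of_nonneg_left _ hL0.le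
        linarith only [h3, h4]
    _ = 1 * (Λ * L * a ^ (d + 1) * (x ^ (k + 1) / s + x ^ k)) := by ring
    _ ≤ 5 * (Λ * L * a ^ (d + 1) * (x ^ (k + 1) / s + x ^ k)) := by
        apply mul_le_mul_of_nonneg_right (by norm_num) (by (clear * - hx hs hL hΛ; positivity))
    _ = _ := by ring

open scoped Classical in
theorem key_inequality (d : ℕ) (hd : 2 ≤ d) : ∃ (K : ℝ) (c : ℕ), 1 ≤ K ∧
    ∀ (P : Finset (EuclideanSpace ℝ (Fin d))) (t x s : ℕ) (Λ : ℝ) (G : ℕ → ℝ),
      (∀ p ∈ P, (P.image (dist p)).card ≤ t + 1) → 1 ≤ s → 1 ≤ x →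
      20 * (Real.log ((P.card:ℝ) * x + 3) + 1) ≤ Λ →
      4 * x * (2 * s + 1) ^ d ≤ P.card → 100 * ((t:ℝ) + 1) * Λ / s + 4 ≤ x →
      K * Λ ^ c ≤ s → (∀ j, j + 2 ≤ d → PinnedBy j t (G j)) →
      (P.card : ℝ) ≤ K * Λ ^ c * ∑ w ∈ Icc 2 d, ((x:ℝ) ^ w / s + (x:ℝ) ^ (w - 1)) * G (d - w) := by
  obtain ⟨K0, c0, hK0, hET⟩ := et_uniform d
  have hK0d : (1:ℝ) ≤ K0 ^ d := one_le_pow₀ hK0
  refine ⟨5 * K0 * (4 * K0 ^ d) ^ (d + 1), 1 + c0 + c0 * d * (d + 1), ?_, ?_⟩
  · have h1 : (1:ℝ) ≤ (4 * K0 ^ d) ^ (d + 1) := one_le_pow₀ (by linarith only [hK0d])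
    nlinarith only [hK0, h1]
  intro P t x s Λ G ht hs hx hΛ h1 h2 hKs hG
  have hx' : (1:ℝ) ≤ x := by exact_mod_cast hx
  have hs' : (0:ℝ) < s := by exact_mod_cast hs
  have hP : 0 < P.card := by
    have : 0 < 4 * x * (2 * s + 1) ^ d := by positivity
    omega
  set n : ℝ := (P.card : ℝ) with hn
  have hn1 : (1:ℝ) ≤ n := by rw [hn]; exact_mod_cast hP
  have hn0 : 0 < n := by linarith only [hn1]
  have hlogx : Real.log (n + 3) ≤ Real.log (n * x + 3) :=
    Real.log_le_log (by (clear * - hP; positivity)) (by linarith only [mul_nonneg (sub_nonneg.2 hx') (le_of_lt (sub_pos.2 hn0))])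
  have hlog : 0 ≤ Real.log (n + 3) := Real.log_nonneg (by linarith only [hn1])
  have hΛ1 : 1 ≤ Λ := by linarith only [hΛ, hlogx, hlog]
  set L : ℝ := K0 * Λ ^ c0 with hL
  have hLE : (5 * K0 * (4 * K0 ^ d) ^ (d + 1)) * Λ ^ (1 + c0 + c0 * d * (d + 1))
      = 5 * Λ * L * (4 * L ^ d) ^ (d + 1) := by
    rw [hL, mul_pow K0 (Λ ^ c0) d, mul_pow, mul_pow 4 (K0 ^ d * (Λ ^ c0) ^ d), mul_pow (K0 ^ d),
      pow_add, pow_add, pow_one, ← pow_mul Λ c0 d, ← pow_mul Λ (c0 * d)]
    ring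
  rw [hLE]
  rw [hLE] at hKs
  have hL1 : 1 ≤ L := by
    have : (1:ℝ) ≤ Λ ^ c0 := one_le_pow₀ hΛ1
    rw [hL]; nlinarith only [hK0, this]
  have hL0 : 0 < L := by linarith only [hL1]
  have hLd : (1:ℝ) ≤ L ^ d := one_le_pow₀ hL1
  -- basic size of s
  have hsL : 5 * Λ * L * L ^ d ≤ s := by
    refine le_trans ?_ hKs
    have h3 : L ^ d ≤ (4 * L ^ d) ^ (d + 1) := by
      calc L ^ d ≤ 4 * L ^ d := by linarith only [hLd]
        _ = (4 * L ^ d) ^ 1 := (pow_one _).symm
        _ ≤ (4 * L ^ d) ^ (d + 1) := pow_le_pow_right₀ (by linarith only [hLd]) (by omega)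
    exact mul_le_mul_of_nonneg_left h3 (by (clear * - hK0 hΛ1; positivity))
  obtain ⟨T, hT1, hT2, hT3, hT4⟩ := exists_pairs d (by omega) P t x s Λ (by linarith only [hΛ,
                                                                              hlogx, hlog]) ht hs hx h1 h2
  -- set up
  set m : ℝ := n * Λ / s with hm
  have hm0 : 0 < m := by (clear * - hs hP hΛ1; positivity)
  set θ : ℕ → ℝ := fun w => n / 4 * (L ^ w / L ^ d) with hθ
  have hθpos : ∀ w, 0 < θ w := fun w => by simp only [hθ]; (clear * - hK0 hP hΛ1; positivity)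
  have hθsucc : ∀ w, L * θ w = θ (w + 1) := by
    intro w; simp only [hθ]; rw [pow_succ]; ring
  have hθmono : ∀ w w', w ≤ w' → θ w ≤ θ w' := by
    intro w w' hww
    simp only [hθ]
    apply mul_le_mul_of_nonneg_left _ (by (clear * - hP; positivity))
    apply div_le_div_of_nonneg_right _ (by positivity)
    exact pow_le_pow_right₀ hL1 hww
  have hmθ : L * m ≤ θ 0 := by
    simp only [hθ, pow_zero, hm]
    rw [mul_div_assoc', mul_one_div, div_le_div_iff₀ hs' (by positivity)]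
    have h3 : 5 * Λ * L * L ^ d * n ≤ s * n := mul_le_mul_of_nonneg_right hsL hn0.le
    have h4 : 0 < Λ * L * L ^ d * n := by (clear * - hK0 hP hΛ1; positivity)
    linarith only [h3, h4]
  have hm1 : m < θ 1 := by
    have h3 : L * m ≤ θ 0 := hmθ
    have h4 : m ≤ L * m := le_mul_of_one_le_left hm0.le hL1
    -- strictness
    simp only [hθ, pow_one, hm]
    rw [div_lt_iff₀ hs']
    have h5 : n / 4 * (L / L ^ d) * (5 * Λ * L * L ^ d) ≤ n / 4 * (L / L ^ d) * s :=
      mul_le_mul_of_nonneg_left hsL (by (clear * - hK0 hP hΛ1; positivity))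
    have h6 : n / 4 * (L / L ^ d) * (5 * Λ * L * L ^ d) = 5 / 4 * (n * Λ) * L ^ 2 := by
      (clear * - hn1 hΛ1 hL1; field_simp)
    rw [h6] at h5
    have h7 : (1:ℝ) ≤ L ^ 2 := one_le_pow₀ hL1
    have h8 : 0 < n * Λ := by (clear * - hP hΛ1; positivity)
    linarith only [mul_nonneg (sub_nonneg.2 h7) (le_of_lt (sub_pos.2 h8)), h8, h5]
  have hv0 : ∀ π ∈ T, dualVec π ≠ 0 := fun π hπ => dualVec_ne_zero π (hT1 π hπ).2.2
  -- the minimal rich subspaces
  have hmin : ∀ p ∈ P, ∃ w, w ≤ d ∧ ∃ A : Submodule ℝ (EuclideanSpace ℝ (Fin d) × ℝ), A ≤ hyp p ∧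
      Module.finrank ℝ A = w ∧ θ w ≤ mass T dualVec A ∧
      ∀ B : Submodule ℝ (EuclideanSpace ℝ (Fin d) × ℝ), B < A → Module.finrank ℝ B < w ∧
        mass T dualVec B < θ (Module.finrank ℝ B) := by
    intro p hp
    apply exists_minimal_rich T dualVec (hyp p) d (finrank_hyp p) θ
    have h3 := hT3 p hp
    have h4 : mass T dualVec (hyp p) = ((T.filter (fun π => dist p π.1 = dist p π.2)).card : ℝ) := by
      unfold mass
      congr 2
      apply Finset.filter_congr
      intro π _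
      rw [dualVec_mem_hyp]
    rw [h4]
    simp only [hθ]
    rw [div_self (by positivity), mul_one]
    have h5 : n ≤ 4 * ((T.filter (fun π => dist p π.1 = dist p π.2)).card : ℝ) := by
      rw [hn]; exact_mod_cast h3
    linarith only [h5]
  choose! wp hwd Ap hAp hfr hrich hBmin using hmin
  have hw2 : ∀ p ∈ P, 2 ≤ wp p := by
    intro p hp
    by_contra hcon
    push Not at hcon
    interval_cases hwp : wp p
    · have h3 := mass_of_finrank_zero T dualVec hv0 (Ap p) (by rw [hfr p hp, hwp])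
      have h4 := hrich p hp
      rw [h3, hwp] at h4
      exact absurd (hθpos 0) (not_lt.mpr h4)
    · have h3 := mass_of_finrank_one T dualVec m hm0.le hv0 hT4 (Ap p) (by rw [hfr p hp, hwp])
      have h4 := hrich p hp
      rw [hwp] at h4
      linarith only [hm1, h3, h4]
  -- partition according to wp
  have hsum : n = ∑ w ∈ Icc 2 d, ((P.filter (fun p => wp p = w)).card : ℝ) := by
    rw [hn]
    have h3 : P.card = ∑ w ∈ Icc 2 d, (P.filter (fun p => wp p = w)).card := by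
      apply Finset.card_eq_sum_card_fiberwise
      intro p hp
      rw [mem_coe, mem_Icc]
      exact ⟨hw2 p hp, hwd p hp⟩
    exact_mod_cast h3
  rw [hsum, Finset.mul_sum]
  apply Finset.sum_le_sum
  intro w hw
  rw [mem_Icc] at hw
  set Pw := P.filter (fun p => wp p = w) with hPw
  set Zw := Pw.image Ap with hZw
  have hGw := hG (d - w) (by (clear * - hw; omega))
  have hG0 : 0 ≤ G (d - w) := by
    have := hGw ∅ (by simp)
    simpa only [ge_iff_le, card_empty, CharP.cast_eq_zero] using this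
  have hfib : (Pw.card : ℝ) ≤ Zw.card * G (d - w) := by
    have h3 : Pw.card = ∑ A ∈ Zw, (Pw.filter (fun p => Ap p = A)).card :=
      Finset.card_eq_sum_card_fiberwise (fun p hp => mem_image_of_mem Ap hp)
    rw [h3]
    push_cast
    calc ∑ A ∈ Zw, ((Pw.filter (fun p => Ap p = A)).card : ℝ) ≤ ∑ _A ∈ Zw, G (d - w) := by
          apply Finset.sum_le_sum
          intro A hA
          rw [hZw, mem_image] at hA
          obtain ⟨q, hq, hqA⟩ := hA
          have hq' := mem_filter.mp hq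
          apply flat_bound P _ ((filter_subset _ _).trans (filter_subset _ _)) ht A _ _ hGw
          · intro p hp
            have h4 := mem_filter.mp hp
            have h5 := mem_filter.mp h4.1
            rw [← h4.2]
            exact hAp p h5.1
          · rw [← hqA, hfr q hq'.1, hq'.2]
            omega
      _ = Zw.card * G (d - w) := by rw [Finset.sum_const, nsmul_eq_mul]
  have hZ := hET w hw.1 hw.2 (EuclideanSpace ℝ (Fin d) × ℝ)
    (EuclideanSpace ℝ (Fin d) × EuclideanSpace ℝ (Fin d)) T dualVec m (n * x) (θ w) Λ Zw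
    hv0 hT4 hm0 (by rw [hn]; exact_mod_cast hT2) hΛ
    (hmθ.trans (hθmono 0 w (by omega)))
    (by
      intro A hA
      rw [hZw, mem_image] at hA
      obtain ⟨q, hq, rfl⟩ := hA
      have hq' := mem_filter.mp hq
      refine ⟨by rw [hfr q hq'.1, hq'.2], by rw [← hq'.2]; exact hrich q hq'.1, ?_⟩
      intro B hB
      obtain ⟨h3, h4⟩ := hBmin q hq'.1 B hB
      calc L * mass T dualVec B ≤ L * θ (Module.finrank ℝ B) :=
            mul_le_mul_of_nonneg_left h4.le hL0.le
        _ = θ (Module.finrank ℝ B + 1) := hθsucc _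
        _ ≤ θ (wp q) := hθmono _ _ h3
        _ ≤ mass T dualVec (Ap q) := hrich q hq'.1)
  have hZ2 := hZ.trans (rich_numeric d w hw.2 hw.1 n x s L Λ hn0 (by linarith only []) hs' hL1 hΛ1)
  calc (Pw.card : ℝ) ≤ Zw.card * G (d - w) := hfib
    _ ≤ (5 * Λ * L * (4 * L ^ d) ^ (d + 1) * ((x:ℝ) ^ w / s + (x:ℝ) ^ (w - 1))) * G (d - w) :=
        mul_le_mul_of_nonneg_right hZ2 hG0
    _ = _ := by ring

end Vale.Agent.P054K
end

section

set_option autoImplicit false

open Finset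

namespace Vale.Agent.P054K

theorem Gd.mono {α ι : Type} {Z Q : Finset α} {S : Finset ι} {Rg : ι → α → Bool} {s x x' : ℕ}
    (h : Gd Z Q S Rg s x) (hx : x' ≤ x) : Gd Z Q S Rg s x' := by
  classical
  intro w hw
  obtain ⟨g, hg, hc⟩ := h w hw
  refine ⟨g, hg, hc.trans ?_⟩
  apply Nat.mul_le_mul_left
  apply card_le_card
  intro y hy
  rw [mem_filter] at hy ⊢
  exact ⟨hy.1, hx.trans hy.2⟩

open scoped Classical in
/-- the adaptive choice of the scale -/
theorem adaptive {α ι : Type} (Z : Finset α) (S : Finset ι) (Rg : ι → α → Bool) (t l I : ℕ)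
    (Λ : ℝ) (hZ : Z.Nonempty) (hS : S.Nonempty) (hl : 1 ≤ l) (ht : 1 ≤ t)
    (hΛZ : 2 * Real.log Z.card + 1 ≤ Λ) (hΛS : Real.log S.card ≤ Λ) (hΛ1 : 1 ≤ Λ)
    (hI : 16 * Λ * (t + 2) ≤ (l:ℝ) ^ I)
    (htop : ∀ s : ℕ, 16 * Λ * (t + 2) ≤ s → ¬ Gd Z Z S Rg s 2)
    (hbig : 2 ^ (2 * I + 17) * Λ * t < Z.card) :
    ∃ (s x : ℕ) (Q : Finset α) (g' : Fin (l * s) → ι) (g : Fin s → Fin s → ι)
      (F : Fin s → Finset (Finset α)),
      Q ⊆ Z ∧ 1 ≤ s ∧ (s:ℝ) < 16 * Λ * (t + 2) ∧ 8 ≤ x ∧ 1024 * (Λ / s) * t ≤ x ∧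
      (x:ℝ) ≤ 2 ^ (I + 14) * Λ * t / s ∧ Z.card ≤ 2 ^ (I + 1) * Q.card ∧ (∀ k, g' k ∈ S) ∧
      (∀ y ∈ Q, (Q.filter (fun z => (fun k => Rg (g' k) z) = (fun k => Rg (g' k) y))).card ≤ x) ∧
      Rounds Q S Rg s (l * s) x s g' g F ∧
      ∀ σ ∈ S, ∑ τ, ∑ X ∈ F τ, sepc Rg σ X ≤ (x * Q.card) * (4 * (s:ℝ) * (Λ / s)) := by
  -- minimal top scale
  have hex : ∃ J, 16 * Λ * (t + 2) ≤ (l:ℝ) ^ J := ⟨I, hI⟩
  obtain ⟨J, hJ, hJmin, hJI⟩ : ∃ J, 16 * Λ * (t + 2) ≤ (l:ℝ) ^ J ∧
      (∀ i < J, (l:ℝ) ^ i < 16 * Λ * (t + 2)) ∧ J ≤ I :=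
    ⟨Nat.find hex, Nat.find_spec hex, fun i hi => not_le.mp (Nat.find_min hex hi),
      Nat.find_min' hex hI⟩
  have htR : (1:ℝ) ≤ t := by exact_mod_cast ht
  set s : ℕ → ℕ := fun i => l ^ i with hs
  have hs1 : ∀ i, 1 ≤ s i := fun i => Nat.one_le_pow _ _ (by omega)
  have hs1' : ∀ i, (1:ℝ) ≤ s i := fun i => by exact_mod_cast hs1 i
  have hscast : ∀ i, ((s i : ℕ) : ℝ) = (l:ℝ) ^ i := fun i => by simp only [hs]; push_cast; rfl
  set x : ℕ → ℕ := fun i => 8 * 2 ^ (J - i) * ⌈1024 * Λ * t / s i⌉₊ with hx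
  have hceil : ∀ i, 1 ≤ ⌈1024 * Λ * t / s i⌉₊ := by
    intro i
    rw [Nat.one_le_ceil_iff]
    have := hs1' i
    positivity
  have hx8 : ∀ i, 8 ≤ x i := by
    intro i
    simp only [hx]
    have h1 : 1 ≤ 2 ^ (J - i) := Nat.one_le_two_pow
    have h2 := hceil i
    have h3 : 1 * 1 ≤ 2 ^ (J - i) * ⌈1024 * Λ * t / s i⌉₊ := Nat.mul_le_mul h1 h2
    have h4 : 8 * 2 ^ (J - i) * ⌈1024 * Λ * t / s i⌉₊
        = 8 * (2 ^ (J - i) * ⌈1024 * Λ * t / s i⌉₊) := by ring
    omega
  have hxlow : ∀ i, 1024 * (Λ / s i) * t ≤ x i := by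
    intro i
    have h1 : 1024 * Λ * t / s i ≤ ⌈1024 * Λ * t / s i⌉₊ := Nat.le_ceil _
    have h2 : ⌈1024 * Λ * t / s i⌉₊ ≤ x i := by
      simp only [hx]
      apply Nat.le_mul_of_pos_left
      positivity
    calc 1024 * (Λ / s i) * t = 1024 * Λ * t / s i := by ring
      _ ≤ (⌈1024 * Λ * t / s i⌉₊ : ℝ) := h1
      _ ≤ x i := by exact_mod_cast h2
  have hxup : ∀ i < J, (x i : ℝ) ≤ 2 ^ (I + 14) * Λ * t / s i := by
    intro i hi
    have h1 := hJmin i hi
    rw [← hscast] at h1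
    have hsp := hs1' i
    have h2 : (⌈1024 * Λ * t / s i⌉₊ : ℝ) ≤ 1024 * Λ * t / s i + 1 :=
      (Nat.ceil_lt_add_one (by (clear * - hl ht hΛ1; positivity))).le
    have h3 : (1:ℝ) ≤ 48 * Λ * t / s i := by
      rw [le_div_iff₀ (by linarith only [hsp])]
      nlinarith only [h1, htR]
    have h4 : (⌈1024 * Λ * t / s i⌉₊ : ℝ) ≤ 1072 * (Λ * t / s i) := by
      calc (⌈1024 * Λ * t / s i⌉₊ : ℝ) ≤ 1024 * Λ * t / s i + 48 * Λ * t / s i := by linarith only [h2, h3]
        _ = 1072 * (Λ * t / s i) := by ring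
    have h5 : (2:ℝ) ^ (J - i) ≤ 2 ^ I := pow_le_pow_right₀ (by norm_num) (by omega)
    have h6 : (x i : ℝ) = 8 * 2 ^ (J - i) * (⌈1024 * Λ * t / s i⌉₊ : ℝ) := by
      simp only [hx]; push_cast; rfl
    rw [h6]
    have h7 : 0 ≤ Λ * t / s i := by positivity
    calc 8 * 2 ^ (J - i) * (⌈1024 * Λ * t / s i⌉₊ : ℝ)
        ≤ 8 * 2 ^ I * (1072 * (Λ * t / s i)) := by
          apply mul_le_mul _ h4 (by positivity) (by positivity)
          linarith only [h5]
      _ = 2 ^ I * (8576 * (Λ * t / s i)) := by ring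
      _ ≤ 2 ^ I * (2 ^ 14 * (Λ * t / s i)) := by
          apply mul_le_mul_of_nonneg_left _ (by positivity)
          apply mul_le_mul_of_nonneg_right (by norm_num) h7
      _ = 2 ^ (I + 14) * Λ * t / s i := by rw [pow_add]; ring
  have hJ0 : 0 < J := by
    rw [Nat.pos_iff_ne_zero]
    rintro rfl
    rw [pow_zero] at hJ
    nlinarith only [hΛ1, hJ]
  have hx2 : ∀ i < J, 2 * x (i + 1) ≤ x i := by
    intro i hi
    simp only [hx]
    have h1 : ⌈1024 * Λ * t / s (i + 1)⌉₊ ≤ ⌈1024 * Λ * t / s i⌉₊ := by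
      apply Nat.ceil_mono
      apply div_le_div_of_nonneg_left (by positivity) (by have := hs1' i; linarith only [this])
      have : s i ≤ s (i + 1) := Nat.pow_le_pow_right (by omega) (by (clear * -; omega))
      exact_mod_cast this
    have h2 : 2 ^ (J - i) = 2 * 2 ^ (J - (i + 1)) := by
      rw [← pow_succ']
      congr 1
      omega
    rw [h2]
    calc 2 * (8 * 2 ^ (J - (i + 1)) * ⌈1024 * Λ * t / s (i + 1)⌉₊)
        = 8 * (2 * 2 ^ (J - (i + 1))) * ⌈1024 * Λ * t / s (i + 1)⌉₊ := by ring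
      _ ≤ _ := Nat.mul_le_mul_left _ h1
  have hnt : ¬ Gd Z Z S Rg (s J) (2 * x J) := by
    intro hgd
    apply htop (s J) (by rw [hscast]; exact hJ)
    exact hgd.mono (by have := hx8 J; omega)
  have hpat0 : ∀ g : Fin (s 0) → ι, (∀ k, g k ∈ S) →
      (Z.image (fun y => fun k => Rg (g k) y)).card ≤ 2 := by
    intro g _
    refine (Finset.card_le_univ _).trans ?_
    simp only [hs, pow_zero, Fintype.card_pi, univ_unique, Fin.default_eq_zero, Fin.isValue,
      Fintype.card_bool, prod_const, card_singleton, pow_one, Std.le_refl]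
  have hb : 2 ^ (J + 1) * (2 * x 0 * 2) < Z.card := by
    have h1 := hxup 0 hJ0
    have h2 : ((2 ^ (J + 1) * (2 * x 0 * 2) : ℕ) : ℝ) < Z.card := by
      refine lt_of_le_of_lt ?_ hbig
      push_cast
      have h3 : ((s 0 : ℕ) : ℝ) = 1 := by simp [hs]
      rw [h3, div_one] at h1
      have h4 : (2:ℝ) ^ (J + 1) ≤ 2 ^ (I + 1) := pow_le_pow_right₀ (by norm_num) (by omega)
      calc (2:ℝ) ^ (J + 1) * (2 * x 0 * 2) ≤ 2 ^ (I + 1) * (2 * (2 ^ (I + 14) * Λ * t) * 2) := by
            apply mul_le_mul h4 _ (by positivity) (by positivity)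
            linarith only [h1]
        _ = 2 ^ (2 * I + 17) * Λ * t := by ring
    exact_mod_cast h2
  obtain ⟨i, hi, Q, hQZ, g', hg', hc, hcell, hgd⟩ := descent Z S Rg s x J 2 hZ hS hs1 hnt hpat0 hb
  have hQne : Q.Nonempty := by
    rw [← card_pos]
    rcases Nat.eq_zero_or_pos Q.card with h | h
    · rw [h, mul_zero] at hc
      have := hZ.card_pos
      omega
    · exact h
  have hsi : s (i + 1) = l * s i := by simp only [hs]; rw [pow_succ]; ring
  have hfinal : ∀ m, m = l * s i → ∀ g' : Fin m → ι, (∀ k, g' k ∈ S) →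
      (∀ y ∈ Q, (Q.filter (fun z => (fun k => Rg (g' k) z) = (fun k => Rg (g' k) y))).card
        < 2 * x (i + 1)) →
      ∃ g' : Fin (l * s i) → ι, (∀ k, g' k ∈ S) ∧
      (∀ y ∈ Q, (Q.filter (fun z => (fun k => Rg (g' k) z) = (fun k => Rg (g' k) y))).card
        < 2 * x (i + 1)) := by
    intro m hm
    subst hm
    intro g' h1 h2
    exact ⟨g', h1, h2⟩
  obtain ⟨g', hg', hcell⟩ := hfinal _ hsi g' hg' hcell
  have hcell' : ∀ y ∈ Q, (Q.filter (fun z =>
      (fun k => Rg (g' k) z) = (fun k => Rg (g' k) y))).card ≤ x i := by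
    intro y hy
    have h1 := hcell y hy
    have h2 := hx2 i hi
    omega
  obtain ⟨g, F, hR, hsep⟩ := rounds Z Q hQZ S hS Rg (s i) (l * s i) (x i) (hs1 i)
    (by have := hx8 i; (clear * - this; omega)) hQne g' hcell' hgd (s i)
  refine ⟨s i, x i, Q, g', g, F, hQZ, hs1 i, ?_, hx8 i, hxlow i, hxup i hi, ?_, hg', hcell', hR, ?_⟩
  · have := hJmin i hi
    rwa [← hscast] at this
  · refine hc.trans (Nat.mul_le_mul_right _ (Nat.pow_le_pow_right (by norm_num) (by omega)))
  · intro σ hσ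
    refine (hsep σ hσ).trans ?_
    apply mul_le_mul_of_nonneg_left _ (by (clear * - hl ht hΛ1 hQne; positivity))
    have hsp := hs1' i
    have h1 : (s i : ℝ) * ((2 * Real.log Z.card + 1) / s i) ≤ Λ := by
      rw [mul_div_cancel₀ _ (by linarith only [hsp])]
      exact hΛZ
    have h2 : 4 * (s i : ℝ) * (Λ / s i) = 4 * Λ := by
      (clear * - hΛ1 hsp; field_simp)
    rw [h2]
    linarith only [hΛS, h1]

end Vale.Agent.P054K
end

section

set_option autoImplicit false

open Finset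

namespace Vale.Agent.P054K

open scoped Classical in
/-- number of cosets of `A` met by the points -/
noncomputable def ncos {α V : Type} [AddCommGroup V] [Module ℝ V] (Q : Finset α) (ψ : α → V)
    (A : Submodule ℝ V) : ℕ := (Q.image (fun q => A.mkQ (ψ q))).card

theorem select {α ι β V : Type} [AddCommGroup V] [Module ℝ V] [FiniteDimensional ℝ V]
    {Q : Finset α} {S : Finset ι} {Rg : ι → α → Bool}
    {s s' x R : ℕ} {g' : Fin s' → ι} {g : Fin R → Fin s → ι} {F : Fin R → Finset (Finset α)}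
    (h : Rounds Q S Rg s s' x R g' g F) (hR : 1 ≤ R) (hs : 1 ≤ s) (hQ : Q.Nonempty)
    (B : Finset β) (ψ : α → V) (Hf : β → Submodule ℝ V) (e : ℕ → ℕ) (κ FF : ℝ) (D : ℕ)
    (hD : Module.finrank ℝ V ≤ D) (hκ : 1 ≤ κ) (hFF : 1 ≤ FF)
    (hψ : ∀ q ∈ Q, ∀ q' ∈ Q, ψ q = ψ q' → q = q')
    (hval : ∀ p ∈ B, (R * Q.card : ℝ) / 8 ≤ mass (idx F) (fun i => ψ i.2.1 - ψ i.2.2) (Hf p))
    (hpat : open scoped Classical in
      ∀ A : Submodule ℝ V, A ≠ ⊥ → (∃ p ∈ B, A ≤ Hf p) → ∀ τ, ∀ v ∈ Q.image (fun q => A.mkQ (ψ q)),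
      (((Q.filter (fun q => A.mkQ (ψ q) = v)).image
        (fun q => ((fun k => Rg (g τ k) q), (fun k => Rg (g' k) q)))).card : ℝ)
        ≤ κ * (s:ℝ) ^ (e (Module.finrank ℝ A)))
    (p : β) (hp : p ∈ B) :
    ∃ (j w : ℕ) (A : Submodule ℝ V), A ≤ Hf p ∧ Module.finrank ℝ A = w ∧ 1 ≤ w ∧
      (2:ℝ) ^ j ≤ Q.card ∧
      (R * Q.card * 2 ^ j / (1024 * κ)) * (FF ^ w / FF ^ D) ≤
        mass (idx F) (fun i => ψ i.2.1 - ψ i.2.2) A ∧
      (∀ B' : Submodule ℝ V, B' < A → FF * mass (idx F) (fun i => ψ i.2.1 - ψ i.2.2) B' ≤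
        mass (idx F) (fun i => ψ i.2.1 - ψ i.2.2) A) ∧
      (∀ Φ ⊆ B, p ∈ Φ → ∀ A' : Submodule ℝ V, A' = (⨅ p' ∈ Φ, Hf p') → A' ≠ ⊥ →
        (Q.card : ℝ) ≤ 2 * 2 ^ j * ((ncos Q ψ A' : ℝ) * (s:ℝ) ^ (e (Module.finrank ℝ A')))) := by
  classical
  set v : Fin R × (α × α) → V := fun i => ψ i.2.1 - ψ i.2.2 with hv
  have hn1 : (1:ℝ) ≤ Q.card := by exact_mod_cast hQ.card_pos
  have hs1 : (1:ℝ) ≤ s := by exact_mod_cast hs
  have hR1 : (1:ℝ) ≤ R := by exact_mod_cast hR
  set n : ℝ := (Q.card : ℝ) with hn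
  set ϑ : Submodule ℝ V → ℝ := fun A =>
    (ncos Q ψ A : ℝ) * (s:ℝ) ^ (e (Module.finrank ℝ A)) / n with hϑ
  have hncos : ∀ A, 1 ≤ ncos Q ψ A := by
    intro A
    unfold ncos
    exact (hQ.image _).card_pos
  have hϑ1 : ∀ A, 1 / n ≤ ϑ A := by
    intro A
    simp only [hϑ]
    apply div_le_div_of_nonneg_right _ (by linarith only [hn1])
    have h1 : (1:ℝ) ≤ ncos Q ψ A := by exact_mod_cast hncos A
    have h2 : (1:ℝ) ≤ (s:ℝ) ^ (e (Module.finrank ℝ A)) := one_le_pow₀ hs1
    nlinarith only [h1, h2]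
  set 𝒞 : Finset (Submodule ℝ V) := ((B.powerset.filter (fun Φ => p ∈ Φ)).image
    (fun Φ => ⨅ p' ∈ Φ, Hf p')).filter (fun A => A ≠ ⊥) with h𝒞
  set vals : Finset ℝ := insert 1 (𝒞.image ϑ) with hvals
  have hvne : vals.Nonempty := ⟨1, mem_insert_self _ _⟩
  set θ : ℝ := vals.min' hvne with hθ
  have hθmem : θ ∈ vals := Finset.min'_mem _ _
  have hθ1 : θ ≤ 1 := Finset.min'_le _ _ (mem_insert_self _ _)
  have hθ𝒞 : ∀ A ∈ 𝒞, θ ≤ ϑ A := fun A hA =>
    Finset.min'_le _ _ (mem_insert_of_mem (mem_image_of_mem ϑ hA))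
  have hθn : 1 / n ≤ θ := by
    rw [hvals, mem_insert] at hθmem
    rcases hθmem with h1 | h1
    · rw [h1]
      rw [div_le_one (by linarith only [hn1])]
      exact hn1
    · obtain ⟨A, _, hA⟩ := mem_image.mp h1
      rw [← hA]; exact hϑ1 A
  have hθ0 : 0 < θ := lt_of_lt_of_le (by (clear * - hQ; positivity)) hθn
  obtain ⟨j, hj1, hj2⟩ := exists_nat_pow_near_of_lt_one hθ0 hθ1 (show (0:ℝ) < 1 / 2 by norm_num)
    (by norm_num)
  have hpow : ∀ k : ℕ, (1 / 2 : ℝ) ^ k * 2 ^ k = 1 := by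
    intro k
    rw [← mul_pow]; norm_num
  have h2j : (0:ℝ) < 2 ^ j := by positivity
  have hj3 : θ * 2 ^ j ≤ 1 := by
    have := mul_le_mul_of_nonneg_right hj2 h2j.le
    rwa [hpow j] at this
  have hj4 : 1 < θ * (2 * 2 ^ j) := by
    have h1 : (0:ℝ) < 2 * 2 ^ j := by positivity
    have h2 := mul_lt_mul_of_pos_right hj1 h1
    have h3 : (1 / 2 : ℝ) ^ (j + 1) * (2 * 2 ^ j) = 1 := by
      rw [← pow_succ' 2 j]
      exact hpow (j + 1)
    rwa [h3] at h2
  -- the rich subspace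
  have hrich : ∃ A₀ : Submodule ℝ V, A₀ ≤ Hf p ∧ R * n * 2 ^ j / (1024 * κ) ≤ mass (idx F) v A₀ := by
    have hdef : 2 ^ j ≤ 128 * κ → ∃ A₀ : Submodule ℝ V, A₀ ≤ Hf p ∧
        R * n * 2 ^ j / (1024 * κ) ≤ mass (idx F) v A₀ := by
      intro h1
      refine ⟨Hf p, le_rfl, le_trans ?_ (hval p hp)⟩
      rw [div_le_div_iff₀ (by positivity) (by norm_num)]
      have : R * n * 2 ^ j ≤ R * n * (128 * κ) := mul_le_mul_of_nonneg_left h1 (by (clear * - hR hQ; positivity))
      linarith only [this]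
    rw [hvals, mem_insert] at hθmem
    rcases hθmem with h1 | h1
    · apply hdef
      rw [h1, one_mul] at hj3
      linarith only [hκ, hj3]
    · obtain ⟨A, hA, hAθ⟩ := mem_image.mp h1
      have hA' := hA
      rw [h𝒞, mem_filter, mem_image] at hA'
      obtain ⟨⟨Φ, hΦ, hΦA⟩, hAne⟩ := hA'
      rw [mem_filter, mem_powerset] at hΦ
      have hAp : A ≤ Hf p := by
        rw [← hΦA]
        exact iInf₂_le p hΦ.2
      set Kp : ℝ := κ * (s:ℝ) ^ (e (Module.finrank ℝ A)) with hKp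
      have hKp0 : 0 < Kp := by positivity
      have hθA : ncos Q ψ A * (s:ℝ) ^ (e (Module.finrank ℝ A)) = θ * n := by
        rw [← hAθ]
        simp only [hϑ]
        field_simp
      by_cases hbig : 128 * Kp * (ncos Q ψ A : ℝ) ≤ n
      · refine ⟨A, hAp, ?_⟩
        have h2 := label_pairs h (fun q => A.mkQ (ψ q)) Kp hKp0 (fun τ v' hv' =>
          hpat A hAne ⟨p, hp, hAp⟩ τ v' hv') hbig
        have h3 : mass (idx F) v A = ∑ τ, ∑ X ∈ F τ,
            ((X.offDiag.filter (fun π => A.mkQ (ψ π.1) = A.mkQ (ψ π.2))).card : ℝ) := by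
          rw [← idx_filter h]
          unfold mass
          congr 2
          apply Finset.filter_congr
          intro i _
          simp only [hv]
          rw [Submodule.mkQ_apply, Submodule.mkQ_apply, Submodule.Quotient.eq]
        rw [← h3] at h2
        have h4 : 128 * Kp * (((Q.image (fun q => A.mkQ (ψ q))).card : ℕ) : ℝ) = 128 * κ * (θ * n) := by
          rw [← hθA, hKp]
          unfold ncos
          ring
        rw [h4] at h2
        -- R n n ≤ 128 κ θ n mass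
        have h5 : R * n ≤ 128 * κ * θ * mass (idx F) v A := by
          have h6 : (R * n) * n ≤ (128 * κ * θ * mass (idx F) v A) * n := by linarith only [h2]
          exact le_of_mul_le_mul_right h6 (by linarith only [hn1])
        rw [div_le_iff₀ (by positivity)]
        have hm0 := mass_nonneg (idx F) v A
        calc R * n * 2 ^ j ≤ (128 * κ * θ * mass (idx F) v A) * 2 ^ j :=
              mul_le_mul_of_nonneg_right h5 h2j.le
          _ = (128 * κ * mass (idx F) v A) * (θ * 2 ^ j) := by ring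
          _ ≤ (128 * κ * mass (idx F) v A) * 1 := mul_le_mul_of_nonneg_left hj3 (by (clear * - hκ hm0; positivity))
          _ ≤ mass (idx F) v A * (1024 * κ) := by linarith only [mul_nonneg hm0 (by linarith only [hκ] : (0:ℝ) ≤ κ)]
      · apply hdef
        push Not at hbig
        have h2 : n < 128 * κ * (θ * n) := by
          rw [← hθA]
          calc n < 128 * Kp * (ncos Q ψ A : ℝ) := hbig
            _ = _ := by rw [hKp]; ring
        have h3 : 1 < 128 * κ * θ := by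
          have h4 : 1 * n < (128 * κ * θ) * n := by linarith only [h2]
          exact lt_of_mul_lt_mul_right h4 (by linarith only [hn1])
        by_contra hcon
        push Not at hcon
        have h4 : 128 * κ * θ ≤ 2 ^ j * θ := mul_le_mul_of_nonneg_right hcon.le hθ0.le
        linarith only [hj3, h3, h4]
  obtain ⟨A₀, hA₀, hA₀m⟩ := hrich
  set Θ : ℕ → ℝ := fun w => (R * n * 2 ^ j / (1024 * κ)) * (FF ^ w / FF ^ D) with hΘ
  have hΘpos : ∀ w, 0 < Θ w := fun w => by simp only [hΘ]; (clear * - hR hQ hκ hFF; positivity)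
  have hΘsucc : ∀ w, FF * Θ w = Θ (w + 1) := by
    intro w; simp only [hΘ]; rw [pow_succ]; ring
  have hΘmono : ∀ w w', w ≤ w' → Θ w ≤ Θ w' := by
    intro w w' hww
    simp only [hΘ]
    apply mul_le_mul_of_nonneg_left _ (by (clear * - hR hQ hκ; positivity))
    apply div_le_div_of_nonneg_right _ (by positivity)
    exact pow_le_pow_right₀ hFF hww
  have hd0 : Module.finrank ℝ A₀ ≤ D := (Submodule.finrank_le A₀).trans hD
  obtain ⟨w, _, A, hA, hAw, hAm, hAmin⟩ := exists_minimal_rich (idx F) v A₀ (Module.finrank ℝ A₀) rfl Θ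
    (by
      refine le_trans ((hΘmono _ _ hd0).trans ?_) hA₀m
      simp only [hΘ]
      rw [div_self (by positivity), mul_one])
  refine ⟨j, w, A, hA.trans hA₀, hAw, ?_, ?_, hAm, ?_, ?_⟩
  · by_contra hw
    have hw0 : Module.finrank ℝ A = 0 := by omega
    have h1 := mass_of_finrank_zero (idx F) v (by
      intro i hi
      rw [mem_idx] at hi
      obtain ⟨X, hX, hi⟩ := hi
      rw [mem_offDiag] at hi
      simp only [hv]
      rw [sub_ne_zero]
      intro h2
      exact hi.2.2 (hψ _ (h.sub _ X hX hi.1) _ (h.sub _ X hX hi.2.1) h2)) A hw0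
    rw [h1] at hAm
    exact absurd (hΘpos w) (not_lt.mpr hAm)
  · have h1 : 2 ^ j * (1 / n) ≤ 2 ^ j * θ := mul_le_mul_of_nonneg_left hθn h2j.le
    have h2 : 2 ^ j * (1 / n) ≤ 1 := by linarith only [hj3, h1]
    rw [mul_one_div, div_le_one (by linarith only [hn1])] at h2
    exact h2
  · intro B' hB'
    obtain ⟨h1, h2⟩ := hAmin B' hB'
    calc FF * mass (idx F) v B' ≤ FF * Θ (Module.finrank ℝ B') :=
          mul_le_mul_of_nonneg_left h2.le (by linarith only [hFF])
      _ = Θ (Module.finrank ℝ B' + 1) := hΘsucc _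
      _ ≤ Θ w := hΘmono _ _ h1
      _ ≤ mass (idx F) v A := hAm
  · intro Φ hΦ hpΦ A' hA' hA'ne
    have h1 : A' ∈ 𝒞 := by
      rw [h𝒞, mem_filter, mem_image]
      refine ⟨⟨Φ, ?_, hA'.symm⟩, hA'ne⟩
      rw [mem_filter, mem_powerset]
      exact ⟨hΦ, hpΦ⟩
    have h2 := hθ𝒞 A' h1
    simp only [hϑ] at h2
    have h3 : θ * n ≤ (ncos Q ψ A' : ℝ) * (s:ℝ) ^ (e (Module.finrank ℝ A')) := by
      rw [le_div_iff₀ (by linarith only [hn1])] at h2
      exact h2
    calc n = 1 * n := (one_mul n).symm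
      _ ≤ (θ * (2 * 2 ^ j)) * n := mul_le_mul_of_nonneg_right hj4.le (by linarith only [hn1])
      _ = (2 * 2 ^ j) * (θ * n) := by ring
      _ ≤ (2 * 2 ^ j) * ((ncos Q ψ A' : ℝ) * (s:ℝ) ^ (e (Module.finrank ℝ A'))) :=
          mul_le_mul_of_nonneg_left h3 (by positivity)

end Vale.Agent.P054K
end

section

set_option autoImplicit false

open Finset

namespace Vale.Agent.P054K

theorem rich_count (w : ℕ) : ∀ (V ι : Type) [AddCommGroup V] [Module ℝ V] [FiniteDimensional ℝ V]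
    (I : Finset ι) (v : ι → V) (M ρ : ℝ) (Z : Finset (Submodule ℝ V)),
    (I.card : ℝ) ≤ M → 0 < ρ →
    (∀ A ∈ Z, Module.finrank ℝ A = w ∧ ρ ≤ mass I v A ∧
      ∀ B : Submodule ℝ V, B < A → 2 * mass I v B ≤ mass I v A) →
    (Z.card : ℝ) ≤ (2 * M / ρ) ^ w := by
  classical
  induction w with
  | zero =>
    intro V ι _ _ _ I v M ρ Z hM hρ hZ
    have h1 : Z ⊆ {⊥} := by
      intro A hA
      rw [mem_singleton]
      exact Submodule.finrank_eq_zero.mp (hZ A hA).1
    have h2 := card_le_card h1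
    rw [card_singleton] at h2
    rw [pow_zero]
    exact_mod_cast h2
  | succ w ih =>
    intro V ι _ _ _ I v M ρ Z hM hρ hZ
    have hI0 : (0:ℝ) ≤ I.card := by (clear * -; positivity)
    have hM0 : 0 ≤ M := hI0.trans hM
    have hloc : ∀ i ∈ I, v i ≠ 0 →
        ((Z.filter (fun A => v i ∈ A)).card : ℝ) ≤ (2 * M / ρ) ^ w := by
      intro i _ hvi
      set W := Submodule.span ℝ {v i} with hW
      set Zi := Z.filter (fun A => v i ∈ A) with hZi
      have hWle : ∀ A ∈ Zi, W ≤ A := by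
        intro A hA
        rw [hW, Submodule.span_le]
        intro y hy
        rw [Set.mem_singleton_iff] at hy
        rw [hy]; exact (mem_filter.mp hA).2
      have hcm : ∀ A ∈ Zi, (A.map W.mkQ).comap W.mkQ = A := by
        intro A hA
        rw [Submodule.comap_map_mkQ, sup_eq_right]
        exact hWle A hA
      have hinj : Set.InjOn (fun A : Submodule ℝ V => A.map W.mkQ) (Zi : Set (Submodule ℝ V)) := by
        intro A hA A' hA' hAA
        simp only at hAA
        rw [← hcm A hA, ← hcm A' hA', hAA]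
      have hmass : ∀ (B' : Submodule ℝ (V ⧸ W)),
          mass I (fun j => W.mkQ (v j)) B' = mass I v (B'.comap W.mkQ) := by
        intro B'
        rfl
      have h1 := ih (V ⧸ W) ι I (fun j => W.mkQ (v j)) M ρ
        (Zi.image (fun A => A.map W.mkQ)) hM hρ
        (by
          intro A' hA'
          rw [mem_image] at hA'
          obtain ⟨A, hA, rfl⟩ := hA'
          have hA2 := mem_filter.mp hA
          obtain ⟨h3, h4, h5⟩ := hZ A hA2.1
          refine ⟨?_, ?_, ?_⟩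
          · have h6 := finrank_map_mkQ (v i) hvi A hA2.2
            rw [h3] at h6
            exact Nat.succ_injective h6
          · rw [hmass, hcm A hA]; exact h4
          · intro B' hB'
            rw [hmass, hmass, hcm A hA]
            apply h5
            have h7 : B'.comap W.mkQ < (A.map W.mkQ).comap W.mkQ := by
              refine lt_of_le_of_ne (Submodule.comap_mono hB'.le) ?_
              intro h8
              have h9 : (B'.comap W.mkQ).map W.mkQ = ((A.map W.mkQ).comap W.mkQ).map W.mkQ := by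
                rw [h8]
              rw [Submodule.map_comap_eq_of_surjective W.mkQ_surjective,
                Submodule.map_comap_eq_of_surjective W.mkQ_surjective] at h9
              exact hB'.ne h9
            rwa [hcm A hA] at h7)
      rwa [Finset.card_image_of_injOn hinj] at h1
    have hnz : ∀ A ∈ Z, ρ / 2 ≤ ((I.filter (fun i => v i ≠ 0 ∧ v i ∈ A)).card : ℝ) := by
      intro A hA
      obtain ⟨h1, h2, h3⟩ := hZ A hA
      have hbot : (⊥ : Submodule ℝ V) < A := by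
        rw [bot_lt_iff_ne_bot]
        rintro rfl
        rw [finrank_bot] at h1
        omega
      have h4 := h3 ⊥ hbot
      have h5 : mass I v A ≤ mass I v ⊥ + ((I.filter (fun i => v i ≠ 0 ∧ v i ∈ A)).card : ℝ) := by
        unfold mass
        have h6 : I.filter (fun i => v i ∈ A) ⊆ I.filter (fun i => v i ∈ (⊥ : Submodule ℝ V)) ∪
            I.filter (fun i => v i ≠ 0 ∧ v i ∈ A) := by
          intro i hi
          rw [mem_filter] at hi
          rw [mem_union, mem_filter, mem_filter]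
          by_cases h7 : v i = 0
          · left; exact ⟨hi.1, by rw [h7]; exact Submodule.zero_mem _⟩
          · right; exact ⟨hi.1, h7, hi.2⟩
        exact_mod_cast (card_le_card h6).trans (card_union_le _ _)
      linarith only [h2, h4, h5]
    have hdc : (Z.card : ℝ) * (ρ / 2) ≤ M * (2 * M / ρ) ^ w := by
      calc (Z.card : ℝ) * (ρ / 2) = ∑ _A ∈ Z, ρ / 2 := by rw [Finset.sum_const, nsmul_eq_mul]
        _ ≤ ∑ A ∈ Z, ((I.filter (fun i => v i ≠ 0 ∧ v i ∈ A)).card : ℝ) :=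
            Finset.sum_le_sum hnz
        _ = ∑ A ∈ Z, ∑ i ∈ I, (if v i ≠ 0 ∧ v i ∈ A then (1:ℝ) else 0) := by
            apply Finset.sum_congr rfl
            intro A _
            rw [Finset.card_filter]; push_cast; rfl
        _ = ∑ i ∈ I, ∑ A ∈ Z, (if v i ≠ 0 ∧ v i ∈ A then (1:ℝ) else 0) := Finset.sum_comm
        _ ≤ ∑ _i ∈ I, (2 * M / ρ) ^ w := by
            apply Finset.sum_le_sum
            intro i hi
            by_cases hvi : v i = 0
            · have : ∑ A ∈ Z, (if v i ≠ 0 ∧ v i ∈ A then (1:ℝ) else 0) = 0 := by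
                apply Finset.sum_eq_zero
                intro A _
                simp [hvi]
              rw [this]; (clear * - hρ hM0; positivity)
            · refine le_trans (le_of_eq ?_) (hloc i hi hvi)
              rw [Finset.card_filter]; push_cast
              apply Finset.sum_congr rfl
              intro A _
              simp [hvi]
        _ = I.card * (2 * M / ρ) ^ w := by rw [Finset.sum_const, nsmul_eq_mul]
        _ ≤ M * (2 * M / ρ) ^ w := mul_le_mul_of_nonneg_right hM (by positivity)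
    have h1 : (Z.card : ℝ) ≤ M * (2 * M / ρ) ^ w / (ρ / 2) := by
      rw [le_div_iff₀ (by positivity)]; exact hdc
    refine h1.trans (le_of_eq ?_)
    rw [pow_succ]
    (clear * - hρ; field_simp)

end Vale.Agent.P054K
end
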