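import Vale.Agent.P054.MathlibUsed
import Vale.Agent.P054.Bdl.B1
import Vale.Agent.P054.Bdl.B2
import Vale.Agent.P054.Bdl.B3

set_option linter.all false

section

set_option autoImplicit false

open Finset

namespace Vale.Agent.P054K

section
variable {E : Type} [NormedAddCommGroup E] [InnerProductSpace ℝ E]

/-- normalised value at `z` of the affine function attached to the dual vector `v` -/
noncomputable def sg (v : E × ℝ) (z : E) : ℝ := (2 * inner ℝ v.1 z - v.2) / ‖v.1‖ ^ 2

/-- mirror image of `z` in the hyperplane attached to `v` -/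
noncomputable def rf (v : E × ℝ) (z : E) : E := z - sg v z • v.1

/-- dual vector of a pair of points -/
noncomputable def dv (a b : E) : E × ℝ := (a - b, ‖a‖ ^ 2 - ‖b‖ ^ 2)

theorem dv_add (a b c : E) : dv a b + dv b c = dv a c := by
  unfold dv
  ext
  · simp
  · simp

theorem sg_rf (v : E × ℝ) (hv : v.1 ≠ 0) (z : E) : sg v (rf v z) = - sg v z := by
  have h : ‖v.1‖ ^ 2 ≠ 0 := by
    have : 0 < ‖v.1‖ := norm_pos_iff.mpr hv
    positivity
  unfold rf
  have h1 : sg v (z - sg v z • v.1) = sg v z - 2 * sg v z := by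
    unfold sg
    rw [inner_sub_right, inner_smul_right, real_inner_self_eq_norm_sq]
    field_simp
    ring
  rw [h1]; ring

theorem rf_rf (v : E × ℝ) (hv : v.1 ≠ 0) (z : E) : rf v (rf v z) = z := by
  conv_lhs => unfold rf
  rw [show z - sg v z • v.1 = rf v z from rfl, sg_rf v hv]
  unfold rf
  rw [neg_smul]
  abel

theorem rf_sub (v : E × ℝ) (z w : E) :
    rf v z - rf v w = (z - w) - (2 * inner ℝ v.1 (z - w) / ‖v.1‖ ^ 2) • v.1 := by
  unfold rf sg
  rw [inner_sub_right]
  have : (2 * (inner ℝ v.1 z - inner ℝ v.1 w) / ‖v.1‖ ^ 2) =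
      (2 * inner ℝ v.1 z - v.2) / ‖v.1‖ ^ 2 - (2 * inner ℝ v.1 w - v.2) / ‖v.1‖ ^ 2 := by
    rw [← sub_div]; ring
  rw [this, sub_smul]
  abel

theorem norm_rf_sub (v : E × ℝ) (hv : v.1 ≠ 0) (z w : E) : ‖rf v z - rf v w‖ = ‖z - w‖ := by
  have h : ‖v.1‖ ^ 2 ≠ 0 := by
    have : 0 < ‖v.1‖ := norm_pos_iff.mpr hv
    positivity
  rw [rf_sub]
  set u := z - w
  have h1 : ‖u - (2 * inner ℝ v.1 u / ‖v.1‖ ^ 2) • v.1‖ ^ 2 = ‖u‖ ^ 2 := by
    rw [norm_sub_sq_real, inner_smul_right, norm_smul, mul_pow, Real.norm_eq_abs, sq_abs,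
      real_inner_comm]
    field_simp
    ring
  exact (sq_eq_sq₀ (norm_nonneg _) (norm_nonneg _)).mp h1

theorem dist_rf (v : E × ℝ) (hv : v.1 ≠ 0) (z w : E) : dist (rf v z) (rf v w) = dist z w := by
  rw [dist_eq_norm, dist_eq_norm, norm_rf_sub v hv]

theorem dv_rf (v : E × ℝ) (hv : v.1 ≠ 0) (z : E) : dv z (rf v z) = sg v z • v := by
  have h : ‖v.1‖ ^ 2 ≠ 0 := by
    have : 0 < ‖v.1‖ := norm_pos_iff.mpr hv
    positivity
  unfold dv
  ext1
  · simp only [rf, sub_sub_cancel, Prod.smul_fst]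
  · simp only [Prod.smul_snd, smul_eq_mul]
    have h1 : ‖rf v z‖ ^ 2 = ‖z‖ ^ 2 - 2 * (sg v z * inner ℝ v.1 z) + sg v z ^ 2 * ‖v.1‖ ^ 2 := by
      unfold rf
      rw [norm_sub_sq_real, inner_smul_right, norm_smul, mul_pow, Real.norm_eq_abs, sq_abs,
        real_inner_comm]
    have h2 : sg v z * ‖v.1‖ ^ 2 = 2 * inner ℝ v.1 z - v.2 := by
      unfold sg
      rw [div_mul_cancel₀ _ h]
    rw [h1]
    have h3 : sg v z ^ 2 * ‖v.1‖ ^ 2 = sg v z * (2 * inner ℝ v.1 z - v.2) := by rw [← h2]; ring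
    rw [h3]; ring

theorem rf_eq_self_iff (v : E × ℝ) (hv : v.1 ≠ 0) (z : E) : rf v z = z ↔ sg v z = 0 := by
  unfold rf
  rw [sub_eq_self, smul_eq_zero]
  constructor
  · rintro (h | h)
    · exact h
    · exact absurd h hv
  · intro h; left; exact h

/-- the dual vector of the two mirror images -/
theorem dv_rf_rf (v w : E × ℝ) (hv : v.1 ≠ 0) (hw : w.1 ≠ 0) (q : E) :
    dv (rf v q) (rf w q) = sg w q • w - sg v q • v := by
  have h1 : dv (rf v q) q = - (sg v q • v) := by
    rw [← dv_rf v hv q]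
    unfold dv
    ext
    · simp only [Prod.neg_mk, neg_sub]
    · simp only [Prod.neg_mk, neg_sub]
  rw [← dv_add (rf v q) q (rf w q), h1, dv_rf w hw]
  abel

/-- two vectors with the same mirror image of a point are proportional -/
theorem prop_of_rf_eq (v w : E × ℝ) (hv : v.1 ≠ 0) (hw : w.1 ≠ 0) (q : E)
    (h : rf v q = rf w q) (hq : rf v q ≠ q) : w ∈ Submodule.span ℝ {v} := by
  have h1 := dv_rf_rf v w hv hw q
  rw [h] at h1
  have h2 : dv (rf w q) (rf w q) = 0 := by unfold dv; simp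
  rw [h2] at h1
  have h3 : sg w q ≠ 0 := by
    intro h4
    apply hq
    rw [h]
    exact (rf_eq_self_iff w hw q).mpr h4
  rw [Submodule.mem_span_singleton]
  refine ⟨(sg w q)⁻¹ * sg v q, ?_⟩
  have h4 : sg w q • w = sg v q • v := (sub_eq_zero.mp h1.symm)
  rw [mul_smul, ← h4, smul_smul, inv_mul_cancel₀ h3, one_smul]

open scoped Classical in
/-- points of `C` whose mirror image is another point of `C` -/
noncomputable def SS (C : Finset E) (v : E × ℝ) : Finset E :=
  C.filter (fun q => rf v q ∈ C ∧ rf v q ≠ q)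

theorem mem_SS {C : Finset E} {v : E × ℝ} {q : E} :
    q ∈ SS C v ↔ q ∈ C ∧ rf v q ∈ C ∧ rf v q ≠ q := by
  simp only [SS, mem_filter]

theorem sg_ne_zero {C : Finset E} {v : E × ℝ} (hv : v.1 ≠ 0) {q : E} (h : q ∈ SS C v) :
    sg v q ≠ 0 := by
  intro h0
  exact (mem_SS.mp h).2.2 ((rf_eq_self_iff v hv q).mpr h0)

end

end Vale.Agent.P054K
end

section

set_option autoImplicit false

open Finset

namespace Vale.Agent.P054K

section
variable {E : Type} [NormedAddCommGroup E] [InnerProductSpace ℝ E]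

open scoped Classical in
/-- number of vectors of `R` in the span of two vectors -/
noncomputable def pen (R : Finset (E × ℝ)) (v w : E × ℝ) : ℕ :=
  (R.filter (fun u => u ∈ Submodule.span ℝ {v, w})).card

theorem mem_span_of_det {V : Type} [AddCommGroup V] [Module ℝ V] (v w u₁ u₂ : V)
    (α₁ β₁ α₂ β₂ : ℝ) (h1 : u₁ = α₁ • w - β₁ • v) (h2 : u₂ = α₂ • w - β₂ • v)
    (h : α₁ * β₂ ≠ α₂ * β₁) :
    v ∈ Submodule.span ℝ {u₁, u₂} ∧ w ∈ Submodule.span ℝ {u₁, u₂} := by
  have hD : α₁ * β₂ - α₂ * β₁ ≠ 0 := sub_ne_zero.mpr h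
  have e1 : (α₁ * β₂ - α₂ * β₁) • v = α₂ • u₁ + (-α₁) • u₂ := by
    rw [h1, h2]; module
  have e2 : (α₁ * β₂ - α₂ * β₁) • w = β₂ • u₁ + (-β₁) • u₂ := by
    rw [h1, h2]; module
  constructor
  · rw [Submodule.mem_span_pair]
    refine ⟨(α₁ * β₂ - α₂ * β₁)⁻¹ * α₂, (α₁ * β₂ - α₂ * β₁)⁻¹ * (-α₁), ?_⟩
    rw [mul_smul, mul_smul, ← smul_add, ← e1, smul_smul, inv_mul_cancel₀ hD, one_smul]
  · rw [Submodule.mem_span_pair]
    refine ⟨(α₁ * β₂ - α₂ * β₁)⁻¹ * β₂, (α₁ * β₂ - α₂ * β₁)⁻¹ * (-β₁), ?_⟩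
    rw [mul_smul, mul_smul, ← smul_add, ← e2, smul_smul, inv_mul_cancel₀ hD, one_smul]

end

end Vale.Agent.P054K
end

section

set_option autoImplicit false

open Finset

namespace Vale.Agent.P054K

/-- three-dimensional space -/
abbrev E3 : Type := EuclideanSpace ℝ (Fin 3)

/-- level of a pair of points of a class: logarithm of the number of points of the class which are
symmetric with respect to the bisector of the pair -/
noncomputable def muLog (X : Finset E3) (π : E3 × E3) : ℕ := Nat.log 2 (SS X (dualVec π)).card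

open scoped Classical in
/-- splitting of the pairs of a class into good pairs and pairs lying on few pencils -/
def Split (X : Finset E3) (B ν₀ : ℝ) : Prop :=
  ∃ (Good : Finset (E3 × E3)) (A : Finset (Submodule ℝ (E3 × ℝ))),
    Good ⊆ X.offDiag ∧ (∀ S ∈ A, Module.finrank ℝ S = 2) ∧
    (A.card : ℝ) ≤ B * X.card / ν₀ ∧
    (∀ i : ℕ, ((Good.filter (fun π => muLog X π = i)).card : ℝ) * 2 ^ i ≤
      B * (X.card : ℝ) ^ 2 * ν₀) ∧
    (∀ p : E3, (∀ S ∈ A, ¬ S ≤ hyp p) →
      (((X.offDiag \ Good).filter (fun π => dualVec π ∈ hyp p)).card : ℝ) ≤ B * X.card)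

/-- every class splits, with threshold `x ^ κ` -/
def ClassProp (κ : ℝ) : Prop := ∃ (K : ℝ) (c : ℕ), 1 ≤ K ∧
  ∀ (X : Finset E3) (Λ : ℝ), 1 ≤ X.card →
    20 * (Real.log ((X.card : ℝ) ^ 2 + 3) + 1) ≤ Λ →
    Split X (K * Λ ^ c) ((X.card : ℝ) ^ κ)

/-- bound for the number of rich bisectors without rich pencils, above the threshold `x ^ κ` -/
def LocalBound (κ : ℝ) : Prop := ∃ (K : ℝ) (c : ℕ), 1 ≤ K ∧
  ∀ (C : Finset E3) (R : Finset (E3 × ℝ)) (ν : ℕ) (Λ : ℝ),
    (∀ v ∈ R, v.1 ≠ 0) → (∀ v ∈ R, ∀ w ∈ R, w ∈ Submodule.span ℝ {v} → w = v) → 1 ≤ ν →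
    (∀ v ∈ R, ν ≤ (SS C v).card ∧ (SS C v).card ≤ 2 * ν) →
    20 * (Real.log ((R.card : ℝ) + 3) + 1) ≤ Λ → (C.card : ℝ) ^ κ ≤ ν →
    (∀ v ∈ R, ∀ w ∈ R, v ≠ w → (pen R v w : ℝ) * (K * Λ ^ c * C.card) ≤ ν * R.card) →
    (R.card : ℝ) * (ν : ℝ) ^ 2 ≤ K * Λ ^ c * (C.card : ℝ) ^ (2 + κ)

end Vale.Agent.P054K
end

section

set_option autoImplicit false

open Finset

namespace Vale.Agent.P054K

theorem dualVec_fst_ne (π : E3 × E3) (h : π.1 ≠ π.2) : (dualVec π).1 ≠ 0 := by
  unfold dualVec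
  exact sub_ne_zero.mpr h

theorem sg_smul (c : ℝ) (hc : c ≠ 0) (v : E3 × ℝ) (z : E3) : sg (c • v) z = c⁻¹ * sg v z := by
  unfold sg
  rw [Prod.smul_fst, Prod.smul_snd, inner_smul_left, norm_smul, mul_pow, Real.norm_eq_abs, sq_abs]
  simp only [conj_trivial, smul_eq_mul]
  rcases eq_or_ne (‖v.1‖ ^ 2) 0 with h | h
  · rw [h]; simp
  · field_simp

theorem rf_smul (c : ℝ) (hc : c ≠ 0) (v : E3 × ℝ) (z : E3) : rf (c • v) z = rf v z := by
  unfold rf
  rw [sg_smul c hc, Prod.smul_fst, smul_smul]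
  congr 2
  (clear * - hc; field_simp)

theorem SS_smul (X : Finset E3) (c : ℝ) (hc : c ≠ 0) (v : E3 × ℝ) : SS X (c • v) = SS X v := by
  classical
  ext q
  rw [mem_SS, mem_SS, rf_smul c hc]

/-- proportional nonzero dual vectors have the same symmetric points -/
theorem SS_of_span (X : Finset E3) (v w : E3 × ℝ) (hw : w ≠ 0) (h : w ∈ Submodule.span ℝ {v}) :
    SS X w = SS X v := by
  rw [Submodule.mem_span_singleton] at h
  obtain ⟨c, rfl⟩ := h
  have hc : c ≠ 0 := by
    rintro rfl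
    exact hw (zero_smul _ _)
  exact SS_smul X c hc v

/-- a pair whose dual vector is proportional to `v` is symmetric with respect to `v` -/
theorem rf_of_span (v : E3 × ℝ) (hv : v.1 ≠ 0) (π : E3 × E3) (hπ : π.1 ≠ π.2)
    (h : dualVec π ∈ Submodule.span ℝ {v}) : rf v π.1 = π.2 := by
  rw [Submodule.mem_span_singleton] at h
  obtain ⟨c, hc⟩ := h
  have hd0 : dualVec π ≠ 0 := dualVec_ne_zero π hπ
  have hc0 : c ≠ 0 := by
    rintro rfl
    rw [zero_smul] at hc
    exact hd0 hc.symm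
  rw [← rf_smul c hc0 v, hc]
  have hne : ‖π.1 - π.2‖ ^ 2 ≠ 0 := by
    have : 0 < ‖π.1 - π.2‖ := norm_pos_iff.mpr (sub_ne_zero.mpr hπ)
    (clear * - this; positivity)
  have h1 : sg (dualVec π) π.1 = 1 := by
    unfold sg dualVec
    simp only
    rw [div_eq_one_iff_eq hne, norm_sub_sq_real, inner_sub_left, real_inner_self_eq_norm_sq,
      real_inner_comm]
    ring
  unfold rf
  rw [h1, one_smul]
  unfold dualVec
  simp only
  abel

theorem mem_SS_of_pair (X : Finset E3) (v : E3 × ℝ) (hv : v.1 ≠ 0) (π : E3 × E3)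
    (h1 : π.1 ∈ X) (h2 : π.2 ∈ X) (hπ : π.1 ≠ π.2)
    (h : dualVec π ∈ Submodule.span ℝ {v}) : π.1 ∈ SS X v := by
  rw [mem_SS, rf_of_span v hv π hπ h]
  exact ⟨h1, h2, hπ.symm⟩

open scoped Classical in
/-- pairs of a class with the same bisector -/
theorem line_mass_le (X : Finset E3) (v : E3 × ℝ) (hv : v.1 ≠ 0) :
    (X.offDiag.filter (fun π => dualVec π ∈ Submodule.span ℝ {v})).card ≤ (SS X v).card := by
  apply Finset.card_le_card_of_injOn (fun π => π.1)
  · intro π hπ
    rw [mem_coe, mem_filter, mem_offDiag] at hπ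
    obtain ⟨⟨h1, h2, h3⟩, h4⟩ := hπ
    exact mem_SS_of_pair X v hv π h1 h2 h3 h4
  · intro π hπ π' hπ' he
    rw [mem_coe, mem_filter, mem_offDiag] at hπ hπ'
    simp only at he
    have e1 := rf_of_span v hv π hπ.1.2.2 hπ.2
    have e2 := rf_of_span v hv π' hπ'.1.2.2 hπ'.2
    exact Prod.ext he (by rw [← e1, ← e2, he])

theorem sg_side (a b z : E3) :
    sg (dualVec (a, b)) z * ‖a - b‖ ^ 2 = dist z b ^ 2 - dist z a ^ 2 ∨ a = b := by
  rcases eq_or_ne a b with h | h
  · exact Or.inr h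
  · left
    have hne : ‖a - b‖ ^ 2 ≠ 0 := by
      have : 0 < ‖a - b‖ := norm_pos_iff.mpr (sub_ne_zero.mpr h)
      positivity
    unfold sg dualVec
    simp only
    rw [div_mul_cancel₀ _ hne, dist_eq_norm, dist_eq_norm, norm_sub_sq_real, norm_sub_sq_real,
      inner_sub_left, real_inner_comm a, real_inner_comm b]
    ring

theorem sg_pos_iff (a b z : E3) (h : a ≠ b) : 0 < sg (dualVec (a, b)) z ↔ dist z a < dist z b := by
  have hpos : 0 < ‖a - b‖ ^ 2 := by
    have : 0 < ‖a - b‖ := norm_pos_iff.mpr (sub_ne_zero.mpr h)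
    positivity
  rcases sg_side a b z with h1 | h1
  · constructor
    · intro h2
      have h3 : 0 < dist z b ^ 2 - dist z a ^ 2 := by rw [← h1]; (clear * - hpos h2; positivity)
      exact lt_of_pow_lt_pow_left₀ 2 dist_nonneg (by linarith only [h3])
    · intro h2
      have h3 : dist z a ^ 2 < dist z b ^ 2 := pow_lt_pow_left₀ h2 dist_nonneg (by norm_num)
      have h4 : 0 < sg (dualVec (a, b)) z * ‖a - b‖ ^ 2 := by rw [h1]; linarith only [h3]
      exact pos_of_mul_pos_left h4 hpos.le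
  · exact absurd h1 h

theorem sg_neg_iff (a b z : E3) (h : a ≠ b) : sg (dualVec (a, b)) z < 0 ↔ dist z b < dist z a := by
  have hpos : 0 < ‖a - b‖ ^ 2 := by
    have : 0 < ‖a - b‖ := norm_pos_iff.mpr (sub_ne_zero.mpr h)
    positivity
  rcases sg_side a b z with h1 | h1
  · constructor
    · intro h2
      have h3 : dist z b ^ 2 - dist z a ^ 2 < 0 := by
        rw [← h1]
        exact mul_neg_of_neg_of_pos h2 hpos
      exact lt_of_pow_lt_pow_left₀ 2 dist_nonneg (by linarith only [h3])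
    · intro h2
      have h3 : dist z b ^ 2 < dist z a ^ 2 := pow_lt_pow_left₀ h2 dist_nonneg (by norm_num)
      by_contra h4
      push Not at h4
      have h5 : 0 ≤ sg (dualVec (a, b)) z * ‖a - b‖ ^ 2 := by (clear * - hpos h4; positivity)
      rw [h1] at h5
      linarith only [h3, h5]
  · exact absurd h1 h

open scoped Classical in
/-- number of points of the class on the smaller open side of the bisector -/
noncomputable def cut (X : Finset E3) (a b : E3) : ℕ :=
  min (X.filter (fun y => dist y a < dist y b)).card (X.filter (fun y => dist y b < dist y a)).card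

theorem rf_side (v : E3 × ℝ) (hv : v.1 ≠ 0) (z : E3) : sg v (rf v z) = - sg v z := sg_rf v hv z

open scoped Classical in
/-- the number of symmetric points is at most twice each side -/
theorem mu_le_cut (X : Finset E3) (a b : E3) (h : a ≠ b) :
    (SS X (dualVec (a, b))).card ≤ 2 * cut X a b := by
  set v := dualVec (a, b) with hv
  have hv1 : v.1 ≠ 0 := dualVec_fst_ne (a, b) h
  set S := SS X v with hS
  set Sp := S.filter (fun q => 0 < sg v q) with hSp
  set Sn := S.filter (fun q => ¬ 0 < sg v q) with hSn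
  have hsplit : Sp.card + Sn.card = S.card := Finset.card_filter_add_card_filter_not _
  have hmem : ∀ q ∈ S, q ∈ X ∧ rf v q ∈ X ∧ rf v q ≠ q ∧ sg v q ≠ 0 := by
    intro q hq
    obtain ⟨h1, h2, h3⟩ := mem_SS.mp hq
    exact ⟨h1, h2, h3, sg_ne_zero hv1 hq⟩
  have hrfS : ∀ q ∈ S, rf v q ∈ S := by
    intro q hq
    obtain ⟨h1, h2, h3, _⟩ := hmem q hq
    rw [hS, mem_SS, rf_rf v hv1]
    exact ⟨h2, h1, h3.symm⟩
  have hinj : ∀ q q' : E3, rf v q = rf v q' → q = q' := by
    intro q q' he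
    rw [← rf_rf v hv1 q, he, rf_rf v hv1]
  have h1 : Sp.card ≤ Sn.card := by
    apply Finset.card_le_card_of_injOn (fun q => rf v q)
    · intro q hq
      rw [mem_coe, hSp, mem_filter] at hq
      rw [mem_coe, hSn, mem_filter, rf_side v hv1]
      exact ⟨hrfS q hq.1, by linarith only [hq.2, hq]⟩
    · intro q _ q' _ he
      exact hinj q q' he
  have h2 : Sn.card ≤ Sp.card := by
    apply Finset.card_le_card_of_injOn (fun q => rf v q)
    · intro q hq
      rw [mem_coe, hSn, mem_filter] at hq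
      rw [mem_coe, hSp, mem_filter, rf_side v hv1]
      refine ⟨hrfS q hq.1, ?_⟩
      have h3 := (hmem q hq.1).2.2.2
      have h4 : sg v q < 0 := lt_of_le_of_ne (not_lt.mp hq.2) h3
      linarith only [h4]
    · intro q _ q' _ he
      exact hinj q q' he
  have h3 : Sp.card ≤ (X.filter (fun y => dist y a < dist y b)).card := by
    apply card_le_card
    intro q hq
    rw [hSp, mem_filter] at hq
    rw [mem_filter]
    exact ⟨(hmem q hq.1).1, (sg_pos_iff a b q h).mp hq.2⟩
  have h4 : Sn.card ≤ (X.filter (fun y => dist y b < dist y a)).card := by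
    apply card_le_card
    intro q hq
    rw [hSn, mem_filter] at hq
    rw [mem_filter]
    refine ⟨(hmem q hq.1).1, (sg_neg_iff a b q h).mp ?_⟩
    exact lt_of_le_of_ne (not_lt.mp hq.2) (hmem q hq.1).2.2.2
  unfold cut
  rw [← hsplit]
  have h5 : Sp.card ≤ min (X.filter (fun y => dist y a < dist y b)).card
      (X.filter (fun y => dist y b < dist y a)).card := le_min h3 (h1.trans h4)
  omega

/-- the cut only depends on the bisector -/
theorem cut_of_span (X : Finset E3) (π π₀ : E3 × E3) (hπ : π.1 ≠ π.2) (hπ₀ : π₀.1 ≠ π₀.2)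
    (h : dualVec π ∈ Submodule.span ℝ {dualVec π₀}) : cut X π.1 π.2 = cut X π₀.1 π₀.2 := by
  classical
  rw [Submodule.mem_span_singleton] at h
  obtain ⟨c, hc⟩ := h
  have hd0 : dualVec π ≠ 0 := dualVec_ne_zero π hπ
  have hc0 : c ≠ 0 := by
    rintro rfl
    rw [zero_smul] at hc
    exact hd0 hc.symm
  have hs : ∀ z, sg (dualVec π) z = c⁻¹ * sg (dualVec π₀) z := by
    intro z; rw [← hc, sg_smul c hc0]
  have hp : ∀ z, 0 < sg (dualVec π) z ↔ dist z π.1 < dist z π.2 := fun z => sg_pos_iff _ _ z hπ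
  have hn : ∀ z, sg (dualVec π) z < 0 ↔ dist z π.2 < dist z π.1 := fun z => sg_neg_iff _ _ z hπ
  have hp₀ : ∀ z, 0 < sg (dualVec π₀) z ↔ dist z π₀.1 < dist z π₀.2 :=
    fun z => sg_pos_iff _ _ z hπ₀
  have hn₀ : ∀ z, sg (dualVec π₀) z < 0 ↔ dist z π₀.2 < dist z π₀.1 :=
    fun z => sg_neg_iff _ _ z hπ₀
  unfold cut
  rcases lt_or_gt_of_ne hc0 with hneg | hpos
  · have hi : c⁻¹ < 0 := inv_lt_zero.mpr hneg
    have e1 : X.filter (fun y => dist y π.1 < dist y π.2) =
        X.filter (fun y => dist y π₀.2 < dist y π₀.1) := by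
      apply Finset.filter_congr
      intro y _
      rw [← hp, ← hn₀, hs]
      constructor
      · intro h2; exact neg_of_mul_pos_right h2 hi.le
      · intro h2; exact mul_pos_of_neg_of_neg hi h2
    have e2 : X.filter (fun y => dist y π.2 < dist y π.1) =
        X.filter (fun y => dist y π₀.1 < dist y π₀.2) := by
      apply Finset.filter_congr
      intro y _
      rw [← hn, ← hp₀, hs]
      constructor
      · intro h2
        by_contra h3
        push Not at h3
        have := mul_nonneg_of_nonpos_of_nonpos hi.le h3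
        linarith only [h2, this]
      · intro h2; exact mul_neg_of_neg_of_pos hi h2
    rw [e1, e2, min_comm]
  · have hi : 0 < c⁻¹ := inv_pos.mpr hpos
    have e1 : X.filter (fun y => dist y π.1 < dist y π.2) =
        X.filter (fun y => dist y π₀.1 < dist y π₀.2) := by
      apply Finset.filter_congr
      intro y _
      rw [← hp, ← hp₀, hs]
      constructor
      · intro h2; exact pos_of_mul_pos_right h2 hi.le
      · intro h2; (clear * - hpos h2; positivity)
    have e2 : X.filter (fun y => dist y π.2 < dist y π.1) =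
        X.filter (fun y => dist y π₀.2 < dist y π₀.1) := by
      apply Finset.filter_congr
      intro y _
      rw [← hn, ← hn₀, hs]
      constructor
      · intro h2
        by_contra h3
        push Not at h3
        have := mul_nonneg hi.le h3
        linarith only [h2, this]
      · intro h2; exact mul_neg_of_pos_of_neg hi h2
    rw [e1, e2]

theorem cut_pos (X : Finset E3) (π : E3 × E3) (h : π ∈ X.offDiag) : 1 ≤ cut X π.1 π.2 := by
  classical
  rw [mem_offDiag] at h
  have hd : 0 < dist π.1 π.2 := dist_pos.mpr h.2.2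
  unfold cut
  rw [le_min_iff]
  constructor
  · apply Finset.card_pos.mpr
    exact ⟨π.1, by rw [mem_filter, dist_self]; exact ⟨h.1, hd⟩⟩
  · apply Finset.card_pos.mpr
    exact ⟨π.2, by rw [mem_filter, dist_self, dist_comm]; exact ⟨h.2.1, hd⟩⟩

theorem cut_le (X : Finset E3) (a b : E3) : cut X a b ≤ X.card := by
  classical
  unfold cut
  exact (min_le_left _ _).trans (card_filter_le _ _)

theorem mu_pos (X : Finset E3) (π : E3 × E3) (h : π ∈ X.offDiag) :
    1 ≤ (SS X (dualVec π)).card := by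
  rw [mem_offDiag] at h
  apply Finset.card_pos.mpr
  exact ⟨π.1, mem_SS_of_pair X _ (dualVec_fst_ne π h.2.2) π h.1 h.2.1 h.2.2
    (Submodule.mem_span_singleton_self _)⟩

theorem SS_card_le (X : Finset E3) (v : E3 × ℝ) : (SS X v).card ≤ X.card :=
  card_le_card (fun _ hq => (mem_SS.mp hq).1)

end Vale.Agent.P054K
end

section

set_option autoImplicit false

open Finset

namespace Vale.Agent.P054K

/-- the dual hyperplane determines the point -/
theorem hyp_inj {d : ℕ} {p q : EuclideanSpace ℝ (Fin d)} (h : hyp p = hyp q) : p = q := by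
  have h1 : ∀ u : EuclideanSpace ℝ (Fin d), inner ℝ p u = inner ℝ q u := by
    intro u
    have h2 : (u, 2 * inner ℝ p u) ∈ hyp q := by
      rw [← h, mem_hyp]
    rw [mem_hyp] at h2
    linarith only [h2]
  exact ext_inner_right ℝ h1

/-- points sharing a plane in their dual hyperplanes are collinear (dimension three) -/
theorem fibre_line (A : Submodule ℝ (EuclideanSpace ℝ (Fin 3) × ℝ))
    (hA : Module.finrank ℝ A = 2) (q₁ q₂ q : EuclideanSpace ℝ (Fin 3)) (h₁ : A ≤ hyp q₁)
    (h₂ : A ≤ hyp q₂) (h : A ≤ hyp q) (hne : q₁ ≠ q₂) :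
    ∃ τ : ℝ, q = q₁ + τ • (q₂ - q₁) := by
  set U : Submodule ℝ (EuclideanSpace ℝ (Fin 3)) :=
    A.map (LinearMap.fst ℝ (EuclideanSpace ℝ (Fin 3)) ℝ) with hU
  have hfU : Module.finrank ℝ U = Module.finrank ℝ A := by
    have hinj : Function.Injective
        ((LinearMap.fst ℝ (EuclideanSpace ℝ (Fin 3)) ℝ).domRestrict A) := by
      rw [injective_iff_map_eq_zero]
      rintro ⟨⟨u, c⟩, hx⟩ h0
      have hu : u = 0 := h0
      subst hu
      have h1 := h₁ hx
      rw [mem_hyp] at h1
      simp only [inner_zero_right, mul_zero] at h1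
      subst h1
      rfl
    have h2 := LinearMap.finrank_range_of_inj hinj
    have h3 : LinearMap.range ((LinearMap.fst ℝ (EuclideanSpace ℝ (Fin 3)) ℝ).domRestrict A) = U := by
      rw [hU, LinearMap.range_domRestrict]
    rw [h3] at h2
    exact h2
  have horth : ∀ p : EuclideanSpace ℝ (Fin 3), A ≤ hyp p → p - q₁ ∈ Uᗮ := by
    intro p hp
    rw [Submodule.mem_orthogonal]
    intro u hu
    rw [hU, Submodule.mem_map] at hu
    obtain ⟨⟨u', c⟩, hx, hxu⟩ := hu
    have hxu' : u' = u := hxu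
    subst hxu'
    have h1 := hp hx
    have h2 := h₁ hx
    rw [mem_hyp] at h1 h2
    rw [inner_sub_right, real_inner_comm, real_inner_comm q₁]
    linarith only [h1, h2]
  have hfO : Module.finrank ℝ Uᗮ = 1 := by
    have h1 := Submodule.finrank_add_finrank_orthogonal U
    rw [finrank_euclideanSpace_fin, hfU] at h1
    omega
  have hv : (⟨q₂ - q₁, horth q₂ h₂⟩ : Uᗮ) ≠ 0 := by
    intro h0
    have h1 : q₂ - q₁ = 0 := congrArg Subtype.val h0
    exact hne (sub_eq_zero.mp h1).symm
  obtain ⟨τ, hτ⟩ := (finrank_eq_one_iff_of_nonzero' _ hv).mp hfO ⟨q - q₁, horth q h⟩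
  refine ⟨τ, ?_⟩
  have h1 : τ • (q₂ - q₁) = q - q₁ := congrArg Subtype.val hτ
  rw [h1]
  abel

/-- numerics -/
theorem cap_numeric (L θ m M : ℝ) (hL : 1 ≤ L) (hθ : 0 < θ) (hm : 0 < m) (hM : 0 ≤ M) (w : ℕ)
    (hw : 2 ≤ w) (hw3 : w ≤ 3) :
    L * (M ^ w * m / (θ * (L ^ w / L ^ 3)) ^ (w + 1) + M ^ (w - 1) / (θ * (L ^ w / L ^ 3)) ^ (w - 1))
      ≤ 2 * L ^ 13 * ((M / θ) ^ w * (m / θ) + (M / θ) ^ (w - 1)) := by
  have hL0 : 0 < L := by linarith only [hL]
  have e3 : (L ^ 3 / L ^ 3 : ℝ) = 1 := div_self (by positivity)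
  have e2 : (L ^ 2 / L ^ 3 : ℝ) = 1 / L := by field_simp
  have hp : ∀ k l : ℕ, k ≤ l → L ^ k ≤ L ^ l := fun k l h => pow_le_pow_right₀ hL h
  obtain rfl | rfl : w = 2 ∨ w = 3 := by omega
  · rw [e2]
    have a1 : M ^ 2 * m / (θ * (1 / L)) ^ (2 + 1) = L ^ 3 * ((M / θ) ^ 2 * (m / θ)) := by
      norm_num
      (clear * - hL hθ hm; field_simp)
    have a2 : M ^ (2 - 1) / (θ * (1 / L)) ^ (2 - 1) = L * ((M / θ) ^ (2 - 1)) := by
      norm_num
      field_simp
    rw [a1, a2]
    have b1 : 0 ≤ (M / θ) ^ 2 * (m / θ) := by (clear * - hθ hm; positivity)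
    have b2 : 0 ≤ (M / θ) ^ (2 - 1) := by (clear * - hθ hM; positivity)
    have c1 : L * L ^ 3 ≤ 2 * L ^ 13 := by
      have := hp 4 13 (by norm_num)
      have h0 : 0 < L ^ 13 := by positivity
      calc L * L ^ 3 = L ^ 4 := by ring
        _ ≤ 2 * L ^ 13 := by linarith only [this, h0]
    have c2 : L * L ≤ 2 * L ^ 13 := by
      have := hp 2 13 (by norm_num)
      have h0 : 0 < L ^ 13 := by positivity
      calc L * L = L ^ 2 := by ring
        _ ≤ 2 * L ^ 13 := by linarith only [this, h0]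
    calc L * (L ^ 3 * ((M / θ) ^ 2 * (m / θ)) + L * ((M / θ) ^ (2 - 1)))
        = (L * L ^ 3) * ((M / θ) ^ 2 * (m / θ)) + (L * L) * ((M / θ) ^ (2 - 1)) := by ring
      _ ≤ (2 * L ^ 13) * ((M / θ) ^ 2 * (m / θ)) + (2 * L ^ 13) * ((M / θ) ^ (2 - 1)) :=
        add_le_add (mul_le_mul_of_nonneg_right c1 b1) (mul_le_mul_of_nonneg_right c2 b2)
      _ = _ := by ring
  · rw [e3]
    have a1 : M ^ 3 * m / (θ * 1) ^ (3 + 1) = (M / θ) ^ 3 * (m / θ) := by
      field_simp
    have a2 : M ^ (3 - 1) / (θ * 1) ^ (3 - 1) = (M / θ) ^ (3 - 1) := by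
      rw [mul_one, div_pow]
    rw [a1, a2]
    have b1 : 0 ≤ (M / θ) ^ 3 * (m / θ) + (M / θ) ^ (3 - 1) := by (clear * - hθ hm hM; positivity)
    have c1 : L ≤ 2 * L ^ 13 := by
      have := hp 1 13 (by norm_num)
      have h0 : 0 < L ^ 13 := by positivity
      linarith only [hL, this]
    exact mul_le_mul_of_nonneg_right c1 b1

open scoped Classical in
/-- points whose dual hyperplanes are rich; modular form of `key_inequality` in dimension three -/
theorem flat_capacity : ∃ (K : ℝ) (c : ℕ), 1 ≤ K ∧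
    ∀ (P : Finset (EuclideanSpace ℝ (Fin 3)))
      (T : Finset (EuclideanSpace ℝ (Fin 3) × EuclideanSpace ℝ (Fin 3))) (M m θ Λ g : ℝ),
      (∀ π ∈ T, π.1 ≠ π.2) → (T.card : ℝ) ≤ M →
      20 * (Real.log (M + 3) + 1) ≤ Λ → 0 < m → K * Λ ^ c * m ≤ θ → θ ≤ M →
      (∀ π₀ ∈ T, ((T.filter (fun π => dualVec π ∈ Submodule.span ℝ {dualVec π₀})).card : ℝ) ≤ m) →
      (∀ p ∈ P, θ ≤ ((T.filter (fun π => dist p π.1 = dist p π.2)).card : ℝ)) →
      (∀ q₁ ∈ P, ∀ q₂ ∈ P, q₁ ≠ q₂ →
        ((P.filter (fun q => ∃ τ : ℝ, q = q₁ + τ • (q₂ - q₁))).card : ℝ) ≤ g) → 1 ≤ g →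
      (P.card : ℝ) ≤ K * Λ ^ c * ((M / θ) ^ 3 * (m / θ) + (M / θ) ^ 2 +
        ((M / θ) ^ 2 * (m / θ) + M / θ) * g) := by
  obtain ⟨K0, c0, hK0, hET⟩ := et_uniform 3
  have hK0d : (1:ℝ) ≤ K0 ^ 13 := one_le_pow₀ hK0
  refine ⟨2 * K0 ^ 13, 13 * c0, by linarith only [hK0d], ?_⟩
  intro P T M m θ' Λ g hT1 hTM hΛ hm0 hKθ hθM hT4 hT3 hg hg1
  have hM0 : 0 ≤ M := le_trans (by (clear * -; positivity)) hTM
  have hlog : 0 ≤ Real.log (M + 3) := Real.log_nonneg (by linarith only [hTM])
  have hΛ1 : 1 ≤ Λ := by linarith only [hΛ, hlog]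
  set L : ℝ := K0 * Λ ^ c0 with hL
  have hLE : (2 * K0 ^ 13) * Λ ^ (13 * c0) = 2 * L ^ 13 := by
    rw [hL, mul_pow, ← pow_mul, mul_comm c0 13]; ring
  rw [hLE]
  rw [hLE] at hKθ
  have hL1 : 1 ≤ L := by
    have : (1:ℝ) ≤ Λ ^ c0 := one_le_pow₀ hΛ1
    rw [hL]; nlinarith only [hK0, this]
  have hL0 : 0 < L := by linarith only [hL1]
  have hL413 : L ^ 4 ≤ L ^ 13 := pow_le_pow_right₀ hL1 (by norm_num)
  have hL24 : L ^ 2 ≤ L ^ 4 := pow_le_pow_right₀ hL1 (by norm_num)
  have hθ'L : 2 * L ^ 4 * m ≤ θ' := by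
    refine le_trans ?_ hKθ
    apply mul_le_mul_of_nonneg_right _ hm0.le
    linarith only [hL413]
  have hθ'0 : 0 < θ' := lt_of_lt_of_le (by positivity) hθ'L
  set θ : ℕ → ℝ := fun w => θ' * (L ^ w / L ^ 3) with hθ
  have hθpos : ∀ w, 0 < θ w := fun w => by simp only [hθ]; positivity
  have hθsucc : ∀ w, L * θ w = θ (w + 1) := by
    intro w; simp only [hθ]; rw [pow_succ]; ring
  have hθmono : ∀ w w', w ≤ w' → θ w ≤ θ w' := by
    intro w w' hww
    simp only [hθ]
    apply mul_le_mul_of_nonneg_left _ (by positivity)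
    apply div_le_div_of_nonneg_right _ (by positivity)
    exact pow_le_pow_right₀ hL1 hww
  have hmθ : L * m ≤ θ 0 := by
    simp only [hθ, pow_zero]
    rw [mul_one_div, le_div_iff₀ (by positivity)]
    have h4 : 0 < L ^ 4 * m := by positivity
    calc L * m * L ^ 3 = L ^ 4 * m := by ring
      _ ≤ 2 * L ^ 4 * m := by linarith only [h4]
      _ ≤ θ' := hθ'L
  have hm1 : m < θ 1 := by
    simp only [hθ, pow_one]
    have e : θ' * (L / L ^ 3) = θ' / L ^ 2 := by field_simp
    rw [e, lt_div_iff₀ (by positivity)]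
    have h4 : 0 < L ^ 4 * m := by positivity
    calc m * L ^ 2 ≤ m * L ^ 4 := mul_le_mul_of_nonneg_left hL24 hm0.le
      _ < 2 * L ^ 4 * m := by linarith only [h4]
      _ ≤ θ' := hθ'L
  have hv0 : ∀ π ∈ T, dualVec π ≠ 0 := fun π hπ => dualVec_ne_zero π (hT1 π hπ)
  have hT4' : ∀ π₀ ∈ T, mass T dualVec (Submodule.span ℝ {dualVec π₀}) ≤ m := hT4
  -- the minimal rich subspaces
  have hmin : ∀ p ∈ P, ∃ w, w ≤ 3 ∧ ∃ A : Submodule ℝ (EuclideanSpace ℝ (Fin 3) × ℝ), A ≤ hyp p ∧
      Module.finrank ℝ A = w ∧ θ w ≤ mass T dualVec A ∧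
      ∀ B : Submodule ℝ (EuclideanSpace ℝ (Fin 3) × ℝ), B < A → Module.finrank ℝ B < w ∧
        mass T dualVec B < θ (Module.finrank ℝ B) := by
    intro p hp
    apply exists_minimal_rich T dualVec (hyp p) 3 (finrank_hyp p) θ
    have h3 := hT3 p hp
    have h4 : mass T dualVec (hyp p) = ((T.filter (fun π => dist p π.1 = dist p π.2)).card : ℝ) := by
      unfold mass
      congr 2
      apply Finset.filter_congr
      intro π _
      rw [dualVec_mem_hyp]
    rw [h4]
    simp only [hθ]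
    rw [div_self (by positivity), mul_one]
    exact h3
  choose! wp hwd Ap hAp hfr hrich hBmin using hmin
  have hw2 : ∀ p ∈ P, 2 ≤ wp p := by
    intro p hp
    by_contra hcon
    push Not at hcon
    interval_cases hwp : wp p
    · have h3 := mass_of_finrank_zero T dualVec hv0 (Ap p) (by rw [hfr p hp, hwp])
      have h4 := hrich p hp
      rw [h3, hwp] at h4
      exact absurd (hθpos 0) (not_lt.mpr h4)
    · have h3 := mass_of_finrank_one T dualVec m hm0.le hv0 hT4' (Ap p) (by rw [hfr p hp, hwp])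
      have h4 := hrich p hp
      rw [hwp] at h4
      linarith only [hm1, h3, h4]
  -- the bound for the number of rich subspaces
  have hZall : ∀ w, 2 ≤ w → w ≤ 3 →
      ((((P.filter (fun p => wp p = w)).image Ap).card : ℕ) : ℝ) ≤
        2 * L ^ 13 * ((M / θ') ^ w * (m / θ') + (M / θ') ^ (w - 1)) := by
    intro w hw hw3
    have hZ := hET w hw hw3 (EuclideanSpace ℝ (Fin 3) × ℝ)
      (EuclideanSpace ℝ (Fin 3) × EuclideanSpace ℝ (Fin 3)) T dualVec m M (θ w) Λ
      ((P.filter (fun p => wp p = w)).image Ap)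
      hv0 hT4' hm0 hTM hΛ
      (hmθ.trans (hθmono 0 w (by omega)))
      (by
        intro A hA
        rw [mem_image] at hA
        obtain ⟨q, hq, rfl⟩ := hA
        have hq' := mem_filter.mp hq
        refine ⟨by rw [hfr q hq'.1, hq'.2], by rw [← hq'.2]; exact hrich q hq'.1, ?_⟩
        intro B hB
        obtain ⟨h3, h4⟩ := hBmin q hq'.1 B hB
        calc L * mass T dualVec B ≤ L * θ (Module.finrank ℝ B) :=
              mul_le_mul_of_nonneg_left h4.le hL0.le
          _ = θ (Module.finrank ℝ B + 1) := hθsucc _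
          _ ≤ θ (wp q) := hθmono _ _ h3
          _ ≤ mass T dualVec (Ap q) := hrich q hq'.1)
    exact hZ.trans (cap_numeric L θ' m M hL1 hθ'0 hm0 hM0 w hw hw3)
  -- fibres for w = 3
  have h3f : (((P.filter (fun p => wp p = 3)).card : ℕ) : ℝ) ≤
      (((P.filter (fun p => wp p = 3)).image Ap).card : ℝ) := by
    rw [Finset.card_image_of_injOn]
    intro p hp q hq hpq
    rw [mem_coe, mem_filter] at hp hq
    have a1 : Ap p = hyp p := Submodule.eq_of_le_of_finrank_eq (hAp p hp.1)
      (by rw [hfr p hp.1, hp.2, finrank_hyp])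
    have a2 : Ap q = hyp q := Submodule.eq_of_le_of_finrank_eq (hAp q hq.1)
      (by rw [hfr q hq.1, hq.2, finrank_hyp])
    have hpq' : Ap p = Ap q := hpq
    rw [a1, a2] at hpq'
    exact hyp_inj hpq'
  -- fibres for w = 2
  have h2f : (((P.filter (fun p => wp p = 2)).card : ℕ) : ℝ) ≤
      (((P.filter (fun p => wp p = 2)).image Ap).card : ℝ) * g := by
    set Pw := P.filter (fun p => wp p = 2) with hPw
    set Zw := Pw.image Ap with hZw
    have h3 : Pw.card = ∑ A ∈ Zw, (Pw.filter (fun p => Ap p = A)).card :=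
      Finset.card_eq_sum_card_fiberwise (fun p hp => mem_image_of_mem Ap hp)
    rw [h3]
    push_cast
    calc ∑ A ∈ Zw, ((Pw.filter (fun p => Ap p = A)).card : ℝ) ≤ ∑ _A ∈ Zw, g := by
          apply Finset.sum_le_sum
          intro A hA
          rw [hZw, mem_image] at hA
          obtain ⟨q₁, hq₁, hqA⟩ := hA
          by_cases hone : ∃ q₂ ∈ Pw.filter (fun p => Ap p = A), q₁ ≠ q₂
          · obtain ⟨q₂, hq₂, hne⟩ := hone
            rw [mem_filter] at hq₂
            have hq₁' := mem_filter.mp hq₁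
            have hq₂' := mem_filter.mp hq₂.1
            refine le_trans ?_ (hg q₁ hq₁'.1 q₂ hq₂'.1 hne)
            have hsub : Pw.filter (fun p => Ap p = A) ⊆
                P.filter (fun q => ∃ τ : ℝ, q = q₁ + τ • (q₂ - q₁)) := by
              intro q hq
              rw [mem_filter] at hq
              have hq' := mem_filter.mp hq.1
              rw [mem_filter]
              refine ⟨hq'.1, ?_⟩
              apply fibre_line A (by rw [← hqA, hfr q₁ hq₁'.1, hq₁'.2]) q₁ q₂ q
                (by rw [← hqA]; exact hAp q₁ hq₁'.1) (by rw [← hq₂.2]; exact hAp q₂ hq₂'.1)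
                (by rw [← hq.2]; exact hAp q hq'.1) hne
            exact_mod_cast card_le_card hsub
          · push Not at hone
            have hsub : Pw.filter (fun p => Ap p = A) ⊆ {q₁} := by
              intro q hq
              rw [mem_singleton]
              exact (hone q hq).symm
            have h4 := card_le_card hsub
            rw [card_singleton] at h4
            refine le_trans ?_ hg1
            exact_mod_cast h4
      _ = Zw.card * g := by rw [Finset.sum_const, nsmul_eq_mul]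
  -- partition
  have hsum : (P.card : ℝ) = ((P.filter (fun p => wp p = 2)).card : ℝ) +
      ((P.filter (fun p => wp p = 3)).card : ℝ) := by
    have h3 : P.card = (P.filter (fun p => wp p = 2)).card + (P.filter (fun p => wp p = 3)).card := by
      rw [← Finset.card_filter_add_card_filter_not (s := P) (fun p => wp p = 2)]
      congr 2
      apply Finset.filter_congr
      intro p hp
      have a := hw2 p hp
      have b := hwd p hp
      omega
    exact_mod_cast h3
  have z2 := hZall 2 le_rfl (by norm_num)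
  have z3 := hZall 3 (by norm_num) le_rfl
  have hg0 : 0 ≤ g := by linarith only [hg1]
  have z2' := mul_le_mul_of_nonneg_right z2 hg0
  rw [hsum]
  calc ((P.filter (fun p => wp p = 2)).card : ℝ) + ((P.filter (fun p => wp p = 3)).card : ℝ)
      ≤ 2 * L ^ 13 * ((M / θ') ^ 2 * (m / θ') + (M / θ') ^ (2 - 1)) * g +
        2 * L ^ 13 * ((M / θ') ^ 3 * (m / θ') + (M / θ') ^ (3 - 1)) :=
        add_le_add (h2f.trans z2') (h3f.trans z3)
    _ = 2 * L ^ 13 * ((M / θ') ^ 3 * (m / θ') + (M / θ') ^ 2 +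
        ((M / θ') ^ 2 * (m / θ') + M / θ') * g) := by
        norm_num
        ring

end Vale.Agent.P054K
end

section

set_option autoImplicit false

open Finset

namespace Vale.Agent.P054K

theorem rng_half_dist {d : ℕ} (a b y : EuclideanSpace ℝ (Fin d)) :
    rng ((a, b), false) y = true ↔ dist y b ≤ dist y a := by
  rw [rng_half]
  have h1 : dist y a ^ 2 = ‖y‖ ^ 2 - 2 * inner ℝ a y + ‖a‖ ^ 2 := by
    rw [dist_eq_norm, norm_sub_sq_real, real_inner_comm]
  have h2 : dist y b ^ 2 = ‖y‖ ^ 2 - 2 * inner ℝ b y + ‖b‖ ^ 2 := by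
    rw [dist_eq_norm, norm_sub_sq_real, real_inner_comm]
  have h3 : 2 * inner ℝ (a - b) y - (‖a‖ ^ 2 - ‖b‖ ^ 2) = dist y b ^ 2 - dist y a ^ 2 := by
    rw [h1, h2, inner_sub_left]; ring
  rw [h3, sub_nonpos]
  constructor
  · intro h
    exact le_of_sq_le_sq h dist_nonneg
  · intro h
    exact pow_le_pow_left₀ dist_nonneg h 2

open scoped Classical in
theorem min_open_sides {d : ℕ} (X : Finset (EuclideanSpace ℝ (Fin d)))
    (a b : EuclideanSpace ℝ (Fin d)) :
    (X.card : ℝ) * (min (X.filter (fun y => dist y a < dist y b)).card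
      (X.filter (fun y => dist y b < dist y a)).card : ℕ) ≤ sepc rng ((a, b), false) X := by
  set U := X.filter (fun y => rng ((a, b), false) y = true) with hU
  set W := X.filter (fun y => ¬ rng ((a, b), false) y = true) with hW
  have hX : U.card + W.card = X.card := Finset.card_filter_add_card_filter_not _
  rw [sepc_split]
  set m := min (X.filter (fun y => dist y a < dist y b)).card
      (X.filter (fun y => dist y b < dist y a)).card with hm
  have h1 : m ≤ W.card := by
    refine (min_le_left _ _).trans (card_le_card ?_)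
    intro y hy
    rw [mem_filter] at hy
    rw [hW, mem_filter, rng_half_dist]
    exact ⟨hy.1, not_le.mpr hy.2⟩
  have h2 : m ≤ U.card := by
    refine (min_le_right _ _).trans (card_le_card ?_)
    intro y hy
    rw [mem_filter] at hy
    rw [hU, mem_filter, rng_half_dist]
    exact ⟨hy.1, hy.2.le⟩
  have h3 : X.card * m ≤ 2 * U.card * W.card := by
    rw [← hX]
    calc (U.card + W.card) * m = U.card * m + W.card * m := by ring
      _ ≤ U.card * W.card + W.card * U.card :=
        Nat.add_le_add (Nat.mul_le_mul_left _ h1) (Nat.mul_le_mul_left _ h2)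
      _ = 2 * U.card * W.card := by ring
  exact_mod_cast h3

open scoped Classical in
/-- the low crossing partition with the classes exposed (dimension three) -/
theorem exists_classes (P : Finset (EuclideanSpace ℝ (Fin 3)))
    (t x s : ℕ) (Λ : ℝ) (hΛ : 16 * (Real.log (P.card + 3) + 1) ≤ Λ)
    (ht : ∀ p ∈ P, (P.image (dist p)).card ≤ t + 1) (hs : 1 ≤ s) (hx : 1 ≤ x)
    (h1 : 4 * x * (2 * s + 1) ^ 3 ≤ P.card) :
    ∃ (r : ℕ) (X : Fin r → Finset (EuclideanSpace ℝ (Fin 3))),
      (∀ k, X k ⊆ P) ∧ (∀ k, (X k).card = x) ∧ (∀ k l, k ≠ l → Disjoint (X k) (X l)) ∧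
      P.card ≤ 4 * (r * x) ∧ r * x ≤ P.card ∧
      (∀ a ∈ P, ∀ b ∈ P, a ≠ b → ∑ k, (x : ℝ) *
        (min ((X k).filter (fun y => dist y a < dist y b)).card
          ((X k).filter (fun y => dist y b < dist y a)).card : ℕ) ≤ (x:ℝ) ^ 2 * (r * Λ / (2 * s))) ∧
      (∀ p ∈ P, ∃ D : Fin r → ℝ, (∀ k, 0 ≤ D k) ∧ ∑ k, D k ≤ ((t:ℝ) + 1) * (r * Λ / (2 * s)) ∧
        ∀ k, ∀ α : ℝ, 0 ≤ α → 2 * α * x - 2 * α ^ 2 * (4 * D k + 1) ≤
          (((X k ×ˢ X k).filter (fun π => dist p π.1 = dist p π.2)).card : ℝ)) := by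
  have hP : 0 < P.card := by
    have : 0 < 4 * x * (2 * s + 1) ^ 3 := by (clear * - hs hx; positivity)
    omega
  have hs' : (0:ℝ) < s := by exact_mod_cast hs
  have hx' : (0:ℝ) < x := by exact_mod_cast hx
  set S : Finset ((EuclideanSpace ℝ (Fin 3) × EuclideanSpace ℝ (Fin 3)) × Bool) :=
    (P ×ˢ P) ×ˢ Finset.univ with hS
  have hScard : S.card = 2 * P.card ^ 2 := by
    rw [hS, card_product, card_product, Finset.card_univ, Fintype.card_bool]; ring
  have hSne : S.Nonempty := by
    rw [← Finset.card_pos, hScard]; (clear * - hP; positivity)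
  have hB : ∀ g : Fin s → (EuclideanSpace ℝ (Fin 3) × EuclideanSpace ℝ (Fin 3)) × Bool,
      (∀ k, g k ∈ S) → (P.image (fun y => fun k => rng (g k) y)).card ≤ 2 * (2 * s + 1) ^ 3 := by
    intro g _
    have h := quad_cells 3 (Fin s) (fun k => if (g k).2 then (1:ℝ) else 0)
      (fun k => if (g k).2 then (-2:ℝ) • (g k).1.1 else (2:ℝ) • ((g k).1.1 - (g k).1.2))
      (fun k => if (g k).2 then ‖(g k).1.1‖ ^ 2 - dist (g k).1.1 (g k).1.2 ^ 2
        else -(‖(g k).1.1‖ ^ 2 - ‖(g k).1.2‖ ^ 2)) P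
    rw [Fintype.card_fin] at h
    refine le_trans (le_of_eq ?_) h
    congr 1
  obtain ⟨r, X, hXP, hXc, hXd, hr, hsep⟩ := partition P S hSne rng (2 * (2 * s + 1) ^ 3) x s hs hx
    (fun g hg => by convert hB g hg) (by
      calc 2 * x * (2 * (2 * s + 1) ^ 3) = 4 * x * (2 * s + 1) ^ 3 := by ring
        _ ≤ P.card := h1) (by
      have h3 : 1 ≤ (2 * s + 1) ^ 3 := Nat.one_le_pow _ _ (by omega)
      calc 4 * x = 4 * x * 1 := by ring
        _ ≤ 4 * x * (2 * s + 1) ^ 3 := Nat.mul_le_mul_left _ h3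
        _ ≤ P.card := h1)
  have hphi := phi_bound P.card x s r 3 (by norm_num) hx hs Λ hΛ h1 hr
  have hsep2 : ∀ σ ∈ S, ∑ i, sepc rng σ (X i) ≤ (x:ℝ) ^ 2 * (r * Λ / (2 * s)) := by
    intro σ hσ
    refine le_trans (hsep σ hσ) ?_
    apply mul_le_mul_of_nonneg_left _ (by positivity)
    rw [hScard]
    exact hphi
  have hrx : r * x ≤ P.card := by
    have hbi : (Finset.univ.biUnion X).card = r * x := by
      rw [Finset.card_biUnion (fun k _ l _ hkl => hXd k l hkl)]
      simp only [hXc, sum_const, card_univ, Fintype.card_fin, smul_eq_mul]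
    rw [← hbi]
    apply card_le_card
    intro y hy
    rw [mem_biUnion] at hy
    obtain ⟨k, _, hk⟩ := hy
    exact hXP k hk
  refine ⟨r, X, hXP, hXc, hXd, hr, hrx, ?_, ?_⟩
  · intro a ha b hb _
    refine le_trans (Finset.sum_le_sum fun k _ => ?_) (hsep2 ((a, b), false) ?_)
    · have h := min_open_sides (X k) a b
      rw [hXc k] at h
      exact h
    · rw [hS, mem_product, mem_product]
      exact ⟨⟨ha, hb⟩, mem_univ _⟩
  · intro p hp
    obtain ⟨z, hzP, hz⟩ := sum_rk P p
    set D : Fin r → ℝ := fun i =>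
      (∑ ρ ∈ P.image (dist p), sepc rng ((p, z ρ), true) (X i)) / (x:ℝ) ^ 2 with hD
    have hD0 : ∀ i, 0 ≤ D i := by
      intro i
      rw [hD]; simp only
      apply div_nonneg _ (by positivity)
      exact Finset.sum_nonneg (fun ρ _ => sepc_nonneg _ _ _)
    have hDsum : ∑ i, D i ≤ ((t:ℝ) + 1) * (r * Λ / (2 * s)) := by
      have h3 : ∑ i, D i = (∑ ρ ∈ P.image (dist p), ∑ i, sepc rng ((p, z ρ), true) (X i))
          / (x:ℝ) ^ 2 := by
        rw [Finset.sum_comm, Finset.sum_div]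
      have hΛ0 : 0 < Λ := by
        have : 0 ≤ Real.log ((P.card:ℝ) + 3) := Real.log_nonneg (by
          have : (0:ℝ) ≤ P.card := by (clear * - hP; positivity)
          linarith only [])
        linarith only [hΛ, this]
      rw [h3, div_le_iff₀ (by positivity)]
      calc ∑ ρ ∈ P.image (dist p), ∑ i, sepc rng ((p, z ρ), true) (X i)
          ≤ ∑ _ρ ∈ P.image (dist p), (x:ℝ) ^ 2 * (r * Λ / (2 * s)) := by
            apply Finset.sum_le_sum
            intro ρ hρ
            apply hsep2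
            rw [hS, mem_product, mem_product]
            exact ⟨⟨hp, hzP ρ hρ⟩, mem_univ _⟩
        _ = ((P.image (dist p)).card : ℝ) * ((x:ℝ) ^ 2 * (r * Λ / (2 * s))) := by
            rw [Finset.sum_const, nsmul_eq_mul]
        _ ≤ ((t:ℝ) + 1) * ((x:ℝ) ^ 2 * (r * Λ / (2 * s))) := by
            apply mul_le_mul_of_nonneg_right _ (by (clear * - hs hx hΛ0; positivity))
            exact_mod_cast ht p hp
        _ = ((t:ℝ) + 1) * (r * Λ / (2 * s)) * (x:ℝ) ^ 2 := by ring
    refine ⟨D, hD0, hDsum, ?_⟩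
    intro i α _
    have hXpos : 0 < (X i).card := by rw [hXc i]; omega
    have h3 : ∑ π ∈ X i ×ˢ X i, (|rk P p π.2 - rk P p π.1| : ℝ) ≤ D i * ((X i).card : ℝ) ^ 2 := by
      rw [hz (X i), hXc i, hD]
      simp only
      rw [div_mul_cancel₀ _ (by positivity)]
    have h4 := equal_pairs (X i) (rk P p) hXpos (D i) h3
    rw [hXc i] at h4
    have hfil : (X i ×ˢ X i).filter (fun π => rk P p π.2 = rk P p π.1) =
        (X i ×ˢ X i).filter (fun π => dist p π.1 = dist p π.2) := by
      apply Finset.filter_congr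
      intro π hπ
      rw [mem_product] at hπ
      exact rk_eq_iff P p π.1 π.2 (hXP i hπ.1) (hXP i hπ.2)
    rw [hfil] at h4
    set E : ℝ := (((X i ×ˢ X i).filter (fun π => dist p π.1 = dist p π.2)).card : ℝ) with hE
    by_contra hcon
    push Not at hcon
    have hD1 := hD0 i
    have ha : 0 < 2 * (4 * D i + 1) := by linarith only [hD1]
    have h6 := mul_lt_mul_of_pos_left hcon ha
    linarith only [h4, h6, sq_nonneg ((x:ℝ) - α * (2 * (4 * D i + 1)))]

end Vale.Agent.P054K
end

section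

set_option autoImplicit false

open Finset

namespace Vale.Agent.P054K

/-- two vectors of lengths `d1 ≥ d2 > 0` with nearly equal directions -/
theorem kissing_aux (a b : Fin 3 → ℝ) (d1 d2 : ℝ) (h2 : 0 < d2) (h12 : d2 ≤ d1)
    (ha : ∑ i, a i ^ 2 = 1) (hb : ∑ i, b i ^ 2 = 1) (hab : ∀ i, (a i - b i) ^ 2 < 1 / 16) :
    ∑ i, (d1 * a i - d2 * b i) ^ 2 < d1 ^ 2 := by
  have h1 : 0 < d1 := lt_of_lt_of_le h2 h12
  have e : ∑ i, (d1 * a i - d2 * b i) ^ 2
      = d1 ^ 2 * ∑ i, a i ^ 2 + d2 ^ 2 * ∑ i, b i ^ 2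
        - d1 * d2 * (∑ i, a i ^ 2 + ∑ i, b i ^ 2 - ∑ i, (a i - b i) ^ 2) := by
    simp only [Fin.sum_univ_three]; ring
  have hs : ∑ i, (a i - b i) ^ 2 < 3 / 16 := by
    rw [Fin.sum_univ_three]
    linarith only [hab 0, hab 1, hab 2]
  rw [e, ha, hb]
  have hp : 0 < d1 * d2 := mul_pos h1 h2
  linarith only [hp, h12, mul_pos hp (sub_pos.2 hs), mul_nonneg h2.le (sub_nonneg.2 h12)]

open scoped Classical in
/-- few points `q'` are such that the side of `q'` of the bisector of `q, q'` contains few points -/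
theorem kissing (C : Finset (EuclideanSpace ℝ (Fin 3))) (q : EuclideanSpace ℝ (Fin 3)) (a : ℕ) :
    (C.filter (fun q' => q' ≠ q ∧ (C.filter (fun y => dist y q' < dist y q)).card < a)).card
      ≤ 729 * a := by
  set S := C.filter (fun q' => q' ≠ q ∧ (C.filter (fun y => dist y q' < dist y q)).card < a)
    with hS
  set cell : EuclideanSpace ℝ (Fin 3) → (Fin 3 → ℤ) :=
    fun y i => ⌊4 * ((y i - q i) / dist y q)⌋ with hcell
  -- coordinates
  have hsq : ∀ x y : EuclideanSpace ℝ (Fin 3), dist x y ^ 2 = ∑ i, (x i - y i) ^ 2 := by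
    intro x y
    rw [EuclideanSpace.dist_eq, Real.sq_sqrt (by positivity)]
    simp only [Real.dist_eq, sq_abs]
  have hunit : ∀ y, y ≠ q → ∑ i, ((y i - q i) / dist y q) ^ 2 = 1 := by
    intro y hy
    have hd : 0 < dist y q := dist_pos.2 hy
    simp only [div_pow]
    rw [← Finset.sum_div, ← hsq]
    exact div_self (by positivity)
  have hbound : ∀ y, y ≠ q → ∀ i, |(y i - q i) / dist y q| ≤ 1 := by
    intro y hy i
    rw [abs_le_one_iff_mul_self_le_one, ← pow_two, ← hunit y hy]
    exact Finset.single_le_sum (f := fun i => ((y i - q i) / dist y q) ^ 2)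
      (fun i _ => sq_nonneg _) (Finset.mem_univ i)
  have himg : S.image cell ⊆ Fintype.piFinset (fun _ : Fin 3 => Finset.Icc (-4 : ℤ) 4) := by
    intro c hc
    obtain ⟨y, hy, rfl⟩ := Finset.mem_image.1 hc
    have hyq : y ≠ q := (Finset.mem_filter.1 hy).2.1
    rw [Fintype.mem_piFinset]
    intro i
    have h := abs_le.1 (hbound y hyq i)
    rw [Finset.mem_Icc]
    constructor
    · apply Int.le_floor.2
      push_cast
      linarith only [h.1, h]
    · have : (⌊4 * ((y i - q i) / dist y q)⌋ : ℝ) ≤ 4 :=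
        (Int.floor_le _).trans (by linarith only [h.2])
      exact_mod_cast this
  have hcard : (S.image cell).card ≤ 729 := by
    refine (Finset.card_le_card himg).trans ?_
    rw [Fintype.card_piFinset]
    simp only [Int.reduceNeg, Int.card_Icc, Int.reduceAdd, sub_neg_eq_add, Int.reduceToNat,
      prod_const, card_univ, Fintype.card_fin, Nat.reducePow, Std.le_refl]
  have hfib : ∀ c ∈ S.image cell, (S.filter (fun y => cell y = c)).card ≤ a := by
    intro c hc
    have hne : (S.filter (fun y => cell y = c)).Nonempty := by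
      obtain ⟨y, hy, rfl⟩ := Finset.mem_image.1 hc
      exact ⟨y, Finset.mem_filter.2 ⟨hy, rfl⟩⟩
    obtain ⟨p, hp, hmin⟩ := Finset.exists_min_image _ (fun y => dist y q) hne
    have hpS := (Finset.mem_filter.1 hp).1
    have hpc := (Finset.mem_filter.1 hp).2
    have hpq : p ≠ q := (Finset.mem_filter.1 hpS).2.1
    have hsub : S.filter (fun y => cell y = c) ⊆ C.filter (fun y => dist y p < dist y q) := by
      intro y hy
      have hyS := (Finset.mem_filter.1 hy).1
      have hyc := (Finset.mem_filter.1 hy).2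
      have hyq : y ≠ q := (Finset.mem_filter.1 hyS).2.1
      refine Finset.mem_filter.2 ⟨(Finset.mem_filter.1 hyS).1, ?_⟩
      have h2 : 0 < dist p q := dist_pos.2 hpq
      have h1 : 0 < dist y q := dist_pos.2 hyq
      have h12 := hmin y hy
      have key := kissing_aux (fun i => (y i - q i) / dist y q) (fun i => (p i - q i) / dist p q)
        (dist y q) (dist p q) h2 h12 (hunit y hyq) (hunit p hpq) (by
          intro i
          have hfl : ⌊4 * ((y i - q i) / dist y q)⌋ = ⌊4 * ((p i - q i) / dist p q)⌋ := by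
            have := congrFun (hyc.trans hpc.symm) i
            simpa only [hcell] using this
          have := Int.abs_sub_lt_one_of_floor_eq_floor hfl
          rw [← mul_sub, abs_mul, abs_of_pos (by norm_num : (0:ℝ) < 4)] at this
          have h3 : |(y i - q i) / dist y q - (p i - q i) / dist p q| < 1 / 4 := by linarith only [this]
          have h4 := mul_self_lt_mul_self (abs_nonneg _) h3
          rw [abs_mul_abs_self] at h4
          have h5 : (1:ℝ) / 4 * (1 / 4) = 1 / 16 := by norm_num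
          rw [h5, ← pow_two] at h4
          exact h4)
      have e1 : ∀ i, dist y q * ((y i - q i) / dist y q) - dist p q * ((p i - q i) / dist p q)
          = y i - p i := by
        intro i
        rw [mul_div_cancel₀ _ h1.ne', mul_div_cancel₀ _ h2.ne']; ring
      simp only [e1] at key
      rw [← hsq] at key
      exact lt_of_pow_lt_pow_left₀ 2 dist_nonneg key
    have hlt := (Finset.mem_filter.1 hpS).2.2
    exact (Finset.card_le_card hsub).trans hlt.le
  calc S.card ≤ a * (S.image cell).card := Finset.card_le_mul_card_image S a hfib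
    _ ≤ a * 729 := Nat.mul_le_mul_left a hcard
    _ = 729 * a := by ring

end Vale.Agent.P054K
end

section

set_option autoImplicit false

open Finset

namespace Vale.Agent.P054K

open scoped Classical in
theorem small_side_pairs (X : Finset E3) (a : ℕ) :
    (X.offDiag.filter (fun π => (X.filter (fun y => dist y π.2 < dist y π.1)).card < a)).card ≤
      X.card * (729 * a) := by
  set F := X.offDiag.filter (fun π => (X.filter (fun y => dist y π.2 < dist y π.1)).card < a)
    with hF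
  have h1 : F.card = ∑ q ∈ X, (F.filter (fun π => π.1 = q)).card := by
    apply Finset.card_eq_sum_card_fiberwise
    intro π hπ
    rw [mem_coe, hF, mem_filter, mem_offDiag] at hπ
    exact hπ.1.1
  rw [h1, ← smul_eq_mul]
  apply Finset.sum_le_card_nsmul
  intro q _
  refine le_trans ?_ (kissing X q a)
  apply Finset.card_le_card_of_injOn (fun π => π.2)
  · intro π hπ
    rw [mem_coe, mem_filter, hF, mem_filter, mem_offDiag] at hπ
    obtain ⟨⟨⟨_, h3, h4⟩, h5⟩, h6⟩ := hπ
    rw [mem_coe, mem_filter]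
    rw [h6] at h4 h5
    exact ⟨h3, h4.symm, h5⟩
  · intro π hπ π' hπ' he
    rw [mem_coe, mem_filter] at hπ hπ'
    exact Prod.ext (hπ.2.trans hπ'.2.symm) he

open scoped Classical in
theorem small_side_pairs' (X : Finset E3) (a : ℕ) :
    (X.offDiag.filter (fun π => (X.filter (fun y => dist y π.1 < dist y π.2)).card < a)).card ≤
      X.card * (729 * a) := by
  refine le_trans ?_ (small_side_pairs X a)
  apply Finset.card_le_card_of_injOn (fun π => (π.2, π.1))
  · intro π hπ
    rw [mem_coe, mem_filter, mem_offDiag] at hπ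
    rw [mem_coe, mem_filter, mem_offDiag]
    exact ⟨⟨hπ.1.2.1, hπ.1.1, hπ.1.2.2.symm⟩, hπ.2⟩
  · intro π _ π' _ he
    rw [Prod.mk.injEq] at he
    exact Prod.ext he.2 he.1

open scoped Classical in
/-- pairs with a small cut -/
theorem small_cut_pairs (X : Finset E3) (a : ℕ) :
    (X.offDiag.filter (fun π => cut X π.1 π.2 < a)).card ≤ 2 * (X.card * (729 * a)) := by
  have h1 : X.offDiag.filter (fun π => cut X π.1 π.2 < a) ⊆
      X.offDiag.filter (fun π => (X.filter (fun y => dist y π.1 < dist y π.2)).card < a) ∪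
      X.offDiag.filter (fun π => (X.filter (fun y => dist y π.2 < dist y π.1)).card < a) := by
    intro π hπ
    rw [mem_filter] at hπ
    rw [mem_union, mem_filter, mem_filter]
    unfold cut at hπ
    rcases min_lt_iff.mp hπ.2 with h | h
    · exact Or.inl ⟨hπ.1, h⟩
    · exact Or.inr ⟨hπ.1, h⟩
  have h2 := (card_le_card h1).trans (card_union_le _ _)
  have h3 := small_side_pairs X a
  have h4 := small_side_pairs' X a
  omega

open scoped Classical in
/-- equidistant pairs of a class -/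
theorem offdiag_equal (X : Finset E3) (p : E3) :
    (((X ×ˢ X).filter (fun π => dist p π.1 = dist p π.2)).card : ℝ) - X.card ≤
      ((X.offDiag.filter (fun π => dualVec π ∈ hyp p)).card : ℝ) := by
  have h6 : ((X ×ˢ X).filter (fun π => dist p π.1 = dist p π.2)) ⊆
      (X.offDiag.filter (fun π => dualVec π ∈ hyp p)) ∪ X.diag := by
    intro π hπ
    rw [mem_filter, mem_product] at hπ
    rw [mem_union, mem_filter, mem_offDiag, mem_diag]
    by_cases h7 : π.1 = π.2
    · right; exact ⟨hπ.1.1, h7⟩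
    · left
      exact ⟨⟨hπ.1.1, hπ.1.2, h7⟩, (dualVec_mem_hyp p π).mpr hπ.2⟩
  have h7 := (card_le_card h6).trans (card_union_le _ _)
  rw [diag_card] at h7
  have h8 : (((X ×ˢ X).filter (fun π => dist p π.1 = dist p π.2)).card : ℝ) ≤
      ((X.offDiag.filter (fun π => dualVec π ∈ hyp p)).card : ℝ) + X.card := by exact_mod_cast h7
  linarith only [h8]

open scoped Classical in
/-- few points have a given plane below their dual hyperplane -/
theorem axis_count (P : Finset E3) (g : ℝ)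
    (hg : ∀ q₁ ∈ P, ∀ q₂ ∈ P, q₁ ≠ q₂ →
        ((P.filter (fun q => ∃ τ : ℝ, q = q₁ + τ • (q₂ - q₁))).card : ℝ) ≤ g) (hg1 : 1 ≤ g)
    (S : Submodule ℝ (E3 × ℝ)) (hS : Module.finrank ℝ S = 2) :
    ((P.filter (fun p => S ≤ hyp p)).card : ℝ) ≤ g := by
  by_cases h : ∃ q₁ ∈ P.filter (fun p => S ≤ hyp p), ∃ q₂ ∈ P.filter (fun p => S ≤ hyp p), q₁ ≠ q₂
  · obtain ⟨q₁, h1, q₂, h2, h12⟩ := h
    rw [mem_filter] at h1 h2
    refine le_trans ?_ (hg q₁ h1.1 q₂ h2.1 h12)
    rw [Nat.cast_le]
    apply card_le_card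
    intro q hq
    rw [mem_filter] at hq ⊢
    exact ⟨hq.1, fibre_line S hS q₁ q₂ q h1.2 h2.2 hq.2 h12⟩
  · push Not at h
    have h1 : (P.filter (fun p => S ≤ hyp p)).card ≤ 1 := by
      rw [Finset.card_le_one]
      intro a ha b hb
      exact h a ha b hb
    have h2 : ((P.filter (fun p => S ≤ hyp p)).card : ℝ) ≤ 1 := by exact_mod_cast h1
    linarith only [hg1, h2]

open scoped Classical in
/-- good pairs of level `(i, l)` -/
noncomputable def TT {r : ℕ} (X : Fin r → Finset E3) (Good : Fin r → Finset (E3 × E3))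
    (i l : ℕ) : Finset (E3 × E3) :=
  Finset.univ.biUnion (fun k => (Good k).filter
    (fun π => muLog (X k) π = i ∧ Nat.log 2 (cut (X k) π.1 π.2) = l))

section family
variable {r : ℕ} (X : Fin r → Finset E3) (Good : Fin r → Finset (E3 × E3))

theorem mem_TT {i l : ℕ} {π : E3 × E3} : π ∈ TT X Good i l ↔
    ∃ k, π ∈ Good k ∧ muLog (X k) π = i ∧ Nat.log 2 (cut (X k) π.1 π.2) = l := by
  classical
  unfold TT
  rw [mem_biUnion]
  constructor
  · rintro ⟨k, _, h⟩
    exact ⟨k, mem_filter.mp h⟩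
  · rintro ⟨k, h⟩
    exact ⟨k, mem_univ _, mem_filter.mpr h⟩

open scoped Classical in
theorem TT_filter_card (hdis : ∀ k l, k ≠ l → Disjoint (X k) (X l))
    (hGood : ∀ k, Good k ⊆ (X k).offDiag) (i l : ℕ) (p : E3 × E3 → Prop) :
    ((TT X Good i l).filter p).card = ∑ k, (((Good k).filter
      (fun π => muLog (X k) π = i ∧ Nat.log 2 (cut (X k) π.1 π.2) = l)).filter p).card := by
  unfold TT
  rw [Finset.filter_biUnion, Finset.card_biUnion]
  intro k _ k' _ hkk
  rw [Function.onFun, Finset.disjoint_left]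
  intro π h h'
  rw [mem_filter, mem_filter] at h h'
  have h1 := mem_offDiag.mp (hGood k h.1.1)
  have h2 := mem_offDiag.mp (hGood k' h'.1.1)
  exact (Finset.disjoint_left.mp (hdis k k' hkk)) h1.1 h2.1

open scoped Classical in
theorem TT_card (hdis : ∀ k l, k ≠ l → Disjoint (X k) (X l))
    (hGood : ∀ k, Good k ⊆ (X k).offDiag) (i l : ℕ) :
    (TT X Good i l).card = ∑ k, ((Good k).filter
      (fun π => muLog (X k) π = i ∧ Nat.log 2 (cut (X k) π.1 π.2) = l)).card := by
  have h := TT_filter_card X Good hdis hGood i l (fun _ => True)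
  simp only [Finset.filter_true] at h
  exact h

theorem TT_ne (hGood : ∀ k, Good k ⊆ (X k).offDiag) (i l : ℕ) :
    ∀ π ∈ TT X Good i l, π.1 ≠ π.2 := by
  intro π hπ
  obtain ⟨k, h1, _⟩ := (mem_TT X Good).mp hπ
  exact (mem_offDiag.mp (hGood k h1)).2.2

theorem TT_card0 (hdis : ∀ k l, k ≠ l → Disjoint (X k) (X l))
    (hGood : ∀ k, Good k ⊆ (X k).offDiag) (x : ℕ) (hx : ∀ k, (X k).card = x) (i l : ℕ) :
    (TT X Good i l).card ≤ (r * x) * x := by
  classical
  rw [TT_card X Good hdis hGood]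
  calc ∑ k, ((Good k).filter
      (fun π => muLog (X k) π = i ∧ Nat.log 2 (cut (X k) π.1 π.2) = l)).card
      ≤ ∑ _k : Fin r, x * x := by
        apply Finset.sum_le_sum
        intro k _
        refine (card_filter_le _ _).trans ((card_le_card (hGood k)).trans ?_)
        rw [offDiag_card, hx k]
        exact Nat.sub_le _ _
    _ = (r * x) * x := by
        rw [Finset.sum_const, Finset.card_univ, Fintype.card_fin, smul_eq_mul]; ring

theorem TT_card1 (hdis : ∀ k l, k ≠ l → Disjoint (X k) (X l))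
    (hGood : ∀ k, Good k ⊆ (X k).offDiag) (x : ℕ) (hx : ∀ k, (X k).card = x) (i l : ℕ) :
    (TT X Good i l).card ≤ 2916 * 2 ^ l * (r * x) := by
  classical
  rw [TT_card X Good hdis hGood]
  calc ∑ k, ((Good k).filter
      (fun π => muLog (X k) π = i ∧ Nat.log 2 (cut (X k) π.1 π.2) = l)).card
      ≤ ∑ _k : Fin r, 2 * (x * (729 * (2 * 2 ^ l))) := by
        apply Finset.sum_le_sum
        intro k _
        refine le_trans ?_ (le_of_le_of_eq (small_cut_pairs (X k) (2 * 2 ^ l)) (by rw [hx k]))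
        apply card_le_card
        intro π hπ
        rw [mem_filter] at hπ ⊢
        refine ⟨hGood k hπ.1, ?_⟩
        rw [← hπ.2.2, ← pow_succ']
        exact Nat.lt_pow_succ_log_self (by norm_num) _
    _ = 2916 * 2 ^ l * (r * x) := by
        rw [Finset.sum_const, Finset.card_univ, Fintype.card_fin, smul_eq_mul]; ring

open scoped Classical in
theorem TT_card2 (hdis : ∀ k l, k ≠ l → Disjoint (X k) (X l))
    (hGood : ∀ k, Good k ⊆ (X k).offDiag) (b : ℝ) (i l : ℕ)
    (hlev : ∀ k, (((Good k).filter (fun π => muLog (X k) π = i)).card : ℝ) * 2 ^ i ≤ b) :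
    ((TT X Good i l).card : ℝ) * 2 ^ i ≤ r * b := by
  rw [TT_card X Good hdis hGood]
  push_cast
  rw [Finset.sum_mul]
  calc ∑ k, (((Good k).filter
      (fun π => muLog (X k) π = i ∧ Nat.log 2 (cut (X k) π.1 π.2) = l)).card : ℝ) * 2 ^ i
      ≤ ∑ _k : Fin r, b := by
        apply Finset.sum_le_sum
        intro k _
        refine le_trans ?_ (hlev k)
        apply mul_le_mul_of_nonneg_right _ (by positivity)
        rw [Nat.cast_le]
        apply card_le_card
        intro π hπ
        rw [mem_filter] at hπ ⊢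
        exact ⟨hπ.1, hπ.2.1⟩
    _ = r * b := by
        rw [Finset.sum_const, Finset.card_univ, Fintype.card_fin, nsmul_eq_mul]

open scoped Classical in
/-- mass of a line in a level set -/
theorem TT_line (P : Finset E3) (hXP : ∀ k, X k ⊆ P) (hdis : ∀ k l, k ≠ l → Disjoint (X k) (X l))
    (hGood : ∀ k, Good k ⊆ (X k).offDiag) (Q : ℝ)
    (hcut : ∀ a ∈ P, ∀ b ∈ P, a ≠ b → ∑ k, (cut (X k) a b : ℝ) ≤ Q) (i l : ℕ) :
    ∀ π₀ ∈ TT X Good i l, (((TT X Good i l).filter
      (fun π => dualVec π ∈ Submodule.span ℝ {dualVec π₀})).card : ℝ) ≤ 2 * 2 ^ i * Q / 2 ^ l := by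
  intro π₀ hπ₀
  obtain ⟨k₀, hk₀, _⟩ := (mem_TT X Good).mp hπ₀
  have hk₀' := mem_offDiag.mp (hGood k₀ hk₀)
  have hne₀ : π₀.1 ≠ π₀.2 := hk₀'.2.2
  have hv0 := dualVec_fst_ne π₀ hne₀
  rw [le_div_iff₀ (by positivity), TT_filter_card X Good hdis hGood]
  push_cast
  rw [Finset.sum_mul]
  have hQ := hcut π₀.1 (hXP k₀ hk₀'.1) π₀.2 (hXP k₀ hk₀'.2.1) hne₀
  calc ∑ k, ((((Good k).filter
      (fun π => muLog (X k) π = i ∧ Nat.log 2 (cut (X k) π.1 π.2) = l)).filter
      (fun π => dualVec π ∈ Submodule.span ℝ {dualVec π₀})).card : ℝ) * 2 ^ l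
      ≤ ∑ k, 2 * 2 ^ i * (cut (X k) π₀.1 π₀.2 : ℝ) := by
        apply Finset.sum_le_sum
        intro k _
        set F := ((Good k).filter
          (fun π => muLog (X k) π = i ∧ Nat.log 2 (cut (X k) π.1 π.2) = l)).filter
          (fun π => dualVec π ∈ Submodule.span ℝ {dualVec π₀}) with hF
        rcases F.eq_empty_or_nonempty with h0 | ⟨π, hπ⟩
        · rw [h0, card_empty]
          simp only [Nat.cast_zero, zero_mul]
          (clear * -; positivity)
        · rw [hF, mem_filter, mem_filter] at hπ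
          obtain ⟨⟨h1, h2, h3⟩, h4⟩ := hπ
          have h1' := mem_offDiag.mp (hGood k h1)
          have e1 : cut (X k) π.1 π.2 = cut (X k) π₀.1 π₀.2 :=
            cut_of_span (X k) π π₀ h1'.2.2 hne₀ h4
          have e2 : SS (X k) (dualVec π) = SS (X k) (dualVec π₀) :=
            SS_of_span (X k) (dualVec π₀) (dualVec π) (dualVec_ne_zero π h1'.2.2) h4
          have h5 : F.card ≤ 2 * 2 ^ i := by
            calc F.card ≤ ((X k).offDiag.filter
                (fun π => dualVec π ∈ Submodule.span ℝ {dualVec π₀})).card := by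
                  apply card_le_card
                  intro π' hπ'
                  rw [hF, mem_filter, mem_filter] at hπ'
                  rw [mem_filter]
                  exact ⟨hGood k hπ'.1.1, hπ'.2⟩
              _ ≤ (SS (X k) (dualVec π₀)).card := line_mass_le (X k) _ hv0
              _ ≤ 2 * 2 ^ i := by
                  rw [← e2, ← h2, ← pow_succ']
                  exact (Nat.lt_pow_succ_log_self (by norm_num) _).le
          have h6 : 2 ^ l ≤ cut (X k) π₀.1 π₀.2 := by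
            rw [← e1, ← h3]
            apply Nat.pow_log_le_self
            have := cut_pos (X k) π (hGood k h1)
            omega
          have h5' : (F.card : ℝ) ≤ 2 * 2 ^ i := by exact_mod_cast h5
          have h6' : (2:ℝ) ^ l ≤ cut (X k) π₀.1 π₀.2 := by exact_mod_cast h6
          exact mul_le_mul h5' h6' (by positivity) (by positivity)
    _ = 2 * 2 ^ i * ∑ k, (cut (X k) π₀.1 π₀.2 : ℝ) := by rw [Finset.mul_sum]
    _ ≤ 2 * 2 ^ i * Q := mul_le_mul_of_nonneg_left hQ (by positivity)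

open scoped Classical in
/-- good pairs near a point are distributed over the levels -/
theorem mass_levels (hdis : ∀ k l, k ≠ l → Disjoint (X k) (X l))
    (hGood : ∀ k, Good k ⊆ (X k).offDiag) (x : ℕ) (hx : ∀ k, (X k).card = x) (q : E3 × E3 → Prop) :
    ∑ k, ((Good k).filter q).card =
      ∑ i ∈ range (Nat.log 2 x + 1), ∑ l ∈ range (Nat.log 2 x + 1),
        ((TT X Good i l).filter q).card := by
  have h1 : ∀ k, ((Good k).filter q).card = ∑ i ∈ range (Nat.log 2 x + 1),
      ∑ l ∈ range (Nat.log 2 x + 1), (((Good k).filter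
      (fun π => muLog (X k) π = i ∧ Nat.log 2 (cut (X k) π.1 π.2) = l)).filter q).card := by
    intro k
    rw [← Finset.sum_product']
    have h2 := Finset.card_eq_sum_card_fiberwise (s := (Good k).filter q)
      (f := fun π => (muLog (X k) π, Nat.log 2 (cut (X k) π.1 π.2)))
      (t := range (Nat.log 2 x + 1) ×ˢ range (Nat.log 2 x + 1)) (by
        intro π hπ
        rw [mem_coe, mem_filter] at hπ
        rw [mem_coe, mem_product, mem_range, mem_range]
        constructor
        · have h3 := SS_card_le (X k) (dualVec π)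
          rw [hx k] at h3
          exact Nat.lt_succ_of_le (Nat.log_mono_right (b := 2) h3)
        · have h3 := cut_le (X k) π.1 π.2
          rw [hx k] at h3
          exact Nat.lt_succ_of_le (Nat.log_mono_right (b := 2) h3))
    rw [h2]
    apply Finset.sum_congr rfl
    rintro ⟨i, l⟩ _
    congr 1
    ext π
    simp only [mem_filter, Prod.mk.injEq]
    (clear * -; tauto)
  calc ∑ k, ((Good k).filter q).card = ∑ k, ∑ i ∈ range (Nat.log 2 x + 1),
      ∑ l ∈ range (Nat.log 2 x + 1), (((Good k).filter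
      (fun π => muLog (X k) π = i ∧ Nat.log 2 (cut (X k) π.1 π.2) = l)).filter q).card :=
        Finset.sum_congr rfl (fun k _ => h1 k)
    _ = _ := by
        rw [Finset.sum_comm]
        apply Finset.sum_congr rfl
        intro i _
        rw [Finset.sum_comm]
        apply Finset.sum_congr rfl
        intro l _
        rw [TT_filter_card X Good hdis hGood]

end family

end Vale.Agent.P054K
end

section

set_option autoImplicit false

open Finset

namespace Vale.Agent.P054K

section family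
variable {r : ℕ} (X : Fin r → Finset E3) (Good : Fin r → Finset (E3 × E3))
  (A : Fin r → Finset (Submodule ℝ (E3 × ℝ)))

open scoped Classical in
/-- classes for which the point lies on an axis -/
noncomputable def badCl (p : E3) : Finset (Fin r) :=
  Finset.univ.filter (fun k => ∃ S ∈ A k, S ≤ hyp p)

open scoped Classical in
/-- a point on few axes has many good pairs -/
theorem good_mass (x : ℕ) (hx : ∀ k, (X k).card = x)
    (p : E3) (D : Fin r → ℝ) (hD0 : ∀ k, 0 ≤ D k) (B : ℝ) (hB1 : 1 ≤ B) (hxB : 32 * B ≤ x)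
    (hDB : 128 * B * ∑ k, D k ≤ r * x)
    (hE : ∀ k, ∀ α : ℝ, 0 ≤ α → 2 * α * x - 2 * α ^ 2 * (4 * D k + 1) ≤
          (((X k ×ˢ X k).filter (fun π => dist p π.1 = dist p π.2)).card : ℝ))
    (hbad : 16 * (badCl A p).card ≤ r)
    (hrem : ∀ k, (∀ S ∈ A k, ¬ S ≤ hyp p) →
      ((((X k).offDiag \ Good k).filter (fun π => dualVec π ∈ hyp p)).card : ℝ) ≤ B * x) :
    (r : ℝ) * x ≤ ∑ k, (((Good k).filter (fun π => dualVec π ∈ hyp p)).card : ℝ) := by
  have hx0 : (0:ℝ) ≤ x := by positivity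
  have hcl : ∀ k, 5 * B * x - 128 * B ^ 2 * D k - (if k ∈ badCl A p then 5 * B * x else 0) ≤
      (((Good k).filter (fun π => dualVec π ∈ hyp p)).card : ℝ) := by
    intro k
    by_cases hk : k ∈ badCl A p
    · rw [if_pos hk]
      have h1 : 0 ≤ 128 * B ^ 2 * D k := by
        have := hD0 k
        positivity
      have h2 : (0:ℝ) ≤ (((Good k).filter (fun π => dualVec π ∈ hyp p)).card : ℝ) := by (clear * -; positivity)
      linarith only [h1]
    · rw [if_neg hk, sub_zero]
      have hk' : ∀ S ∈ A k, ¬ S ≤ hyp p := by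
        intro S hS hle
        apply hk
        unfold badCl
        rw [mem_filter]
        exact ⟨mem_univ _, S, hS, hle⟩
      have h1 := hrem k hk'
      have h2 := offdiag_equal (X k) p
      have h3 := hE k (4 * B) (by linarith only [hB1])
      have h4 : (((X k).offDiag.filter (fun π => dualVec π ∈ hyp p)).card : ℝ) ≤
          (((Good k).filter (fun π => dualVec π ∈ hyp p)).card : ℝ) +
          ((((X k).offDiag \ Good k).filter (fun π => dualVec π ∈ hyp p)).card : ℝ) := by
        have h5 : (X k).offDiag.filter (fun π => dualVec π ∈ hyp p) ⊆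
            ((Good k).filter (fun π => dualVec π ∈ hyp p)) ∪
            (((X k).offDiag \ Good k).filter (fun π => dualVec π ∈ hyp p)) := by
          intro π hπ
          rw [mem_filter] at hπ
          rw [mem_union, mem_filter, mem_filter, mem_sdiff]
          by_cases h6 : π ∈ Good k
          · exact Or.inl ⟨h6, hπ.2⟩
          · exact Or.inr ⟨⟨hπ.1, h6⟩, hπ.2⟩
        exact_mod_cast (card_le_card h5).trans (card_union_le _ _)
      rw [hx k] at h2
      have h6 : 32 * B ^ 2 ≤ B * x := by nlinarith only [hxB, hB1]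
      have h7 : (x:ℝ) ≤ B * x := by nlinarith only [hB1]
      linarith only [h1, h2, h3, h4, h6, h7]
  have hsum := Finset.sum_le_sum (s := Finset.univ) (fun k (_ : k ∈ Finset.univ) => hcl k)
  refine le_trans ?_ hsum
  have h1 : Finset.univ.filter (fun k => k ∈ badCl A p) = badCl A p := by
    ext k; simp only [subset_univ, filter_mem_eq_of_subset]
  have h0 : ∑ k : Fin r, (5 * B * x - 128 * B ^ 2 * D k -
      (if k ∈ badCl A p then 5 * B * (x:ℝ) else 0)) =
      r * (5 * B * x) - 128 * B ^ 2 * ∑ k, D k - (badCl A p).card * (5 * B * x) := by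
    rw [Finset.sum_sub_distrib, Finset.sum_sub_distrib, ← Finset.sum_filter, h1]
    rw [Finset.sum_const, Finset.sum_const, Finset.card_univ, Fintype.card_fin, nsmul_eq_mul,
      nsmul_eq_mul, Finset.mul_sum]
  rw [h0]
  have h2 : 16 * ((badCl A p).card : ℝ) ≤ r := by exact_mod_cast hbad
  have h3 : ((badCl A p).card : ℝ) * (5 * B * x) ≤ r / 16 * (5 * B * x) :=
    mul_le_mul_of_nonneg_right (by linarith only [h2]) (by (clear * - hB1; positivity))
  have h4 : 128 * B ^ 2 * ∑ k, D k ≤ B * (r * x) := by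
    calc 128 * B ^ 2 * ∑ k, D k = B * (128 * B * ∑ k, D k) := by ring
      _ ≤ B * (r * x) := mul_le_mul_of_nonneg_left hDB (by linarith only [hB1])
  have h5 : (r:ℝ) * x ≤ B * (r * x) := by
    have : (0:ℝ) ≤ r * x := by (clear * -; positivity)
    nlinarith only [hB1, this]
  have h6 : (r:ℝ) * (5 * B * x) = 5 * (B * (r * x)) := by ring
  have h7 : (r:ℝ) / 16 * (5 * B * x) = 5 / 16 * (B * (r * x)) := by ring
  have h8 : 0 ≤ B * (r * (x:ℝ)) := by (clear * - hB1; positivity)
  rw [h7] at h3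
  rw [h6]
  linarith only [h3, h4, h5, h8]

open scoped Classical in
/-- few points lie on many axes -/
theorem bad_points (hr : 0 < r) (P : Finset E3) (g b : ℝ) (hb : 0 ≤ b)
    (hg : ∀ q₁ ∈ P, ∀ q₂ ∈ P, q₁ ≠ q₂ →
        ((P.filter (fun q => ∃ τ : ℝ, q = q₁ + τ • (q₂ - q₁))).card : ℝ) ≤ g) (hg1 : 1 ≤ g)
    (hA2 : ∀ k, ∀ S ∈ A k, Module.finrank ℝ S = 2) (hAb : ∀ k, ((A k).card : ℝ) ≤ b) :
    ((P.filter (fun p => ¬ 16 * (badCl A p).card ≤ r)).card : ℝ) ≤ 16 * b * g := by
  have hr' : (0:ℝ) < r := by exact_mod_cast hr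
  have h1 : ∑ p ∈ P, ((badCl A p).card : ℝ) ≤ r * (b * g) := by
    have h2 : ∀ p, ((badCl A p).card : ℝ) ≤ ∑ k, ∑ S ∈ A k, (if S ≤ hyp p then (1:ℝ) else 0) := by
      intro p
      unfold badCl
      rw [Finset.card_filter]
      push_cast
      apply Finset.sum_le_sum
      intro k _
      split_ifs with h
      · obtain ⟨S, hS, hle⟩ := h
        have h3 : (if S ≤ hyp p then (1:ℝ) else 0) ≤
            ∑ S ∈ A k, (if S ≤ hyp p then (1:ℝ) else 0) := by
          apply Finset.single_le_sum (f := fun S => if S ≤ hyp p then (1:ℝ) else 0) _ hS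
          intro S _
          split_ifs <;> norm_num
        rw [if_pos hle] at h3
        exact h3
      · apply Finset.sum_nonneg
        intro S _
        split_ifs <;> norm_num
    calc ∑ p ∈ P, ((badCl A p).card : ℝ)
        ≤ ∑ p ∈ P, ∑ k, ∑ S ∈ A k, (if S ≤ hyp p then (1:ℝ) else 0) :=
          Finset.sum_le_sum (fun p _ => h2 p)
      _ = ∑ k, ∑ S ∈ A k, ∑ p ∈ P, (if S ≤ hyp p then (1:ℝ) else 0) := by
          rw [Finset.sum_comm]
          apply Finset.sum_congr rfl
          intro k _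
          rw [Finset.sum_comm]
      _ ≤ ∑ k : Fin r, ∑ _S ∈ A k, g := by
          apply Finset.sum_le_sum
          intro k _
          apply Finset.sum_le_sum
          intro S hS
          have h3 := axis_count P g hg hg1 S (hA2 k S hS)
          rw [Finset.card_filter] at h3
          push_cast at h3
          exact h3
      _ ≤ ∑ _k : Fin r, b * g := by
          apply Finset.sum_le_sum
          intro k _
          rw [Finset.sum_const, nsmul_eq_mul]
          exact mul_le_mul_of_nonneg_right (hAb k) (by linarith only [hg1])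
      _ = r * (b * g) := by rw [Finset.sum_const, Finset.card_univ, Fintype.card_fin, nsmul_eq_mul]
  have h2 : ((P.filter (fun p => ¬ 16 * (badCl A p).card ≤ r)).card : ℝ) * r ≤
      16 * ∑ p ∈ P, ((badCl A p).card : ℝ) := by
    calc ((P.filter (fun p => ¬ 16 * (badCl A p).card ≤ r)).card : ℝ) * r
        = ∑ _p ∈ P.filter (fun p => ¬ 16 * (badCl A p).card ≤ r), (r:ℝ) := by
          rw [Finset.sum_const, nsmul_eq_mul]
      _ ≤ ∑ p ∈ P.filter (fun p => ¬ 16 * (badCl A p).card ≤ r), 16 * ((badCl A p).card : ℝ) := by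
          apply Finset.sum_le_sum
          intro p hp
          have h3 := (mem_filter.mp hp).2
          push Not at h3
          exact_mod_cast h3.le
      _ ≤ ∑ p ∈ P, 16 * ((badCl A p).card : ℝ) := by
          apply Finset.sum_le_sum_of_subset_of_nonneg (filter_subset _ _)
          intro p _ _
          (clear * -; positivity)
      _ = _ := by rw [Finset.mul_sum]
  have h3 : ((P.filter (fun p => ¬ 16 * (badCl A p).card ≤ r)).card : ℝ) * r ≤
      (16 * b * g) * r := by
    calc ((P.filter (fun p => ¬ 16 * (badCl A p).card ≤ r)).card : ℝ) * r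
        ≤ 16 * ∑ p ∈ P, ((badCl A p).card : ℝ) := h2
      _ ≤ 16 * (r * (b * g)) := by linarith only [h1]
      _ = _ := by ring
  exact le_of_mul_le_mul_right h3 hr'

end family

open scoped Classical in
/-- pigeonhole over the levels -/
theorem level_points {r : ℕ} (X : Fin r → Finset E3) (Good : Fin r → Finset (E3 × E3))
    (hdis : ∀ k l, k ≠ l → Disjoint (X k) (X l))
    (hGood : ∀ k, Good k ⊆ (X k).offDiag) (x : ℕ) (hx : ∀ k, (X k).card = x)
    (P₁ : Finset E3) (a Λ : ℝ) (hΛ : ((Nat.log 2 x + 1 : ℕ) : ℝ) ≤ Λ)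
    (ha : 0 < a) (hmass : ∀ p ∈ P₁,
      a ≤ ∑ k, (((Good k).filter (fun π => dualVec π ∈ hyp p)).card : ℝ)) :
    ∃ i l : ℕ, (P₁.card : ℝ) ≤ Λ ^ 2 * ((P₁.filter (fun p => a / Λ ^ 2 ≤
      (((TT X Good i l).filter (fun π => dist p π.1 = dist p π.2)).card : ℝ))).card : ℝ) := by
  set J := Nat.log 2 x + 1 with hJ
  have hJ1 : 1 ≤ J := by omega
  have hJ1' : (1:ℝ) ≤ J := by exact_mod_cast hJ1
  have hΛ0 : 0 < Λ := by linarith only [hΛ, hJ1']
  have hJJ : (J:ℝ) * J ≤ Λ ^ 2 := by rw [sq]; exact mul_le_mul hΛ hΛ (by positivity) hΛ0.le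
  set F : ℕ × ℕ → Finset E3 := fun il => P₁.filter (fun p => a / Λ ^ 2 ≤
      (((TT X Good il.1 il.2).filter (fun π => dist p π.1 = dist p π.2)).card : ℝ)) with hF
  set I := range J ×ˢ range J with hI
  have hIc : I.card = J * J := by rw [hI, card_product, card_range]
  have hcov : P₁ ⊆ I.biUnion F := by
    intro p hp
    by_contra hcon
    have h1 : ∀ il ∈ I, (((TT X Good il.1 il.2).filter (fun π => dualVec π ∈ hyp p)).card : ℝ)
        < a / Λ ^ 2 := by
      intro il hil
      by_contra h2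
      push Not at h2
      apply hcon
      rw [mem_biUnion]
      refine ⟨il, hil, ?_⟩
      rw [hF, mem_filter]
      refine ⟨hp, h2.trans (le_of_eq ?_)⟩
      congr 2
      apply Finset.filter_congr
      intro π _
      rw [dualVec_mem_hyp]
    have h2 := hmass p hp
    have h3 := mass_levels X Good hdis hGood x hx (fun π => dualVec π ∈ hyp p)
    rw [← Finset.sum_product'] at h3
    have h4 : ∑ k, (((Good k).filter (fun π => dualVec π ∈ hyp p)).card : ℝ) =
        ∑ il ∈ I, (((TT X Good il.1 il.2).filter (fun π => dualVec π ∈ hyp p)).card : ℝ) := by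
      exact_mod_cast h3
    rw [h4] at h2
    have hIne : I.Nonempty := by
      rw [← Finset.card_pos, hIc]; (clear * -; positivity)
    have h5 := Finset.sum_lt_sum_of_nonempty hIne h1
    rw [Finset.sum_const, hIc, nsmul_eq_mul] at h5
    have h6 : ((J * J : ℕ) : ℝ) * (a / Λ ^ 2) ≤ a := by
      push_cast
      calc (J:ℝ) * J * (a / Λ ^ 2) ≤ Λ ^ 2 * (a / Λ ^ 2) :=
            mul_le_mul_of_nonneg_right hJJ (by positivity)
        _ = a := by field_simp
    linarith only [h2, h5, h6]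
  by_contra hcon
  push Not at hcon
  have h1 : (P₁.card : ℝ) ≤ ∑ il ∈ I, ((F il).card : ℝ) := by
    exact_mod_cast (card_le_card hcov).trans card_biUnion_le
  rcases P₁.eq_empty_or_nonempty with h0 | h0
  · have h2 := hcon 0 0
    rw [h0] at h2
    simp only [filter_empty, card_empty, CharP.cast_eq_zero, mul_zero, lt_self_iff_false] at h2
  · have hP1 : (0:ℝ) < P₁.card := by exact_mod_cast Finset.card_pos.mpr h0
    have hIne : I.Nonempty := by
      rw [← Finset.card_pos, hIc]; (clear * -; positivity)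
    have h2 : Λ ^ 2 * ∑ il ∈ I, ((F il).card : ℝ) < ((J * J : ℕ) : ℝ) * P₁.card := by
      rw [Finset.mul_sum, ← hIc, ← nsmul_eq_mul, ← Finset.sum_const]
      apply Finset.sum_lt_sum_of_nonempty hIne
      intro il _
      exact hcon il.1 il.2
    have h3 : ((J * J : ℕ) : ℝ) * P₁.card ≤ Λ ^ 2 * P₁.card := by
      apply mul_le_mul_of_nonneg_right _ hP1.le
      push_cast
      exact hJJ
    have h4 : Λ ^ 2 * (P₁.card : ℝ) ≤ Λ ^ 2 * ∑ il ∈ I, ((F il).card : ℝ) :=
      mul_le_mul_of_nonneg_left h1 (by positivity)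
    linarith only [h2, h3, h4]

/-- final numerics -/
theorem space_numeric (K₁ Λ B n x s g ν₀ M m θ c ν : ℝ) (c₁ : ℕ) (hK₁ : 1 ≤ K₁) (hΛ : 1 ≤ Λ)
    (hB : 1 ≤ B) (hn : 0 < n) (hx : 0 < x) (hs : 0 < s) (hg : 1 ≤ g) (hν₀ : 1 ≤ ν₀) (hM : 0 ≤ M)
    (hc : 0 < c) (hν : 0 < ν) (hcx : c ≤ x) (hθ : θ = n / (4 * Λ ^ 2))
    (hm : m = ν * n * Λ / (s * c)) (h1 : M ≤ 2916 * c * n) (h2 : M * ν ≤ n * (B * x * ν₀)) :
    2 * Λ ^ 2 * (K₁ * Λ ^ c₁ * ((M / θ) ^ 3 * (m / θ) + (M / θ) ^ 2 +
        ((M / θ) ^ 2 * (m / θ) + M / θ) * g)) ≤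
      (2 ^ 34 * K₁) * (B * Λ) ^ (c₁ + 11) *
        (x ^ 2 * ν₀ / s + x ^ 2 + x * ν₀ * g / s + x * g) := by
  have hΛ0 : 0 < Λ := by linarith only [hΛ]
  set u : ℝ := M / n with hu
  have hu0 : 0 ≤ u := by (clear * - hn hM; positivity)
  have hu1 : u ≤ 2916 * c := by
    rw [hu, div_le_iff₀ hn]; linarith only [h1]
  have hu2 : u * ν ≤ B * x * ν₀ := by
    rw [hu, div_mul_eq_mul_div, div_le_iff₀ hn]; linarith only [h2]
  have eM : M / θ = 4 * Λ ^ 2 * u := by rw [hθ, hu]; field_simp
  have em : m / θ = 4 * Λ ^ 3 * (ν / (s * c)) := by rw [hm, hθ]; field_simp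
  have hux : u ≤ 2916 * x := by linarith only [hcx, hu1]
  have huc : u / c ≤ 2916 := by rw [div_le_iff₀ hc]; exact hu1
  have huc0 : 0 ≤ u / c := by (clear * - hn hM hc; positivity)
  -- the four terms
  have t1 : (M / θ) ^ 3 * (m / θ) ≤ 2 ^ 32 * Λ ^ 9 * (B * (x ^ 2 * ν₀ / s)) := by
    rw [eM, em]
    have e1 : (4 * Λ ^ 2 * u) ^ 3 * (4 * Λ ^ 3 * (ν / (s * c))) =
        256 * Λ ^ 9 * (u * (u * ν) * (u / c) / s) := by
      field_simp; ring
    rw [e1]
    have e2 : u * (u * ν) * (u / c) / s ≤ (2916 * x) * (B * x * ν₀) * 2916 / s := by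
      apply div_le_div_of_nonneg_right _ hs.le
      apply mul_le_mul _ huc huc0 (by positivity)
      exact mul_le_mul hux hu2 (by (clear * - hn hM hν; positivity)) (by positivity)
    calc 256 * Λ ^ 9 * (u * (u * ν) * (u / c) / s)
        ≤ 256 * Λ ^ 9 * ((2916 * x) * (B * x * ν₀) * 2916 / s) :=
          mul_le_mul_of_nonneg_left e2 (by positivity)
      _ = (256 * 2916 * 2916) * (Λ ^ 9 * (B * (x ^ 2 * ν₀ / s))) := by ring
      _ ≤ 2 ^ 32 * (Λ ^ 9 * (B * (x ^ 2 * ν₀ / s))) := by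
          apply mul_le_mul_of_nonneg_right (by norm_num) (by positivity)
      _ = _ := by ring
  have t2 : (M / θ) ^ 2 ≤ 2 ^ 32 * Λ ^ 9 * (B * x ^ 2) := by
    rw [eM]
    have e1 : (4 * Λ ^ 2 * u) ^ 2 = 16 * Λ ^ 4 * u ^ 2 := by ring
    rw [e1]
    have e2 : u ^ 2 ≤ (2916 * x) ^ 2 := pow_le_pow_left₀ hu0 hux 2
    have e3 : Λ ^ 4 ≤ Λ ^ 9 := pow_le_pow_right₀ hΛ (by norm_num)
    calc 16 * Λ ^ 4 * u ^ 2 ≤ 16 * Λ ^ 9 * (2916 * x) ^ 2 := by
          apply mul_le_mul _ e2 (by (clear * -; positivity)) (by positivity)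
          linarith only [e3]
      _ = (16 * 2916 * 2916) * (Λ ^ 9 * x ^ 2) * 1 := by ring
      _ ≤ 2 ^ 32 * (Λ ^ 9 * x ^ 2) * B := by
          apply mul_le_mul _ hB (by norm_num) (by positivity)
          apply mul_le_mul_of_nonneg_right (by norm_num) (by positivity)
      _ = _ := by ring
  have t3 : (M / θ) ^ 2 * (m / θ) ≤ 2 ^ 32 * Λ ^ 9 * (B * (x * ν₀ / s)) := by
    rw [eM, em]
    have e1 : (4 * Λ ^ 2 * u) ^ 2 * (4 * Λ ^ 3 * (ν / (s * c))) =
        64 * Λ ^ 7 * ((u * ν) * (u / c) / s) := by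
      field_simp; ring
    rw [e1]
    have e2 : (u * ν) * (u / c) / s ≤ (B * x * ν₀) * 2916 / s := by
      apply div_le_div_of_nonneg_right _ hs.le
      exact mul_le_mul hu2 huc huc0 (by positivity)
    have e3 : Λ ^ 7 ≤ Λ ^ 9 := pow_le_pow_right₀ hΛ (by norm_num)
    calc 64 * Λ ^ 7 * ((u * ν) * (u / c) / s)
        ≤ 64 * Λ ^ 9 * ((B * x * ν₀) * 2916 / s) := by
          apply mul_le_mul _ e2 (by (clear * - hn hs hM hc hν; positivity)) (by positivity)
          linarith only [e3]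
      _ = (64 * 2916) * (Λ ^ 9 * (B * (x * ν₀ / s))) := by ring
      _ ≤ 2 ^ 32 * (Λ ^ 9 * (B * (x * ν₀ / s))) := by
          apply mul_le_mul_of_nonneg_right (by norm_num) (by positivity)
      _ = _ := by ring
  have t4 : M / θ ≤ 2 ^ 32 * Λ ^ 9 * (B * x) := by
    rw [eM]
    have e3 : Λ ^ 2 ≤ Λ ^ 9 := pow_le_pow_right₀ hΛ (by norm_num)
    calc 4 * Λ ^ 2 * u ≤ 4 * Λ ^ 9 * (2916 * x) := by
          apply mul_le_mul _ hux hu0 (by positivity)
          linarith only [e3]
      _ = (4 * 2916) * (Λ ^ 9 * x) * 1 := by ring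
      _ ≤ 2 ^ 32 * (Λ ^ 9 * x) * B := by
          apply mul_le_mul _ hB (by norm_num) (by positivity)
          apply mul_le_mul_of_nonneg_right (by norm_num) (by positivity)
      _ = _ := by ring
  have hg0 : 0 < g := by linarith only [hg]
  have tot : (M / θ) ^ 3 * (m / θ) + (M / θ) ^ 2 + ((M / θ) ^ 2 * (m / θ) + M / θ) * g ≤
      2 ^ 32 * Λ ^ 9 * (B * (x ^ 2 * ν₀ / s + x ^ 2 + x * ν₀ * g / s + x * g)) := by
    have t34 : ((M / θ) ^ 2 * (m / θ) + M / θ) * g ≤
        (2 ^ 32 * Λ ^ 9 * (B * (x * ν₀ / s)) + 2 ^ 32 * Λ ^ 9 * (B * x)) * g :=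
      mul_le_mul_of_nonneg_right (add_le_add t3 t4) hg0.le
    have e : 2 ^ 32 * Λ ^ 9 * (B * (x ^ 2 * ν₀ / s + x ^ 2 + x * ν₀ * g / s + x * g)) =
        2 ^ 32 * Λ ^ 9 * (B * (x ^ 2 * ν₀ / s)) + 2 ^ 32 * Λ ^ 9 * (B * x ^ 2) +
        (2 ^ 32 * Λ ^ 9 * (B * (x * ν₀ / s)) + 2 ^ 32 * Λ ^ 9 * (B * x)) * g := by ring
    rw [e]
    linarith only [t1, t2, t34]
  set W : ℝ := x ^ 2 * ν₀ / s + x ^ 2 + x * ν₀ * g / s + x * g with hW
  have hW0 : 0 ≤ W := by positivity
  calc 2 * Λ ^ 2 * (K₁ * Λ ^ c₁ * ((M / θ) ^ 3 * (m / θ) + (M / θ) ^ 2 +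
        ((M / θ) ^ 2 * (m / θ) + M / θ) * g))
      ≤ 2 * Λ ^ 2 * (K₁ * Λ ^ c₁ * (2 ^ 32 * Λ ^ 9 * (B * W))) := by
        apply mul_le_mul_of_nonneg_left _ (by positivity)
        exact mul_le_mul_of_nonneg_left tot (by positivity)
    _ = 2 ^ 33 * K₁ * (B * Λ ^ (c₁ + 11)) * W := by ring
    _ ≤ (2 ^ 34 * K₁) * (B * Λ) ^ (c₁ + 11) * W := by
        apply mul_le_mul_of_nonneg_right _ hW0
        apply mul_le_mul
        · have : 0 < K₁ := by linarith only [hK₁]
          linarith only [hK₁]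
        · rw [mul_pow]
          apply mul_le_mul_of_nonneg_right _ (by positivity)
          calc B = B ^ 1 := (pow_one B).symm
            _ ≤ B ^ (c₁ + 11) := pow_le_pow_right₀ hB (by omega)
        · positivity
        · positivity

end Vale.Agent.P054K
end
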