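import Vale.Agent.P054.MathlibUsed
import Vale.Agent.P054.Bdl.B3
import Vale.Agent.P054.Bdl.B2

set_option linter.all false

section

set_option autoImplicit false

open Finset

namespace Vale.Agent.P054K

open scoped Classical in
/-- number of patterns of affine half spaces on a coset -/
theorem coset_patterns {V J : Type} [AddCommGroup V] [Module ℝ V] [FiniteDimensional ℝ V]
    [Fintype J] (A : Submodule ℝ V) (Y : Finset V) (y₀ : V) (hY : ∀ y ∈ Y, y - y₀ ∈ A)
    (b : J → V →ₗ[ℝ] ℝ) (c : J → ℝ) :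
    (Y.image (fun y => fun j => decide (b j y ≤ c j))).card ≤
      2 * (2 * Fintype.card J + 1) ^ (Module.finrank ℝ A) := by
  set w := Module.finrank ℝ A with hw
  have hfr : Module.finrank ℝ A = Module.finrank ℝ (EuclideanSpace ℝ (Fin w)) := by
    rw [finrank_euclideanSpace_fin]
  let φ : A ≃ₗ[ℝ] EuclideanSpace ℝ (Fin w) := LinearEquiv.ofFinrankEq _ _ hfr
  set f : V → EuclideanSpace ℝ (Fin w) := fun y => if h : y - y₀ ∈ A then φ ⟨y - y₀, h⟩ else 0
    with hf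
  set β : J → EuclideanSpace ℝ (Fin w) := fun j =>
    (InnerProductSpace.toDual ℝ (EuclideanSpace ℝ (Fin w))).symm
      (LinearMap.toContinuousLinearMap (((b j).comp A.subtype).comp (φ.symm : _ →ₗ[ℝ] A))) with hβ
  have hβ2 : ∀ j, ∀ x : EuclideanSpace ℝ (Fin w), inner ℝ (β j) x = b j (φ.symm x : A) := by
    intro j x
    simp only [hβ]
    rw [InnerProductSpace.toDual_symm_apply]
    simp
  have hval : ∀ j, ∀ y ∈ Y, b j y = inner ℝ (β j) (f y) + b j y₀ := by
    intro j y hy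
    have h1 := hY y hy
    rw [hβ2]
    simp only [hf]
    rw [dif_pos h1]
    rw [LinearEquiv.symm_apply_apply]
    simp only
    rw [map_sub]; ring
  have h := quad_cells w J (fun _ => 0) β (fun j => b j y₀ - c j) (Y.image f)
  refine le_trans (le_of_eq ?_) h
  congr 1
  rw [Finset.image_image]
  apply Finset.image_congr
  intro y hy
  funext j
  simp only [Function.comp]
  have h1 := hval j y hy
  rw [h1]
  congr 1
  rw [eq_iff_iff]
  constructor <;> intro h2 <;> linarith only [h2]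

/-- a fibre of the quotient map has few points -/
theorem fib_bound {V β : Type} [AddCommGroup V] [Module ℝ V] [FiniteDimensional ℝ V]
    (B : Finset β) (b : β → V →ₗ[ℝ] ℝ) (t : ℕ) (hker : (⨅ p ∈ B, LinearMap.ker (b p)) = ⊥)
    (w : ℕ) : open scoped Classical in ∀ (A : Submodule ℝ V), Module.finrank ℝ A = w →
    ∀ Y : Finset V, (∀ p ∈ B, (Y.image (b p)).card ≤ t) →
      (∀ y ∈ Y, ∀ y' ∈ Y, y - y' ∈ A) → Y.card ≤ t ^ w := by
  classical
  induction w with
  | zero =>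
    intro A hA Y _ hYA
    rw [pow_zero, Finset.card_le_one]
    intro a ha a' ha'
    have h1 := hYA a ha a' ha'
    rw [Submodule.finrank_eq_zero.mp hA, Submodule.mem_bot, sub_eq_zero] at h1
    exact h1
  | succ w ih =>
    intro A hA Y hYt hYA
    have hex : ∃ p ∈ B, ¬ A ≤ LinearMap.ker (b p) := by
      by_contra hcon
      push Not at hcon
      have h1 : A ≤ ⨅ p ∈ B, LinearMap.ker (b p) := le_iInf₂ hcon
      rw [hker, le_bot_iff] at h1
      rw [h1, finrank_bot] at hA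
      omega
    obtain ⟨p, hp, hpA⟩ := hex
    set A1 : Submodule ℝ V := A ⊓ LinearMap.ker (b p) with hA1
    have hfr : Module.finrank ℝ A1 = w := by
      have h1 := LinearMap.finrank_range_add_finrank_ker ((b p).comp A.subtype)
      have h2 : LinearMap.range ((b p).comp A.subtype) = ⊤ := by
        rw [LinearMap.range_eq_top]
        rw [SetLike.not_le_iff_exists] at hpA
        obtain ⟨a, ha, ha0⟩ := hpA
        rw [LinearMap.mem_ker] at ha0
        intro y
        refine ⟨(y / b p a) • ⟨a, ha⟩, ?_⟩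
        rw [map_smul, smul_eq_mul]
        change y / b p a * b p a = y
        rw [div_mul_cancel₀ _ ha0]
      have h3 : Module.finrank ℝ (LinearMap.ker ((b p).comp A.subtype)) = Module.finrank ℝ A1 := by
        have h4 : (LinearMap.ker ((b p).comp A.subtype)).map A.subtype = A1 := by
          ext y
          rw [Submodule.mem_map, hA1, Submodule.mem_inf]
          constructor
          · rintro ⟨a, ha, rfl⟩
            exact ⟨a.2, ha⟩
          · rintro ⟨h5, h6⟩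
            exact ⟨⟨y, h5⟩, h6, rfl⟩
        rw [← h4]
        exact (Submodule.finrank_map_subtype_eq A _).symm
      rw [h2, finrank_top, Module.finrank_self, h3, hA] at h1
      omega
    have hcard : Y.card ≤ ∑ v ∈ Y.image (b p), t ^ w := by
      rw [Finset.card_eq_sum_card_image (b p) Y]
      apply Finset.sum_le_sum
      intro v _
      apply ih A1 hfr
      · intro p' hp'
        refine le_trans (card_le_card ?_) (hYt p' hp')
        exact image_subset_image (filter_subset _ _)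
      · intro y hy y' hy'
        rw [mem_filter] at hy hy'
        rw [hA1, Submodule.mem_inf]
        refine ⟨hYA y hy.1 y' hy'.1, ?_⟩
        rw [LinearMap.mem_ker, map_sub, hy.2, hy'.2, sub_self]
    rw [Finset.sum_const, smul_eq_mul] at hcard
    calc Y.card ≤ _ := hcard
      _ ≤ t * t ^ w := Nat.mul_le_mul_right _ (hYt p hp)
      _ = t ^ (w + 1) := by ring

/-- the functional induced on the quotient -/
noncomputable def quotF {V : Type} [AddCommGroup V] [Module ℝ V] (A : Submodule ℝ V)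
    (f : V →ₗ[ℝ] ℝ) : (V ⧸ A) →ₗ[ℝ] ℝ :=
  open scoped Classical in if h : A ≤ LinearMap.ker f then A.liftQ f h else 0

theorem quotF_apply {V : Type} [AddCommGroup V] [Module ℝ V] (A : Submodule ℝ V)
    (f : V →ₗ[ℝ] ℝ) (h : A ≤ LinearMap.ker f) (v : V) : quotF A f (A.mkQ v) = f v := by
  unfold quotF
  rw [dif_pos h]
  simp

/-- the linear layer in dimension `D` -/
def L1 (D : ℕ) (K : ℝ) (c : ℕ) : Prop :=
  open scoped Classical in
  ∀ (V β : Type) [AddCommGroup V] [Module ℝ V] [FiniteDimensional ℝ V] (B : Finset β)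
    (b : β → V →ₗ[ℝ] ℝ) (Z : Finset V) (t l I : ℕ) (N : ℝ),
    Module.finrank ℝ V = D → 1 ≤ t → 1 ≤ N → 2 * Real.log N + 1 ≤ l → 2 ^ (I + 1) ≤ l →
    16 * (2 * Real.log N + 1) * (t + 2) ≤ (l:ℝ) ^ I →
    (Z.card : ℝ) ≤ N → (B.card : ℝ) * t ≤ N →
    (∀ p ∈ B, b p ≠ 0) → (⨅ p ∈ B, LinearMap.ker (b p)) = ⊥ →
    (∀ p ∈ B, (Z.image (b p)).card ≤ t) →
    (∀ A : Submodule ℝ V, A < ⊤ → ((B.filter (fun p => A ≤ LinearMap.ker (b p))).card : ℝ) ≤
      l * (t:ℝ) ^ (Module.finrank ℝ V - Module.finrank ℝ A - 1)) →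
    (B.card : ℝ) * Z.card ≤ K * (l:ℝ) ^ c * (t:ℝ) ^ D

theorem L1.mono {D : ℕ} {K K' : ℝ} {c c' : ℕ} (h : L1 D K c) (hK0 : 0 ≤ K) (hK : K ≤ K')
    (hc : c ≤ c') : L1 D K' c' := by
  intro V β _ _ _ B b Z t l I N h1 h2 h3 h4 h5 h6 h7 h8 h9 h10 h11 h12
  refine (h V β B b Z t l I N h1 h2 h3 h4 h5 h6 h7 h8 h9 h10 h11 h12).trans ?_
  have hl : (1:ℝ) ≤ l := by
    have h13 : 1 ≤ 2 ^ (I + 1) := Nat.one_le_two_pow
    exact_mod_cast h13.trans h5
  apply mul_le_mul_of_nonneg_right _ (by positivity)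
  apply mul_le_mul hK (pow_le_pow_right₀ hl hc) (by (clear * - hl; positivity)) (by linarith only [hK0, hK])

open scoped Classical in
/-- the linear layer applied on a quotient -/
theorem L1_quot {D' : ℕ} {K : ℝ} {c : ℕ} (hL : L1 D' K c) {V α β : Type} [AddCommGroup V]
    [Module ℝ V] [FiniteDimensional ℝ V] (B : Finset β) (b : β → V →ₗ[ℝ] ℝ) (Z : Finset α)
    (ψ : α → V) (t l I : ℕ) (N : ℝ) (A : Submodule ℝ V) (hA : A = ⨅ p ∈ B, LinearMap.ker (b p))
    (hD : Module.finrank ℝ V = D' + Module.finrank ℝ A) (ht : 1 ≤ t) (hN : 1 ≤ N)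
    (h4 : 2 * Real.log N + 1 ≤ l) (h5 : 2 ^ (I + 1) ≤ l)
    (h6 : 16 * (2 * Real.log N + 1) * (t + 2) ≤ (l:ℝ) ^ I)
    (h7 : (Z.card : ℝ) ≤ N) (h8 : (B.card : ℝ) * t ≤ N) (h9 : ∀ p ∈ B, b p ≠ 0)
    (h11 : ∀ p ∈ B, (Z.image (fun q => b p (ψ q))).card ≤ t)
    (h12 : ∀ C : Submodule ℝ V, A ≤ C → C < ⊤ →
      ((B.filter (fun p => C ≤ LinearMap.ker (b p))).card : ℝ) ≤
      l * (t:ℝ) ^ (Module.finrank ℝ V - Module.finrank ℝ C - 1)) :
    (B.card : ℝ) * ncos Z ψ A ≤ K * (l:ℝ) ^ c * (t:ℝ) ^ D' := by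
  have hAp : ∀ p ∈ B, A ≤ LinearMap.ker (b p) := by
    intro p hp
    rw [hA]
    exact iInf₂_le p hp
  have hfr : Module.finrank ℝ (V ⧸ A) = D' := by
    have := Submodule.finrank_quotient_add_finrank A
    omega
  have h := hL (V ⧸ A) β B (fun p => quotF A (b p)) (Z.image (fun q => A.mkQ (ψ q))) t l I N hfr ht
    hN h4 h5 h6 (le_trans (by exact_mod_cast card_image_le) h7) h8
    (by
      intro p hp h0
      apply h9 p hp
      ext v
      rw [← quotF_apply A (b p) (hAp p hp) v, h0]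
      rfl)
    (by
      rw [eq_bot_iff]
      intro y hy
      obtain ⟨v, rfl⟩ := A.mkQ_surjective y
      rw [Submodule.mem_bot]
      have h1 : v ∈ A := by
        rw [hA]
        simp only [Submodule.mem_iInf] at hy ⊢
        intro p hp
        have h2 := hy p hp
        rw [LinearMap.mem_ker, quotF_apply A (b p) (hAp p hp)] at h2
        exact h2
      rw [Submodule.mkQ_apply, Submodule.Quotient.mk_eq_zero]
      exact h1)
    (by
      intro p hp
      have h1 : (Z.image (fun q => A.mkQ (ψ q))).image (quotF A (b p))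
          = Z.image (fun q => b p (ψ q)) := by
        rw [Finset.image_image]
        apply Finset.image_congr
        intro q _
        exact quotF_apply A (b p) (hAp p hp) (ψ q)
      rw [h1]
      exact h11 p hp)
    (by
      intro C' hC'
      set C : Submodule ℝ V := C'.comap A.mkQ with hC
      have hAC : A ≤ C := by
        intro a ha
        rw [hC, Submodule.mem_comap]
        have : A.mkQ a = 0 := by
          rw [Submodule.mkQ_apply, Submodule.Quotient.mk_eq_zero]; exact ha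
        rw [this]; exact Submodule.zero_mem _
      have hCtop : C < ⊤ := by
        rw [lt_top_iff_ne_top]
        intro h1
        apply hC'.ne
        rw [eq_top_iff]
        intro y _
        obtain ⟨v, rfl⟩ := A.mkQ_surjective y
        have : v ∈ C := by rw [h1]; exact Submodule.mem_top
        exact this
      have hfC : Module.finrank ℝ C = Module.finrank ℝ C' + Module.finrank ℝ A := by
        have h1 := LinearMap.finrank_range_add_finrank_ker (A.mkQ.comp C.subtype)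
        have h2 : LinearMap.range (A.mkQ.comp C.subtype) = C' := by
          rw [LinearMap.range_comp, Submodule.range_subtype, hC,
            Submodule.map_comap_eq_of_surjective A.mkQ_surjective]
        have h3 : Module.finrank ℝ (LinearMap.ker (A.mkQ.comp C.subtype)) = Module.finrank ℝ A := by
          rw [LinearMap.ker_comp, Submodule.ker_mkQ]
          exact LinearEquiv.finrank_eq (Submodule.comapSubtypeEquivOfLe hAC)
        rw [h2, h3] at h1
        exact h1.symm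
      have h1 := h12 C hAC hCtop
      have h2 : Module.finrank ℝ (V ⧸ A) - Module.finrank ℝ C' - 1
          = Module.finrank ℝ V - Module.finrank ℝ C - 1 := by
        rw [hfr, hfC, hD]; (clear * - hfr; omega)
      rw [h2]
      refine le_trans ?_ h1
      have h3 : B.filter (fun p => C' ≤ LinearMap.ker (quotF A (b p))) ⊆
          B.filter (fun p => C ≤ LinearMap.ker (b p)) := by
        intro p hp
        rw [mem_filter] at hp ⊢
        refine ⟨hp.1, ?_⟩
        intro v hv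
        rw [hC, Submodule.mem_comap] at hv
        have h4 := hp.2 hv
        rw [LinearMap.mem_ker, quotF_apply A (b p) (hAp p hp.1)] at h4
        exact h4
      exact_mod_cast card_le_card h3)
  unfold ncos
  convert h

open scoped Classical in
/-- a good top scale gives a pair separated by few ranges -/
theorem top_good {α ι : Type} (Z : Finset α) (S : Finset ι) (Rg : ι → α → Bool) (s : ℕ)
    (hZ : Z.Nonempty) (h : Gd Z Z S Rg s 2) (w : ι → ℝ) (hw : ∀ σ ∈ S, 0 < w σ) :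
    ∃ z ∈ Z, ∃ z' ∈ Z, z ≠ z' ∧
      ∑ σ ∈ S with Rg σ z ≠ Rg σ z', w σ ≤ ((2 * Real.log Z.card + 1) / s) * ∑ σ ∈ S, w σ := by
  obtain ⟨g, ⟨_, hnet⟩, hc⟩ := h w hw
  have h1 : 0 < (Z.filter (fun y =>
      2 ≤ (Z.filter (fun z => (fun k => Rg (g k) z) = (fun k => Rg (g k) y))).card)).card := by
    have := hZ.card_pos
    omega
  rw [card_pos] at h1
  obtain ⟨y, hy⟩ := h1
  rw [mem_filter] at hy
  obtain ⟨a, ha, b, hb, hab⟩ := Finset.one_lt_card.mp (show 1 < _ from hy.2)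
  rw [mem_filter] at ha hb
  refine ⟨a, ha.1, b, hb.1, hab, ?_⟩
  refine (le_of_eq ?_).trans (hnet a ha.1 b hb.1 (fun k => ?_))
  · congr
  · exact congrFun (ha.2.trans hb.2.symm) k

end Vale.Agent.P054K
end

section

set_option autoImplicit false

open Finset

namespace Vale.Agent.P054K

/-- half space ranges of the linear layer -/
noncomputable def linRg {V β : Type} [AddCommGroup V] [Module ℝ V] (b : β → V →ₗ[ℝ] ℝ)
    (σ : β × ℝ) (y : V) : Bool :=
  open scoped Classical in decide (b σ.1 y ≤ σ.2)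

/-- set of the ranges of the linear layer -/
noncomputable def linS {V β : Type} [AddCommGroup V] [Module ℝ V] (B : Finset β)
    (b : β → V →ₗ[ℝ] ℝ) (Z : Finset V) : Finset (β × ℝ) :=
  open scoped Classical in
  B.biUnion (fun p => (Z.image (b p)).image (fun c => (p, c)))

open scoped Classical in
theorem mem_linS {V β : Type} [AddCommGroup V] [Module ℝ V] (B : Finset β)
    (b : β → V →ₗ[ℝ] ℝ) (Z : Finset V) (σ : β × ℝ) :
    σ ∈ linS B b Z ↔ σ.1 ∈ B ∧ σ.2 ∈ Z.image (b σ.1) := by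
  unfold linS
  rw [mem_biUnion]
  constructor
  · rintro ⟨p, hp, h⟩
    rw [mem_image] at h
    obtain ⟨c, hc, rfl⟩ := h
    exact ⟨hp, hc⟩
  · rintro ⟨h1, h2⟩
    exact ⟨σ.1, h1, mem_image.mpr ⟨σ.2, h2, rfl⟩⟩

open scoped Classical in
theorem card_linS {V β : Type} [AddCommGroup V] [Module ℝ V] (B : Finset β)
    (b : β → V →ₗ[ℝ] ℝ) (Z : Finset V) (t : ℕ) (h : ∀ p ∈ B, (Z.image (b p)).card ≤ t) :
    (linS B b Z).card ≤ B.card * t := by
  unfold linS
  calc _ ≤ ∑ p ∈ B, ((Z.image (b p)).image (fun c => (p, c))).card := card_biUnion_le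
    _ ≤ ∑ _p ∈ B, t := Finset.sum_le_sum (fun p hp => card_image_le.trans (h p hp))
    _ = B.card * t := by rw [Finset.sum_const, smul_eq_mul]

theorem linRg_eq {V β : Type} [AddCommGroup V] [Module ℝ V] (b : β → V →ₗ[ℝ] ℝ)
    (σ : β × ℝ) (y : V) : linRg b σ y = true ↔ b σ.1 y ≤ σ.2 := by
  unfold linRg
  rw [decide_eq_true_iff]

open scoped Classical in
theorem L1_caseB {D : ℕ} {K' : ℝ} {c' : ℕ} (ih : ∀ D' < D, L1 D' K' c')
    {V β : Type} [AddCommGroup V] [Module ℝ V] [FiniteDimensional ℝ V] (B : Finset β)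
    (b : β → V →ₗ[ℝ] ℝ) (Z : Finset V) (t l I : ℕ) (N : ℝ)
    (hfr : Module.finrank ℝ V = D) (ht : 1 ≤ t) (hN : 1 ≤ N) (h4 : 2 * Real.log N + 1 ≤ l)
    (h5 : 2 ^ (I + 1) ≤ l) (h6 : 16 * (2 * Real.log N + 1) * (t + 2) ≤ (l:ℝ) ^ I)
    (h7 : (Z.card : ℝ) ≤ N) (h8 : (B.card : ℝ) * t ≤ N) (h9 : ∀ p ∈ B, b p ≠ 0)
    (h10 : (⨅ p ∈ B, LinearMap.ker (b p)) = ⊥) (h11 : ∀ p ∈ B, (Z.image (b p)).card ≤ t)
    (h12 : ∀ A : Submodule ℝ V, A < ⊤ → ((B.filter (fun p => A ≤ LinearMap.ker (b p))).card : ℝ) ≤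
      l * (t:ℝ) ^ (Module.finrank ℝ V - Module.finrank ℝ A - 1))
    (s : ℕ) (hs : 16 * (2 * Real.log N + 1) * (t + 2) ≤ s) (hZ : Z.Nonempty)
    (hgd : Gd Z Z (linS B b Z) (linRg b) s 2) :
    (B.card : ℝ) * Z.card ≤ 2 * K' * (l:ℝ) ^ c' * (t:ℝ) ^ D := by
  obtain ⟨z, hz, z', hz', hne, hsep⟩ := top_good Z (linS B b Z) (linRg b) s hZ hgd (fun _ => 1)
    (fun _ _ => one_pos)
  have hZ1 : (1:ℝ) ≤ Z.card := by exact_mod_cast hZ.card_pos
  have hlogZ : Real.log Z.card ≤ Real.log N := Real.log_le_log (by linarith only [hZ1]) h7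
  have hlogZ0 : 0 ≤ Real.log Z.card := Real.log_nonneg hZ1
  have ht' : (1:ℝ) ≤ t := by exact_mod_cast ht
  have hΛ : 1 ≤ 2 * Real.log N + 1 := by linarith only [hlogZ, hlogZ0]
  have hs0 : (0:ℝ) < s := lt_of_lt_of_le (by (clear * - ht hΛ; positivity)) hs
  rw [Finset.sum_const, Finset.sum_const, nsmul_eq_mul, mul_one, nsmul_eq_mul, mul_one] at hsep
  set Bad := B.filter (fun p => b p z ≠ b p z') with hBad
  set B' := B.filter (fun p => b p z = b p z') with hB'
  have hsplit : B'.card + Bad.card = B.card := Finset.card_filter_add_card_filter_not _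
  have hinj : Bad.card ≤ ((linS B b Z).filter (fun σ => linRg b σ z ≠ linRg b σ z')).card := by
    apply Finset.card_le_card_of_injOn (fun p => (p, min (b p z) (b p z')))
    · intro p hp
      rw [mem_coe, hBad, mem_filter] at hp
      rw [mem_coe, mem_filter, mem_linS]
      refine ⟨⟨hp.1, ?_⟩, ?_⟩
      · simp only
        rcases min_choice (b p z) (b p z') with h | h
        · rw [h]; exact mem_image_of_mem _ hz
        · rw [h]; exact mem_image_of_mem _ hz'
      · intro h1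
        apply hp.2
        have h2 := linRg_eq b (p, min (b p z) (b p z')) z
        have h3 := linRg_eq b (p, min (b p z) (b p z')) z'
        simp only at h2 h3
        rw [h1] at h2
        rw [h2] at h3
        rcases le_total (b p z) (b p z') with h | h
        · rw [min_eq_left h] at h3
          exact le_antisymm h (h3.mp le_rfl)
        · rw [min_eq_right h] at h3
          exact le_antisymm (h3.mpr le_rfl) h
    · intro p _ p' _ hpp
      exact (Prod.mk.injEq _ _ _ _ ▸ hpp).1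
  have hBadle : (Bad.card : ℝ) ≤ B.card / 2 := by
    have h1a : (Bad.card : ℝ) ≤
        (((linS B b Z).filter (fun σ => linRg b σ z ≠ linRg b σ z')).card : ℝ) := by
      exact_mod_cast hinj
    have h1 : (Bad.card : ℝ) ≤ ((2 * Real.log Z.card + 1) / s) * (linS B b Z).card :=
      h1a.trans hsep
    have h2 : ((linS B b Z).card : ℝ) ≤ B.card * t := by exact_mod_cast card_linS B b Z t h11
    refine h1.trans ?_
    have h3 : (2 * Real.log Z.card + 1) / s * (t:ℝ) ≤ 1 / 2 := by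
      rw [div_mul_eq_mul_div, div_le_iff₀ hs0]
      nlinarith only [hs, hlogZ, hlogZ0]
    calc (2 * Real.log Z.card + 1) / s * ((linS B b Z).card : ℝ)
        ≤ (2 * Real.log Z.card + 1) / s * (B.card * t) :=
          mul_le_mul_of_nonneg_left h2 (by (clear * - hs0; positivity))
      _ = ((2 * Real.log Z.card + 1) / s * (t:ℝ)) * B.card := by ring
      _ ≤ (1 / 2) * B.card := mul_le_mul_of_nonneg_right h3 (by (clear * -; positivity))
      _ = B.card / 2 := by ring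
  have hB'ge : (B.card : ℝ) ≤ 2 * B'.card := by
    have : (B'.card : ℝ) + Bad.card = B.card := by exact_mod_cast hsplit
    linarith only [hBadle, this]
  set A : Submodule ℝ V := ⨅ p ∈ B', LinearMap.ker (b p) with hA
  have hzA : z - z' ∈ A := by
    rw [hA]
    simp only [Submodule.mem_iInf]
    intro p hp
    rw [LinearMap.mem_ker, map_sub, (mem_filter.mp hp).2, sub_self]
  have hAfr : 1 ≤ Module.finrank ℝ A := by
    by_contra hcon
    have h0 : Module.finrank ℝ A = 0 := by omega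
    rw [Submodule.finrank_eq_zero.mp h0, Submodule.mem_bot, sub_eq_zero] at hzA
    exact hne hzA
  have hAle : Module.finrank ℝ A ≤ D := by rw [← hfr]; exact Submodule.finrank_le A
  have hB'sub : B' ⊆ B := filter_subset _ _
  have hmain := L1_quot (ih (D - Module.finrank ℝ A) (by (clear * - hAfr hAle; omega))) B' b Z (fun q => q) t l I N A hA
    (by rw [hfr]; omega) ht hN h4 h5 h6 h7
    (le_trans (mul_le_mul_of_nonneg_right (by exact_mod_cast card_le_card hB'sub) (by positivity)) h8)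
    (fun p hp => h9 p (hB'sub hp)) (fun p hp => h11 p (hB'sub hp))
    (fun C _ hC => le_trans (by exact_mod_cast card_le_card (filter_subset_filter _ hB'sub))
      (h12 C hC))
  have hfib : Z.card ≤ ncos Z (fun q => q) A * t ^ (Module.finrank ℝ A) := by
    unfold ncos
    rw [Finset.card_eq_sum_card_image (fun q => A.mkQ q) Z]
    calc _ ≤ ∑ v ∈ Z.image (fun q => A.mkQ q), t ^ (Module.finrank ℝ A) := by
          apply Finset.sum_le_sum
          intro v _
          apply fib_bound B b t h10 _ A rfl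
          · intro p hp
            exact (card_le_card (image_subset_image (filter_subset _ _))).trans (h11 p hp)
          · intro y hy y' hy'
            rw [mem_filter] at hy hy'
            have h1 := hy.2.trans hy'.2.symm
            rw [Submodule.mkQ_apply, Submodule.mkQ_apply, Submodule.Quotient.eq] at h1
            exact h1
      _ = _ := by rw [Finset.sum_const, smul_eq_mul]
  have hfib' : (Z.card : ℝ) ≤ ncos Z (fun q => q) A * (t:ℝ) ^ (Module.finrank ℝ A) := by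
    exact_mod_cast hfib
  calc (B.card : ℝ) * Z.card ≤ (2 * B'.card) * (ncos Z (fun q => q) A * (t:ℝ) ^ (Module.finrank ℝ A)) :=
        mul_le_mul hB'ge hfib' (by (clear * - ih hfr hZ hAle hmain; positivity)) (by (clear * -; positivity))
    _ = 2 * (B'.card * ncos Z (fun q => q) A) * (t:ℝ) ^ (Module.finrank ℝ A) := by ring
    _ ≤ 2 * (K' * (l:ℝ) ^ c' * (t:ℝ) ^ (D - Module.finrank ℝ A)) * (t:ℝ) ^ (Module.finrank ℝ A) := by
        apply mul_le_mul_of_nonneg_right _ (by positivity)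
        linarith only [hmain]
    _ = 2 * K' * (l:ℝ) ^ c' * ((t:ℝ) ^ (D - Module.finrank ℝ A) * (t:ℝ) ^ (Module.finrank ℝ A)) := by
        ring
    _ = 2 * K' * (l:ℝ) ^ c' * (t:ℝ) ^ D := by
        rw [← pow_add]; congr 2; omega

/-- numerics: changing the dimension of the flat -/
theorem num1 (D w w' : ℕ) (hw : w ≤ w') (hw' : w' ≤ D) (s t L : ℝ) (hs : 0 ≤ s) (ht : 1 ≤ t)
    (hL : 1 ≤ L) (hst : s ≤ L * t) :
    s ^ w' * t ^ (D - w') ≤ s ^ w * t ^ (D - w) * L ^ D := by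
  obtain ⟨u, rfl⟩ : ∃ u, w' = w + u := ⟨w' - w, by omega⟩
  obtain ⟨v, rfl⟩ : ∃ v, D = w + u + v := ⟨D - (w + u), by omega⟩
  have e1 : w + u + v - (w + u) = v := by omega
  have e2 : w + u + v - w = u + v := by omega
  rw [e1, e2, pow_add s w u, pow_add t u v]
  have h1 : s ^ u ≤ (L * t) ^ u := pow_le_pow_left₀ hs hst u
  rw [mul_pow] at h1
  have h2 : L ^ u ≤ L ^ (w + u + v) := pow_le_pow_right₀ hL (by omega)
  calc s ^ w * s ^ u * t ^ v ≤ s ^ w * (L ^ u * t ^ u) * t ^ v := by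
        apply mul_le_mul_of_nonneg_right _ (by positivity)
        exact mul_le_mul_of_nonneg_left h1 (by positivity)
    _ = (s ^ w * (t ^ u * t ^ v)) * L ^ u := by ring
    _ ≤ (s ^ w * (t ^ u * t ^ v)) * L ^ (w + u + v) := mul_le_mul_of_nonneg_left h2 (by positivity)

/-- numerics: the number of subspaces times the fibre bound -/
theorem num2 (D w j : ℕ) (hw1 : 1 ≤ w) (hwD : w ≤ D) (s t G E : ℝ) (hs : 0 < s) (ht : 1 ≤ t)
    (hG : 1 ≤ G) (hE : 0 ≤ E) :
    (G * (t / s) / 2 ^ j) ^ w * (2 * 2 ^ j * (E * (s ^ w * t ^ (D - w)))) ≤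
      2 * G ^ D * E * t ^ D := by
  have ht0 : 0 < t := by linarith only [ht]
  have h2j : (1:ℝ) ≤ 2 ^ j := one_le_pow₀ (by norm_num)
  have h1 : (G * (t / s) / 2 ^ j) ^ w = G ^ w * (t ^ w / s ^ w) / (2 ^ j) ^ w := by
    rw [div_pow, mul_pow, div_pow]
  have h2 : G ^ w ≤ G ^ D := pow_le_pow_right₀ hG hwD
  have h3 : (2:ℝ) ^ j / (2 ^ j) ^ w ≤ 1 := by
    rw [div_le_one (by positivity)]
    calc (2:ℝ) ^ j = (2 ^ j) ^ 1 := (pow_one _).symm
      _ ≤ (2 ^ j) ^ w := pow_le_pow_right₀ h2j hw1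
  have h4 : t ^ w * t ^ (D - w) = t ^ D := by
    rw [← pow_add]; congr 1; omega
  calc (G * (t / s) / 2 ^ j) ^ w * (2 * 2 ^ j * (E * (s ^ w * t ^ (D - w))))
      = (2 * G ^ w * E * (t ^ w * t ^ (D - w))) * (2 ^ j / (2 ^ j) ^ w) := by
        rw [h1]; field_simp
    _ ≤ (2 * G ^ w * E * (t ^ w * t ^ (D - w))) * 1 := mul_le_mul_of_nonneg_left h3 (by (clear * - ht hG hE; positivity))
    _ = 2 * G ^ w * E * t ^ D := by rw [mul_one, h4]
    _ ≤ 2 * G ^ D * E * t ^ D := by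
        apply mul_le_mul_of_nonneg_right _ (by positivity)
        apply mul_le_mul_of_nonneg_right _ hE
        linarith only [h2]

end Vale.Agent.P054K
end

section

set_option autoImplicit false

open Finset

namespace Vale.Agent.P054K

/-- patterns with respect to two arrangements -/
theorem two_patterns {V β : Type} [AddCommGroup V] [Module ℝ V] [FiniteDimensional ℝ V]
    (b : β → V →ₗ[ℝ] ℝ) (A : Submodule ℝ V) (Y : Finset V) (y₀ : V) (hY : ∀ y ∈ Y, y - y₀ ∈ A)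
    (s s' : ℕ) (g : Fin s → β × ℝ) (g' : Fin s' → β × ℝ) :
    open scoped Classical in
    (Y.image (fun q => ((fun k => linRg b (g k) q), (fun k => linRg b (g' k) q)))).card ≤
      2 * (2 * (s + s') + 1) ^ (Module.finrank ℝ A) := by
  classical
  set J := Fin s ⊕ Fin s' with hJ
  set bb : J → V →ₗ[ℝ] ℝ := fun j => Sum.elim (fun k => b (g k).1) (fun k => b (g' k).1) j with hbb
  set cc : J → ℝ := fun j => Sum.elim (fun k => (g k).2) (fun k => (g' k).2) j with hcc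
  have h := coset_patterns A Y y₀ hY bb cc
  have hJc : Fintype.card J = s + s' := by simp only [hJ, Fintype.card_sum, Fintype.card_fin,
                                             Nat.add_left_cancel_iff]
  rw [hJc] at h
  refine le_trans ?_ h
  have h1 : Y.image (fun q => ((fun k => linRg b (g k) q), (fun k => linRg b (g' k) q)))
      = (Y.image (fun y => fun j => decide (bb j y ≤ cc j))).image
        (fun f => ((fun k => f (Sum.inl k)), (fun k => f (Sum.inr k)))) := by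
    rw [Finset.image_image]
    apply Finset.image_congr
    intro y _
    simp only [Function.comp, Prod.mk.injEq]
    constructor
    · funext k
      unfold linRg
      simp only [hbb, hcc, Sum.elim_inl]
    · funext k
      unfold linRg
      simp only [hbb, hcc, Sum.elim_inr]
  rw [h1]
  exact card_image_le

theorem kappa_num (D w l s : ℕ) (hw : w ≤ D) (hs : 1 ≤ s) (hl : 1 ≤ l) :
    (((2 * (2 * (s + l * s) + 1) ^ w : ℕ)) : ℝ) ≤ (2 * (5 * (l:ℝ)) ^ D) * (s:ℝ) ^ w := by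
  have hs' : (1:ℝ) ≤ s := by exact_mod_cast hs
  have hl' : (1:ℝ) ≤ l := by exact_mod_cast hl
  push_cast
  have h1 : 2 * ((s:ℝ) + l * s) + 1 ≤ 5 * l * s := by linarith [mul_nonneg (sub_nonneg.2 hs') (sub_nonneg.2 hl'), hl']
  have h2 : (2 * ((s:ℝ) + l * s) + 1) ^ w ≤ (5 * l * s) ^ w :=
    pow_le_pow_left₀ (by positivity) h1 w
  have h3 : (5 * (l:ℝ)) ^ w ≤ (5 * (l:ℝ)) ^ D := pow_le_pow_right₀ (by linarith only [hl']) hw
  calc 2 * (2 * ((s:ℝ) + l * s) + 1) ^ w ≤ 2 * (5 * l * s) ^ w := by linarith only [h2]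
    _ = (2 * (5 * (l:ℝ)) ^ w) * (s:ℝ) ^ w := by rw [mul_pow]; ring
    _ ≤ (2 * (5 * (l:ℝ)) ^ D) * (s:ℝ) ^ w := by
        apply mul_le_mul_of_nonneg_right _ (by positivity)
        linarith only [h3]

/-- the dyadic level is small -/
theorem level_lt (j l : ℕ) (N : ℝ) (hN : 1 ≤ N) (h4 : 2 * Real.log N + 1 ≤ l)
    (h : (2:ℝ) ^ j ≤ N) : j < l := by
  have h1 : (j:ℝ) * Real.log 2 ≤ Real.log N := by
    rw [← Real.log_pow]
    exact Real.log_le_log (by positivity) h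
  have h2 := Real.log_two_gt_d9
  have h3 : 0 ≤ Real.log N := Real.log_nonneg hN
  have h4' : (0:ℝ) ≤ j := by positivity
  have h5 : (j:ℝ) < l := by nlinarith only [h4, h1, h2]
  exact_mod_cast h5

/-- size of the ratio of total mass and richness -/
theorem ratio_num (D w j I : ℕ) (s n x κ Λ t FF : ℝ) (hs : 0 < s) (hn : 0 < n) (hκ : 0 < κ)
    (hx0 : 0 ≤ x) (hx : x ≤ 2 ^ (I + 14) * Λ * t / s) (hFF : 1 ≤ FF) :
    (s * n * x) / ((s * n * 2 ^ j / (1024 * κ)) * (FF ^ w / FF ^ D)) ≤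
      (1024 * κ * FF ^ D * 2 ^ (I + 14) * Λ) * (t / s) / 2 ^ j := by
  have hF0 : 0 < FF := by linarith only [hFF]
  have h1 : (s * n * x) / ((s * n * 2 ^ j / (1024 * κ)) * (FF ^ w / FF ^ D))
      = (1024 * κ * FF ^ D / 2 ^ j) * x / FF ^ w := by
    field_simp
  rw [h1]
  have h2 : (1:ℝ) ≤ FF ^ w := one_le_pow₀ hFF
  calc (1024 * κ * FF ^ D / 2 ^ j) * x / FF ^ w ≤ (1024 * κ * FF ^ D / 2 ^ j) * x :=
        div_le_self (by positivity) h2
    _ ≤ (1024 * κ * FF ^ D / 2 ^ j) * (2 ^ (I + 14) * Λ * t / s) :=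
        mul_le_mul_of_nonneg_left hx (by positivity)
    _ = _ := by ring

open scoped Classical in
theorem L1_caseC {D : ℕ} {K' : ℝ} {c' : ℕ} (hK' : 1 ≤ K') (ih : ∀ D' < D, L1 D' K' c')
    {V β : Type} [AddCommGroup V] [Module ℝ V] [FiniteDimensional ℝ V] (B : Finset β)
    (b : β → V →ₗ[ℝ] ℝ) (Z : Finset V) (t l I : ℕ) (N : ℝ)
    (hfr : Module.finrank ℝ V = D) (ht : 1 ≤ t) (hN : 1 ≤ N) (h4 : 2 * Real.log N + 1 ≤ l)
    (h5 : 2 ^ (I + 1) ≤ l) (h6 : 16 * (2 * Real.log N + 1) * (t + 2) ≤ (l:ℝ) ^ I)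
    (h7 : (Z.card : ℝ) ≤ N) (h8 : (B.card : ℝ) * t ≤ N) (h9 : ∀ p ∈ B, b p ≠ 0)
    (h11 : ∀ p ∈ B, (Z.image (b p)).card ≤ t)
    (h12 : ∀ A : Submodule ℝ V, A < ⊤ → ((B.filter (fun p => A ≤ LinearMap.ker (b p))).card : ℝ) ≤
      l * (t:ℝ) ^ (Module.finrank ℝ V - Module.finrank ℝ A - 1))
    (hB : B.Nonempty) (hbig : 2 ^ (2 * I + 17) * (2 * Real.log N + 1) * t < Z.card)
    (hgd : ∀ s : ℕ, 16 * (2 * Real.log N + 1) * (t + 2) ≤ s →
      ¬ Gd Z Z (linS B b Z) (linRg b) s 2) :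
    (B.card : ℝ) * Z.card ≤ ((l:ℝ) * (l * (D * (2 * (2048 * (2 * (5 * (l:ℝ)) ^ D) * 2 ^ D *
      2 ^ (I + 14) * (2 * Real.log N + 1)) ^ D * (K' * (l:ℝ) ^ c' * (48 * (l:ℝ)) ^ D))))) * (t:ℝ) ^ D := by
  set Λ : ℝ := 2 * Real.log N + 1 with hΛ
  have hlogN : 0 ≤ Real.log N := Real.log_nonneg hN
  have hΛ1 : 1 ≤ Λ := by rw [hΛ]; linarith only [hlogN]
  have htR : (1:ℝ) ≤ t := by exact_mod_cast ht
  have hZpos : (0:ℝ) < Z.card := lt_of_le_of_lt (by (clear * - ht hlogN; positivity)) hbig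
  have hZ : Z.Nonempty := by rw [← card_pos]; exact_mod_cast hZpos
  have hl1 : 1 ≤ l := Nat.one_le_two_pow.trans h5
  have hlR : (1:ℝ) ≤ l := by exact_mod_cast hl1
  have hZ1 : (1:ℝ) ≤ Z.card := by exact_mod_cast hZ.card_pos
  have hS : (linS B b Z).Nonempty := by
    obtain ⟨p, hp⟩ := hB
    obtain ⟨z, hz⟩ := hZ
    exact ⟨(p, b p z), (mem_linS B b Z _).mpr ⟨hp, mem_image_of_mem _ hz⟩⟩
  have hSlog : Real.log (linS B b Z).card ≤ Λ := by
    have h1 : ((linS B b Z).card : ℝ) ≤ N := le_trans (by exact_mod_cast card_linS B b Z t h11) h8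
    have h2 : (0:ℝ) < (linS B b Z).card := by exact_mod_cast hS.card_pos
    have h3 := Real.log_le_log h2 h1
    rw [hΛ]; linarith only [hlogN, h3]
  have hZlog : 2 * Real.log Z.card + 1 ≤ Λ := by
    have := Real.log_le_log (by linarith only [hZpos]) h7
    rw [hΛ]; linarith only [this]
  obtain ⟨s, x, Q, g', g, F, hQZ, hs1, hs2, hx8, hxlow, hxup, hZQ, hg', hcell, hR, hsep⟩ :=
    adaptive Z (linS B b Z) (linRg b) t l I Λ hZ hS hl1 ht hZlog hSlog hΛ1 h6 hgd hbig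
  have hs1R : (1:ℝ) ≤ s := by exact_mod_cast hs1
  have hs0 : (0:ℝ) < s := by linarith only [hs1R]
  have hQne : Q.Nonempty := by
    rw [← card_pos]
    rcases Nat.eq_zero_or_pos Q.card with h | h
    · rw [h, mul_zero] at hZQ
      have := hZ.card_pos
      omega
    · exact h
  have hn1 : (1:ℝ) ≤ Q.card := by exact_mod_cast hQne.card_pos
  have hn0 : (0:ℝ) < Q.card := by linarith only [hn1]
  have hQN : (Q.card : ℝ) ≤ N := le_trans (by exact_mod_cast card_le_card hQZ) h7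
  set κ : ℝ := 2 * (5 * (l:ℝ)) ^ D with hκ
  have hκ1 : 1 ≤ κ := by
    have : (1:ℝ) ≤ (5 * (l:ℝ)) ^ D := one_le_pow₀ (by linarith only [h4, hlogN])
    rw [hκ]; linarith only [this]
  set v : Fin s × (V × V) → V := fun i => i.2.1 - i.2.2 with hv
  have hval : ∀ p ∈ B, (s * Q.card : ℝ) / 8 ≤ mass (idx F) v (LinearMap.ker (b p)) := by
    intro p hp
    have h1 := value_pairs hR (b p) t ((card_le_card (image_subset_image hQZ)).trans (h11 p hp))
      (by
        intro c hc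
        refine ⟨(p, c), (mem_linS B b Z _).mpr ⟨hp, image_subset_image hQZ hc⟩, ?_⟩
        intro q _
        exact linRg_eq b (p, c) q) (Λ / s) (by (clear * - hlogN hs1; positivity)) hsep hx8 hxlow
    rw [← idx_filter hR] at h1
    refine h1.trans (le_of_eq ?_)
    unfold mass
    congr 2
    apply Finset.filter_congr
    intro i _
    simp only [hv]
    rw [LinearMap.mem_ker, map_sub, sub_eq_zero]
  have hsel := select hR hs1 hs1 hQne B (fun q => q) (fun p => LinearMap.ker (b p)) (fun w => w) κ 2 D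
    hfr.le hκ1 (by norm_num) (fun q _ q' _ h => h) hval
    (by
      intro A _ _ τ v' hv'
      rw [mem_image] at hv'
      obtain ⟨q₀, _, hq₀⟩ := hv'
      have h1 := two_patterns b A (Q.filter (fun q => A.mkQ q = v')) q₀ (by
        intro y hy
        have h2 := (mem_filter.mp hy).2
        rw [← hq₀, Submodule.mkQ_apply, Submodule.mkQ_apply, Submodule.Quotient.eq] at h2
        exact h2) s (l * s) (g τ) g'
      have h3 := kappa_num D (Module.finrank ℝ A) l s (by rw [← hfr]; exact Submodule.finrank_le A)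
        hs1 hl1
      refine le_trans ?_ h3
      exact_mod_cast h1)
  choose! jp wp Ap hA1 hA2 hA3 hA4 hA5 hA6 hA7 using hsel
  -- sizes
  set G : ℝ := 2048 * κ * 2 ^ D * 2 ^ (I + 14) * Λ with hG
  have hG1 : 1 ≤ G := by
    have h1 : (1:ℝ) ≤ 2 ^ D := one_le_pow₀ (by norm_num)
    have h2 : (1:ℝ) ≤ 2 ^ (I + 14) := one_le_pow₀ (by norm_num)
    have h3 : 1 ≤ κ * 2 ^ D := one_le_mul_of_one_le_of_one_le hκ1 h1
    have h4 : 1 ≤ κ * 2 ^ D * 2 ^ (I + 14) := one_le_mul_of_one_le_of_one_le h3 h2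
    have h5 : 1 ≤ κ * 2 ^ D * 2 ^ (I + 14) * Λ := one_le_mul_of_one_le_of_one_le h4 hΛ1
    rw [hG]; linarith only [h5]
  have hst : (s:ℝ) ≤ (48 * (l:ℝ)) * t := by
    have h1 : 16 * Λ * ((t:ℝ) + 2) ≤ 48 * l * t := by nlinarith only [h4, htR]
    linarith only [hs2, h1]
  set T : ℝ := 2 * G ^ D * (K' * (l:ℝ) ^ c' * (48 * (l:ℝ)) ^ D) * (t:ℝ) ^ D with hT
  have hclass : ∀ j w, 1 ≤ w → w ≤ D →
      ((B.filter (fun p => jp p = j ∧ wp p = w)).card : ℝ) * Q.card ≤ T := by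
    intro j w hw1 hwD
    set Bc := B.filter (fun p => jp p = j ∧ wp p = w) with hBc
    have hBc' : ∀ p ∈ Bc, p ∈ B ∧ jp p = j ∧ wp p = w := fun p hp => mem_filter.mp hp
    set Zc := Bc.image Ap with hZc
    set E : ℝ := K' * (l:ℝ) ^ c' * (48 * (l:ℝ)) ^ D with hE
    have hfib : ∀ A ∈ Zc, ((Bc.filter (fun p => Ap p = A)).card : ℝ) * Q.card ≤
        2 * 2 ^ j * (E * ((s:ℝ) ^ w * (t:ℝ) ^ (D - w))) := by
      intro A hA
      rw [hZc, mem_image] at hA
      obtain ⟨p₀, hp₀, hp₀A⟩ := hA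
      set Φ := Bc.filter (fun p => Ap p = A) with hΦ
      have hΦB : Φ ⊆ B := (filter_subset _ _).trans (filter_subset _ _)
      have hp₀Φ : p₀ ∈ Φ := mem_filter.mpr ⟨hp₀, hp₀A⟩
      obtain ⟨hp₀B, hp₀j, hp₀w⟩ := hBc' p₀ hp₀
      set A' : Submodule ℝ V := ⨅ p ∈ Φ, LinearMap.ker (b p) with hA'
      have hAA' : A ≤ A' := by
        rw [hA']
        apply le_iInf₂
        intro p hp
        have h1 := mem_filter.mp hp
        rw [← h1.2]
        exact hA1 p (hBc' p h1.1).1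
      have hwA : Module.finrank ℝ A = w := by rw [← hp₀A, hA2 p₀ hp₀B, hp₀w]
      have hw' : w ≤ Module.finrank ℝ A' := by
        rw [← hwA]; exact Submodule.finrank_mono hAA'
      have hw'D : Module.finrank ℝ A' ≤ D := by rw [← hfr]; exact Submodule.finrank_le A'
      have hA'ne : A' ≠ ⊥ := by
        intro h0
        rw [h0, finrank_bot] at hw'
        omega
      have h1 := hA7 p₀ hp₀B Φ hΦB hp₀Φ A' rfl hA'ne
      rw [hp₀j] at h1
      have h2 := L1_quot (ih (D - Module.finrank ℝ A') (by omega)) Φ b Q (fun q => q) t l I N A' rfl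
        (by rw [hfr]; omega) ht hN h4 h5 h6 hQN
        (le_trans (mul_le_mul_of_nonneg_right (by exact_mod_cast card_le_card hΦB) (by positivity)) h8)
        (fun p hp => h9 p (hΦB hp))
        (fun p hp => (card_le_card (image_subset_image hQZ)).trans (h11 p (hΦB hp)))
        (fun C _ hC => le_trans (by exact_mod_cast card_le_card (filter_subset_filter _ hΦB))
          (h12 C hC))
      have h3 := num1 D w (Module.finrank ℝ A') hw' hw'D s t (48 * (l:ℝ)) (by linarith only []) htR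
        (by linarith only [h4, hlogN]) hst
      calc (Φ.card : ℝ) * Q.card
          ≤ Φ.card * (2 * 2 ^ j * ((ncos Q (fun q => q) A' : ℝ) * (s:ℝ) ^ (Module.finrank ℝ A'))) :=
            mul_le_mul_of_nonneg_left h1 (by (clear * -; positivity))
        _ = 2 * 2 ^ j * (Φ.card * ncos Q (fun q => q) A') * (s:ℝ) ^ (Module.finrank ℝ A') := by ring
        _ ≤ 2 * 2 ^ j * (K' * (l:ℝ) ^ c' * (t:ℝ) ^ (D - Module.finrank ℝ A')) *
            (s:ℝ) ^ (Module.finrank ℝ A') := by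
            apply mul_le_mul_of_nonneg_right _ (by positivity)
            exact mul_le_mul_of_nonneg_left h2 (by positivity)
        _ = 2 * 2 ^ j * (K' * (l:ℝ) ^ c' * ((s:ℝ) ^ (Module.finrank ℝ A') *
            (t:ℝ) ^ (D - Module.finrank ℝ A'))) := by ring
        _ ≤ 2 * 2 ^ j * (K' * (l:ℝ) ^ c' * ((s:ℝ) ^ w * (t:ℝ) ^ (D - w) * (48 * (l:ℝ)) ^ D)) := by
            apply mul_le_mul_of_nonneg_left _ (by positivity)
            exact mul_le_mul_of_nonneg_left h3 (by positivity)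
        _ = 2 * 2 ^ j * (E * ((s:ℝ) ^ w * (t:ℝ) ^ (D - w))) := by rw [hE]; ring
    have hZcard : (Zc.card : ℝ) ≤ (G * (t / s) / 2 ^ j) ^ w := by
      set ρ : ℝ := (s * Q.card * 2 ^ j / (1024 * κ)) * (2 ^ w / 2 ^ D) with hρ
      have hρ0 : 0 < ρ := by (clear * - ih hfr hl1 hs1 hQne hκ hκ1 hA5 hG hG1 hwD hT hE hfib hρ; positivity)
      have h1 := rich_count w V (Fin s × (V × V)) (idx F) v (s * Q.card * x) ρ Zc
        (idx_card_le hR) hρ0 (by
          intro A hA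
          rw [hZc, mem_image] at hA
          obtain ⟨p₀, hp₀, hp₀A⟩ := hA
          obtain ⟨hp₀B, hp₀j, hp₀w⟩ := hBc' p₀ hp₀
          refine ⟨by rw [← hp₀A, hA2 p₀ hp₀B, hp₀w], ?_, ?_⟩
          · have h2 := hA5 p₀ hp₀B
            rw [hp₀j, hp₀w, hp₀A] at h2
            exact h2
          · intro B' hB'
            have h2 := hA6 p₀ hp₀B B' (by rw [hp₀A]; exact hB')
            rw [hp₀A] at h2
            exact h2)
      refine h1.trans ?_
      apply pow_le_pow_left₀ (by (clear * - ih hfr hl1 hs1 hx8 hQne hκ hκ1 hA5 hG hG1 hwD hT hE hfib hρ hρ0 h1; positivity))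
      have h2 := ratio_num D w j I s Q.card x κ Λ t 2 hs0 hn0 (by linarith only [hκ1]) (by positivity) hxup
        (by norm_num)
      rw [← hρ] at h2
      calc 2 * (s * Q.card * x) / ρ = 2 * ((s * Q.card * x) / ρ) := by ring
        _ ≤ 2 * ((1024 * κ * 2 ^ D * 2 ^ (I + 14) * Λ) * (t / s) / 2 ^ j) := by linarith only [h2]
        _ = G * (t / s) / 2 ^ j := by rw [hG]; ring
    have hcardeq : (Bc.card : ℝ) = ∑ A ∈ Zc, ((Bc.filter (fun p => Ap p = A)).card : ℝ) := by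
      have h3 : Bc.card = ∑ A ∈ Zc, (Bc.filter (fun p => Ap p = A)).card :=
        Finset.card_eq_sum_card_fiberwise (fun p hp => mem_image_of_mem Ap hp)
      rw [h3]; push_cast; rfl
    calc (Bc.card : ℝ) * Q.card
        = ∑ A ∈ Zc, ((Bc.filter (fun p => Ap p = A)).card : ℝ) * Q.card := by
          rw [hcardeq, Finset.sum_mul]
      _ ≤ ∑ _A ∈ Zc, 2 * 2 ^ j * (E * ((s:ℝ) ^ w * (t:ℝ) ^ (D - w))) := Finset.sum_le_sum hfib
      _ = Zc.card * (2 * 2 ^ j * (E * ((s:ℝ) ^ w * (t:ℝ) ^ (D - w)))) := by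
          rw [Finset.sum_const, nsmul_eq_mul]
      _ ≤ (G * (t / s) / 2 ^ j) ^ w * (2 * 2 ^ j * (E * ((s:ℝ) ^ w * (t:ℝ) ^ (D - w)))) := by
          apply mul_le_mul_of_nonneg_right hZcard
          rw [hE]; (clear * - hK' ht hl1 hs1; positivity)
      _ ≤ 2 * G ^ D * E * (t:ℝ) ^ D := num2 D w j hw1 hwD s t G E hs0 htR hG1 (by rw [hE]; positivity)
      _ = T := by rw [hT]
  have hT0 : 0 ≤ T := by rw [hT]; (clear * - hK' ht hlogN hl1; positivity)
  have hpart : (B.card : ℝ) = ∑ y ∈ (Finset.range l) ×ˢ (Icc 1 D),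
      ((B.filter (fun p => jp p = y.1 ∧ wp p = y.2)).card : ℝ) := by
    have h3 : B.card = ∑ y ∈ (Finset.range l) ×ˢ (Icc 1 D),
        (B.filter (fun p => (jp p, wp p) = y)).card := by
      apply Finset.card_eq_sum_card_fiberwise
      intro p hp
      rw [mem_coe, mem_product, mem_range, mem_Icc]
      refine ⟨level_lt (jp p) l N hN h4 ((hA4 p hp).trans hQN), hA3 p hp, ?_⟩
      simp only
      rw [← hA2 p hp, ← hfr]
      exact Submodule.finrank_le _
    rw [h3]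
    push_cast
    apply Finset.sum_congr rfl
    intro y _
    congr 2
    apply Finset.filter_congr
    intro p _
    rw [Prod.ext_iff]
  have hBQ : (B.card : ℝ) * Q.card ≤ l * (D * T) := by
    rw [hpart, Finset.sum_mul]
    calc ∑ y ∈ (Finset.range l) ×ˢ (Icc 1 D),
        ((B.filter (fun p => jp p = y.1 ∧ wp p = y.2)).card : ℝ) * Q.card
        ≤ ∑ _y ∈ (Finset.range l) ×ˢ (Icc 1 D), T := by
          apply Finset.sum_le_sum
          intro y hy
          rw [mem_product, mem_Icc] at hy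
          exact hclass y.1 y.2 hy.2.1 hy.2.2
      _ = l * (D * T) := by
          rw [Finset.sum_const, card_product, card_range, Nat.card_Icc, nsmul_eq_mul,
            Nat.add_sub_cancel]
          push_cast
          ring
  have hZQ' : (Z.card : ℝ) ≤ l * Q.card := by
    have h1 : Z.card ≤ l * Q.card := hZQ.trans (Nat.mul_le_mul_right _ h5)
    exact_mod_cast h1
  calc (B.card : ℝ) * Z.card ≤ B.card * (l * Q.card) := mul_le_mul_of_nonneg_left hZQ' (by (clear * - ih hfr hB hκ hκ1 hA5 hG hG1 hT hclass hT0 hpart hBQ; positivity))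
    _ = l * (B.card * Q.card) := by ring
    _ ≤ l * (l * (D * T)) := mul_le_mul_of_nonneg_left hBQ (by linarith only [h4, hlogN])
    _ = _ := by rw [hT, hG]; ring

end Vale.Agent.P054K
end

section

set_option autoImplicit false

open Finset

namespace Vale.Agent.P054K

theorem constC (D c' I : ℕ) (l Λ K' : ℝ) (hl : 1 ≤ l) (hΛ0 : 0 ≤ Λ) (hΛ : Λ ≤ l)
    (hI : (2:ℝ) ^ (I + 1) ≤ l) (hK' : 1 ≤ K') :
    l * (l * (D * (2 * (2048 * (2 * (5 * l) ^ D) * 2 ^ D * 2 ^ (I + 14) * Λ) ^ D *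
      (K' * l ^ c' * (48 * l) ^ D)))) ≤
      (2 * D * (2 ^ 26 * 10 ^ D) ^ D * 48 ^ D * K') * l ^ (2 + (D + 2) * D + c' + D) := by
  have hl0 : 0 < l := by linarith only [hl]
  have hI' : (2:ℝ) ^ I ≤ l := by
    have : (2:ℝ) ^ (I + 1) = 2 * 2 ^ I := by ring
    rw [this] at hI
    have h2 : (0:ℝ) < 2 ^ I := by positivity
    linarith
  have hG : 2048 * (2 * (5 * l) ^ D) * 2 ^ D * 2 ^ (I + 14) * Λ ≤ (2 ^ 26 * 10 ^ D) * l ^ (D + 2) := by
    have e1 : 2048 * (2 * (5 * l) ^ D) * 2 ^ D * 2 ^ (I + 14) * Λ =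
        (2 ^ 26 * 10 ^ D) * l ^ D * (2 ^ I * Λ) := by
      rw [mul_pow 5 l D, show (10:ℝ) ^ D = 5 ^ D * 2 ^ D by rw [← mul_pow]; norm_num, pow_add 2 I 14]
      ring
    rw [e1]
    have e2 : (2:ℝ) ^ I * Λ ≤ l * l := mul_le_mul hI' hΛ hΛ0 hl0.le
    calc (2 ^ 26 * 10 ^ D) * l ^ D * (2 ^ I * Λ) ≤ (2 ^ 26 * 10 ^ D) * l ^ D * (l * l) :=
          mul_le_mul_of_nonneg_left e2 (by positivity)
      _ = (2 ^ 26 * 10 ^ D) * l ^ (D + 2) := by rw [pow_add]; ring
  have hGD := pow_le_pow_left₀ (by positivity) hG D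
  have e3 : ((2 ^ 26 * 10 ^ D) * l ^ (D + 2)) ^ D = (2 ^ 26 * 10 ^ D) ^ D * l ^ ((D + 2) * D) := by
    rw [mul_pow, ← pow_mul]
  rw [e3] at hGD
  calc l * (l * (D * (2 * (2048 * (2 * (5 * l) ^ D) * 2 ^ D * 2 ^ (I + 14) * Λ) ^ D *
      (K' * l ^ c' * (48 * l) ^ D))))
      ≤ l * (l * (D * (2 * ((2 ^ 26 * 10 ^ D) ^ D * l ^ ((D + 2) * D)) *
      (K' * l ^ c' * (48 * l) ^ D)))) := by
        apply mul_le_mul_of_nonneg_left _ hl0.le
        apply mul_le_mul_of_nonneg_left _ hl0.le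
        apply mul_le_mul_of_nonneg_left _ (by positivity)
        apply mul_le_mul_of_nonneg_right _ (by positivity)
        linarith only [hGD]
    _ = _ := by rw [mul_pow 48 l D, pow_add, pow_add, pow_add]; ring

open scoped Classical in
theorem L1_step {D : ℕ} (hD : 1 ≤ D) {K' : ℝ} {c' : ℕ} (hK' : 1 ≤ K')
    (ih : ∀ D' < D, L1 D' K' c') :
    L1 D (2 ^ 17 + 2 * K' + 2 * D * (2 ^ 26 * 10 ^ D) ^ D * 48 ^ D * K')
      (4 + (2 + (D + 2) * D + c' + D)) := by
  intro V β _ _ _ B b Z t l I N hfr ht hN h4 h5 h6 h7 h8 h9 h10 h11 h12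
  have hlogN : 0 ≤ Real.log N := Real.log_nonneg hN
  have htR : (1:ℝ) ≤ t := by exact_mod_cast ht
  have hl1 : 1 ≤ l := Nat.one_le_two_pow.trans h5
  have hlR : (1:ℝ) ≤ l := by exact_mod_cast hl1
  have h5R : (2:ℝ) ^ (I + 1) ≤ l := by exact_mod_cast h5
  have hKC : (0:ℝ) ≤ 2 * D * (2 ^ 26 * 10 ^ D) ^ D * 48 ^ D * K' := by positivity
  have hpw : ∀ c : ℕ, c ≤ 4 + (2 + (D + 2) * D + c' + D) →
      (l:ℝ) ^ c ≤ (l:ℝ) ^ (4 + (2 + (D + 2) * D + c' + D)) :=
    fun c hc => pow_le_pow_right₀ hlR hc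
  rcases B.eq_empty_or_nonempty with hBe | hB
  · rw [hBe, card_empty]; simp only [Nat.cast_zero, zero_mul]; positivity
  by_cases hsm : (Z.card : ℝ) ≤ 2 ^ (2 * I + 17) * (2 * Real.log N + 1) * t
  · have h1 := h12 ⊥ (by
      rw [bot_lt_iff_ne_bot]
      intro h0
      have h2 : Module.finrank ℝ (⊤ : Submodule ℝ V) = 0 := by rw [h0, finrank_bot]
      rw [finrank_top, hfr] at h2
      omega)
    rw [finrank_bot, hfr, Nat.sub_zero] at h1
    have h2 : B.filter (fun p => ⊥ ≤ LinearMap.ker (b p)) = B := by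
      rw [Finset.filter_eq_self]
      intro p _
      exact bot_le
    rw [h2] at h1
    have h3 : (2:ℝ) ^ (2 * I + 17) * (2 * Real.log N + 1) ≤ 2 ^ 17 * (l:ℝ) ^ 3 := by
      have e1 : (2:ℝ) ^ I ≤ l := by
        have : (2:ℝ) ^ (I + 1) = 2 * 2 ^ I := by ring
        rw [this] at h5R
        have h2 : (0:ℝ) < 2 ^ I := by positivity
        linarith only [h5R]
      have e2 : (2:ℝ) ^ (2 * I + 17) = 2 ^ 17 * (2 ^ I) ^ 2 := by rw [← pow_mul]; ring
      rw [e2]
      have e3 : ((2:ℝ) ^ I) ^ 2 ≤ (l:ℝ) ^ 2 := pow_le_pow_left₀ (by positivity) e1 2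
      calc 2 ^ 17 * ((2:ℝ) ^ I) ^ 2 * (2 * Real.log N + 1) ≤ 2 ^ 17 * (l:ℝ) ^ 2 * l := by
            apply mul_le_mul _ h4 (by (clear * - hlogN; positivity)) (by (clear * - hl1; positivity))
            linarith only [e3]
        _ = 2 ^ 17 * (l:ℝ) ^ 3 := by ring
    have h4' : (Z.card : ℝ) ≤ 2 ^ 17 * (l:ℝ) ^ 3 * t :=
      hsm.trans (mul_le_mul_of_nonneg_right h3 (by linarith only [htR]))
    calc (B.card : ℝ) * Z.card ≤ (l * (t:ℝ) ^ (D - 1)) * (2 ^ 17 * (l:ℝ) ^ 3 * t) :=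
          mul_le_mul h1 h4' (by (clear * -; positivity)) (by positivity)
      _ = 2 ^ 17 * (l:ℝ) ^ 4 * ((t:ℝ) ^ (D - 1) * t) := by ring
      _ = 2 ^ 17 * (l:ℝ) ^ 4 * (t:ℝ) ^ D := by rw [← pow_succ, Nat.sub_add_cancel hD]
      _ ≤ _ := by
          apply mul_le_mul_of_nonneg_right _ (by positivity)
          apply mul_le_mul _ (hpw 4 (by omega)) (by (clear * - hl1; positivity)) (by positivity)
          linarith only [hK', hKC]
  push Not at hsm
  have hZ : Z.Nonempty := by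
    rw [← card_pos]
    have : (0:ℝ) < Z.card := lt_of_le_of_lt (by (clear * - ht hlogN; positivity)) hsm
    exact_mod_cast this
  by_cases hgd : ∀ s : ℕ, 16 * (2 * Real.log N + 1) * (t + 2) ≤ s →
      ¬ Gd Z Z (linS B b Z) (linRg b) s 2
  · have h1 := L1_caseC hK' ih B b Z t l I N hfr ht hN h4 h5 h6 h7 h8 h9 h11 h12 hB hsm hgd
    refine h1.trans ?_
    apply mul_le_mul_of_nonneg_right _ (by positivity)
    refine (constC D c' I l (2 * Real.log N + 1) K' hlR (by linarith only [hlogN]) h4 h5R hK').trans ?_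
    apply mul_le_mul _ (hpw _ (by omega)) (by positivity) (by positivity)
    linarith only [hK']
  · push Not at hgd
    obtain ⟨s, hs, hgd⟩ := hgd
    have h1 := L1_caseB ih B b Z t l I N hfr ht hN h4 h5 h6 h7 h8 h9 h10 h11 h12 s hs hZ hgd
    refine h1.trans ?_
    apply mul_le_mul_of_nonneg_right _ (by positivity)
    apply mul_le_mul _ (hpw c' (by omega)) (by positivity) (by positivity)
    linarith only [hKC]

theorem L1_zero : L1 0 1 0 := by
  intro V β _ _ _ B b Z t l I N hfr ht hN h4 h5 h6 h7 h8 h9 h10 h11 h12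
  have hsub : Subsingleton V := Module.finrank_zero_iff.mp hfr
  have hBe : B = ∅ := by
    rw [Finset.eq_empty_iff_forall_notMem]
    intro p hp
    apply h9 p hp
    ext v
    rw [Subsingleton.elim v 0, map_zero, map_zero]
  rw [hBe, card_empty]
  simp only [CharP.cast_eq_zero, zero_mul, pow_zero, mul_one, zero_le_one]

/-- the linear layer -/
theorem L1_all (D : ℕ) : ∃ (K : ℝ) (c : ℕ), 1 ≤ K ∧ ∀ D' ≤ D, L1 D' K c := by
  induction D with
  | zero =>
    refine ⟨1, 0, le_rfl, ?_⟩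
    intro D' hD'
    have : D' = 0 := by omega
    subst this
    exact L1_zero
  | succ D ih =>
    obtain ⟨K', c', hK', ih⟩ := ih
    have h1 := L1_step (D := D + 1) (by omega) hK' (fun D' hD' => ih D' (by omega))
    refine ⟨2 ^ 17 + 2 * K' + 2 * ((D + 1 : ℕ) : ℝ) * (2 ^ 26 * 10 ^ (D + 1)) ^ (D + 1) * 48 ^ (D + 1) * K',
      4 + (2 + (D + 1 + 2) * (D + 1) + c' + (D + 1)), ?_, ?_⟩
    · have : (0:ℝ) ≤ 2 * ((D + 1 : ℕ) : ℝ) * (2 ^ 26 * 10 ^ (D + 1)) ^ (D + 1) * 48 ^ (D + 1) * K' := by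
        positivity
      linarith only [hK', this]
    · intro D' hD'
      rcases Nat.lt_or_ge D' (D + 1) with h | h
      · refine (ih D' (by omega)).mono (by linarith only [hK']) ?_ (by omega)
        have : (0:ℝ) ≤ 2 * ((D + 1 : ℕ) : ℝ) * (2 ^ 26 * 10 ^ (D + 1)) ^ (D + 1) * 48 ^ (D + 1) * K' := by
          positivity
        linarith only [hK', this]
      · have : D' = D + 1 := by omega
        subst this
        exact h1

end Vale.Agent.P054K
end

section

set_option autoImplicit false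

open Finset

namespace Vale.Agent.P054K

/-- projection of a subspace of a dual hyperplane -/
theorem finrank_map_fst {d : ℕ} (A : Submodule ℝ (EuclideanSpace ℝ (Fin d) × ℝ))
    (p₀ : EuclideanSpace ℝ (Fin d)) (hA : A ≤ hyp p₀) :
    Module.finrank ℝ (A.map (LinearMap.fst ℝ (EuclideanSpace ℝ (Fin d)) ℝ)) =
      Module.finrank ℝ A := by
  have hinj : Function.Injective
      ((LinearMap.fst ℝ (EuclideanSpace ℝ (Fin d)) ℝ).domRestrict A) := by
    rw [injective_iff_map_eq_zero]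
    rintro ⟨⟨u, c⟩, hx⟩ h0
    have hu : u = 0 := h0
    subst hu
    have h1 := hA hx
    rw [mem_hyp] at h1
    simp only [inner_zero_right, mul_zero] at h1
    subst h1
    rfl
  have h2 := LinearMap.finrank_range_of_inj hinj
  have h3 : LinearMap.range ((LinearMap.fst ℝ (EuclideanSpace ℝ (Fin d)) ℝ).domRestrict A)
      = A.map (LinearMap.fst ℝ (EuclideanSpace ℝ (Fin d)) ℝ) := by
    rw [LinearMap.range_domRestrict]
  rw [h3] at h2
  exact h2

open scoped Classical in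
theorem parab_patterns {d : ℕ} {J : Type} [Fintype J]
    (A : Submodule ℝ (EuclideanSpace ℝ (Fin d) × ℝ)) (p : EuclideanSpace ℝ (Fin d))
    (hAp : A ≤ hyp p) (hA : 1 ≤ Module.finrank ℝ A) (Y : Finset (EuclideanSpace ℝ (Fin d)))
    (q₀ : EuclideanSpace ℝ (Fin d)) (hY : ∀ y ∈ Y, dualVec (y, q₀) ∈ A)
    (α : J → ℝ) (β : J → EuclideanSpace ℝ (Fin d)) (γ : J → ℝ) :
    (Y.image (fun x => fun j => decide (α j * ‖x‖ ^ 2 + inner ℝ (β j) x + γ j ≤ 0))).card ≤
      2 * (2 * Fintype.card J + 1) ^ (Module.finrank ℝ A - 1) := by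
  set U : Submodule ℝ (EuclideanSpace ℝ (Fin d)) :=
    A.map (LinearMap.fst ℝ (EuclideanSpace ℝ (Fin d)) ℝ) with hU
  have hfU : Module.finrank ℝ U = (Module.finrank ℝ A - 1) + 1 := by
    rw [hU, finrank_map_fst A p hAp]; omega
  have hYU : ∀ y ∈ Y, y - q₀ ∈ U := by
    intro y hy
    rw [hU, Submodule.mem_map]
    exact ⟨dualVec (y, q₀), hY y hy, rfl⟩
  have hYd : ∀ y ∈ Y, dist p y = dist p q₀ := by
    intro y hy
    exact (dualVec_mem_hyp p (y, q₀)).mp (hAp (hY y hy))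
  set u₀ : U := U.orthogonalProjectionOnto (p - q₀) with hu₀
  set c₀ : EuclideanSpace ℝ (Fin d) := q₀ + (u₀ : EuclideanSpace ℝ (Fin d)) with hc₀
  have horth : ∀ ω ∈ U, inner ℝ (c₀ - p) ω = 0 := by
    intro ω hω
    have h1 : c₀ - p = -((p - q₀) - (u₀ : EuclideanSpace ℝ (Fin d))) := by rw [hc₀]; abel
    rw [h1, inner_neg_left]
    have h2 : inner ℝ ((p - q₀) - (u₀ : EuclideanSpace ℝ (Fin d))) ω = 0 := by
      have h3 := U.sub_starProjection_mem_orthogonal (p - q₀)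
      rw [Submodule.mem_orthogonal'] at h3
      exact h3 ω hω
    rw [h2, neg_zero]
  set r : ℝ := Real.sqrt (dist p q₀ ^ 2 - ‖c₀ - p‖ ^ 2) with hr
  -- the function on the sphere
  set a : J → U := fun j => U.orthogonalProjectionOnto (β j + (2 * α j) • p) with ha
  set F : J → EuclideanSpace ℝ (Fin d) → ℝ := fun j x =>
    α j * ‖x‖ ^ 2 + inner ℝ (β j) x + γ j with hF
  set cst : J → ℝ := fun j => inner ℝ (β j + (2 * α j) • p) c₀ +
    α j * (dist p q₀ ^ 2 - ‖p‖ ^ 2) + γ j with hcst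
  have hdec : ∀ y ∈ Y, y - c₀ ∈ U := by
    intro y hy
    have h1 : y - c₀ = (y - q₀) - (u₀ : EuclideanSpace ℝ (Fin d)) := by rw [hc₀]; abel
    rw [h1]
    exact U.sub_mem (hYU y hy) u₀.2
  have hFval : ∀ y (hy : y ∈ Y), ∀ j, F j y = inner ℝ (a j) (⟨y - c₀, hdec y hy⟩ : U) + cst j := by
    intro y hy j
    have h1 : dist p y ^ 2 = ‖p‖ ^ 2 - 2 * inner ℝ p y + ‖y‖ ^ 2 := by
      rw [dist_eq_norm, norm_sub_sq_real]
    rw [hYd y hy] at h1
    have h2 : inner ℝ (a j) (⟨y - c₀, hdec y hy⟩ : U) = inner ℝ (β j + (2 * α j) • p) (y - c₀) := by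
      simp only [ha]
      rw [Submodule.inner_orthogonalProjectionOnto_eq_of_mem_right]
    rw [h2]
    simp only [hF, hcst]
    have h3 : inner ℝ (β j + (2 * α j) • p) (y - c₀) + inner ℝ (β j + (2 * α j) • p) c₀
        = inner ℝ (β j) y + 2 * α j * inner ℝ p y := by
      rw [← inner_add_right, sub_add_cancel, inner_add_left, inner_smul_left]
      simp only [conj_trivial]
    have h4 : ‖y‖ ^ 2 = dist p q₀ ^ 2 - ‖p‖ ^ 2 + 2 * inner ℝ p y := by linarith only [h1]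
    rw [h4]
    linarith only [h3]
  have hnorm : ∀ y (hy : y ∈ Y), ‖(⟨y - c₀, hdec y hy⟩ : U)‖ = r := by
    intro y hy
    rw [Submodule.coe_norm]
    simp only
    have h1 : ‖y - p‖ ^ 2 = ‖y - c₀‖ ^ 2 + ‖c₀ - p‖ ^ 2 := by
      have h2 : y - p = (y - c₀) + (c₀ - p) := by abel
      rw [h2, norm_add_sq_real, real_inner_comm, horth (y - c₀) (hdec y hy)]
      ring
    have h3 : ‖y - p‖ = dist p q₀ := by rw [← hYd y hy, dist_comm, dist_eq_norm]
    rw [h3] at h1
    rw [hr, h1, add_sub_cancel_right, Real.sqrt_sq (norm_nonneg _)]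
  -- perturbation
  obtain ⟨η, hη, hηle⟩ := exists_lb
    (fun z : Y × J => if 0 < F z.2 z.1 then F z.2 z.1 else 1) (by
      intro z
      by_cases h : 0 < F z.2 z.1
      · simp only [h, if_true]
      · simp only [h, if_false]; exact one_pos)
  have hcells := sphere_cells (Module.finrank ℝ A - 1) U hfU J r a (fun j => cst j - η / 2)
  refine le_trans ?_ hcells
  rw [← Set.ncard_coe_finset]
  apply Set.ncard_le_ncard_of_injOn (fun z => fun j => !(z j))
  · intro z hz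
    simp only [coe_image, Set.mem_image, mem_coe] at hz
    obtain ⟨x, hx, rfl⟩ := hz
    refine ⟨⟨x - c₀, hdec x hx⟩, hnorm x hx, ?_⟩
    intro j
    have h2 := hFval x hx j
    have h3 : inner ℝ (a j) (⟨x - c₀, hdec x hx⟩ : U) + (cst j - η / 2) = F j x - η / 2 := by
      rw [h2]; ring
    rw [h3]
    by_cases h : F j x ≤ 0
    · have h' : α j * ‖x‖ ^ 2 + inner ℝ (β j) x + γ j ≤ 0 := h
      simp only [h', decide_true, Bool.not_true, Bool.false_eq_true, if_false]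
      have : F j x - η / 2 < 0 := by linarith only [hη, h]
      linarith only [hη, h]
    · have h' : ¬ (α j * ‖x‖ ^ 2 + inner ℝ (β j) x + γ j ≤ 0) := h
      simp only [h', decide_false, Bool.not_false, if_true]
      have h1 := hηle (⟨x, hx⟩, j)
      push Not at h
      simp only [h, if_true] at h1
      have : 0 < F j x - η / 2 := by linarith only [h', h1]
      (clear * - this; positivity)
  · intro z _ z' _ hzz
    funext j
    have := congrFun hzz j
    simpa using this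

open scoped Classical in
theorem parab_two_patterns {d : ℕ} (A : Submodule ℝ (EuclideanSpace ℝ (Fin d) × ℝ))
    (p : EuclideanSpace ℝ (Fin d)) (hAp : A ≤ hyp p) (hA : 1 ≤ Module.finrank ℝ A)
    (Y : Finset (EuclideanSpace ℝ (Fin d))) (q₀ : EuclideanSpace ℝ (Fin d))
    (hY : ∀ y ∈ Y, dualVec (y, q₀) ∈ A) (s s' : ℕ)
    (g : Fin s → (EuclideanSpace ℝ (Fin d) × EuclideanSpace ℝ (Fin d)) × Bool)
    (g' : Fin s' → (EuclideanSpace ℝ (Fin d) × EuclideanSpace ℝ (Fin d)) × Bool) :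
    (Y.image (fun q => ((fun k => rng (g k) q), (fun k => rng (g' k) q)))).card ≤
      2 * (2 * (s + s') + 1) ^ (Module.finrank ℝ A - 1) := by
  set i : Fin s ⊕ Fin s' → (EuclideanSpace ℝ (Fin d) × EuclideanSpace ℝ (Fin d)) × Bool :=
    fun j => Sum.elim g g' j with hi
  have h := parab_patterns A p hAp hA Y q₀ hY (fun k => if (i k).2 then (1:ℝ) else 0)
      (fun k => if (i k).2 then (-2:ℝ) • (i k).1.1 else (2:ℝ) • ((i k).1.1 - (i k).1.2))
      (fun k => if (i k).2 then ‖(i k).1.1‖ ^ 2 - dist (i k).1.1 (i k).1.2 ^ 2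
        else -(‖(i k).1.1‖ ^ 2 - ‖(i k).1.2‖ ^ 2))
  have hJc : Fintype.card (Fin s ⊕ Fin s') = s + s' := by simp only [Fintype.card_sum,
                                                            Fintype.card_fin,
                                                            Nat.add_left_cancel_iff]
  rw [hJc] at h
  refine le_trans ?_ h
  have h1 : Y.image (fun q => ((fun k => rng (g k) q), (fun k => rng (g' k) q)))
      = (Y.image (fun y => fun j => rng (i j) y)).image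
        (fun f => ((fun k => f (Sum.inl k)), (fun k => f (Sum.inr k)))) := by
    rw [Finset.image_image]
    apply Finset.image_congr
    intro y _
    simp only [Function.comp, Prod.mk.injEq]
    constructor
    · funext k
      simp only [hi, Sum.elim_inl]
    · funext k
      simp only [hi, Sum.elim_inr]
  rw [h1]
  refine card_image_le.trans (le_of_eq ?_)
  congr 1

end Vale.Agent.P054K
end

section

set_option autoImplicit false

open Finset

namespace Vale.Agent.P054K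

/-- lifting to the paraboloid -/
noncomputable def para {d : ℕ} (q : EuclideanSpace ℝ (Fin d)) : EuclideanSpace ℝ (Fin d) × ℝ :=
  (q, ‖q‖ ^ 2)

theorem para_sub {d : ℕ} (q q' : EuclideanSpace ℝ (Fin d)) :
    para q - para q' = dualVec (q, q') := rfl

/-- the ranges used in the second layer -/
noncomputable def S2 {d : ℕ} (P : Finset (EuclideanSpace ℝ (Fin d))) :
    Finset ((EuclideanSpace ℝ (Fin d) × EuclideanSpace ℝ (Fin d)) × Bool) :=
  (P ×ˢ P) ×ˢ Finset.univ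

theorem card_S2 {d : ℕ} (P : Finset (EuclideanSpace ℝ (Fin d))) :
    (S2 P).card = 2 * P.card ^ 2 := by
  unfold S2
  rw [card_product, card_product, Finset.card_univ, Fintype.card_bool]; ring

open scoped Classical in
/-- a good top scale: half of the points lie on a hyperplane -/
theorem L2_top {d t : ℕ} (hd : 1 ≤ d) (P : Finset (EuclideanSpace ℝ (Fin d)))
    (ht : ∀ p ∈ P, (P.image (dist p)).card ≤ t + 1) (Λ : ℝ)
    (hΛ : 2 * Real.log P.card + 1 ≤ Λ) (s : ℕ) (hs : 16 * Λ * ((t:ℝ) + 1 + 2) ≤ s)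
    (hP : P.Nonempty) (hgd : Gd P P (S2 P) rng s 2) (g : ℝ) (hg : PinnedBy (d - 1) t g) :
    (P.card : ℝ) ≤ 2 * g := by
  have hn1 : (1:ℝ) ≤ P.card := by exact_mod_cast hP.card_pos
  have hlog0 : 0 ≤ Real.log P.card := Real.log_nonneg hn1
  have hΛ1 : 1 ≤ Λ := by linarith only [hΛ, hlog0]
  have hs0 : (0:ℝ) < s := lt_of_lt_of_le (by (clear * - hΛ1; positivity)) hs
  set n : ℝ := (P.card : ℝ) with hn
  have hn0 : 0 < n := by linarith only [hn1]
  -- representatives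
  have hz : ∀ (p : EuclideanSpace ℝ (Fin d)) (ρ : ℝ), ∃ z : EuclideanSpace ℝ (Fin d),
      ρ ∈ P.image (dist p) → (z ∈ P ∧ dist p z = ρ) := by
    intro p ρ
    by_cases h : ρ ∈ P.image (dist p)
    · obtain ⟨z, hz, hz2⟩ := mem_image.mp h
      exact ⟨z, fun _ => ⟨hz, hz2⟩⟩
    · exact ⟨p, fun h' => absurd h' h⟩
  choose z hz using hz
  set Rep := P.biUnion (fun p => (P.image (dist p)).image (fun ρ => ((p, z p ρ), true))) with hRep
  have hRepS : Rep ⊆ S2 P := by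
    intro σ hσ
    rw [hRep, mem_biUnion] at hσ
    obtain ⟨p, hp, hσ⟩ := hσ
    rw [mem_image] at hσ
    obtain ⟨ρ, hρ, rfl⟩ := hσ
    unfold S2
    rw [mem_product, mem_product]
    exact ⟨⟨hp, (hz p ρ hρ).1⟩, mem_univ _⟩
  have hRepc : (Rep.card : ℝ) ≤ n * (t + 1) := by
    have h1 : Rep.card ≤ P.card * (t + 1) := by
      calc Rep.card ≤ ∑ p ∈ P, ((P.image (dist p)).image (fun ρ => ((p, z p ρ), true))).card :=
            card_biUnion_le
        _ ≤ ∑ _p ∈ P, (t + 1) := Finset.sum_le_sum (fun p hp => card_image_le.trans (ht p hp))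
        _ = P.card * (t + 1) := by rw [Finset.sum_const, smul_eq_mul]
    rw [hn]; exact_mod_cast h1
  set w : (EuclideanSpace ℝ (Fin d) × EuclideanSpace ℝ (Fin d)) × Bool → ℝ :=
    fun σ => if σ ∈ Rep then 1 else 1 / n with hw
  have hwpos : ∀ σ, 0 < w σ := by
    intro σ
    simp only [hw]
    split_ifs
    · exact one_pos
    · (clear * - hP; positivity)
  have hwle : ∀ σ ∈ S2 P, w σ ≤ (if σ ∈ Rep then 1 else 0) + 1 / n := by
    intro σ _
    simp only [hw]
    have : 0 < 1 / n := by (clear * - hP; positivity)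
    split_ifs <;> linarith only [this]
  have hwsum : ∑ σ ∈ S2 P, w σ ≤ n * (t + 1 + 2) := by
    calc ∑ σ ∈ S2 P, w σ ≤ ∑ σ ∈ S2 P, ((if σ ∈ Rep then (1:ℝ) else 0) + 1 / n) :=
          Finset.sum_le_sum hwle
      _ = ((S2 P ∩ Rep).card : ℝ) + (S2 P).card * (1 / n) := by
          rw [Finset.sum_add_distrib, Finset.sum_const, nsmul_eq_mul, Finset.sum_ite_mem,
            Finset.sum_const, nsmul_eq_mul, mul_one]
      _ ≤ n * (t + 1) + 2 * n := by
          apply add_le_add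
          · refine le_trans ?_ hRepc
            exact_mod_cast card_le_card inter_subset_right
          · rw [card_S2]
            push_cast
            rw [← hn]
            apply le_of_eq
            field_simp
      _ = n * (t + 1 + 2) := by ring
  obtain ⟨y, hy, y', hy', hne, hsep⟩ := top_good P (S2 P) rng s hP hgd w (fun σ _ => hwpos σ)
  set Bad := P.filter (fun p => dist p y ≠ dist p y') with hBad
  set P' := P.filter (fun p => dist p y = dist p y') with hP'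
  have hsplit : P'.card + Bad.card = P.card := Finset.card_filter_add_card_filter_not _
  have hBadw : (Bad.card : ℝ) ≤ ∑ σ ∈ S2 P with rng σ y ≠ rng σ y', w σ := by
    set f : EuclideanSpace ℝ (Fin d) → (EuclideanSpace ℝ (Fin d) × EuclideanSpace ℝ (Fin d)) × Bool :=
      fun p => ((p, z p (min (dist p y) (dist p y'))), true) with hf
    have hfinj : Set.InjOn f (Bad : Set (EuclideanSpace ℝ (Fin d))) := by
      intro p _ p' _ hpp
      have := congrArg (fun σ => σ.1.1) hpp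
      exact this
    have hmin : ∀ p ∈ Bad, min (dist p y) (dist p y') ∈ P.image (dist p) := by
      intro p _
      rcases min_choice (dist p y) (dist p y') with h | h
      · rw [h]; exact mem_image_of_mem _ hy
      · rw [h]; exact mem_image_of_mem _ hy'
    have hfRep : ∀ p ∈ Bad, f p ∈ Rep := by
      intro p hp
      rw [hRep, mem_biUnion]
      refine ⟨p, (mem_filter.mp hp).1, ?_⟩
      rw [mem_image]
      exact ⟨_, hmin p hp, rfl⟩
    have hsub : Bad.image f ⊆ (S2 P).filter (fun σ => rng σ y ≠ rng σ y') := by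
      intro σ hσ
      rw [mem_image] at hσ
      obtain ⟨p, hp, rfl⟩ := hσ
      rw [mem_filter]
      refine ⟨hRepS (hfRep p hp), ?_⟩
      intro h1
      apply (mem_filter.mp hp).2
      have hzp := (hz p _ (hmin p hp)).2
      have h2 := rng_ball p (z p (min (dist p y) (dist p y'))) y
      have h3 := rng_ball p (z p (min (dist p y) (dist p y'))) y'
      rw [hzp] at h2 h3
      simp only [hf] at h1
      rw [h1] at h2
      rw [h2] at h3
      rcases le_total (dist p y) (dist p y') with h | h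
      · rw [min_eq_left h] at h3
        exact le_antisymm h (h3.mp le_rfl)
      · rw [min_eq_right h] at h3
        exact le_antisymm (h3.mpr le_rfl) h
    calc (Bad.card : ℝ) = ((Bad.image f).card : ℝ) := by rw [Finset.card_image_of_injOn hfinj]
      _ = ∑ σ ∈ Bad.image f, (1:ℝ) := by rw [Finset.sum_const, nsmul_eq_mul, mul_one]
      _ = ∑ σ ∈ Bad.image f, w σ := by
          apply Finset.sum_congr rfl
          intro σ hσ
          rw [mem_image] at hσ
          obtain ⟨p, hp, rfl⟩ := hσ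
          simp only [hw]
          rw [if_pos (hfRep p hp)]
      _ ≤ ∑ σ ∈ S2 P with rng σ y ≠ rng σ y', w σ :=
          Finset.sum_le_sum_of_subset_of_nonneg hsub (fun σ _ _ => (hwpos σ).le)
  have hBadle : (Bad.card : ℝ) ≤ n / 2 := by
    refine hBadw.trans (le_trans (by convert hsep) ?_)
    calc (2 * Real.log P.card + 1) / s * ∑ σ ∈ S2 P, w σ
        ≤ (2 * Real.log P.card + 1) / s * (n * (t + 1 + 2)) :=
          mul_le_mul_of_nonneg_left hwsum (by (clear * - hs0; positivity))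
      _ ≤ n / 2 := by
          rw [div_mul_eq_mul_div, div_le_iff₀ hs0]
          have h1 : (2 * Real.log P.card + 1) * ((t:ℝ) + 1 + 2) ≤ Λ * ((t:ℝ) + 1 + 2) :=
            mul_le_mul_of_nonneg_right hΛ (by (clear * -; positivity))
          have h2 : (2 * Real.log P.card + 1) * ((t:ℝ) + 1 + 2) ≤ s / 2 := by
            have : 0 ≤ Λ * ((t:ℝ) + 1 + 2) := by (clear * - hΛ1; positivity)
            linarith only [hs, h1]
          calc (2 * Real.log P.card + 1) * (n * ((t:ℝ) + 1 + 2))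
              = n * ((2 * Real.log P.card + 1) * ((t:ℝ) + 1 + 2)) := by ring
            _ ≤ n * (s / 2) := mul_le_mul_of_nonneg_left h2 hn0.le
            _ = n / 2 * s := by ring
  have hP'ge : n ≤ 2 * P'.card := by
    have : (P'.card : ℝ) + Bad.card = n := by rw [hn]; exact_mod_cast hsplit
    linarith only [hBadle, this]
  have hflat := flat_bound (j := d - 1) P P' (filter_subset _ _) ht
    (Submodule.span ℝ {dualVec (y, y')}) (by
      intro p hp
      rw [Submodule.span_le]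
      intro u hu
      rw [Set.mem_singleton_iff] at hu
      rw [hu]
      exact (dualVec_mem_hyp p (y, y')).mpr (mem_filter.mp hp).2)
    (by
      rw [finrank_span_singleton (dualVec_ne_zero (y, y') hne)]
      omega) hg
  linarith only [hP'ge, hflat]

end Vale.Agent.P054K
end

section

set_option autoImplicit false

open Finset

namespace Vale.Agent.P054K

theorem num3 (d w j : ℕ) (hw2 : 2 ≤ w) (hwd : w ≤ d) (s t G E FF : ℝ) (hs : 0 < s) (ht : 1 ≤ t)
    (hG : 1 ≤ G) (hE : 0 ≤ E) (hFF : 0 ≤ FF) :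
    FF * ((G * (t / s) / 2 ^ j) ^ w * (G / (s * 2 ^ j)) + (G * (t / s) / 2 ^ j) ^ (w - 1)) *
      (2 * 2 ^ j * (E * (s ^ (w - 1) * t ^ (d - (w - 1))))) ≤
      2 * FF * E * G ^ (d + 1) * (t ^ (d + 1) / s ^ 2 + t ^ d) := by
  obtain ⟨k, rfl⟩ : ∃ k, w = k + 1 := ⟨w - 1, by omega⟩
  simp only [Nat.add_sub_cancel]
  have hk : 1 ≤ k := by omega
  have ht0 : 0 < t := by linarith only [ht]
  have h2j : (1:ℝ) ≤ 2 ^ j := one_le_pow₀ (by norm_num)
  have h2j0 : (0:ℝ) < 2 ^ j := by positivity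
  have e1 : (G * (t / s) / 2 ^ j) ^ (k + 1) * (G / (s * 2 ^ j)) *
      (2 * 2 ^ j * (E * (s ^ k * t ^ (d - k)))) =
      2 * E * G ^ (k + 2) * ((t ^ (k + 1) * t ^ (d - k)) / s ^ 2) * (1 / (2 ^ j) ^ (k + 1)) := by
    rw [div_pow, mul_pow, div_pow]
    field_simp
    ring
  have e2 : (G * (t / s) / 2 ^ j) ^ k * (2 * 2 ^ j * (E * (s ^ k * t ^ (d - k)))) =
      2 * E * G ^ k * (t ^ k * t ^ (d - k)) * (2 ^ j / (2 ^ j) ^ k) := by
    rw [div_pow, mul_pow, div_pow]
    field_simp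
  have e3 : t ^ (k + 1) * t ^ (d - k) = t ^ (d + 1) := by
    rw [← pow_add]; congr 1; omega
  have e4 : t ^ k * t ^ (d - k) = t ^ d := by
    rw [← pow_add]; congr 1; omega
  have h3 : (1:ℝ) / (2 ^ j) ^ (k + 1) ≤ 1 := by
    rw [div_le_one (by positivity)]
    exact one_le_pow₀ h2j
  have h4 : (2:ℝ) ^ j / (2 ^ j) ^ k ≤ 1 := by
    rw [div_le_one (by positivity)]
    calc (2:ℝ) ^ j = (2 ^ j) ^ 1 := (pow_one _).symm
      _ ≤ (2 ^ j) ^ k := pow_le_pow_right₀ h2j hk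
  have h5 : G ^ (k + 2) ≤ G ^ (d + 1) := pow_le_pow_right₀ hG (by omega)
  have h6 : G ^ k ≤ G ^ (d + 1) := pow_le_pow_right₀ hG (by omega)
  have f1 : (G * (t / s) / 2 ^ j) ^ (k + 1) * (G / (s * 2 ^ j)) *
      (2 * 2 ^ j * (E * (s ^ k * t ^ (d - k)))) ≤ 2 * E * G ^ (d + 1) * (t ^ (d + 1) / s ^ 2) := by
    rw [e1, e3]
    calc 2 * E * G ^ (k + 2) * (t ^ (d + 1) / s ^ 2) * (1 / (2 ^ j) ^ (k + 1))
        ≤ 2 * E * G ^ (k + 2) * (t ^ (d + 1) / s ^ 2) * 1 :=
          mul_le_mul_of_nonneg_left h3 (by (clear * - hs ht hG hE; positivity))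
      _ = 2 * E * G ^ (k + 2) * (t ^ (d + 1) / s ^ 2) := mul_one _
      _ ≤ 2 * E * G ^ (d + 1) * (t ^ (d + 1) / s ^ 2) := by
          apply mul_le_mul_of_nonneg_right _ (by positivity)
          exact mul_le_mul_of_nonneg_left h5 (by (clear * - hE; positivity))
  have f2 : (G * (t / s) / 2 ^ j) ^ k * (2 * 2 ^ j * (E * (s ^ k * t ^ (d - k)))) ≤
      2 * E * G ^ (d + 1) * t ^ d := by
    rw [e2, e4]
    calc 2 * E * G ^ k * t ^ d * (2 ^ j / (2 ^ j) ^ k) ≤ 2 * E * G ^ k * t ^ d * 1 :=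
          mul_le_mul_of_nonneg_left h4 (by (clear * - ht hG hE; positivity))
      _ = 2 * E * G ^ k * t ^ d := mul_one _
      _ ≤ 2 * E * G ^ (d + 1) * t ^ d := by
          apply mul_le_mul_of_nonneg_right _ (by positivity)
          exact mul_le_mul_of_nonneg_left h6 (by (clear * - hE; positivity))
  calc FF * ((G * (t / s) / 2 ^ j) ^ (k + 1) * (G / (s * 2 ^ j)) + (G * (t / s) / 2 ^ j) ^ k) *
      (2 * 2 ^ j * (E * (s ^ k * t ^ (d - k))))
      = FF * ((G * (t / s) / 2 ^ j) ^ (k + 1) * (G / (s * 2 ^ j)) *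
        (2 * 2 ^ j * (E * (s ^ k * t ^ (d - k)))) +
        (G * (t / s) / 2 ^ j) ^ k * (2 * 2 ^ j * (E * (s ^ k * t ^ (d - k))))) := by ring
    _ ≤ FF * (2 * E * G ^ (d + 1) * (t ^ (d + 1) / s ^ 2) + 2 * E * G ^ (d + 1) * t ^ d) :=
        mul_le_mul_of_nonneg_left (add_le_add f1 f2) hFF
    _ = _ := by ring

/-- line mass against richness -/
theorem ratio_num2 (D w j I : ℕ) (s n κ Λ FF : ℝ) (hs : 0 < s) (hn : 0 < n) (hκ : 0 < κ)
    (hΛ : 0 ≤ Λ) (hFF : 1 ≤ FF) :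
    (8 * n * Λ) / ((s * n * 2 ^ j / (1024 * κ)) * (FF ^ w / FF ^ D)) ≤
      (1024 * κ * FF ^ D * 2 ^ (I + 14) * Λ) / (s * 2 ^ j) := by
  have hF0 : 0 < FF := by linarith only [hFF]
  have h1 : (8 * n * Λ) / ((s * n * 2 ^ j / (1024 * κ)) * (FF ^ w / FF ^ D))
      = (8 * (1024 * κ * FF ^ D * Λ) / (s * 2 ^ j)) / FF ^ w := by
    field_simp
  rw [h1]
  have h2 : (1:ℝ) ≤ FF ^ w := one_le_pow₀ hFF
  have h3 : (8:ℝ) ≤ 2 ^ (I + 14) := by
    calc (8:ℝ) = 2 ^ 3 := by norm_num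
      _ ≤ 2 ^ (I + 14) := pow_le_pow_right₀ (by norm_num) (by omega)
  calc (8 * (1024 * κ * FF ^ D * Λ) / (s * 2 ^ j)) / FF ^ w
      ≤ 8 * (1024 * κ * FF ^ D * Λ) / (s * 2 ^ j) := div_le_self (by (clear * - hs hκ hΛ hFF; positivity)) h2
    _ ≤ 2 ^ (I + 14) * (1024 * κ * FF ^ D * Λ) / (s * 2 ^ j) := by
        apply div_le_div_of_nonneg_right _ (by positivity)
        exact mul_le_mul_of_nonneg_right h3 (by positivity)
    _ = _ := by ring

/-- the richness dominates the line mass -/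
theorem ratio_num3 (D w j : ℕ) (s n κ Λ FF : ℝ) (hs : 0 < s) (hn : 0 < n) (hκ : 0 < κ)
    (hFF : 1 ≤ FF) (hsm : 8192 * κ * Λ * FF ^ (D + 1) < s) :
    FF * (8 * n * Λ) < (s * n * 2 ^ j / (1024 * κ)) * (FF ^ w / FF ^ D) := by
  have hF0 : 0 < FF := by linarith only [hFF]
  have h1 : (s * n * 2 ^ j / (1024 * κ)) * (FF ^ w / FF ^ D)
      = (s * n / (1024 * κ * FF ^ D)) * (2 ^ j * FF ^ w) := by
    field_simp
  rw [h1]
  have h2 : (1:ℝ) ≤ 2 ^ j * FF ^ w :=
    one_le_mul_of_one_le_of_one_le (one_le_pow₀ (by norm_num)) (one_le_pow₀ hFF)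
  have h3 : FF * (8 * n * Λ) < s * n / (1024 * κ * FF ^ D) := by
    rw [lt_div_iff₀ (by positivity)]
    calc FF * (8 * n * Λ) * (1024 * κ * FF ^ D) = (8192 * κ * Λ * FF ^ (D + 1)) * n := by
          rw [pow_succ]; ring
      _ < s * n := mul_lt_mul_of_pos_right hsm hn
  have h4 : 0 < s * n / (1024 * κ * FF ^ D) := by positivity
  calc FF * (8 * n * Λ) < s * n / (1024 * κ * FF ^ D) := h3
    _ ≤ (s * n / (1024 * κ * FF ^ D)) * (2 ^ j * FF ^ w) := le_mul_of_one_le_right h4.le h2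

/-- count of the cells of the finer arrangement -/
theorem cell_num (d l s I : ℕ) (hd : 1 ≤ d) (hl : 1 ≤ l) (hs : 1 ≤ s) (n q x Λ t1 : ℝ)
    (hq : q ≤ 2 * (2 * ((l:ℝ) * s) + 1) ^ d * x) (hn : n ≤ l * q) (hx0 : 0 ≤ x)
    (hx : x ≤ 2 ^ (I + 14) * Λ * t1 / s) (hΛ : Λ ≤ l) (hΛ0 : 0 ≤ Λ) (ht1 : 0 ≤ t1)
    (hI : (2:ℝ) ^ I ≤ l) :
    n ≤ 2 ^ 15 * 3 ^ d * (l:ℝ) ^ (d + 3) * t1 * (s:ℝ) ^ (d - 1) := by
  have hl' : (1:ℝ) ≤ l := by exact_mod_cast hl
  have hs' : (1:ℝ) ≤ s := by exact_mod_cast hs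
  have hs0 : (0:ℝ) < s := by linarith only [hs']
  have h1 : 2 * ((l:ℝ) * s) + 1 ≤ 3 * (l * s) := by nlinarith only [hl', hs']
  have h2 : (2 * ((l:ℝ) * s) + 1) ^ d ≤ (3 * (l * s)) ^ d := pow_le_pow_left₀ (by positivity) h1 d
  have h3 : q ≤ 2 * (3 * ((l:ℝ) * s)) ^ d * (2 ^ (I + 14) * Λ * t1 / s) := by
    refine hq.trans ?_
    apply mul_le_mul _ hx hx0 (by positivity)
    linarith only [h2]
  have h4 : (2:ℝ) ^ (I + 14) * Λ ≤ 2 ^ 14 * ((l:ℝ) * l) := by
    rw [pow_add]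
    calc (2:ℝ) ^ I * 2 ^ 14 * Λ = 2 ^ 14 * (2 ^ I * Λ) := by ring
      _ ≤ 2 ^ 14 * ((l:ℝ) * l) := by
          apply mul_le_mul_of_nonneg_left _ (by positivity)
          exact mul_le_mul hI hΛ hΛ0 (by positivity)
  obtain ⟨k, rfl⟩ : ∃ k, d = k + 1 := ⟨d - 1, by omega⟩
  simp only [Nat.add_sub_cancel]
  calc n ≤ l * q := hn
    _ ≤ l * (2 * (3 * ((l:ℝ) * s)) ^ (k + 1) * (2 ^ (I + 14) * Λ * t1 / s)) :=
        mul_le_mul_of_nonneg_left h3 (by positivity)
    _ = (l * (2 * (3 * (l:ℝ)) ^ (k + 1)) * (s:ℝ) ^ k * t1) * (2 ^ (I + 14) * Λ) := by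
        rw [show (3 * ((l:ℝ) * s)) = (3 * l) * s by ring, mul_pow (3 * (l:ℝ)) s, pow_succ (s:ℝ)]
        field_simp
    _ ≤ (l * (2 * (3 * (l:ℝ)) ^ (k + 1)) * (s:ℝ) ^ k * t1) * (2 ^ 14 * ((l:ℝ) * l)) :=
        mul_le_mul_of_nonneg_left h4 (by positivity)
    _ = 2 ^ 15 * 3 ^ (k + 1) * (l:ℝ) ^ (k + 1 + 3) * t1 * (s:ℝ) ^ k := by
        rw [mul_pow]; ring

end Vale.Agent.P054K
end

section

set_option autoImplicit false

open Finset

namespace Vale.Agent.P054K

open scoped Classical in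
theorem phi_values {d : ℕ} (Q : Finset (EuclideanSpace ℝ (Fin d))) (p : EuclideanSpace ℝ (Fin d)) :
    (Q.image (fun q => phi p (para q))).card ≤ (Q.image (dist p)).card := by
  have h1 : Q.image (fun q => phi p (para q)) =
      (Q.image (dist p)).image (fun ρ => ‖p‖ ^ 2 - ρ ^ 2) := by
    rw [Finset.image_image]
    apply Finset.image_congr
    intro q _
    simp only [Function.comp]
    unfold para
    rw [phi_apply]
    have h2 : dist p q ^ 2 = ‖p‖ ^ 2 - 2 * inner ℝ p q + ‖q‖ ^ 2 := by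
      rw [dist_eq_norm, norm_sub_sq_real]
    rw [h2]; ring
  rw [h1]
  exact card_image_le

theorem phi_ne_zero {d : ℕ} (p : EuclideanSpace ℝ (Fin d)) : phi p ≠ 0 := by
  intro h
  have h1 : phi p (0, 1) = 0 := by rw [h]; rfl
  rw [phi_apply] at h1
  simp at h1

/-- vector of an indexed pair -/
noncomputable def vv {d s : ℕ} (i : Fin s × (EuclideanSpace ℝ (Fin d) × EuclideanSpace ℝ (Fin d))) :
    EuclideanSpace ℝ (Fin d) × ℝ := para i.2.1 - para i.2.2

/-- outcome of the adaptive choice in the second layer -/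
structure L2Data {d : ℕ} (P Q : Finset (EuclideanSpace ℝ (Fin d))) (s x l t1 I : ℕ)
    (Λ κ FF : ℝ) (J : Finset (Fin s × (EuclideanSpace ℝ (Fin d) × EuclideanSpace ℝ (Fin d))))
    (jp wp : EuclideanSpace ℝ (Fin d) → ℕ)
    (Ap : EuclideanSpace ℝ (Fin d) → Submodule ℝ (EuclideanSpace ℝ (Fin d) × ℝ)) : Prop where
  hs1 : 1 ≤ s
  hst : (s:ℝ) ≤ (48 * (l:ℝ)) * t1
  hxup : (x:ℝ) ≤ 2 ^ (I + 14) * Λ * t1 / s
  hQP : Q ⊆ P
  hQne : Q.Nonempty
  hPQ : (P.card : ℝ) ≤ l * Q.card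
  hsbig : 8192 * κ * Λ * FF ^ (d + 2) < s
  hcell : (P.card : ℝ) ≤ 2 ^ 15 * 3 ^ d * (l:ℝ) ^ (d + 3) * t1 * (s:ℝ) ^ (d - 1)
  hJ : (J.card : ℝ) ≤ s * Q.card * x
  hne : ∀ i ∈ J, vv i ≠ 0
  hline : ∀ i ∈ J, mass J vv (Submodule.span ℝ {vv i}) ≤ 8 * Q.card * Λ
  hA1 : ∀ p ∈ P, Ap p ≤ hyp p
  hA2 : ∀ p ∈ P, Module.finrank ℝ (Ap p) = wp p
  hA3 : ∀ p ∈ P, 1 ≤ wp p
  hA4 : ∀ p ∈ P, (2:ℝ) ^ (jp p) ≤ Q.card
  hA5 : ∀ p ∈ P, (s * Q.card * 2 ^ (jp p) / (1024 * κ)) * (FF ^ (wp p) / FF ^ (d + 1)) ≤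
        mass J vv (Ap p)
  hA6 : ∀ p ∈ P, ∀ B' : Submodule ℝ (EuclideanSpace ℝ (Fin d) × ℝ), B' < Ap p →
        FF * mass J vv B' ≤ mass J vv (Ap p)
  hA7 : ∀ p ∈ P, ∀ Φ ⊆ P, p ∈ Φ → ∀ A' : Submodule ℝ (EuclideanSpace ℝ (Fin d) × ℝ),
        A' = (⨅ p' ∈ Φ, hyp p') → A' ≠ ⊥ →
        (Q.card : ℝ) ≤ 2 * 2 ^ (jp p) *
          ((ncos Q para A' : ℝ) * (s:ℝ) ^ (Module.finrank ℝ A' - 1))

theorem finrank_V {d : ℕ} : Module.finrank ℝ (EuclideanSpace ℝ (Fin d) × ℝ) = d + 1 := by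
  rw [Module.finrank_prod, finrank_euclideanSpace_fin, Module.finrank_self]

open scoped Classical in
theorem L2_cells (d : ℕ) (Q : Finset (EuclideanSpace ℝ (Fin d))) (l s x : ℕ)
    (g' : Fin (l * s) → (EuclideanSpace ℝ (Fin d) × EuclideanSpace ℝ (Fin d)) × Bool)
    (hcell : ∀ y ∈ Q, (Q.filter (fun z =>
      (fun k => rng (g' k) z) = (fun k => rng (g' k) y))).card ≤ x) :
    (Q.card : ℝ) ≤ 2 * (2 * ((l:ℝ) * s) + 1) ^ d * x := by
  have h1 : (Q.image (fun y => fun k => rng (g' k) y)).card ≤ 2 * (2 * (l * s) + 1) ^ d := by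
    have h := quad_cells d (Fin (l * s)) (fun k => if (g' k).2 then (1:ℝ) else 0)
      (fun k => if (g' k).2 then (-2:ℝ) • (g' k).1.1 else (2:ℝ) • ((g' k).1.1 - (g' k).1.2))
      (fun k => if (g' k).2 then ‖(g' k).1.1‖ ^ 2 - dist (g' k).1.1 (g' k).1.2 ^ 2
        else -(‖(g' k).1.1‖ ^ 2 - ‖(g' k).1.2‖ ^ 2)) Q
    rw [Fintype.card_fin] at h
    refine le_trans (le_of_eq ?_) h
    congr 1
  have h2 : Q.card ≤ (2 * (2 * (l * s) + 1) ^ d) * x := by
    calc Q.card ≤ ∑ v ∈ Q.image (fun y => fun k => rng (g' k) y), x := by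
          rw [Finset.card_eq_sum_card_image (fun y => fun k => rng (g' k) y) Q]
          apply Finset.sum_le_sum
          intro v hv
          obtain ⟨y, hy, rfl⟩ := mem_image.mp hv
          refine le_trans (le_of_eq ?_) (hcell y hy)
          congr
      _ = (Q.image (fun y => fun k => rng (g' k) y)).card * x := by
          rw [Finset.sum_const, smul_eq_mul]
      _ ≤ _ := Nat.mul_le_mul_right _ h1
  exact_mod_cast h2

open scoped Classical in
theorem L2_data (d : ℕ) (hd : 2 ≤ d) (P : Finset (EuclideanSpace ℝ (Fin d))) (t1 l I : ℕ)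
    (N : ℝ) (ht1 : 1 ≤ t1) (hpin : ∀ p ∈ P, (P.image (dist p)).card ≤ t1)
    (hN : 1 ≤ N) (h4 : 2 * Real.log N + 1 ≤ l) (h5 : 2 ^ (I + 1) ≤ l)
    (h6 : 16 * (2 * Real.log N + 1) * ((t1:ℝ) + 2) ≤ (l:ℝ) ^ I)
    (h7 : 2 * (P.card : ℝ) ^ 2 ≤ N)
    (hbig : 2 ^ (2 * I + 17) * (2 * Real.log N + 1) * (t1:ℝ) < P.card)
    (κ FF : ℝ) (hκ : κ = 2 * (5 * (l:ℝ)) ^ (d + 1)) (hFF1 : 1 ≤ FF)
    (hbig2 : 2 ^ 15 * 3 ^ d * (l:ℝ) ^ (d + 3) * (t1:ℝ) *
      (8192 * κ * (2 * Real.log N + 1) * FF ^ (d + 2)) ^ (d - 1) < P.card)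
    (hgd : ∀ s : ℕ, 16 * (2 * Real.log N + 1) * ((t1:ℝ) + 2) ≤ s →
      ¬ Gd P P (S2 P) rng s 2) :
    ∃ (s x : ℕ) (Q : Finset (EuclideanSpace ℝ (Fin d)))
      (J : Finset (Fin s × (EuclideanSpace ℝ (Fin d) × EuclideanSpace ℝ (Fin d))))
      (jp wp : EuclideanSpace ℝ (Fin d) → ℕ)
      (Ap : EuclideanSpace ℝ (Fin d) → Submodule ℝ (EuclideanSpace ℝ (Fin d) × ℝ)),
      L2Data P Q s x l t1 I (2 * Real.log N + 1) κ FF J jp wp Ap := by
  set Λ : ℝ := 2 * Real.log N + 1 with hΛ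
  have hlogN : 0 ≤ Real.log N := Real.log_nonneg hN
  have hΛ1 : 1 ≤ Λ := by rw [hΛ]; linarith only [hlogN]
  have htR : (1:ℝ) ≤ t1 := by exact_mod_cast ht1
  have hPpos : (0:ℝ) < P.card := lt_of_le_of_lt (by positivity) hbig
  have hP : P.Nonempty := by rw [← card_pos]; exact_mod_cast hPpos
  have hl1 : 1 ≤ l := Nat.one_le_two_pow.trans h5
  have hlR : (1:ℝ) ≤ l := by exact_mod_cast hl1
  have hl0 : (0:ℝ) < l := by linarith only [h4, hlogN]
  have hIl : (2:ℝ) ^ I ≤ l := by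
    have h5R : (2:ℝ) ^ (I + 1) ≤ l := by exact_mod_cast h5
    have : (2:ℝ) ^ (I + 1) = 2 * 2 ^ I := by ring
    rw [this] at h5R
    have h2 : (0:ℝ) < 2 ^ I := by positivity
    linarith only [h5R]
  have hn1 : (1:ℝ) ≤ P.card := by exact_mod_cast hP.card_pos
  have hPN : (P.card : ℝ) ≤ N := by nlinarith only [h7, hn1]
  have hS : (S2 P).Nonempty := by
    rw [← card_pos, card_S2]
    have := hP.card_pos
    (clear * - hκ hbig2 hP; positivity)
  have hSlog : Real.log (S2 P).card ≤ Λ := by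
    have h1 : ((S2 P).card : ℝ) ≤ N := by
      rw [card_S2]; push_cast; exact h7
    have h2 : (0:ℝ) < (S2 P).card := by exact_mod_cast hS.card_pos
    have h3 := Real.log_le_log h2 h1
    rw [hΛ]; linarith only [hlogN, h3]
  have hZlog : 2 * Real.log P.card + 1 ≤ Λ := by
    have := Real.log_le_log (by linarith only [hPpos]) hPN
    rw [hΛ]; linarith only [this]
  obtain ⟨s, x, Q, g', g, F, hQZ, hs1, hs2, hx8, hxlow, hxup, hZQ, hg', hcell, hR, hsep⟩ :=
    adaptive P (S2 P) rng t1 l I Λ hP hS hl1 ht1 hZlog hSlog hΛ1 h6 hgd hbig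
  have hs1R : (1:ℝ) ≤ s := by exact_mod_cast hs1
  have hs0 : (0:ℝ) < s := by linarith only [hs1R]
  have hQne : Q.Nonempty := by
    rw [← card_pos]
    rcases Nat.eq_zero_or_pos Q.card with h | h
    · rw [h, mul_zero] at hZQ
      have := hP.card_pos
      omega
    · exact h
  have hPQ : (P.card : ℝ) ≤ l * Q.card := by
    have h1 : P.card ≤ l * Q.card := hZQ.trans (Nat.mul_le_mul_right _ h5)
    exact_mod_cast h1
  have hx1 : 1 ≤ x := by omega
  have hcellnum := cell_num d l s I (by omega) hl1 hs1 P.card Q.card x Λ t1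
    (L2_cells d Q l s x g' (fun y hy => by convert hcell y hy)) hPQ
    (by positivity) hxup h4 (by linarith only [hlogN]) (by linarith only [htR]) hIl
  have hκ1 : 1 ≤ κ := by
    have : (1:ℝ) ≤ (5 * (l:ℝ)) ^ (d + 1) := one_le_pow₀ (by linarith only [h4, hlogN])
    rw [hκ]; linarith only [this]
  have hsbig : 8192 * κ * Λ * FF ^ (d + 2) < s := by
    by_contra hcon
    push Not at hcon
    have h1 : (s:ℝ) ^ (d - 1) ≤ (8192 * κ * Λ * FF ^ (d + 2)) ^ (d - 1) :=
      pow_le_pow_left₀ hs0.le hcon _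
    have h2 := hcellnum.trans (mul_le_mul_of_nonneg_left h1 (by positivity))
    linarith only [hbig2, h2]
  have hval : ∀ p ∈ P, (s * Q.card : ℝ) / 8 ≤ mass (idx F) vv (hyp p) := by
    intro p hp
    have h1 := value_pairs hR (dist p) t1 ((card_le_card (image_subset_image hQZ)).trans (hpin p hp))
      (by
        intro c hc
        rw [mem_image] at hc
        obtain ⟨z, hz, rfl⟩ := hc
        refine ⟨((p, z), true), ?_, ?_⟩
        · unfold S2
          rw [mem_product, mem_product]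
          exact ⟨⟨hp, hQZ hz⟩, mem_univ _⟩
        · intro q _
          exact rng_ball p z q) (Λ / s) (by (clear * - hlogN hs1; positivity)) hsep hx8 hxlow
    rw [← idx_filter hR] at h1
    refine h1.trans (le_of_eq ?_)
    unfold mass
    congr 2
    apply Finset.filter_congr
    intro i _
    unfold vv
    rw [para_sub, dualVec_mem_hyp]
  have hsel := select hR hs1 hs1 hQne P para hyp (fun w => w - 1) κ FF (d + 1)
    finrank_V.le hκ1 hFF1
    (by
      intro q _ q' _ h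
      exact congrArg Prod.fst h) hval
    (by
      intro A hAne hAp τ v' hv'
      obtain ⟨p, _, hAp⟩ := hAp
      rw [mem_image] at hv'
      obtain ⟨q₀, _, hq₀⟩ := hv'
      have hA1 : 1 ≤ Module.finrank ℝ A := by
        by_contra h0
        have h1 : Module.finrank ℝ A = 0 := by omega
        exact hAne (Submodule.finrank_eq_zero.mp h1)
      have h1 := parab_two_patterns A p hAp hA1 (Q.filter (fun q => A.mkQ (para q) = v')) q₀ (by
        intro y hy
        have h2 := (mem_filter.mp hy).2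
        rw [← hq₀, Submodule.mkQ_apply, Submodule.mkQ_apply, Submodule.Quotient.eq] at h2
        exact h2) s (l * s) (g τ) g'
      have h2 : Module.finrank ℝ A ≤ d + 1 := (Submodule.finrank_le A).trans finrank_V.le
      have h3 := kappa_num (d + 1) (Module.finrank ℝ A - 1) l s (by omega) hs1 hl1
      rw [← hκ] at h3
      refine le_trans ?_ h3
      exact_mod_cast h1)
  choose! jp wp Ap hA1 hA2 hA3 hA4 hA5 hA6 hA7 using hsel
  refine ⟨s, x, Q, idx F, jp, wp, Ap, ⟨hs1, ?_, hxup, hQZ, hQne, hPQ, hsbig, hcellnum,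
    idx_card_le hR, ?_, ?_, hA1, hA2, hA3, hA4, hA5, hA6, hA7⟩⟩
  · have h1 : 16 * Λ * ((t1:ℝ) + 2) ≤ 48 * l * t1 := by nlinarith only [h4, htR]
    linarith only [hs2, h1]
  · intro i hi
    rw [mem_idx] at hi
    obtain ⟨X, _, hi⟩ := hi
    rw [mem_offDiag] at hi
    exact dualVec_ne_zero (i.2.1, i.2.2) hi.2.2
  · intro i hi
    rw [mem_idx] at hi
    obtain ⟨X, hX, hi⟩ := hi
    rw [mem_offDiag] at hi
    have hσ : ((i.2.1, i.2.2), false) ∈ S2 P := by
      unfold S2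
      rw [mem_product, mem_product]
      exact ⟨⟨hQZ (hR.sub _ X hX hi.1), hQZ (hR.sub _ X hX hi.2.1)⟩, mem_univ _⟩
    have h1 := mirror_mass hR hx1
      (fun π => dualVec π ∈ Submodule.span ℝ {dualVec (i.2.1, i.2.2)}) ((i.2.1, i.2.2), false)
      (Λ / s) (hsep _ hσ) (fun X => mirror_count X i.2.1 i.2.2 hi.2.2)
    have h2 : 8 * (s:ℝ) * Q.card * (Λ / s) = 8 * Q.card * Λ := by (clear * - hκ hbig2 hΛ1 hs1 hQne hκ1 hsbig hA5; field_simp)
    rw [h2] at h1
    exact h1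

end Vale.Agent.P054K
end

section

set_option autoImplicit false

open Finset

namespace Vale.Agent.P054K

open scoped Classical in
/-- the fibre over one rich subspace -/
theorem L2_fibre {d : ℕ} {K' : ℝ} {c' : ℕ} (hK' : 1 ≤ K') (hL1 : ∀ D' ≤ d, L1 D' K' c')
    (P Q : Finset (EuclideanSpace ℝ (Fin d))) (s x t t1 l I : ℕ) (N κ FF : ℝ)
    (J : Finset (Fin s × (EuclideanSpace ℝ (Fin d) × EuclideanSpace ℝ (Fin d))))
    (jp wp : EuclideanSpace ℝ (Fin d) → ℕ)
    (Ap : EuclideanSpace ℝ (Fin d) → Submodule ℝ (EuclideanSpace ℝ (Fin d) × ℝ))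
    (hdat : L2Data P Q s x l t1 I (2 * Real.log N + 1) κ FF J jp wp Ap)
    (ht1 : t1 = t + 1) (hpin : ∀ p ∈ P, (P.image (dist p)).card ≤ t + 1)
    (hN : 1 ≤ N) (h4 : 2 * Real.log N + 1 ≤ l) (h5 : 2 ^ (I + 1) ≤ l)
    (h6 : 16 * (2 * Real.log N + 1) * ((t1:ℝ) + 2) ≤ (l:ℝ) ^ I)
    (hPN : (P.card : ℝ) ≤ N) (h8 : (P.card : ℝ) * (t1:ℝ) ≤ N)
    (hflat : ∀ j < d, PinnedBy j t (l * (t1:ℝ) ^ j))
    (j w : ℕ) (hw2 : 2 ≤ w) (A : Submodule ℝ (EuclideanSpace ℝ (Fin d) × ℝ)) :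
    ((P.filter (fun p => (jp p = j ∧ wp p = w) ∧ Ap p = A)).card : ℝ) * Q.card ≤
      2 * 2 ^ j * ((K' * (l:ℝ) ^ c' * (48 * (l:ℝ)) ^ d) *
        ((s:ℝ) ^ (w - 1) * (t1:ℝ) ^ (d - (w - 1)))) := by
  set Φ := P.filter (fun p => (jp p = j ∧ wp p = w) ∧ Ap p = A) with hΦ
  rcases Φ.eq_empty_or_nonempty with hΦe | ⟨p₀, hp₀Φ⟩
  · rw [hΦe, card_empty]; simp only [Nat.cast_zero, zero_mul]; (clear * - hK'; positivity)
  have hΦB : Φ ⊆ P := filter_subset _ _
  have htR : (1:ℝ) ≤ t1 := by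
    rw [ht1]; push_cast; have : (0:ℝ) ≤ t := by positivity
    linarith only []
  have hl1 : 1 ≤ l := Nat.one_le_two_pow.trans h5
  have hlR : (1:ℝ) ≤ l := by exact_mod_cast hl1
  have hΦ' : ∀ p ∈ Φ, p ∈ P ∧ jp p = j ∧ wp p = w ∧ Ap p = A := by
    intro p hp
    have h1 := mem_filter.mp hp
    exact ⟨h1.1, h1.2.1.1, h1.2.1.2, h1.2.2⟩
  obtain ⟨hp₀B, hp₀j, hp₀w, hp₀A⟩ := hΦ' p₀ hp₀Φ
  set A' : Submodule ℝ (EuclideanSpace ℝ (Fin d) × ℝ) := ⨅ p ∈ Φ, hyp p with hA'
  have hAA' : A ≤ A' := by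
    rw [hA']
    apply le_iInf₂
    intro p hp
    have h1 := hΦ' p hp
    rw [← h1.2.2.2]
    exact hdat.hA1 p h1.1
  have hA'hyp : A' ≤ hyp p₀ := by
    rw [hA']; exact iInf₂_le p₀ hp₀Φ
  have hwA : Module.finrank ℝ A = w := by rw [← hp₀A, hdat.hA2 p₀ hp₀B, hp₀w]
  have hw' : w ≤ Module.finrank ℝ A' := by
    rw [← hwA]; exact Submodule.finrank_mono hAA'
  have hw'D : Module.finrank ℝ A' ≤ d :=
    (Submodule.finrank_mono hA'hyp).trans (finrank_hyp p₀).le
  have hA'ne : A' ≠ ⊥ := by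
    intro h0
    rw [h0, finrank_bot] at hw'
    omega
  have h1 := hdat.hA7 p₀ hp₀B Φ hΦB hp₀Φ A' rfl hA'ne
  rw [hp₀j] at h1
  have hQN : (Q.card : ℝ) ≤ N := le_trans (by exact_mod_cast card_le_card hdat.hQP) hPN
  have hsub := hdat.hQP
  have h2 := L1_quot (hL1 (d + 1 - Module.finrank ℝ A') (by (clear * - hw2 hp₀w hwA hw' hw'D; omega))) Φ phi Q para t1 l I N A' rfl
    (by rw [finrank_V]; omega) (by omega) hN h4 h5 h6 hQN
    (le_trans (mul_le_mul_of_nonneg_right (by exact_mod_cast card_le_card hΦB) (by (clear * - htR; positivity))) h8)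
    (fun p _ => phi_ne_zero p)
    (fun p hp => ((phi_values Q p).trans (card_le_card (image_subset_image hsub))).trans
      (by rw [ht1]; exact hpin p (hΦB hp)))
    (by
      intro C hAC hC
      rcases (Φ.filter (fun p => C ≤ LinearMap.ker (phi p))).eq_empty_or_nonempty with h0 | ⟨p1, hp1⟩
      · rw [h0, card_empty]; simp only [Nat.cast_zero]; (clear * - htR hl1; positivity)
      · have h10 := (mem_filter.mp hp1).2
        have h11 : Module.finrank ℝ C ≤ d :=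
          (Submodule.finrank_mono h10).trans (finrank_hyp p1).le
        have h12 : 1 ≤ Module.finrank ℝ C := by
          have := Submodule.finrank_mono hAC
          omega
        have h13 := flat_bound (j := d - Module.finrank ℝ C) P
          (Φ.filter (fun p => C ≤ LinearMap.ker (phi p))) ((filter_subset _ _).trans hΦB)
          (fun p hp => hpin p hp) C (fun p hp => (mem_filter.mp hp).2) (by (clear * - h11; omega))
          (hflat (d - Module.finrank ℝ C) (by (clear * - h11 h12; omega)))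
        have h14 : Module.finrank ℝ (EuclideanSpace ℝ (Fin d) × ℝ) - Module.finrank ℝ C - 1
            = d - Module.finrank ℝ C := by rw [finrank_V]; omega
        rw [h14]
        exact h13)
  have h3 := num1 d (w - 1) (Module.finrank ℝ A' - 1) (by (clear * - hw2 hp₀w hwA hw'; omega)) (by omega) s t1 (48 * (l:ℝ))
    (by (clear * -; positivity)) htR (by linarith only [hlR]) hdat.hst
  have h15 : d + 1 - Module.finrank ℝ A' = d - (Module.finrank ℝ A' - 1) := by (clear * - hw2 hp₀w hwA hw' hw'D; omega)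
  rw [h15] at h2
  calc (Φ.card : ℝ) * Q.card
      ≤ Φ.card * (2 * 2 ^ j * ((ncos Q para A' : ℝ) * (s:ℝ) ^ (Module.finrank ℝ A' - 1))) :=
        mul_le_mul_of_nonneg_left h1 (by (clear * -; positivity))
    _ = 2 * 2 ^ j * (Φ.card * ncos Q para A') * (s:ℝ) ^ (Module.finrank ℝ A' - 1) := by ring
    _ ≤ 2 * 2 ^ j * (K' * (l:ℝ) ^ c' * (t1:ℝ) ^ (d - (Module.finrank ℝ A' - 1))) *
        (s:ℝ) ^ (Module.finrank ℝ A' - 1) := by
        apply mul_le_mul_of_nonneg_right _ (by (clear * -; positivity))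
        exact mul_le_mul_of_nonneg_left h2 (by positivity)
    _ = 2 * 2 ^ j * (K' * (l:ℝ) ^ c' * ((s:ℝ) ^ (Module.finrank ℝ A' - 1) *
        (t1:ℝ) ^ (d - (Module.finrank ℝ A' - 1)))) := by ring
    _ ≤ 2 * 2 ^ j * (K' * (l:ℝ) ^ c' * ((s:ℝ) ^ (w - 1) * (t1:ℝ) ^ (d - (w - 1)) *
        (48 * (l:ℝ)) ^ d)) := by
        apply mul_le_mul_of_nonneg_left _ (by positivity)
        exact mul_le_mul_of_nonneg_left h3 (by positivity)
    _ = _ := by ring

open scoped Classical in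
/-- the number of rich subspaces -/
theorem L2_rich {d : ℕ} {K0 : ℝ} {c0 : ℕ} (hK0 : 1 ≤ K0)
    (hET : ∀ w, 2 ≤ w → w ≤ d → ETProp w K0 c0)
    (P Q : Finset (EuclideanSpace ℝ (Fin d))) (s x t1 l I : ℕ) (N κ FF : ℝ)
    (J : Finset (Fin s × (EuclideanSpace ℝ (Fin d) × EuclideanSpace ℝ (Fin d))))
    (jp wp : EuclideanSpace ℝ (Fin d) → ℕ)
    (Ap : EuclideanSpace ℝ (Fin d) → Submodule ℝ (EuclideanSpace ℝ (Fin d) × ℝ))
    (hdat : L2Data P Q s x l t1 I (2 * Real.log N + 1) κ FF J jp wp Ap)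
    (hN : 1 ≤ N) (h4 : 2 * Real.log N + 1 ≤ l) (hIl : (2:ℝ) ^ I ≤ l) (hlR : (1:ℝ) ≤ l)
    (h9 : 20 * (Real.log (2 ^ 14 * N * (l:ℝ) ^ 2 * (t1:ℝ) + 3) + 1) ≤ l)
    (hPN : (P.card : ℝ) ≤ N) (hκ1 : 1 ≤ κ) (hFF : FF = K0 * (l:ℝ) ^ c0)
    (j w : ℕ) (hw2 : 2 ≤ w) (hwd : w ≤ d) :
    ((((P.filter (fun p => jp p = j ∧ wp p = w)).image Ap).card : ℕ) : ℝ) ≤
      FF * (((1024 * κ * FF ^ (d + 1) * 2 ^ (I + 14) * (2 * Real.log N + 1)) * (t1 / s) / 2 ^ j) ^ w *
        ((1024 * κ * FF ^ (d + 1) * 2 ^ (I + 14) * (2 * Real.log N + 1)) / (s * 2 ^ j)) +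
        ((1024 * κ * FF ^ (d + 1) * 2 ^ (I + 14) * (2 * Real.log N + 1)) * (t1 / s) / 2 ^ j) ^ (w - 1)) := by
  set Λ : ℝ := 2 * Real.log N + 1 with hΛ
  have hlogN : 0 ≤ Real.log N := Real.log_nonneg hN
  have hΛ1 : 1 ≤ Λ := by rw [hΛ]; linarith only [hlogN]
  have hs1R : (1:ℝ) ≤ s := by exact_mod_cast hdat.hs1
  have hs0 : (0:ℝ) < s := by linarith only [hs1R]
  have hq1 : (1:ℝ) ≤ Q.card := by exact_mod_cast hdat.hQne.card_pos
  have hq0 : (0:ℝ) < Q.card := by linarith only [hq1]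
  have hQN : (Q.card : ℝ) ≤ N := le_trans (by exact_mod_cast card_le_card hdat.hQP) hPN
  have hFF1 : 1 ≤ FF := by
    rw [hFF]; exact one_le_mul_of_one_le_of_one_le hK0 (one_le_pow₀ hlR)
  have hFF0 : 0 < FF := by linarith only [hFF1]
  set G : ℝ := 1024 * κ * FF ^ (d + 1) * 2 ^ (I + 14) * Λ with hG
  set m : ℝ := 8 * Q.card * Λ with hm
  have hm0 : 0 < m := by (clear * - hlogN hq1; positivity)
  set Bc := P.filter (fun p => jp p = j ∧ wp p = w) with hBc
  have hBc' : ∀ p ∈ Bc, p ∈ P ∧ jp p = j ∧ wp p = w := fun p hp => mem_filter.mp hp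
  set Zc := Bc.image Ap with hZc
  set ρ : ℝ := (s * Q.card * 2 ^ j / (1024 * κ)) * (FF ^ w / FF ^ (d + 1)) with hρ
  have hρ0 : 0 < ρ := by (clear * - hκ1 hs1R hq1 hFF1; positivity)
  have hxup := hdat.hxup
  have hMle : (s:ℝ) * Q.card * x ≤ 2 ^ 14 * N * (l:ℝ) ^ 2 * t1 := by
    have e1 : (s:ℝ) * x ≤ 2 ^ 14 * (l:ℝ) ^ 2 * t1 := by
      rw [le_div_iff₀ hs0] at hxup
      have e2 : (2:ℝ) ^ (I + 14) * Λ * t1 ≤ 2 ^ 14 * (l:ℝ) ^ 2 * t1 := by
        apply mul_le_mul_of_nonneg_right _ (by (clear * -; positivity))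
        rw [pow_add]
        calc (2:ℝ) ^ I * 2 ^ 14 * Λ = 2 ^ 14 * (2 ^ I * Λ) := by ring
          _ ≤ 2 ^ 14 * ((l:ℝ) * l) := by
              apply mul_le_mul_of_nonneg_left _ (by positivity)
              exact mul_le_mul hIl h4 (by linarith only [hlogN]) (by positivity)
          _ = 2 ^ 14 * (l:ℝ) ^ 2 := by ring
      linarith only [hxup, e2]
    calc (s:ℝ) * Q.card * x = Q.card * (s * x) := by ring
      _ ≤ N * (2 ^ 14 * (l:ℝ) ^ 2 * t1) := mul_le_mul hQN e1 (by (clear * - hs1R; positivity)) (by linarith only [hN])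
      _ = _ := by ring
  have h1 := hET w hw2 hwd (EuclideanSpace ℝ (Fin d) × ℝ)
    (Fin s × (EuclideanSpace ℝ (Fin d) × EuclideanSpace ℝ (Fin d))) J vv m
    (s * Q.card * x) ρ l Zc hdat.hne hdat.hline hm0 hdat.hJ
    (by
      refine le_trans ?_ h9
      have := Real.log_le_log (show (0:ℝ) < (s:ℝ) * Q.card * x + 3 by (clear * - hs1R hq1; positivity))
        (show (s:ℝ) * Q.card * x + 3 ≤ 2 ^ 14 * N * (l:ℝ) ^ 2 * t1 + 3 by linarith only [hMle])
      linarith only [this])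
    (by
      have h3 := ratio_num3 (d + 1) w j s Q.card κ Λ FF hs0 hq0 (by linarith only [hκ1]) hFF1 hdat.hsbig
      rw [← hm, ← hρ, hFF] at h3
      exact h3.le)
    (by
      intro A hA
      rw [hZc, mem_image] at hA
      obtain ⟨p₀, hp₀, hp₀A⟩ := hA
      obtain ⟨hp₀B, hp₀j, hp₀w⟩ := hBc' p₀ hp₀
      refine ⟨by rw [← hp₀A, hdat.hA2 p₀ hp₀B, hp₀w], ?_, ?_⟩
      · have h2 := hdat.hA5 p₀ hp₀B
        rw [hp₀j, hp₀w, hp₀A] at h2
        exact h2
      · intro B' hB'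
        have h2 := hdat.hA6 p₀ hp₀B B' (by rw [hp₀A]; exact hB')
        rw [hp₀A, hFF] at h2
        exact h2)
  rw [← hFF] at h1
  refine h1.trans ?_
  apply mul_le_mul_of_nonneg_left _ hFF0.le
  have h2 := ratio_num (d + 1) w j I s Q.card x κ Λ t1 FF hs0 hq0 (by linarith only [hκ1]) (by (clear * -; positivity))
    hxup hFF1
  rw [← hρ, ← hG] at h2
  have h3 := ratio_num2 (d + 1) w j I s Q.card κ Λ FF hs0 hq0 (by linarith only [hκ1]) (by linarith only [hlogN]) hFF1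
  rw [← hρ, ← hG, ← hm] at h3
  have e1 : ((s:ℝ) * Q.card * x) ^ w * m / ρ ^ (w + 1) =
      ((s * Q.card * x) / ρ) ^ w * (m / ρ) := by
    rw [div_pow, pow_succ]; (clear * - hm0 hρ0; field_simp)
  have e2 : ((s:ℝ) * Q.card * x) ^ (w - 1) / ρ ^ (w - 1) =
      ((s * Q.card * x) / ρ) ^ (w - 1) := by rw [div_pow]
  rw [e1, e2]
  apply add_le_add
  · apply mul_le_mul _ h3 (by (clear * - hκ1 hlogN hs1R hq1 hFF1; positivity)) (by (clear * - hκ1 hlogN hs1R hFF1; positivity))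
    exact pow_le_pow_left₀ (by (clear * - hκ1 hs1R hq1 hFF1; positivity)) h2 _
  · exact pow_le_pow_left₀ (by (clear * - hκ1 hs1R hq1 hFF1; positivity)) h2 _

open scoped Classical in
theorem L2_caseC (d : ℕ) (hd : 2 ≤ d) {K0 : ℝ} {c0 : ℕ} (hK0 : 1 ≤ K0)
    (hET : ∀ w, 2 ≤ w → w ≤ d → ETProp w K0 c0) {K' : ℝ} {c' : ℕ} (hK' : 1 ≤ K')
    (hL1 : ∀ D' ≤ d, L1 D' K' c') (P : Finset (EuclideanSpace ℝ (Fin d))) (t t1 l I : ℕ)
    (N : ℝ) (ht1 : t1 = t + 1)
    (hpin : ∀ p ∈ P, (P.image (dist p)).card ≤ t + 1)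
    (hN : 1 ≤ N) (h4 : 2 * Real.log N + 1 ≤ l) (h5 : 2 ^ (I + 1) ≤ l)
    (h6 : 16 * (2 * Real.log N + 1) * ((t1:ℝ) + 2) ≤ (l:ℝ) ^ I)
    (h7 : 2 * (P.card : ℝ) ^ 2 ≤ N) (h8 : (P.card : ℝ) * (t1:ℝ) ≤ N)
    (h9 : 20 * (Real.log (2 ^ 14 * N * (l:ℝ) ^ 2 * (t1:ℝ) + 3) + 1) ≤ l)
    (hflat : ∀ j < d, PinnedBy j t (l * (t1:ℝ) ^ j))
    (hbig : 2 ^ (2 * I + 17) * (2 * Real.log N + 1) * (t1:ℝ) < P.card)
    (κ FF : ℝ) (hκ : κ = 2 * (5 * (l:ℝ)) ^ (d + 1)) (hFF : FF = K0 * (l:ℝ) ^ c0)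
    (hbig2 : 2 ^ 15 * 3 ^ d * (l:ℝ) ^ (d + 3) * (t1:ℝ) *
      (8192 * κ * (2 * Real.log N + 1) * FF ^ (d + 2)) ^ (d - 1) < P.card)
    (hgd : ∀ s : ℕ, 16 * (2 * Real.log N + 1) * ((t1:ℝ) + 2) ≤ s →
      ¬ Gd P P (S2 P) rng s 2) :
    ∃ s : ℝ, 1 ≤ s ∧
      (P.card : ℝ) ≤ 2 ^ 15 * 3 ^ d * (l:ℝ) ^ (d + 3) * (t1:ℝ) * s ^ (d - 1) ∧
      (P.card : ℝ) ^ 2 ≤ ((l:ℝ) * (l * (d * (2 * FF * (K' * (l:ℝ) ^ c' * (48 * (l:ℝ)) ^ d) *
        (1024 * κ * FF ^ (d + 1) * 2 ^ (I + 14) * (2 * Real.log N + 1)) ^ (d + 1))))) *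
        ((t1:ℝ) ^ (d + 1) / s ^ 2 + (t1:ℝ) ^ d) := by
  have hlogN : 0 ≤ Real.log N := Real.log_nonneg hN
  have hΛ1 : 1 ≤ 2 * Real.log N + 1 := by linarith only [hlogN]
  have htR : (1:ℝ) ≤ t1 := by
    rw [ht1]; push_cast; have : (0:ℝ) ≤ t := by (clear * -; positivity)
    linarith only []
  have hl1 : 1 ≤ l := Nat.one_le_two_pow.trans h5
  have hlR : (1:ℝ) ≤ l := by exact_mod_cast hl1
  have hl0 : (0:ℝ) < l := by linarith only [h4, hlogN]
  have hIl : (2:ℝ) ^ I ≤ l := by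
    have h5R : (2:ℝ) ^ (I + 1) ≤ l := by exact_mod_cast h5
    have : (2:ℝ) ^ (I + 1) = 2 * 2 ^ I := by ring
    rw [this] at h5R
    have h2 : (0:ℝ) < 2 ^ I := by positivity
    linarith only [h5R]
  have hPpos : (0:ℝ) < P.card := lt_of_le_of_lt (by (clear * - hlogN htR; positivity)) hbig
  have hn1 : (1:ℝ) ≤ P.card := by
    have : 0 < P.card := by exact_mod_cast hPpos
    exact_mod_cast this
  have hPN : (P.card : ℝ) ≤ N := by nlinarith only [h8, htR]
  have hκ1 : 1 ≤ κ := by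
    have : (1:ℝ) ≤ (5 * (l:ℝ)) ^ (d + 1) := one_le_pow₀ (by linarith only [h4, hlogN])
    rw [hκ]; linarith only [this]
  have hFF1 : 1 ≤ FF := by
    rw [hFF]; exact one_le_mul_of_one_le_of_one_le hK0 (one_le_pow₀ hlR)
  have hFF0 : 0 < FF := by linarith only [hFF1]
  obtain ⟨s, x, Q, J, jp, wp, Ap, hdat⟩ := L2_data d hd P t1 l I N (by omega)
    (fun p hp => by rw [ht1]; exact hpin p hp) hN h4 h5 h6 h7 hbig κ FF hκ hFF1 hbig2 hgd
  set Λ : ℝ := 2 * Real.log N + 1 with hΛ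
  have hs1R : (1:ℝ) ≤ s := by exact_mod_cast hdat.hs1
  have hs0 : (0:ℝ) < s := by linarith only [hs1R]
  have hq1 : (1:ℝ) ≤ Q.card := by exact_mod_cast hdat.hQne.card_pos
  have hq0 : (0:ℝ) < Q.card := by linarith only [hq1]
  have hQN : (Q.card : ℝ) ≤ N := le_trans (by exact_mod_cast card_le_card hdat.hQP) hPN
  have hw2 : ∀ p ∈ P, 2 ≤ wp p := by
    intro p hp
    by_contra hcon
    have hw1 : wp p = 1 := by have := hdat.hA3 p hp; (clear * - hcon this; omega)
    have hm0 : 0 < 8 * (Q.card : ℝ) * Λ := by (clear * - hlogN hq1; positivity)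
    have h1 := mass_of_finrank_one J vv (8 * Q.card * Λ) hm0.le hdat.hne hdat.hline (Ap p)
      (by rw [hdat.hA2 p hp, hw1])
    have h2 := hdat.hA5 p hp
    have h3 := ratio_num3 (d + 1) (wp p) (jp p) s Q.card κ Λ FF hs0 hq0 (by linarith only [hκ1]) hFF1 hdat.hsbig
    have h4 : 8 * Q.card * Λ ≤ FF * (8 * Q.card * Λ) := le_mul_of_one_le_left hm0.le hFF1
    linarith only [h1, h2, h3, h4]
  have hwd : ∀ p ∈ P, wp p ≤ d := by
    intro p hp
    rw [← hdat.hA2 p hp]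
    exact (Submodule.finrank_mono (hdat.hA1 p hp)).trans (finrank_hyp p).le
  set G : ℝ := 1024 * κ * FF ^ (d + 1) * 2 ^ (I + 14) * Λ with hG
  have hG1 : 1 ≤ G := by
    have h1 : (1:ℝ) ≤ FF ^ (d + 1) := one_le_pow₀ hFF1
    have h2 : (1:ℝ) ≤ 2 ^ (I + 14) := one_le_pow₀ (by norm_num)
    have h3 : 1 ≤ κ * FF ^ (d + 1) := one_le_mul_of_one_le_of_one_le hκ1 h1
    have h4 : 1 ≤ κ * FF ^ (d + 1) * 2 ^ (I + 14) := one_le_mul_of_one_le_of_one_le h3 h2
    have h5 : 1 ≤ κ * FF ^ (d + 1) * 2 ^ (I + 14) * Λ := one_le_mul_of_one_le_of_one_le h4 hΛ1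
    rw [hG]; linarith only [h5]
  set E : ℝ := K' * (l:ℝ) ^ c' * (48 * (l:ℝ)) ^ d with hE
  have hE0 : 0 ≤ E := by rw [hE]; positivity
  set T : ℝ := 2 * FF * E * G ^ (d + 1) * ((t1:ℝ) ^ (d + 1) / (s:ℝ) ^ 2 + (t1:ℝ) ^ d) with hT
  have hclass : ∀ j w, 2 ≤ w → w ≤ d →
      ((P.filter (fun p => jp p = j ∧ wp p = w)).card : ℝ) * Q.card ≤ T := by
    intro j w hw2' hwd'
    have hZcard := L2_rich hK0 hET P Q s x t1 l I N κ FF J jp wp Ap hdat hN h4 hIl hlR h9 hPN hκ1 hFF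
      j w hw2' hwd'
    have hfib := L2_fibre hK' hL1 P Q s x t t1 l I N κ FF J jp wp Ap hdat ht1 hpin hN h4 h5 h6 hPN
      h8 hflat j w hw2'
    set Bc := P.filter (fun p => jp p = j ∧ wp p = w) with hBc
    have hcardeq : (Bc.card : ℝ) = ∑ A ∈ Bc.image Ap,
        ((P.filter (fun p => (jp p = j ∧ wp p = w) ∧ Ap p = A)).card : ℝ) := by
      have h3 : Bc.card = ∑ A ∈ Bc.image Ap, (Bc.filter (fun p => Ap p = A)).card :=
        Finset.card_eq_sum_card_fiberwise (fun p hp => mem_image_of_mem Ap hp)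
      rw [h3]; push_cast
      apply Finset.sum_congr rfl
      intro A _
      rw [hBc, Finset.filter_filter]
    calc (Bc.card : ℝ) * Q.card
        = ∑ A ∈ Bc.image Ap,
          ((P.filter (fun p => (jp p = j ∧ wp p = w) ∧ Ap p = A)).card : ℝ) * Q.card := by
          rw [hcardeq, Finset.sum_mul]
      _ ≤ ∑ _A ∈ Bc.image Ap, 2 * 2 ^ j * (E * ((s:ℝ) ^ (w - 1) * (t1:ℝ) ^ (d - (w - 1)))) :=
          Finset.sum_le_sum (fun A _ => hfib A)
      _ = (Bc.image Ap).card * (2 * 2 ^ j * (E * ((s:ℝ) ^ (w - 1) * (t1:ℝ) ^ (d - (w - 1))))) := by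
          rw [Finset.sum_const, nsmul_eq_mul]
      _ ≤ (FF * ((G * (t1 / s) / 2 ^ j) ^ w * (G / (s * 2 ^ j)) +
          (G * (t1 / s) / 2 ^ j) ^ (w - 1))) *
          (2 * 2 ^ j * (E * ((s:ℝ) ^ (w - 1) * (t1:ℝ) ^ (d - (w - 1))))) :=
          mul_le_mul_of_nonneg_right hZcard (by (clear * - hK' htR hl1 hs1R; positivity))
      _ ≤ T := num3 d w j hw2' hwd' s t1 G E FF hs0 htR hG1 hE0 hFF0.le
  have hT0 : 0 ≤ T := by rw [hT]; (clear * - hK' hlogN htR hl1 hκ1 hFF1 hs1R; positivity)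
  have hpart : (P.card : ℝ) = ∑ y ∈ (Finset.range l) ×ˢ (Icc 2 d),
      ((P.filter (fun p => jp p = y.1 ∧ wp p = y.2)).card : ℝ) := by
    have h3 : P.card = ∑ y ∈ (Finset.range l) ×ˢ (Icc 2 d),
        (P.filter (fun p => (jp p, wp p) = y)).card := by
      apply Finset.card_eq_sum_card_fiberwise
      intro p hp
      rw [mem_coe, mem_product, mem_range, mem_Icc]
      exact ⟨level_lt (jp p) l N hN h4 ((hdat.hA4 p hp).trans hQN), hw2 p hp, hwd p hp⟩
    rw [h3]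
    push_cast
    apply Finset.sum_congr rfl
    intro y _
    congr 2
    apply Finset.filter_congr
    intro p _
    rw [Prod.ext_iff]
  have hBQ : (P.card : ℝ) * Q.card ≤ l * (d * T) := by
    rw [hpart, Finset.sum_mul]
    calc ∑ y ∈ (Finset.range l) ×ˢ (Icc 2 d),
        ((P.filter (fun p => jp p = y.1 ∧ wp p = y.2)).card : ℝ) * Q.card
        ≤ ∑ _y ∈ (Finset.range l) ×ˢ (Icc 2 d), T := by
          apply Finset.sum_le_sum
          intro y hy
          rw [mem_product, mem_Icc] at hy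
          exact hclass y.1 y.2 hy.2.1 hy.2.2
      _ = (l * ((d - 1 : ℕ) : ℝ)) * T := by
          rw [Finset.sum_const, card_product, card_range, Nat.card_Icc, nsmul_eq_mul]
          have : d + 1 - 2 = d - 1 := by (clear * - hd; omega)
          rw [this]
          push_cast
          ring
      _ ≤ (l * (d:ℝ)) * T := by
          apply mul_le_mul_of_nonneg_right _ hT0
          apply mul_le_mul_of_nonneg_left _ hl0.le
          exact_mod_cast Nat.sub_le d 1
      _ = l * (d * T) := by ring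
  refine ⟨s, hs1R, hdat.hcell, ?_⟩
  calc (P.card : ℝ) ^ 2 ≤ P.card * (l * Q.card) := by
        rw [sq]; exact mul_le_mul_of_nonneg_left hdat.hPQ (by (clear * - hPpos; positivity))
    _ = l * (P.card * Q.card) := by ring
    _ ≤ l * (l * (d * T)) := mul_le_mul_of_nonneg_left hBQ (by linarith only [])
    _ = _ := by rw [hT]; ring

end Vale.Agent.P054K
end
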