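import Vale.Agent.P054.MathlibUsed
import Vale.Agent.P054.Bdl.B4
import Vale.Agent.P054.Bdl.B1
import Vale.Agent.P054.Bdl.B3
attribute [-instance] ProperSMul.toContinuousSMul IsTopologicalTorsor.toContinuousSMul IdemSemiring.toCanonicallyOrderedAdd IdemSemiring.toMulLeftMono IdemSemiring.toMulRightMono AddQuantale.instAddLeftMono AddQuantale.instAddRightMono Quantale.instMulLeftMono Quantale.instMulRightMono FiniteDimensional.rclike_to_real IsScalarTower.complexToReal FiniteDimensional.complexToReal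

set_option linter.all false

section

set_option autoImplicit false

open Finset

namespace Vale.Agent.P054K

theorem absorb (X K l t : ℝ) (y c z e : ℕ) (hX : 0 ≤ X) (hXK : X ≤ K) (hl : 1 ≤ l) (ht : 1 ≤ t)
    (hy : y ≤ c) (hz : z ≤ e) : X * l ^ y * t ^ z ≤ K * l ^ c * t ^ e := by
  have h1 : l ^ y ≤ l ^ c := pow_le_pow_right₀ hl hy
  have h2 : t ^ z ≤ t ^ e := pow_le_pow_right₀ ht hz
  have h3 : X * l ^ y ≤ K * l ^ c := mul_le_mul hXK h1 (by positivity) (hX.trans hXK)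
  exact mul_le_mul h3 h2 (by positivity) (mul_nonneg (hX.trans hXK) (by positivity))

/-- elimination of the scale -/
theorem eliminate (d : ℕ) (hd : 2 ≤ d) (n C1 C2 t s : ℝ) (hn : 0 ≤ n) (hC1 : 0 ≤ C1)
    (hC2 : 0 ≤ C2) (ht : 1 ≤ t) (hs : 1 ≤ s) (h1 : n ≤ C1 * t * s ^ (d - 1))
    (h2 : n ^ 2 ≤ C2 * (t ^ (d + 1) / s ^ 2 + t ^ d)) :
    n ^ (2 * d) ≤ C1 ^ 2 * (2 * C2) ^ (d - 1) * t ^ (d ^ 2 + 1) ∨
      n ^ (2 * d) ≤ (2 * C2) ^ d * t ^ (d ^ 2) := by
  have hs0 : 0 < s := by linarith only [hs]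
  have ht0 : 0 < t := by linarith only [ht]
  rcases le_total (t ^ d) (t ^ (d + 1) / s ^ 2) with h | h
  · left
    have h3 : n ^ 2 ≤ 2 * C2 * (t ^ (d + 1) / s ^ 2) := by
      refine h2.trans ?_
      have : C2 * (t ^ (d + 1) / s ^ 2 + t ^ d) ≤ C2 * (2 * (t ^ (d + 1) / s ^ 2)) :=
        mul_le_mul_of_nonneg_left (by linarith only [h]) hC2
      linarith only [this]
    obtain ⟨k, rfl⟩ : ∃ k, d = k + 1 := ⟨d - 1, by omega⟩
    simp only [Nat.add_sub_cancel] at *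
    have h4 : (n ^ 2) ^ k ≤ (2 * C2 * (t ^ (k + 1 + 1) / s ^ 2)) ^ k :=
      pow_le_pow_left₀ (by positivity) h3 k
    have h5 : n ^ 2 ≤ (C1 * t * s ^ k) ^ 2 := pow_le_pow_left₀ hn h1 2
    have e1 : n ^ (2 * (k + 1)) = (n ^ 2) ^ k * n ^ 2 := by
      rw [← pow_mul, ← pow_add]; congr 1
    rw [e1]
    calc (n ^ 2) ^ k * n ^ 2 ≤ (2 * C2 * (t ^ (k + 1 + 1) / s ^ 2)) ^ k * (C1 * t * s ^ k) ^ 2 :=
          mul_le_mul h4 h5 (by (clear * -; positivity)) (by (clear * - hC2 ht hs; positivity))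
      _ = C1 ^ 2 * (2 * C2) ^ k * ((t ^ (k + 1 + 1)) ^ k * t ^ 2) * ((s ^ k) ^ 2 / (s ^ 2) ^ k) := by
          rw [mul_pow (2 * C2), div_pow, mul_pow, mul_pow]; field_simp
      _ = C1 ^ 2 * (2 * C2) ^ k * t ^ ((k + 1) ^ 2 + 1) := by
          have e2 : (s ^ k) ^ 2 / (s ^ 2) ^ k = 1 := by
            rw [← pow_mul, ← pow_mul, mul_comm k 2, div_self (by positivity)]
          have e3 : (t ^ (k + 1 + 1)) ^ k * t ^ 2 = t ^ ((k + 1) ^ 2 + 1) := by
            rw [← pow_mul, ← pow_add]; congr 1; ring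
          rw [e2, e3, mul_one]
  · right
    have h3 : n ^ 2 ≤ 2 * C2 * t ^ d := by
      refine h2.trans ?_
      have : C2 * (t ^ (d + 1) / s ^ 2 + t ^ d) ≤ C2 * (2 * t ^ d) :=
        mul_le_mul_of_nonneg_left (by linarith only [h]) hC2
      linarith only [this]
    calc n ^ (2 * d) = (n ^ 2) ^ d := by rw [← pow_mul]
      _ ≤ (2 * C2 * t ^ d) ^ d := pow_le_pow_left₀ (by (clear * -; positivity)) h3 d
      _ = (2 * C2) ^ d * t ^ (d ^ 2) := by rw [mul_pow, ← pow_mul, sq]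

theorem constB1 (d c0 : ℕ) (l Λ K0 : ℝ) (hl : 1 ≤ l) (hΛ0 : 0 ≤ Λ) (hΛ : Λ ≤ l) (hK0 : 1 ≤ K0) :
    8192 * (2 * (5 * l) ^ (d + 1)) * Λ * (K0 * l ^ c0) ^ (d + 2) ≤
      (2 ^ 14 * 5 ^ (d + 1) * K0 ^ (d + 2)) * l ^ (d + 1 + 1 + c0 * (d + 2)) := by
  have hl0 : 0 < l := by linarith only [hl]
  calc 8192 * (2 * (5 * l) ^ (d + 1)) * Λ * (K0 * l ^ c0) ^ (d + 2)
      ≤ 8192 * (2 * (5 * l) ^ (d + 1)) * l * (K0 * l ^ c0) ^ (d + 2) := by
        apply mul_le_mul_of_nonneg_right _ (by positivity)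
        exact mul_le_mul_of_nonneg_left hΛ (by positivity)
    _ = _ := by
        rw [mul_pow 5 l, mul_pow K0, ← pow_mul, pow_add l (d + 1 + 1) (c0 * (d + 2)),
          pow_add l (d + 1) 1, pow_one]
        ring

theorem constB3 (d c0 I : ℕ) (l Λ K0 : ℝ) (hl : 1 ≤ l) (hΛ0 : 0 ≤ Λ) (hΛ : Λ ≤ l) (hK0 : 1 ≤ K0)
    (hI : (2:ℝ) ^ I ≤ l) :
    1024 * (2 * (5 * l) ^ (d + 1)) * (K0 * l ^ c0) ^ (d + 1) * 2 ^ (I + 14) * Λ ≤
      (2 ^ 25 * 5 ^ (d + 1) * K0 ^ (d + 1)) * l ^ (d + 1 + 2 + c0 * (d + 1)) := by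
  have hl0 : 0 < l := by linarith only [hl]
  have h1 : (2:ℝ) ^ (I + 14) * Λ ≤ 2 ^ 14 * (l * l) := by
    rw [pow_add]
    calc (2:ℝ) ^ I * 2 ^ 14 * Λ = 2 ^ 14 * (2 ^ I * Λ) := by ring
      _ ≤ 2 ^ 14 * (l * l) := by
          apply mul_le_mul_of_nonneg_left _ (by positivity)
          exact mul_le_mul hI hΛ hΛ0 (by positivity)
  calc 1024 * (2 * (5 * l) ^ (d + 1)) * (K0 * l ^ c0) ^ (d + 1) * 2 ^ (I + 14) * Λ
      = (1024 * (2 * (5 * l) ^ (d + 1)) * (K0 * l ^ c0) ^ (d + 1)) * (2 ^ (I + 14) * Λ) := by ring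
    _ ≤ (1024 * (2 * (5 * l) ^ (d + 1)) * (K0 * l ^ c0) ^ (d + 1)) * (2 ^ 14 * (l * l)) :=
        mul_le_mul_of_nonneg_left h1 (by positivity)
    _ = _ := by
        rw [mul_pow 5 l, mul_pow K0, ← pow_mul, pow_add l (d + 1 + 2) (c0 * (d + 1)),
          pow_add l (d + 1) 2]
        ring

/-- the key inequality of the second layer as a property of constants -/
def Key2 (d : ℕ) (K : ℝ) (c : ℕ) : Prop :=
  open scoped Classical in
  ∀ (P : Finset (EuclideanSpace ℝ (Fin d))) (t t1 l I : ℕ) (N g : ℝ), t1 = t + 1 →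
    (∀ p ∈ P, (P.image (dist p)).card ≤ t + 1) → 1 ≤ N → 2 * Real.log N + 1 ≤ l →
    2 ^ (I + 1) ≤ l → 16 * (2 * Real.log N + 1) * ((t1:ℝ) + 2) ≤ (l:ℝ) ^ I →
    2 * (P.card : ℝ) ^ 2 ≤ N → (P.card : ℝ) * (t1:ℝ) ≤ N →
    20 * (Real.log (2 ^ 14 * N * (l:ℝ) ^ 2 * (t1:ℝ) + 3) + 1) ≤ l →
    (∀ j < d, PinnedBy j t (l * (t1:ℝ) ^ j)) → PinnedBy (d - 1) t g →
    (P.card : ℝ) ≤ 2 * g ∨ (P.card : ℝ) ^ (2 * d) ≤ K * (l:ℝ) ^ c * (t1:ℝ) ^ (d ^ 2 + 1)

theorem key2 (d : ℕ) (hd : 2 ≤ d) : ∃ (K : ℝ) (c : ℕ), 1 ≤ K ∧ Key2 d K c := by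
  classical
  obtain ⟨K0, c0, hK0, hET⟩ := et_uniform d
  obtain ⟨K', c', hK', hL1⟩ := L1_all d
  obtain ⟨B1, hB1⟩ : ∃ B1 : ℝ, B1 = 2 ^ 14 * 5 ^ (d + 1) * K0 ^ (d + 2) := ⟨_, rfl⟩
  obtain ⟨b1, hb1⟩ : ∃ b1 : ℕ, b1 = d + 1 + 1 + c0 * (d + 2) := ⟨_, rfl⟩
  obtain ⟨B2, hB2⟩ : ∃ B2 : ℝ, B2 = 2 ^ 15 * 3 ^ d * B1 ^ (d - 1) := ⟨_, rfl⟩
  obtain ⟨b2, hb2⟩ : ∃ b2 : ℕ, b2 = d + 3 + b1 * (d - 1) := ⟨_, rfl⟩
  obtain ⟨B3, hB3⟩ : ∃ B3 : ℝ, B3 = 2 ^ 25 * 5 ^ (d + 1) * K0 ^ (d + 1) := ⟨_, rfl⟩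
  obtain ⟨b3, hb3⟩ : ∃ b3 : ℕ, b3 = d + 1 + 2 + c0 * (d + 1) := ⟨_, rfl⟩
  obtain ⟨B4, hB4⟩ : ∃ B4 : ℝ, B4 = 2 * d * K0 * K' * 48 ^ d * B3 ^ (d + 1) := ⟨_, rfl⟩
  obtain ⟨b4, hb4⟩ : ∃ b4 : ℕ, b4 = 2 + c0 + c' + d + b3 * (d + 1) := ⟨_, rfl⟩
  have hB1p : 0 < B1 := by rw [hB1]; positivity
  have hB2p : 0 < B2 := by rw [hB2]; (clear * - hB1p; positivity)
  have hB3p : 0 < B3 := by rw [hB3]; positivity
  have hB4p : 0 ≤ B4 := by rw [hB4]; (clear * - hd hK0 hK' hB3p; positivity)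
  refine ⟨(2 ^ 17) ^ (2 * d) + B2 ^ (2 * d) + (2 ^ 15 * 3 ^ d) ^ 2 * (2 * B4) ^ (d - 1) +
    (2 * B4) ^ d, 3 * (2 * d) + b2 * (2 * d) + (2 * (d + 3) + b4 * (d - 1)) + b4 * d, ?_, ?_⟩
  · have h1 : (1:ℝ) ≤ (2 ^ 17) ^ (2 * d) := one_le_pow₀ (by norm_num)
    have h2 : (0:ℝ) ≤ B2 ^ (2 * d) := by positivity
    have h3 : (0:ℝ) ≤ (2 ^ 15 * 3 ^ d) ^ 2 * (2 * B4) ^ (d - 1) := by (clear * - hB4p; positivity)
    have h4 : (0:ℝ) ≤ (2 * B4) ^ d := by (clear * - hB4p; positivity)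
    linarith only [h1, h2, h3, h4]
  intro P t t1 l I N g ht1 hpin hN h4 h5 h6 h7 h8 h9 hflat hg
  obtain ⟨K, hK⟩ : ∃ K : ℝ, K = (2 ^ 17) ^ (2 * d) + B2 ^ (2 * d) +
    (2 ^ 15 * 3 ^ d) ^ 2 * (2 * B4) ^ (d - 1) + (2 * B4) ^ d := ⟨_, rfl⟩
  obtain ⟨c, hc⟩ : ∃ c : ℕ, c = 3 * (2 * d) + b2 * (2 * d) + (2 * (d + 3) + b4 * (d - 1)) + b4 * d :=
    ⟨_, rfl⟩
  rw [← hK, ← hc]
  have k1 : (0:ℝ) ≤ (2 ^ 17) ^ (2 * d) := by positivity
  have k2 : (0:ℝ) ≤ B2 ^ (2 * d) := by (clear * - hB2p; positivity)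
  have k3 : (0:ℝ) ≤ (2 ^ 15 * 3 ^ d) ^ 2 * (2 * B4) ^ (d - 1) := by (clear * - hB4p; positivity)
  have k4 : (0:ℝ) ≤ (2 * B4) ^ d := by (clear * - hB4p; positivity)
  have hlogN : 0 ≤ Real.log N := Real.log_nonneg hN
  have htR : (1:ℝ) ≤ t1 := by
    rw [ht1]; push_cast; have : (0:ℝ) ≤ t := by (clear * -; positivity)
    linarith only []
  have hl1 : 1 ≤ l := Nat.one_le_two_pow.trans h5
  have hlR : (1:ℝ) ≤ l := by exact_mod_cast hl1
  have hl0 : (0:ℝ) < l := by linarith only [h4, hlogN]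
  have hIl : (2:ℝ) ^ I ≤ l := by
    have h5R : (2:ℝ) ^ (I + 1) ≤ l := by exact_mod_cast h5
    have : (2:ℝ) ^ (I + 1) = 2 * 2 ^ I := by ring
    rw [this] at h5R
    have h2 : (0:ℝ) < 2 ^ I := by positivity
    linarith only [h5R]
  have hn0 : (0:ℝ) ≤ P.card := by (clear * -; positivity)
  have hd2 : 2 * d ≤ d ^ 2 + 1 := by nlinarith only []
  by_cases hbig : 2 ^ (2 * I + 17) * (2 * Real.log N + 1) * (t1:ℝ) < P.card
  swap
  · right
    push Not at hbig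
    have h1 : (2:ℝ) ^ (2 * I + 17) * (2 * Real.log N + 1) ≤ 2 ^ 17 * (l:ℝ) ^ 3 := by
      have e2 : (2:ℝ) ^ (2 * I + 17) = 2 ^ 17 * (2 ^ I) ^ 2 := by rw [← pow_mul]; ring
      rw [e2]
      have e3 : ((2:ℝ) ^ I) ^ 2 ≤ (l:ℝ) ^ 2 := pow_le_pow_left₀ (by positivity) hIl 2
      calc 2 ^ 17 * ((2:ℝ) ^ I) ^ 2 * (2 * Real.log N + 1) ≤ 2 ^ 17 * (l:ℝ) ^ 2 * l := by
            apply mul_le_mul _ h4 (by (clear * - hlogN; positivity)) (by (clear * - hl1; positivity))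
            linarith only [e3]
        _ = 2 ^ 17 * (l:ℝ) ^ 3 := by ring
    have h2 : (P.card : ℝ) ≤ 2 ^ 17 * (l:ℝ) ^ 3 * t1 :=
      hbig.trans (mul_le_mul_of_nonneg_right h1 (by linarith only [htR]))
    calc (P.card : ℝ) ^ (2 * d) ≤ (2 ^ 17 * (l:ℝ) ^ 3 * t1) ^ (2 * d) := pow_le_pow_left₀ hn0 h2 _
      _ = (2 ^ 17) ^ (2 * d) * (l:ℝ) ^ (3 * (2 * d)) * (t1:ℝ) ^ (2 * d) := by
          rw [mul_pow, mul_pow, ← pow_mul (l:ℝ)]
      _ ≤ _ := absorb _ _ _ _ _ _ _ _ (by positivity) (by rw [hK]; linarith only [k2, k3, k4]) hlR htR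
          (by rw [hc]; (clear * - hb1 hb2 hb3 hb4 hc; omega)) hd2
  by_cases hbig2 : 2 ^ 15 * 3 ^ d * (l:ℝ) ^ (d + 3) * (t1:ℝ) *
      (8192 * (2 * (5 * (l:ℝ)) ^ (d + 1)) * (2 * Real.log N + 1) * (K0 * (l:ℝ) ^ c0) ^ (d + 2)) ^ (d - 1)
      < P.card
  swap
  · right
    push Not at hbig2
    have h1 := constB1 d c0 l (2 * Real.log N + 1) K0 hlR (by linarith only [hlogN]) h4 hK0
    rw [← hB1, ← hb1] at h1
    have h2 := pow_le_pow_left₀ (by (clear * - hK0 hlogN hl1; positivity)) h1 (d - 1)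
    have h3 : (P.card : ℝ) ≤ B2 * (l:ℝ) ^ b2 * t1 := by
      refine hbig2.trans ?_
      calc _ ≤ 2 ^ 15 * 3 ^ d * (l:ℝ) ^ (d + 3) * (t1:ℝ) * (B1 * (l:ℝ) ^ b1) ^ (d - 1) :=
            mul_le_mul_of_nonneg_left h2 (by (clear * - htR hl1; positivity))
        _ = B2 * (l:ℝ) ^ b2 * t1 := by
            rw [hB2, hb2, mul_pow, ← pow_mul, pow_add (l:ℝ) (d + 3)]; ring
    calc (P.card : ℝ) ^ (2 * d) ≤ (B2 * (l:ℝ) ^ b2 * t1) ^ (2 * d) := pow_le_pow_left₀ hn0 h3 _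
      _ = B2 ^ (2 * d) * (l:ℝ) ^ (b2 * (2 * d)) * (t1:ℝ) ^ (2 * d) := by
          rw [mul_pow, mul_pow, ← pow_mul (l:ℝ)]
      _ ≤ _ := absorb _ _ _ _ _ _ _ _ (by (clear * - hB2p; positivity)) (by rw [hK]; linarith only [k1, k3, k4]) hlR htR
          (by rw [hc]; omega) hd2
  by_cases hgd : ∀ s : ℕ, 16 * (2 * Real.log N + 1) * ((t1:ℝ) + 2) ≤ s →
      ¬ Gd P P (S2 P) rng s 2
  swap
  · left
    push Not at hgd
    obtain ⟨s, hs, hgd⟩ := hgd
    have hPpos : (0:ℝ) < P.card := lt_of_le_of_lt (by (clear * - hlogN htR; positivity)) hbig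
    have hP : P.Nonempty := by rw [← card_pos]; exact_mod_cast hPpos
    have hn1 : (1:ℝ) ≤ P.card := by exact_mod_cast hP.card_pos
    have hPN : (P.card : ℝ) ≤ N := by nlinarith only [h8, htR]
    have hlg := Real.log_le_log (by linarith only [hPpos]) hPN
    refine L2_top (by (clear * - hd hb1 hb2 hb3 hb4; omega)) P (fun p hp => by convert hpin p hp) (2 * Real.log N + 1)
      (by linarith only [hlg]) s ?_ hP hgd g hg
    have : ((t:ℝ) + 1 + 2) = (t1:ℝ) + 2 := by rw [ht1]; push_cast; ring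
    rw [this]; exact hs
  right
  obtain ⟨s, hs1, hs2, hs3⟩ := L2_caseC d hd hK0 hET hK' hL1 P t t1 l I N ht1
    (fun p hp => by convert hpin p hp) hN h4 h5 h6 h7 h8 h9 hflat hbig
    (2 * (5 * (l:ℝ)) ^ (d + 1)) (K0 * (l:ℝ) ^ c0) rfl rfl hbig2 hgd
  have h1 := constB3 d c0 I l (2 * Real.log N + 1) K0 hlR (by linarith only [hlogN]) h4 hK0 hIl
  rw [← hB3, ← hb3] at h1
  have h2 := pow_le_pow_left₀ (by (clear * - hK0 hlogN hl1; positivity)) h1 (d + 1)
  have hC2 : (l:ℝ) * (l * (d * (2 * (K0 * (l:ℝ) ^ c0) * (K' * (l:ℝ) ^ c' * (48 * (l:ℝ)) ^ d) *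
      (1024 * (2 * (5 * (l:ℝ)) ^ (d + 1)) * (K0 * (l:ℝ) ^ c0) ^ (d + 1) * 2 ^ (I + 14) *
      (2 * Real.log N + 1)) ^ (d + 1)))) ≤ B4 * (l:ℝ) ^ b4 := by
    calc _ ≤ (l:ℝ) * (l * (d * (2 * (K0 * (l:ℝ) ^ c0) * (K' * (l:ℝ) ^ c' * (48 * (l:ℝ)) ^ d) *
          (B3 * (l:ℝ) ^ b3) ^ (d + 1)))) := by
          apply mul_le_mul_of_nonneg_left _ hl0.le
          apply mul_le_mul_of_nonneg_left _ hl0.le
          apply mul_le_mul_of_nonneg_left _ (by positivity)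
          exact mul_le_mul_of_nonneg_left h2 (by (clear * - hK0 hK' hl1; positivity))
      _ = B4 * (l:ℝ) ^ b4 := by
          rw [hB4, hb4, mul_pow B3, ← pow_mul, mul_pow 48 (l:ℝ), pow_add, pow_add, pow_add, pow_add]
          ring
  have hs3' : (P.card : ℝ) ^ 2 ≤ (B4 * (l:ℝ) ^ b4) * ((t1:ℝ) ^ (d + 1) / s ^ 2 + (t1:ℝ) ^ d) :=
    hs3.trans (mul_le_mul_of_nonneg_right hC2 (by (clear * - htR hs1; positivity)))
  have helim := eliminate d hd P.card (2 ^ 15 * 3 ^ d * (l:ℝ) ^ (d + 3)) (B4 * (l:ℝ) ^ b4) t1 s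
    hn0 (by (clear * - hl1; positivity)) (by (clear * - hB4p hl1; positivity)) htR hs1 (by linarith only [hs2]) hs3'
  rcases helim with h | h
  · refine h.trans ?_
    have e1 : (2 ^ 15 * 3 ^ d * (l:ℝ) ^ (d + 3)) ^ 2 * (2 * (B4 * (l:ℝ) ^ b4)) ^ (d - 1) =
        ((2 ^ 15 * 3 ^ d) ^ 2 * (2 * B4) ^ (d - 1)) * (l:ℝ) ^ (2 * (d + 3) + b4 * (d - 1)) := by
      rw [mul_pow (2 ^ 15 * 3 ^ d : ℝ), ← pow_mul (l:ℝ), mul_comm (d + 3) 2, pow_add (l:ℝ),
        show 2 * (B4 * (l:ℝ) ^ b4) = (2 * B4) * (l:ℝ) ^ b4 by ring, mul_pow (2 * B4),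
        ← pow_mul (l:ℝ)]
      ring
    rw [e1]
    exact absorb _ _ _ _ _ _ _ _ (by (clear * - hB4p; positivity)) (by rw [hK]; linarith only [k1, k2, k4]) hlR htR
      (by rw [hc]; (clear * - hd hb1 hb2 hb3 hb4; omega)) le_rfl
  · refine h.trans ?_
    have e1 : (2 * (B4 * (l:ℝ) ^ b4)) ^ d = (2 * B4) ^ d * (l:ℝ) ^ (b4 * d) := by
      rw [show 2 * (B4 * (l:ℝ) ^ b4) = (2 * B4) * (l:ℝ) ^ b4 by ring, mul_pow (2 * B4),
        ← pow_mul (l:ℝ)]
    rw [e1]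
    exact absorb _ _ _ _ _ _ _ _ (by (clear * - hB4p; positivity)) (by rw [hK]; linarith only [k1, k2, k3]) hlR htR
      (by rw [hc]; omega) (by (clear * -; omega))

end Vale.Agent.P054K
end

section

set_option autoImplicit false

open Finset

namespace Vale.Agent.P054K

/-- the exponent -/
noncomputable def fe (d : ℕ) : ℝ := (d:ℝ) ^ 2 / (2 * d - 1)

theorem ev_rpow (C e1 e2 : ℝ) (h : e1 < e2) :
    ∃ T0 : ℝ, 1 ≤ T0 ∧ ∀ T : ℝ, T0 ≤ T → C * T ^ e1 ≤ T ^ e2 := by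
  have h1 := (tendsto_rpow_atTop (show 0 < e2 - e1 by linarith only [h])).eventually_ge_atTop C
  obtain ⟨T1, hT1⟩ := Filter.eventually_atTop.mp h1
  refine ⟨max 1 T1, le_max_left _ _, ?_⟩
  intro T hT
  have hT0 : 1 ≤ T := (le_max_left _ _).trans hT
  have h2 := hT1 T ((le_max_right _ _).trans hT)
  have h3 : T ^ e2 = T ^ (e2 - e1) * T ^ e1 := by
    rw [← Real.rpow_add (by linarith only [hT0])]; congr 1; ring
  rw [h3]
  exact mul_le_mul_of_nonneg_right h2 (by positivity)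

theorem ev_log (D η : ℝ) (hη : 0 < η) :
    ∃ T0 : ℝ, 1 ≤ T0 ∧ ∀ T : ℝ, T0 ≤ T → 20 * (Real.log (7 * T ^ D) + 1) ≤ T ^ η := by
  obtain ⟨T0, hT0, h⟩ := ev_rpow (20 * (Real.log 7 + 1 + |D| / (η / 2))) (η / 2) η (by linarith only [hη])
  refine ⟨T0, hT0, ?_⟩
  intro T hT
  have hT1 : 1 ≤ T := hT0.trans hT
  refine le_trans ?_ (h T hT)
  rw [Real.log_mul (by norm_num) (by positivity), Real.log_rpow (by linarith only [hT0, hT])]
  have h1 : Real.log T ≤ T ^ (η / 2) / (η / 2) := Real.log_le_rpow_div (by linarith only [hT0, hT]) (by linarith only [hη])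
  have h2 : 0 ≤ Real.log T := Real.log_nonneg hT1
  have h3 : D * Real.log T ≤ |D| * (T ^ (η / 2) / (η / 2)) :=
    (mul_le_mul_of_nonneg_right (le_abs_self D) h2).trans
      (mul_le_mul_of_nonneg_left h1 (abs_nonneg D))
  have h4 : 1 ≤ T ^ (η / 2) := Real.one_le_rpow hT1 (by linarith only [hη])
  have h5 : 0 ≤ Real.log 7 := Real.log_nonneg (by norm_num)
  have h6 : |D| * (T ^ (η / 2) / (η / 2)) = |D| / (η / 2) * T ^ (η / 2) := by ring
  rw [h6] at h3
  have h7 : Real.log 7 + 1 ≤ (Real.log 7 + 1) * T ^ (η / 2) :=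
    le_mul_of_one_le_right (by linarith only [h5]) h4
  linarith only [h3, h7]

theorem alg1 (D : ℝ) (h : D - 1 ≠ 0) (h' : 2 * D - 1 ≠ 0) :
    (D ^ 2 / (2 * D - 1) - 1) / (D - 1) = (D - 1) / (2 * D - 1) := by
  rw [div_eq_div_iff h h', sub_mul, div_mul_cancel₀ _ h']
  ring

theorem alg2 (D W : ℝ) (h' : 2 * D - 1 ≠ 0) :
    W - (W + 1) * ((D - 1) / (2 * D - 1)) = (W * D - D + 1) / (2 * D - 1) := by
  rw [eq_div_iff h', sub_mul, mul_assoc, div_mul_cancel₀ _ h']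
  ring

theorem exp_ineq (d w : ℕ) (hd : 2 ≤ d) (hw2 : 2 ≤ w) (hwd : w ≤ d) (η ε a b : ℝ) (hη : 0 ≤ η)
    (hηε : 3 * η ≤ ε) (ha : a = (fe d + ε - 1 - 3 * η) / ((d:ℝ) - 1)) (hb : b = 1 - a + 2 * η) :
    (w:ℝ) * b - a + fe (d - w) ≤ fe d + 2 * d * η ∧
      ((w:ℝ) - 1) * b + fe (d - w) ≤ fe d + 2 * d * η := by
  have hD : (2:ℝ) ≤ d := by exact_mod_cast hd
  have hW : (2:ℝ) ≤ w := by exact_mod_cast hw2
  have hWD : (w:ℝ) ≤ d := by exact_mod_cast hwd
  have hcast : ((d - w : ℕ) : ℝ) = (d:ℝ) - w := by rw [Nat.cast_sub hwd]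
  set D : ℝ := (d:ℝ) with hDdef
  set W : ℝ := (w:ℝ) with hWdef
  have h21 : 0 < 2 * D - 1 := by linarith only [hD]
  have h21' : 2 * D - 1 ≠ 0 := h21.ne'
  have ha0 : (D - 1) / (2 * D - 1) ≤ a := by
    rw [ha]
    have h1 : (fe d - 1) / (D - 1) = (D - 1) / (2 * D - 1) := by
      unfold fe
      have h2 : D - 1 ≠ 0 := by linarith only [hD]
      rw [← hDdef]
      exact alg1 D h2 h21'
    rw [← h1]
    apply div_le_div_of_nonneg_right _ (by linarith only [hD])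
    linarith only [hηε]
  set a0 : ℝ := (D - 1) / (2 * D - 1) with ha0def
  -- the exponent of the flat
  have hf : W - (W + 1) * a0 + fe (d - w) ≤ fe d := by
    have h1 : W - (W + 1) * a0 = (W * D - D + 1) / (2 * D - 1) := by
      rw [ha0def]; exact alg2 D W h21'
    rw [h1]
    unfold fe
    rw [hcast, ← hDdef]
    rcases Nat.eq_zero_or_pos (d - w) with h0 | h0
    · have h2 : D = W := by
        have : ((d - w : ℕ) : ℝ) = 0 := by rw [h0]; simp
        rw [hcast] at this; linarith only [this]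
      rw [← h2, sub_self]
      have h3 : (0:ℝ) ^ 2 / (2 * 0 - 1) = 0 := by norm_num
      rw [h3, add_zero]
      apply div_le_div_of_nonneg_right _ h21.le
      linarith only [hD]
    · have h2 : (1:ℝ) ≤ D - W := by
        rw [← hcast]; exact_mod_cast h0
      set J : ℝ := D - W with hJ
      have h3 : 0 < 2 * J - 1 := by linarith only [h2]
      have h4 : W = D - J := by rw [hJ]; ring
      rw [h4, div_add_div _ _ h21.ne' h3.ne', div_le_div_iff₀ (by (clear * - h21 h3; positivity)) h21]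
      have h5 : 0 ≤ ((J - 1) ^ 2 + D * (J - 1)) := by
        have : 0 ≤ D * (J - 1) := mul_nonneg (by linarith only [hW, h2]) (by linarith only [h2])
        (clear * - hd h2; positivity)
      have h6 : D ^ 2 * ((2 * D - 1) * (2 * J - 1)) -
          (((D - J) * D - D + 1) * (2 * J - 1) + (2 * D - 1) * J ^ 2) * (2 * D - 1)
          = (2 * D - 1) * ((J - 1) ^ 2 + D * (J - 1)) := by ring
      have h7 : 0 ≤ (2 * D - 1) * ((J - 1) ^ 2 + D * (J - 1)) := mul_nonneg h21.le h5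
      linarith only [h7]
  have ha00 : 0 ≤ a0 := by rw [ha0def]; apply div_nonneg <;> linarith only [hD]
  have ha01 : a0 ≤ 1 / 2 := by
    rw [ha0def, div_le_div_iff₀ h21 (by norm_num)]; linarith only []
  constructor
  · rw [hb]
    have h1 : W * (1 - a + 2 * η) - a = W - (W + 1) * a + 2 * W * η := by ring
    rw [h1]
    have h2 : (W + 1) * a0 ≤ (W + 1) * a := mul_le_mul_of_nonneg_left ha0 (by linarith only [hW])
    have h3 : W * η ≤ D * η := mul_le_mul_of_nonneg_right hWD hη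
    linarith only [hf, h2, h3]
  · rw [hb]
    have h1 : (W - 1) * (1 - a + 2 * η) = (W - 1) * (1 - a) + 2 * (W - 1) * η := by ring
    rw [h1]
    have h2 : (W - 1) * (1 - a) ≤ (W - 1) * (1 - a0) :=
      mul_le_mul_of_nonneg_left (by linarith only [ha0]) (by linarith only [hW])
    have h3 : (W - 1) * (1 - a0) ≤ W - (W + 1) * a0 := by linarith only [ha01]
    have h4 : (W - 1) * η ≤ D * η := mul_le_mul_of_nonneg_right (by linarith only [hWD]) hη
    linarith only [hf, ha01, h2, h4]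

end Vale.Agent.P054K
end

section

set_option autoImplicit false

open Finset

namespace Vale.Agent.P054K

theorem pow_le_rpow (T b x : ℝ) (hT : 1 ≤ T) (hx0 : 0 ≤ x) (hx : x ≤ 2 * T ^ b) (k : ℕ) :
    x ^ k ≤ 2 ^ k * T ^ ((k:ℝ) * b) := by
  have h1 : x ^ k ≤ (2 * T ^ b) ^ k := pow_le_pow_left₀ hx0 hx k
  refine h1.trans (le_of_eq ?_)
  rw [mul_pow]
  congr 1
  rw [← Real.rpow_natCast, ← Real.rpow_mul (by linarith only [hT])]
  congr 1; ring

theorem term_bound (T a b x s C g E : ℝ) (w : ℕ) (hw : 1 ≤ w) (hT : 1 ≤ T) (hx0 : 0 ≤ x)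
    (hx : x ≤ 2 * T ^ b) (hs : T ^ a / 2 ≤ s) (hC : 0 ≤ C)
    (h1 : (w:ℝ) * b - a + g ≤ E) (h2 : ((w:ℝ) - 1) * b + g ≤ E) :
    (x ^ w / s + x ^ (w - 1)) * (C * T ^ g) ≤ 2 ^ (w + 2) * (C * T ^ E) := by
  have hT0 : 0 < T := by linarith only [hT]
  have hTa : 0 < T ^ a := Real.rpow_pos_of_pos hT0 a
  have hs0 : 0 < s := by linarith only [hs, hTa]
  have hx1 := pow_le_rpow T b x hT hx0 hx w
  have hx2 := pow_le_rpow T b x hT hx0 hx (w - 1)
  have hcast : ((w - 1 : ℕ) : ℝ) = (w:ℝ) - 1 := by rw [Nat.cast_sub hw]; simp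
  rw [hcast] at hx2
  have hx3 : x ^ w / s ≤ 2 ^ (w + 1) * T ^ ((w:ℝ) * b - a) := by
    rw [div_le_iff₀ hs0]
    have h3 : 2 ^ (w + 1) * T ^ ((w:ℝ) * b - a) * (T ^ a / 2) = 2 ^ w * T ^ ((w:ℝ) * b) := by
      rw [Real.rpow_sub hT0, pow_succ]; field_simp
    calc x ^ w ≤ 2 ^ w * T ^ ((w:ℝ) * b) := hx1
      _ = 2 ^ (w + 1) * T ^ ((w:ℝ) * b - a) * (T ^ a / 2) := h3.symm
      _ ≤ 2 ^ (w + 1) * T ^ ((w:ℝ) * b - a) * s := mul_le_mul_of_nonneg_left hs (by positivity)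
  have hx4 : (2:ℝ) ^ (w - 1) ≤ 2 ^ (w + 1) := pow_le_pow_right₀ (by norm_num) (by omega)
  have hTg : 0 < T ^ g := Real.rpow_pos_of_pos hT0 g
  have e1 : T ^ ((w:ℝ) * b - a) * T ^ g ≤ T ^ E := by
    rw [← Real.rpow_add hT0]; exact Real.rpow_le_rpow_of_exponent_le hT h1
  have e2 : T ^ (((w:ℝ) - 1) * b) * T ^ g ≤ T ^ E := by
    rw [← Real.rpow_add hT0]; exact Real.rpow_le_rpow_of_exponent_le hT h2
  have hTE : 0 < T ^ E := Real.rpow_pos_of_pos hT0 E
  calc (x ^ w / s + x ^ (w - 1)) * (C * T ^ g)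
      ≤ (2 ^ (w + 1) * T ^ ((w:ℝ) * b - a) + 2 ^ (w + 1) * T ^ (((w:ℝ) - 1) * b)) * (C * T ^ g) := by
        apply mul_le_mul_of_nonneg_right _ (by (clear * - hT hC; positivity))
        apply add_le_add hx3
        refine hx2.trans ?_
        exact mul_le_mul_of_nonneg_right hx4 (by positivity)
    _ = 2 ^ (w + 1) * (C * (T ^ ((w:ℝ) * b - a) * T ^ g)) +
        2 ^ (w + 1) * (C * (T ^ (((w:ℝ) - 1) * b) * T ^ g)) := by ring
    _ ≤ 2 ^ (w + 1) * (C * T ^ E) + 2 ^ (w + 1) * (C * T ^ E) := by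
        apply add_le_add
        · exact mul_le_mul_of_nonneg_left (mul_le_mul_of_nonneg_left e1 hC) (by positivity)
        · exact mul_le_mul_of_nonneg_left (mul_le_mul_of_nonneg_left e2 hC) (by positivity)
    _ = 2 ^ (w + 2) * (C * T ^ E) := by ring

theorem cond1 (T α b η n x : ℝ) (hT : 1 ≤ T) (hn0 : 0 ≤ n) (hx0 : 0 ≤ x) (hn : n ≤ 2 * T ^ α)
    (hx : x ≤ 2 * T ^ b) (hTα : 1 ≤ T ^ α) (hTb : 1 ≤ T ^ b)
    (e1 : 20 * (Real.log (7 * T ^ (α + b)) + 1) ≤ T ^ η) :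
    20 * (Real.log (n * x + 3) + 1) ≤ T ^ η := by
  have hT0 : 0 < T := by linarith only [hT]
  refine le_trans ?_ e1
  have h1 : n * x + 3 ≤ 7 * T ^ (α + b) := by
    rw [Real.rpow_add hT0]
    have h2 : n * x ≤ (2 * T ^ α) * (2 * T ^ b) := mul_le_mul hn hx hx0 (by positivity)
    have h3 : 1 ≤ T ^ α * T ^ b := one_le_mul_of_one_le_of_one_le hTα hTb
    linarith only [h2, h3]
  have h2 := Real.log_le_log (by positivity) h1
  linarith only [h2]

theorem cond2 (T α a b n x s : ℝ) (d : ℕ) (hT : 1 ≤ T) (hs0 : 0 ≤ s)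
    (hn : T ^ α ≤ n) (hx : x ≤ 2 * T ^ b) (hs : s ≤ T ^ a) (hTa : 1 ≤ T ^ a)
    (e2 : 8 * 3 ^ d * T ^ (b + d * a) ≤ T ^ α) :
    4 * x * (2 * s + 1) ^ d ≤ n := by
  have hT0 : 0 < T := by linarith only [hT]
  refine le_trans ?_ hn
  refine le_trans ?_ e2
  have h2 : 2 * s + 1 ≤ 3 * T ^ a := by linarith only [hs, hTa]
  have h3 : (2 * s + 1) ^ d ≤ (3 * T ^ a) ^ d := pow_le_pow_left₀ (by positivity) h2 d
  have h4 : (3 * T ^ a) ^ d = 3 ^ d * T ^ ((d:ℝ) * a) := by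
    rw [mul_pow]; congr 1
    rw [← Real.rpow_natCast, ← Real.rpow_mul hT0.le]; congr 1; ring
  rw [h4] at h3
  calc 4 * x * (2 * s + 1) ^ d ≤ (4 * (2 * T ^ b)) * (3 ^ d * T ^ ((d:ℝ) * a)) := by
        apply mul_le_mul _ h3 (by positivity) (by positivity)
        linarith only [hx]
    _ = 8 * 3 ^ d * T ^ (b + d * a) := by rw [Real.rpow_add hT0]; ring

theorem cond3 (T a b η x s : ℝ) (hT : 1 ≤ T) (hs0 : 0 < s)
    (hx : T ^ b ≤ x) (hs : T ^ a / 2 ≤ s)
    (e3 : 800 * T ^ (1 + η - a) ≤ T ^ b) (e4 : 8 ≤ T ^ b) :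
    100 * (T + 1) * T ^ η / s + 4 ≤ x := by
  have hT0 : 0 < T := by linarith only [hT]
  have hη : 0 < T ^ η := Real.rpow_pos_of_pos hT0 η
  have h1 : 100 * (T + 1) * T ^ η / s ≤ T ^ b / 2 := by
    rw [div_le_iff₀ hs0]
    have h2 : 100 * (T + 1) * T ^ η ≤ 200 * T ^ (1 + η) := by
      rw [Real.rpow_add hT0, Real.rpow_one]
      have : T ^ η ≤ T * T ^ η := le_mul_of_one_le_left hη.le hT
      linarith only [this]
    have h3 : 200 * T ^ (1 + η) = (800 * T ^ (1 + η - a)) / 2 * (T ^ a / 2) := by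
      rw [Real.rpow_sub hT0 (1 + η) a]; field_simp; norm_num
    calc 100 * (T + 1) * T ^ η ≤ 200 * T ^ (1 + η) := h2
      _ = (800 * T ^ (1 + η - a)) / 2 * (T ^ a / 2) := h3
      _ ≤ T ^ b / 2 * s := by
          apply mul_le_mul _ hs (by positivity) (by positivity)
          linarith only [e3]
  linarith only [hx, e4, h1]

theorem cond4 (T a η K s : ℝ) (c : ℕ) (hT : 1 ≤ T) (hs : T ^ a / 2 ≤ s)
    (e5 : 2 * K * T ^ (c * η) ≤ T ^ a) : K * (T ^ η) ^ c ≤ s := by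
  have hT0 : 0 < T := by linarith only [hT]
  have h1 : (T ^ η) ^ c = T ^ ((c:ℝ) * η) := by
    rw [← Real.rpow_natCast, ← Real.rpow_mul hT0.le]; congr 1; ring
  rw [h1]
  refine le_trans ?_ hs
  linarith only [e5]

/-- the key inequality as a property of the constants -/
def KeyProp (d : ℕ) (K : ℝ) (c : ℕ) : Prop :=
  open scoped Classical in
  ∀ (P : Finset (EuclideanSpace ℝ (Fin d))) (t x s : ℕ) (Λ : ℝ) (G : ℕ → ℝ),
      (∀ p ∈ P, (P.image (dist p)).card ≤ t + 1) → 1 ≤ s → 1 ≤ x →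
      20 * (Real.log ((P.card:ℝ) * x + 3) + 1) ≤ Λ →
      4 * x * (2 * s + 1) ^ d ≤ P.card → 100 * ((t:ℝ) + 1) * Λ / s + 4 ≤ x →
      K * Λ ^ c ≤ s → (∀ j, j + 2 ≤ d → PinnedBy j t (G j)) →
      (P.card : ℝ) ≤ K * Λ ^ c * ∑ w ∈ Icc 2 d, ((x:ℝ) ^ w / s + (x:ℝ) ^ (w - 1)) * G (d - w)

theorem step_core (d : ℕ) (hd : 2 ≤ d) (K : ℝ) (c : ℕ) (hK : 1 ≤ K) (hkey : KeyProp d K c)
    (ε η α a b E Cm : ℝ) (hη0 : 0 ≤ η) (h3η : 3 * η ≤ ε)
    (ha : a = (fe d + ε - 1 - 3 * η) / ((d:ℝ) - 1)) (hb : b = 1 - a + 2 * η)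
    (hE : E = fe d + 2 * d * η + ε / 4)
    (ha0 : 0 ≤ a) (hb0 : 0 ≤ b) (hα0 : 0 ≤ α)
    (C : ℕ → ℝ) (hC0 : ∀ j, 0 < C j) (hCm : Cm = ∑ w ∈ Icc 2 d, C (d - w))
    (t : ℕ) (T : ℝ) (hTt : T = t) (hT : 1 ≤ T)
    (hC : ∀ j, j + 2 ≤ d → PinnedBy j t (C j * T ^ (fe j + ε / 4)))
    (e1 : 20 * (Real.log (7 * T ^ (α + b)) + 1) ≤ T ^ η)
    (e2 : 8 * 3 ^ d * T ^ (b + d * a) ≤ T ^ α)
    (e3 : 800 * T ^ (1 + η - a) ≤ T ^ b) (e4 : 8 ≤ T ^ b)
    (e5 : 2 * K * T ^ (c * η) ≤ T ^ a)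
    (e6 : 2 * (K * (2 ^ (d + 2) * Cm)) * T ^ (c * η + E) ≤ T ^ α) :
    PinnedBy d t (2 * T ^ α) := by
  intro P hP
  have hT0 : 0 < T := by linarith only [hT]
  by_contra hcon
  push Not at hcon
  have hTα : 1 ≤ T ^ α := Real.one_le_rpow hT hα0
  have hTa1 : 1 ≤ T ^ a := Real.one_le_rpow hT ha0
  have hTb1 : 1 ≤ T ^ b := Real.one_le_rpow hT hb0
  -- choose the subset
  obtain ⟨n, hn⟩ : ∃ n : ℕ, n = ⌈T ^ α⌉₊ := ⟨_, rfl⟩
  have hn1 : T ^ α ≤ n := by rw [hn]; exact Nat.le_ceil _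
  have hn2 : (n:ℝ) ≤ 2 * T ^ α := by
    have := Nat.ceil_lt_add_one (show 0 ≤ T ^ α by (clear * - hT; positivity))
    rw [← hn] at this
    linarith only [hTα, this]
  have hnP : n ≤ P.card := by
    have : (n:ℝ) < P.card := lt_of_le_of_lt hn2 hcon
    exact_mod_cast this.le
  obtain ⟨P', hP'sub, hP'card⟩ := exists_subset_card_eq hnP
  have hP' : ∀ p ∈ P', (P'.image (dist p)).card ≤ t + 1 := by
    intro p hp
    exact (card_le_card (image_subset_image hP'sub)).trans (hP p (hP'sub hp))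
  -- parameters
  obtain ⟨x, hx⟩ : ∃ x : ℕ, x = ⌈T ^ b⌉₊ := ⟨_, rfl⟩
  have hx1 : T ^ b ≤ x := by rw [hx]; exact Nat.le_ceil _
  have hx2 : (x:ℝ) ≤ 2 * T ^ b := by
    have := Nat.ceil_lt_add_one (show 0 ≤ T ^ b by positivity)
    rw [← hx] at this
    linarith only [e4, this]
  have hxpos : 1 ≤ x := by
    have : (1:ℝ) ≤ x := hTb1.trans hx1
    exact_mod_cast this
  obtain ⟨s, hs⟩ : ∃ s : ℕ, s = ⌊T ^ a⌋₊ := ⟨_, rfl⟩
  have hs1 : (s:ℝ) ≤ T ^ a := by rw [hs]; exact Nat.floor_le (by positivity)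
  have hspos : 1 ≤ s := by
    rw [hs, Nat.one_le_floor_iff]
    exact hTa1
  have hs2 : T ^ a / 2 ≤ s := by
    have h1 := Nat.lt_floor_add_one (T ^ a)
    rw [← hs] at h1
    have h2 : (1:ℝ) ≤ s := by exact_mod_cast hspos
    linarith only [h1, h2]
  have hs0 : (0:ℝ) < s := by exact_mod_cast hspos
  -- conditions
  have c1 : 20 * (Real.log ((P'.card:ℝ) * x + 3) + 1) ≤ T ^ η := by
    rw [hP'card]
    exact cond1 T α b η n x hT (by (clear * -; positivity)) (by positivity) hn2 hx2 hTα hTb1 e1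
  have c2 : 4 * x * (2 * s + 1) ^ d ≤ P'.card := by
    have h1 := cond2 T α a b n x s d hT (by positivity) hn1 hx2 hs1 hTa1 e2
    rw [hP'card]
    exact_mod_cast h1
  have c3 : 100 * ((t:ℝ) + 1) * T ^ η / s + 4 ≤ x := by
    rw [← hTt]
    exact cond3 T a b η x s hT hs0 hx1 hs2 e3 e4
  have c4 : K * (T ^ η) ^ c ≤ s := cond4 T a η K s c hT hs2 e5
  have hfin := hkey P' t x s (T ^ η) (fun j => C j * T ^ (fe j + ε / 4)) (fun p hp => by convert hP' p hp)
    hspos hxpos c1 c2 c3 c4 hC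
  have hsum : ∑ w ∈ Icc 2 d, ((x:ℝ) ^ w / s + (x:ℝ) ^ (w - 1)) *
      (fun j => C j * T ^ (fe j + ε / 4)) (d - w) ≤ 2 ^ (d + 2) * Cm * T ^ E := by
    rw [hCm, Finset.mul_sum, Finset.sum_mul]
    apply Finset.sum_le_sum
    intro w hw
    rw [mem_Icc] at hw
    obtain ⟨i1, i2⟩ := exp_ineq d w hd hw.1 hw.2 η ε a b hη0 h3η ha hb
    have h1 := term_bound T a b x s (C (d - w)) (fe (d - w) + ε / 4) E w (by omega) hT
      (by (clear * - hxpos; positivity)) hx2 hs2 (hC0 _).le (by rw [hE]; linarith only [i1]) (by rw [hE]; linarith only [i2])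
    refine h1.trans ?_
    have h2 : (2:ℝ) ^ (w + 2) ≤ 2 ^ (d + 2) := pow_le_pow_right₀ (by norm_num) (by omega)
    have h3 : 0 ≤ C (d - w) * T ^ E := mul_nonneg (hC0 _).le (by positivity)
    calc 2 ^ (w + 2) * (C (d - w) * T ^ E) ≤ 2 ^ (d + 2) * (C (d - w) * T ^ E) :=
          mul_le_mul_of_nonneg_right h2 h3
      _ = 2 ^ (d + 2) * C (d - w) * T ^ E := by ring
  have h1 : (P'.card:ℝ) ≤ K * (T ^ η) ^ c * (2 ^ (d + 2) * Cm * T ^ E) :=
    hfin.trans (mul_le_mul_of_nonneg_left hsum (by positivity))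
  have h2 : (T ^ η) ^ c = T ^ ((c:ℝ) * η) := by
    rw [← Real.rpow_natCast, ← Real.rpow_mul hT0.le]; congr 1; ring
  rw [h2] at h1
  have h3 : K * T ^ ((c:ℝ) * η) * (2 ^ (d + 2) * Cm * T ^ E)
      = (K * (2 ^ (d + 2) * Cm)) * T ^ ((c:ℝ) * η + E) := by
    rw [Real.rpow_add hT0]; ring
  rw [h3, hP'card] at h1
  linarith only [e6, hTα, hn1, h1]

theorem pinned_step (d : ℕ) (hd : 2 ≤ d)
    (IH : ∀ j, j + 2 ≤ d → ∀ ε : ℝ, 0 < ε → ∃ C : ℝ, 0 < C ∧
      ∀ t : ℕ, 1 ≤ t → PinnedBy j t (C * (t:ℝ) ^ (fe j + ε)))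
    (ε : ℝ) (hε : 0 < ε) (hε4 : ε ≤ 1 / 4) :
    ∃ T0 : ℝ, ∀ t : ℕ, T0 ≤ t → PinnedBy d t (2 * (t:ℝ) ^ (fe d + ε)) := by
  obtain ⟨K, c, hK, hkey⟩ := key_inequality d hd
  have hD : (2:ℝ) ≤ d := by exact_mod_cast hd
  have h21 : 0 < 2 * (d:ℝ) - 1 := by linarith only [hε, hε4, hD]
  have hc0 : (0:ℝ) ≤ c := by positivity
  obtain ⟨η, hη⟩ : ∃ η : ℝ, η = ε / (16 * (c + d + 1)) := ⟨_, rfl⟩
  have hη0 : 0 < η := by rw [hη]; positivity
  have hcd : (c + d + 1) * η = ε / 16 := by rw [hη]; field_simp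
  have hcη : (c:ℝ) * η ≤ ε / 16 := by
    have : 0 ≤ ((d:ℝ) + 1) * η := by positivity
    linarith only [hcd, this]
  have hdη : (d:ℝ) * η ≤ ε / 16 := by
    have : 0 ≤ ((c:ℝ) + 1) * η := by positivity
    linarith only [hcd, this]
  have h3η : 3 * η ≤ ε := by
    have : 2 * η ≤ (d:ℝ) * η := mul_le_mul_of_nonneg_right hD hη0.le
    linarith only [hη0, hdη, this]
  obtain ⟨α, hα⟩ : ∃ α : ℝ, α = fe d + ε := ⟨_, rfl⟩
  obtain ⟨a, ha⟩ : ∃ a : ℝ, a = (fe d + ε - 1 - 3 * η) / ((d:ℝ) - 1) := ⟨_, rfl⟩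
  obtain ⟨b, hb⟩ : ∃ b : ℝ, b = 1 - a + 2 * η := ⟨_, rfl⟩
  have ha_mul : a * ((d:ℝ) - 1) = α - 1 - 3 * η := by
    rw [ha, div_mul_cancel₀ _ (by linarith only [hD]), hα]
  have hfe1 : fe d - 1 = ((d:ℝ) - 1) ^ 2 / (2 * d - 1) := by
    unfold fe
    rw [eq_div_iff h21.ne', sub_mul, div_mul_cancel₀ _ h21.ne']
    ring
  have hfe2 : ((d:ℝ) - 1) / 3 ≤ fe d - 1 := by
    rw [hfe1, div_le_div_iff₀ (by norm_num) h21]
    nlinarith only [hD]
  have hfe3 : fe d - 1 ≤ ((d:ℝ) - 1) / 2 := by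
    rw [hfe1, div_le_div_iff₀ h21 (by norm_num)]
    linarith only [hD]
  have ha13 : 1 / 3 ≤ a := by
    rw [ha, le_div_iff₀ (by linarith only [hD])]
    linarith only [h3η, hfe2]
  have ha34 : a ≤ 3 / 4 := by
    rw [ha, div_le_iff₀ (by linarith only [hD])]
    linarith only [hε4, hD, hη0, hfe3]
  have hb0 : 0 < b := by linarith only [hη0, hb, ha34]
  have hα1 : 1 < α := by linarith only [hD, hη0, h3η, hα, hfe2]
  -- constants for the flats
  have hCex : ∀ j, ∃ C : ℝ, 0 < C ∧ (j + 2 ≤ d →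
      ∀ t : ℕ, 1 ≤ t → PinnedBy j t (C * (t:ℝ) ^ (fe j + ε / 4))) := by
    intro j
    by_cases hj : j + 2 ≤ d
    · obtain ⟨C, hC0, hC⟩ := IH j hj (ε / 4) (by linarith only [hη0, h3η])
      exact ⟨C, hC0, fun _ => hC⟩
    · exact ⟨1, one_pos, fun h => absurd h hj⟩
  choose C hC0 hC using hCex
  obtain ⟨Cm, hCm⟩ : ∃ Cm : ℝ, Cm = ∑ w ∈ Icc 2 d, C (d - w) := ⟨_, rfl⟩
  obtain ⟨E, hE⟩ : ∃ E : ℝ, E = fe d + 2 * d * η + ε / 4 := ⟨_, rfl⟩
  obtain ⟨T1, hT1, hev1⟩ := ev_log (α + b) η hη0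
  obtain ⟨T2, hT2, hev2⟩ := ev_rpow (8 * 3 ^ d) (b + d * a) α (by
    have : b + d * a = α - η := by rw [hb]; linarith only [ha_mul]
    linarith only [hη0, hb, ha_mul])
  obtain ⟨T3, hT3, hev3⟩ := ev_rpow 800 (1 + η - a) b (by linarith only [hη0, hb])
  obtain ⟨T4, hT4, hev4⟩ := ev_rpow 8 0 b hb0
  obtain ⟨T5, hT5, hev5⟩ := ev_rpow (2 * K) (c * η) a (by linarith only [hε4, hcη, ha13])
  obtain ⟨T6, hT6, hev6⟩ := ev_rpow (2 * (K * (2 ^ (d + 2) * Cm))) (c * η + E) α (by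
    rw [hE, hα]; linarith only [hη0, hcd, hdη, h3η])
  refine ⟨max (max (max T1 T2) (max T3 T4)) (max T5 T6), ?_⟩
  intro t ht
  have hT1' : T1 ≤ t := ((le_max_left _ _).trans ((le_max_left _ _).trans (le_max_left _ _))).trans ht
  have hT2' : T2 ≤ t := ((le_max_right _ _).trans ((le_max_left _ _).trans (le_max_left _ _))).trans ht
  have hT3' : T3 ≤ t := ((le_max_left _ _).trans ((le_max_right _ _).trans (le_max_left _ _))).trans ht
  have hT4' : T4 ≤ t := ((le_max_right _ _).trans ((le_max_right _ _).trans (le_max_left _ _))).trans ht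
  have hT5' : T5 ≤ t := ((le_max_left _ _).trans (le_max_right _ _)).trans ht
  have hT6' : T6 ≤ t := ((le_max_right _ _).trans (le_max_right _ _)).trans ht
  have hT : (1:ℝ) ≤ t := hT1.trans hT1'
  have ht1 : 1 ≤ t := by exact_mod_cast hT
  have e4 := hev4 t hT4'
  rw [Real.rpow_zero, mul_one] at e4
  rw [← hα]
  exact step_core d hd K c hK hkey ε η α a b E Cm hη0.le h3η ha hb hE (by linarith only [hη0, ha13]) hb0.le
    (by linarith only [hD, hη0, h3η, hα, hfe2]) C hC0 hCm t t rfl hT (fun j hj => hC j hj t ht1) (hev1 t hT1') (hev2 t hT2')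
    (hev3 t hT3') e4 (hev5 t hT5') (hev6 t hT6')

end Vale.Agent.P054K
end

section

set_option autoImplicit false

open Finset

namespace Vale.Agent.P054K

theorem pinned_zero (t : ℕ) : PinnedBy 0 t 1 := by
  intro P _
  have : P.card ≤ 1 := Finset.card_le_one.mpr (fun a _ b _ => Subsingleton.elim a b)
  exact_mod_cast this

theorem pinned_one (t : ℕ) : PinnedBy 1 t ((t:ℝ) + 1) := by
  classical
  intro P hP
  rcases P.eq_empty_or_nonempty with h | h
  · subst h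
    rw [card_empty]; push_cast; positivity
  · obtain ⟨p, hp, hmin⟩ := P.exists_min_image (fun x : EuclideanSpace ℝ (Fin 1) => x 0) h
    have hd : ∀ q ∈ P, dist p q = q 0 - p 0 := by
      intro q hq
      rw [EuclideanSpace.dist_eq, Fin.sum_univ_one, Real.sqrt_sq dist_nonneg, Real.dist_eq,
        abs_sub_comm, abs_of_nonneg (sub_nonneg.mpr (hmin q hq))]
    have hinj : Set.InjOn (dist p) (P : Set (EuclideanSpace ℝ (Fin 1))) := by
      intro q hq q' hq' h1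
      rw [hd q hq, hd q' hq'] at h1
      ext i
      have : i = 0 := Subsingleton.elim _ _
      subst this
      linarith only [h1]
    have h1 := hP p hp
    have h2 : (P.image (dist p)).card = P.card := Finset.card_image_of_injOn hinj
    have h3 : P.card ≤ t + 1 := by
      rw [← h2]; convert h1
    exact_mod_cast h3

theorem pinnedBy_mono {j t t' : ℕ} {g g' : ℝ} (ht : t ≤ t') (hg : g ≤ g') (h : PinnedBy j t' g) :
    PinnedBy j t g' := by
  intro P hP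
  exact (h P (fun p hp => (hP p hp).trans (by omega))).trans hg

theorem main_pinned (d : ℕ) : ∀ ε : ℝ, 0 < ε → ∃ C : ℝ, 0 < C ∧
    ∀ t : ℕ, 1 ≤ t → PinnedBy d t (C * (t:ℝ) ^ (fe d + ε)) := by
  induction d using Nat.strong_induction_on with
  | _ d ih =>
    intro ε hε
    rcases Nat.lt_or_ge d 2 with hd | hd
    · interval_cases d
      · refine ⟨1, one_pos, ?_⟩
        intro t ht
        have ht' : (1:ℝ) ≤ t := by exact_mod_cast ht
        apply pinnedBy_mono le_rfl _ (pinned_zero t)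
        rw [one_mul]
        apply Real.one_le_rpow ht'
        have : fe 0 = 0 := by unfold fe; norm_num
        rw [this]; linarith only [hε]
      · refine ⟨2, two_pos, ?_⟩
        intro t ht
        have ht' : (1:ℝ) ≤ t := by exact_mod_cast ht
        apply pinnedBy_mono le_rfl _ (pinned_one t)
        have h1 : fe 1 = 1 := by unfold fe; norm_num
        rw [h1]
        have h2 : (t:ℝ) ≤ (t:ℝ) ^ (1 + ε) := by
          calc (t:ℝ) = (t:ℝ) ^ (1:ℝ) := (Real.rpow_one _).symm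
            _ ≤ (t:ℝ) ^ (1 + ε) := Real.rpow_le_rpow_of_exponent_le ht' (by linarith only [hε])
        linarith only [ht', h2]
    · obtain ⟨ε', hε'⟩ : ∃ ε' : ℝ, ε' = min ε (1 / 4) := ⟨_, rfl⟩
      have hε'0 : 0 < ε' := by rw [hε']; exact lt_min hε (by norm_num)
      have hε'1 : ε' ≤ ε := by rw [hε']; exact min_le_left _ _
      have hε'4 : ε' ≤ 1 / 4 := by rw [hε']; exact min_le_right _ _
      obtain ⟨T0, hT0⟩ := pinned_step d hd (fun j hj => ih j (by omega)) ε' hε'0 hε'4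
      obtain ⟨T1, hT1⟩ : ∃ T1 : ℕ, T1 = max 1 ⌈T0⌉₊ := ⟨_, rfl⟩
      have hT1a : 1 ≤ T1 := by rw [hT1]; exact le_max_left _ _
      have hT1b : T0 ≤ T1 := by
        rw [hT1]
        exact (Nat.le_ceil T0).trans (by exact_mod_cast le_max_right _ _)
      have hT1r : (1:ℝ) ≤ T1 := by exact_mod_cast hT1a
      have hD : (2:ℝ) ≤ d := by exact_mod_cast hd
      have hfe : 0 ≤ fe d := by
        unfold fe
        apply div_nonneg (by positivity)
        linarith only [hD]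
      have hpow1 : (1:ℝ) ≤ (T1:ℝ) ^ (fe d + ε') := Real.one_le_rpow hT1r (by linarith only [hε'0, hfe])
      refine ⟨2 * (T1:ℝ) ^ (fe d + ε'), by positivity, ?_⟩
      intro t ht
      have ht' : (1:ℝ) ≤ t := by exact_mod_cast ht
      rcases le_or_gt T0 (t:ℝ) with h1 | h1
      · apply pinnedBy_mono le_rfl _ (hT0 t h1)
        have h2 : (t:ℝ) ^ (fe d + ε') ≤ (t:ℝ) ^ (fe d + ε) :=
          Real.rpow_le_rpow_of_exponent_le ht' (by linarith only [hε'1])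
        have h3 : 0 ≤ (t:ℝ) ^ (fe d + ε) := by positivity
        nlinarith only [h2, hpow1, h3]
      · have h2 : t ≤ T1 := by
          have : (t:ℝ) ≤ T1 := h1.le.trans hT1b
          exact_mod_cast this
        apply pinnedBy_mono h2 _ (hT0 T1 hT1b)
        have h3 : (1:ℝ) ≤ (t:ℝ) ^ (fe d + ε) := Real.one_le_rpow ht' (by linarith only [hε, hfe])
        have h4 : 0 ≤ 2 * (T1:ℝ) ^ (fe d + ε') := by positivity
        exact le_mul_of_one_le_right h4 h3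

open scoped Classical in
/-- pinned distinct distances -/
theorem pinned_lower (d : ℕ) (hd : 1 ≤ d) (ε : ℝ) (hε : 0 < ε) : ∃ c : ℝ, 0 < c ∧
    ∀ P : Finset (EuclideanSpace ℝ (Fin d)), 2 ≤ P.card → ∃ p ∈ P,
      c * (P.card : ℝ) ^ (2 / (d:ℝ) - 1 / (d:ℝ) ^ 2 - ε) ≤
        ((((P.erase p).image (dist p)).card : ℕ) : ℝ) := by
  have hD : (1:ℝ) ≤ d := by exact_mod_cast hd
  have h21 : 0 < 2 * (d:ℝ) - 1 := by linarith only [hD]
  have hfe0 : 0 < fe d := by unfold fe; positivity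
  -- choose ε' with 1/(fe + ε') ≥ 1/fe - ε
  have hinv : 1 / fe d = 2 / (d:ℝ) - 1 / (d:ℝ) ^ 2 := by
    unfold fe
    have : (d:ℝ) ≠ 0 := by linarith only [hD]
    rw [one_div_div]
    field_simp
  obtain ⟨C, hC0, hC⟩ := main_pinned d (ε * fe d ^ 2) (by positivity)
  set f : ℝ := fe d with hf
  have hexp : 1 / f - ε ≤ 1 / (f + ε * f ^ 2) := by
    rw [le_div_iff₀ (by positivity)]
    have h1 : (1 / f - ε) * (f + ε * f ^ 2) = 1 - ε ^ 2 * f ^ 2 := by field_simp; ring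
    rw [h1]
    have : 0 ≤ ε ^ 2 * f ^ 2 := by positivity
    linarith only [this]
  set g : ℝ := f + ε * f ^ 2 with hg
  have hg0 : 0 < g := by positivity
  obtain ⟨c, hc⟩ : ∃ c : ℝ, c = (1 / C) ^ (1 / g) := ⟨_, rfl⟩
  have hc0 : 0 < c := by rw [hc]; positivity
  refine ⟨c, hc0, ?_⟩
  intro P hP
  have hPne : P.Nonempty := Finset.card_pos.mp (by omega)
  obtain ⟨p, hp, hmax⟩ := P.exists_max_image (fun p => ((P.erase p).image (dist p)).card) hPne
  refine ⟨p, hp, ?_⟩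
  set t := ((P.erase p).image (dist p)).card with ht
  have ht1 : 1 ≤ t := by
    rw [ht, Nat.one_le_iff_ne_zero, ← Nat.pos_iff_ne_zero, Finset.card_pos, Finset.image_nonempty,
      ← Finset.card_pos, Finset.card_erase_of_mem hp]
    omega
  have hpin : ∀ q ∈ P, (P.image (dist q)).card ≤ t + 1 := by
    intro q hq
    have h1 : P.image (dist q) = insert (dist q q) ((P.erase q).image (dist q)) := by
      rw [← Finset.image_insert, Finset.insert_erase hq]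
    rw [h1]
    exact (Finset.card_insert_le _ _).trans (Nat.add_le_add_right (hmax q hq) 1)
  have h1 := hC t ht1 P (fun q hq => by convert hpin q hq)
  have hn1 : (1:ℝ) ≤ P.card := by exact_mod_cast (show 1 ≤ P.card by omega)
  have ht0 : (0:ℝ) ≤ t := by (clear * - ht1; positivity)
  have h2 : (1 / C * (P.card:ℝ)) ≤ (t:ℝ) ^ g := by
    rw [one_div, inv_mul_le_iff₀ hC0]; exact h1
  have h3 : (1 / C * (P.card:ℝ)) ^ (1 / g) ≤ t := by
    calc (1 / C * (P.card:ℝ)) ^ (1 / g) ≤ ((t:ℝ) ^ g) ^ (1 / g) :=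
          Real.rpow_le_rpow (by (clear * - hC0 hc hc0 hPne; positivity)) h2 (by positivity)
      _ = t := by
          rw [← Real.rpow_mul ht0, mul_one_div_cancel hg0.ne', Real.rpow_one]
  refine le_trans ?_ h3
  rw [Real.mul_rpow (by positivity) (by (clear * - hc hc0 hPne; positivity)), ← hc]
  apply mul_le_mul_of_nonneg_left _ hc0.le
  apply Real.rpow_le_rpow_of_exponent_le hn1
  rw [← hinv]
  exact hexp

end Vale.Agent.P054K
end

section

set_option autoImplicit false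

open Finset

namespace Vale.Agent.P054K

/-- the improved exponent -/
noncomputable def fd (d : ℕ) : ℝ := ((d:ℝ) ^ 2 + 1) / (2 * d)

theorem fe_le_self (j : ℕ) : fe j ≤ j := by
  unfold fe
  rcases Nat.eq_zero_or_pos j with h | h
  · subst h; norm_num
  · have h1 : (1:ℝ) ≤ j := by exact_mod_cast h
    rw [div_le_iff₀ (by linarith only [h1])]
    nlinarith only [h1]

theorem fe_pred_le_fd (d : ℕ) (hd : 2 ≤ d) : fe (d - 1) ≤ fd d := by
  have h1 : (2:ℝ) ≤ d := by exact_mod_cast hd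
  have h2 : ((d - 1 : ℕ) : ℝ) = (d:ℝ) - 1 := by rw [Nat.cast_sub (by omega)]; simp only [Nat.cast_one]
  unfold fe fd
  rw [h2, div_le_div_iff₀ (by linarith only [h1]) (by linarith only [h1])]
  nlinarith only [h1]

theorem ev_log2 (C D η : ℝ) (hC : 0 < C) (hη : 0 < η) :
    ∃ T0 : ℝ, 1 ≤ T0 ∧ ∀ T : ℝ, T0 ≤ T → 20 * (Real.log (C * T ^ D) + 1) ≤ T ^ η := by
  obtain ⟨T1, hT1, h⟩ := ev_log (D + 1) η hη
  refine ⟨max T1 (max C 1), hT1.trans (le_max_left _ _), ?_⟩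
  intro T hT
  have h1 : T1 ≤ T := (le_max_left _ _).trans hT
  have h2 : C ≤ T := ((le_max_left _ _).trans (le_max_right _ _)).trans hT
  have hT0 : 1 ≤ T := hT1.trans h1
  refine le_trans ?_ (h T h1)
  have h3 : C * T ^ D ≤ 7 * T ^ (D + 1) := by
    rw [Real.rpow_add (by linarith only [hT1, h1]), Real.rpow_one]
    have : 0 < T ^ D := Real.rpow_pos_of_pos (by linarith only [hT1, h1]) D
    nlinarith only [this, hT1, h1, h2]
  have h4 := Real.log_le_log (by positivity) h3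
  linarith

theorem rpow_nat_mul (T a : ℝ) (hT : 0 ≤ T) (k : ℕ) : (T ^ a) ^ k = T ^ ((k:ℝ) * a) := by
  rw [← Real.rpow_natCast, ← Real.rpow_mul hT]; congr 1; ring

theorem step2_core (d : ℕ) (hd : 2 ≤ d) (K : ℝ) (c : ℕ) (hK : 1 ≤ K) (hkey : Key2 d K c)
    (ε η α : ℝ) (hη0 : 0 < η) (hη1 : η ≤ 1) (hα : α = fd d + ε) (hα0 : 0 ≤ α)
    (C : ℕ → ℝ) (hC0 : ∀ j, 0 < C j) (I : ℕ) (hI : 3 ≤ η * I)
    (t : ℕ) (T : ℝ) (hTt : T = t) (hT : 1 ≤ T)
    (hC : ∀ j, j < d → PinnedBy j t (C j * T ^ (fe j + η / 2)))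
    (e1 : 20 * (Real.log ((2 ^ 21) * T ^ (2 * α + 2 * η + 3)) + 1) ≤ T ^ η)
    (e2 : 2 ^ (I + 1) * T ^ (0:ℝ) ≤ T ^ η)
    (e3 : 64 * T ^ (1 + η) ≤ T ^ (3:ℝ))
    (e5 : ∀ j, j < d → C j * T ^ (η / 2) ≤ T ^ η)
    (e8 : (4 * C (d - 1)) * T ^ (fe (d - 1) + η / 2) ≤ T ^ α)
    (e9 : (2 * (K * 2 ^ c * 2 ^ (d ^ 2 + 1))) * T ^ ((c:ℝ) * η + ((d ^ 2 + 1 : ℕ) : ℝ)) ≤
      T ^ (((2 * d : ℕ) : ℝ) * α)) :
    PinnedBy d t (2 * T ^ α) := by
  classical
  intro P hP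
  have hT0 : 0 < T := by linarith only [hT]
  by_contra hcon
  push Not at hcon
  have hTα : 1 ≤ T ^ α := Real.one_le_rpow hT hα0
  obtain ⟨n, hn⟩ : ∃ n : ℕ, n = ⌈T ^ α⌉₊ := ⟨_, rfl⟩
  have hn1 : T ^ α ≤ n := by rw [hn]; exact Nat.le_ceil _
  have hn2 : (n:ℝ) ≤ 2 * T ^ α := by
    have := Nat.ceil_lt_add_one (show 0 ≤ T ^ α by positivity)
    rw [← hn] at this
    linarith only [hTα, this]
  have hnP : n ≤ P.card := by
    have : (n:ℝ) < P.card := lt_of_le_of_lt hn2 hcon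
    exact_mod_cast this.le
  obtain ⟨P', hP'sub, hP'card⟩ := exists_subset_card_eq hnP
  have hP' : ∀ p ∈ P', (P'.image (dist p)).card ≤ t + 1 := by
    intro p hp
    refine (card_le_card (image_subset_image hP'sub)).trans ?_
    convert hP p (hP'sub hp)
  have hTη : 1 ≤ T ^ η := Real.one_le_rpow hT hη0.le
  obtain ⟨l, hl⟩ : ∃ l : ℕ, l = ⌈T ^ η⌉₊ := ⟨_, rfl⟩
  have hl1 : T ^ η ≤ l := by rw [hl]; exact Nat.le_ceil _
  have hl2 : (l:ℝ) ≤ 2 * T ^ η := by
    have := Nat.ceil_lt_add_one (show 0 ≤ T ^ η by positivity)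
    rw [← hl] at this
    linarith only [hTη, this]
  have hl0 : (0:ℝ) < l := by linarith only [hTη, hl1]
  obtain ⟨N, hN⟩ : ∃ N : ℝ, N = 8 * T ^ (2 * α + 2) := ⟨_, rfl⟩
  have hTN : 1 ≤ T ^ (2 * α + 2) := Real.one_le_rpow hT (by linarith only [hα0])
  have hN1 : 1 ≤ N := by rw [hN]; linarith only [hTN]
  have hcast : (((t + 1 : ℕ)) : ℝ) = T + 1 := by push_cast; rw [hTt]
  have ht1 : (((t + 1 : ℕ)) : ℝ) ≤ 2 * T := by rw [hcast]; linarith only [hT]
  -- sizes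
  have hlogN : 2 * Real.log N + 1 ≤ T ^ η := by
    refine le_trans ?_ e1
    have h1 : N ≤ 2 ^ 21 * T ^ (2 * α + 2 * η + 3) := by
      rw [hN]
      have h2 : T ^ (2 * α + 2) ≤ T ^ (2 * α + 2 * η + 3) :=
        Real.rpow_le_rpow_of_exponent_le hT (by linarith only [hη0])
      have h3 : 0 < T ^ (2 * α + 2 * η + 3) := by positivity
      linarith only [hTN, h2]
    have h2 := Real.log_le_log (by linarith only [hN, hTN]) h1
    have h3 : 0 ≤ Real.log N := Real.log_nonneg hN1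
    linarith only [h2, h3]
  have q1 : 2 ^ (I + 1) ≤ l := by
    have h1 : ((2 ^ (I + 1) : ℕ) : ℝ) ≤ l := by
      rw [Real.rpow_zero, mul_one] at e2
      push_cast
      exact e2.trans hl1
    exact_mod_cast h1
  have q2 : 16 * (2 * Real.log N + 1) * ((((t + 1 : ℕ)) : ℝ) + 2) ≤ (l:ℝ) ^ I := by
    have h1 : (((t + 1 : ℕ)) : ℝ) + 2 ≤ 4 * T := by rw [hcast]; linarith only [hT]
    have h2 : 16 * (2 * Real.log N + 1) * ((((t + 1 : ℕ)) : ℝ) + 2) ≤ 16 * T ^ η * (4 * T) := by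
      have h3 : 0 ≤ Real.log N := Real.log_nonneg hN1
      apply mul_le_mul _ h1 (by positivity) (by positivity)
      linarith only [hlogN]
    have h4 : 16 * T ^ η * (4 * T) = 64 * T ^ (1 + η) := by
      rw [Real.rpow_add hT0, Real.rpow_one]; ring
    have h5 : T ^ (3:ℝ) ≤ (l:ℝ) ^ I := by
      calc T ^ (3:ℝ) ≤ T ^ ((I:ℝ) * η) := Real.rpow_le_rpow_of_exponent_le hT (by linarith only [hI])
        _ = (T ^ η) ^ I := (rpow_nat_mul T η hT0.le I).symm
        _ ≤ (l:ℝ) ^ I := pow_le_pow_left₀ (by positivity) hl1 I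
    linarith only [e3, h2, h4, h5]
  have q3 : 2 * (P'.card : ℝ) ^ 2 ≤ N := by
    rw [hP'card, hN]
    have h1 : (n:ℝ) ^ 2 ≤ (2 * T ^ α) ^ 2 := pow_le_pow_left₀ (by (clear * -; positivity)) hn2 2
    have h2 : (2 * T ^ α) ^ 2 = 4 * T ^ (2 * α) := by
      rw [mul_pow, rpow_nat_mul T α hT0.le 2]; norm_num
    have h3 : T ^ (2 * α) ≤ T ^ (2 * α + 2) := Real.rpow_le_rpow_of_exponent_le hT (by linarith only [])
    rw [h2] at h1
    linarith only [h1, h3]
  have q4 : (P'.card : ℝ) * (((t + 1 : ℕ)) : ℝ) ≤ N := by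
    rw [hP'card, hN]
    have h1 : (n:ℝ) * (((t + 1 : ℕ)) : ℝ) ≤ (2 * T ^ α) * (2 * T) :=
      mul_le_mul hn2 ht1 (by (clear * -; positivity)) (by positivity)
    have h2 : (2 * T ^ α) * (2 * T) = 4 * T ^ (α + 1) := by
      rw [Real.rpow_add hT0, Real.rpow_one]; ring
    have h3 : T ^ (α + 1) ≤ T ^ (2 * α + 2) := Real.rpow_le_rpow_of_exponent_le hT (by linarith only [hα0])
    rw [h2] at h1
    linarith only [hTN, h1, h3]
  have q5 : 20 * (Real.log (2 ^ 14 * N * (l:ℝ) ^ 2 * (((t + 1 : ℕ)) : ℝ) + 3) + 1) ≤ l := by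
    refine le_trans ?_ (e1.trans hl1)
    have h1 : 2 ^ 14 * N * (l:ℝ) ^ 2 * (((t + 1 : ℕ)) : ℝ) + 3 ≤
        2 ^ 21 * T ^ (2 * α + 2 * η + 3) := by
      have h2 : (l:ℝ) ^ 2 ≤ (2 * T ^ η) ^ 2 := pow_le_pow_left₀ hl0.le hl2 2
      have h3 : (2 * T ^ η) ^ 2 = 4 * T ^ (2 * η) := by
        rw [mul_pow, rpow_nat_mul T η hT0.le 2]; norm_num
      rw [h3] at h2
      have h4 : 2 ^ 14 * N * (l:ℝ) ^ 2 * (((t + 1 : ℕ)) : ℝ) ≤
          2 ^ 14 * N * (4 * T ^ (2 * η)) * (2 * T) := by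
        apply mul_le_mul _ ht1 (by (clear * -; positivity)) (by (clear * - hT hN1; positivity))
        exact mul_le_mul_of_nonneg_left h2 (by (clear * - hN1; positivity))
      have h5 : 2 ^ 14 * N * (4 * T ^ (2 * η)) * (2 * T) = 2 ^ 20 * T ^ (2 * α + 2 * η + 3) := by
        rw [hN]
        have h6 : (2 * α + 2 * η + 3 : ℝ) = (2 * α + 2) + (2 * η) + 1 := by ring
        rw [h6, Real.rpow_add hT0 (2 * α + 2 + 2 * η) 1, Real.rpow_add hT0 (2 * α + 2) (2 * η),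
          Real.rpow_one]
        ring
      have h7 : 1 ≤ T ^ (2 * α + 2 * η + 3) := Real.one_le_rpow hT (by linarith only [hη0, hα0])
      rw [h5] at h4
      linarith only [h4, h7]
    have h2 := Real.log_le_log (by (clear * - hl0 hN1; positivity)) h1
    linarith only [h2]
  have q6 : ∀ j < d, PinnedBy j t (l * (((t + 1 : ℕ)) : ℝ) ^ j) := by
    intro j hj
    apply pinnedBy_mono le_rfl _ (hC j hj)
    have h1 : T ^ (fe j + η / 2) ≤ T ^ (η / 2) * T ^ j := by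
      rw [← Real.rpow_natCast T j, ← Real.rpow_add hT0]
      apply Real.rpow_le_rpow_of_exponent_le hT
      have := fe_le_self j
      linarith only [this]
    have h2 : T ^ j ≤ (((t + 1 : ℕ)) : ℝ) ^ j := by
      apply pow_le_pow_left₀ hT0.le
      rw [hcast]; linarith only []
    calc C j * T ^ (fe j + η / 2) ≤ C j * (T ^ (η / 2) * T ^ j) :=
          mul_le_mul_of_nonneg_left h1 (hC0 j).le
      _ = (C j * T ^ (η / 2)) * T ^ j := by ring
      _ ≤ l * (((t + 1 : ℕ)) : ℝ) ^ j :=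
          mul_le_mul ((e5 j hj).trans hl1) h2 (by positivity) hl0.le
  have hfin := hkey P' t (t + 1) l I N (C (d - 1) * T ^ (fe (d - 1) + η / 2)) rfl
    (fun p hp => by convert hP' p hp) hN1 (hlogN.trans hl1) q1 q2 q3 q4 q5 q6 (hC (d - 1) (by omega))
  rw [hP'card] at hfin
  rcases hfin with h | h
  · have hpos : 0 < C (d - 1) * T ^ (fe (d - 1) + η / 2) := mul_pos (hC0 _) (by positivity)
    linarith only [e8, hTα, hn1, h]
  · have h1 : T ^ (((2 * d : ℕ) : ℝ) * α) ≤ (n:ℝ) ^ (2 * d) := by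
      rw [← rpow_nat_mul T α hT0.le]
      exact pow_le_pow_left₀ (by positivity) hn1 _
    have h2 : K * (l:ℝ) ^ c * (((t + 1 : ℕ)) : ℝ) ^ (d ^ 2 + 1) ≤
        (K * 2 ^ c * 2 ^ (d ^ 2 + 1)) * T ^ ((c:ℝ) * η + ((d ^ 2 + 1 : ℕ) : ℝ)) := by
      have h3 : (l:ℝ) ^ c ≤ (2 * T ^ η) ^ c := pow_le_pow_left₀ hl0.le hl2 c
      have h4 : (((t + 1 : ℕ)) : ℝ) ^ (d ^ 2 + 1) ≤ (2 * T) ^ (d ^ 2 + 1) :=
        pow_le_pow_left₀ (by (clear * -; positivity)) ht1 _
      calc K * (l:ℝ) ^ c * (((t + 1 : ℕ)) : ℝ) ^ (d ^ 2 + 1)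
          ≤ K * (2 * T ^ η) ^ c * (2 * T) ^ (d ^ 2 + 1) := by
            apply mul_le_mul _ h4 (by positivity) (by positivity)
            exact mul_le_mul_of_nonneg_left h3 (by linarith only [hK])
        _ = _ := by
            rw [mul_pow, mul_pow, rpow_nat_mul T η hT0.le c, Real.rpow_add hT0, Real.rpow_natCast]
            ring
    have hpos : 0 < T ^ (((2 * d : ℕ) : ℝ) * α) := by positivity
    have h5 : (n:ℝ) ^ (2 * d) ≤
        (K * 2 ^ c * 2 ^ (d ^ 2 + 1)) * T ^ ((c:ℝ) * η + ((d ^ 2 + 1 : ℕ) : ℝ)) := h.trans h2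
    linarith only [e9, h, h1, h2, hpos]

theorem step2 (d : ℕ) (hd : 2 ≤ d) (ε : ℝ) (hε : 0 < ε) (hε1 : ε ≤ 1) :
    ∃ T0 : ℝ, ∀ t : ℕ, T0 ≤ t → PinnedBy d t (2 * (t:ℝ) ^ (fd d + ε)) := by
  obtain ⟨K, c, hK, hkey⟩ := key2 d hd
  have hD : (2:ℝ) ≤ d := by exact_mod_cast hd
  have hc0 : (0:ℝ) ≤ c := by positivity
  obtain ⟨η, hη⟩ : ∃ η : ℝ, η = ε / (2 * (c + 1)) := ⟨_, rfl⟩
  have hη0 : 0 < η := by rw [hη]; positivity
  have hcd : (c + 1) * η = ε / 2 := by rw [hη]; field_simp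
  have hcη : (c:ℝ) * η ≤ ε / 2 := by linarith only [hη0, hcd]
  have hηε : η ≤ ε / 2 := by
    have : 0 ≤ (c:ℝ) * η := by (clear * - hη0; positivity)
    linarith only [hcd, this]
  obtain ⟨I, hI⟩ : ∃ I : ℕ, I = ⌈3 / η⌉₊ := ⟨_, rfl⟩
  have hI3 : 3 ≤ η * I := by
    have h1 : 3 / η ≤ I := by rw [hI]; exact Nat.le_ceil _
    rw [div_le_iff₀ hη0] at h1
    linarith only [h1]
  obtain ⟨α, hα⟩ : ∃ α : ℝ, α = fd d + ε := ⟨_, rfl⟩
  have hfd0 : 0 < fd d := by unfold fd; positivity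
  have hα0 : 0 ≤ α := by linarith only [hη0, hηε, hα, hfd0]
  have hCex : ∀ j, ∃ C : ℝ, 0 < C ∧
      ∀ t : ℕ, 1 ≤ t → PinnedBy j t (C * (t:ℝ) ^ (fe j + η / 2)) := by
    intro j
    exact main_pinned j (η / 2) (by linarith only [hη0])
  choose C hC0 hC using hCex
  obtain ⟨T1, hT1, hev1⟩ := ev_log2 (2 ^ 21) (2 * α + 2 * η + 3) η (by norm_num) hη0
  obtain ⟨T2, hT2, hev2⟩ := ev_rpow (2 ^ (I + 1)) 0 η hη0
  obtain ⟨T3, hT3, hev3⟩ := ev_rpow 64 (1 + η) 3 (by linarith only [hε1, hηε])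
  have hev5' : ∃ T5 : ℝ, ∀ j, j < d → ∀ T : ℝ, T5 ≤ T → C j * T ^ (η / 2) ≤ T ^ η := by
    have h1 : ∀ j, ∃ T0 : ℝ, 1 ≤ T0 ∧ ∀ T : ℝ, T0 ≤ T → C j * T ^ (η / 2) ≤ T ^ η :=
      fun j => ev_rpow (C j) (η / 2) η (by linarith only [hη0])
    choose T5 hT5 hev5 using h1
    refine ⟨∑ j ∈ Finset.range d, T5 j, ?_⟩
    intro j hj T hT
    apply hev5 j T
    refine le_trans ?_ hT
    exact Finset.single_le_sum (fun i _ => by linarith only [hT5 i]) (mem_range.mpr hj)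
  obtain ⟨T5, hev5⟩ := hev5'
  obtain ⟨T8, hT8, hev8⟩ := ev_rpow (4 * C (d - 1)) (fe (d - 1) + η / 2) α (by
    have := fe_pred_le_fd d hd
    rw [hα]; linarith only [hη0, hηε, this])
  obtain ⟨T9, hT9, hev9⟩ := ev_rpow (2 * (K * 2 ^ c * 2 ^ (d ^ 2 + 1)))
    ((c:ℝ) * η + ((d ^ 2 + 1 : ℕ) : ℝ)) (((2 * d : ℕ) : ℝ) * α) (by
      have h1 : ((2 * d : ℕ) : ℝ) * α = ((d:ℝ) ^ 2 + 1) + 2 * d * ε := by
        rw [hα]; unfold fd; push_cast; field_simp
      rw [h1]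
      push_cast
      nlinarith only [hη0, hcd, hε, hD])
  refine ⟨max (max (max T1 T2) (max T3 T5)) (max T8 T9), ?_⟩
  intro t ht
  have hT1' : T1 ≤ t := ((le_max_left _ _).trans ((le_max_left _ _).trans (le_max_left _ _))).trans ht
  have hT2' : T2 ≤ t := ((le_max_right _ _).trans ((le_max_left _ _).trans (le_max_left _ _))).trans ht
  have hT3' : T3 ≤ t := ((le_max_left _ _).trans ((le_max_right _ _).trans (le_max_left _ _))).trans ht
  have hT5' : T5 ≤ t := ((le_max_right _ _).trans ((le_max_right _ _).trans (le_max_left _ _))).trans ht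
  have hT8' : T8 ≤ t := ((le_max_left _ _).trans (le_max_right _ _)).trans ht
  have hT9' : T9 ≤ t := ((le_max_right _ _).trans (le_max_right _ _)).trans ht
  have hT : (1:ℝ) ≤ t := hT1.trans hT1'
  have ht1 : 1 ≤ t := by exact_mod_cast hT
  rw [← hα]
  exact step2_core d hd K c hK hkey ε η α hη0 (by linarith only [hε1, hη0, hηε]) hα hα0 C hC0 I hI3 t t rfl hT
    (fun j _ => hC j t ht1) (hev1 t hT1') (hev2 t hT2') (hev3 t hT3')
    (fun j hj => hev5 j hj t hT5') (hev8 t hT8') (hev9 t hT9')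

/-- the improved pinned bound -/
theorem main_pinned2 (d : ℕ) (hd : 1 ≤ d) : ∀ ε : ℝ, 0 < ε → ∃ C : ℝ, 0 < C ∧
    ∀ t : ℕ, 1 ≤ t → PinnedBy d t (C * (t:ℝ) ^ (fd d + ε)) := by
  intro ε hε
  rcases Nat.lt_or_ge d 2 with hd2 | hd2
  · have : d = 1 := by omega
    subst this
    refine ⟨2, two_pos, ?_⟩
    intro t ht
    have ht' : (1:ℝ) ≤ t := by exact_mod_cast ht
    apply pinnedBy_mono le_rfl _ (pinned_one t)
    have h1 : fd 1 = 1 := by unfold fd; norm_num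
    rw [h1]
    have h2 : (t:ℝ) ≤ (t:ℝ) ^ (1 + ε) := by
      calc (t:ℝ) = (t:ℝ) ^ (1:ℝ) := (Real.rpow_one _).symm
        _ ≤ (t:ℝ) ^ (1 + ε) := Real.rpow_le_rpow_of_exponent_le ht' (by linarith only [hε])
    linarith only [ht', h2]
  · obtain ⟨ε', hε'⟩ : ∃ ε' : ℝ, ε' = min ε 1 := ⟨_, rfl⟩
    have hε'0 : 0 < ε' := by rw [hε']; exact lt_min hε (by norm_num)
    have hε'1 : ε' ≤ ε := by rw [hε']; exact min_le_left _ _
    have hε'2 : ε' ≤ 1 := by rw [hε']; exact min_le_right _ _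
    obtain ⟨T0, hT0⟩ := step2 d hd2 ε' hε'0 hε'2
    obtain ⟨T1, hT1⟩ : ∃ T1 : ℕ, T1 = max 1 ⌈T0⌉₊ := ⟨_, rfl⟩
    have hT1a : 1 ≤ T1 := by rw [hT1]; exact le_max_left _ _
    have hT1b : T0 ≤ T1 := by
      rw [hT1]
      exact (Nat.le_ceil T0).trans (by exact_mod_cast le_max_right _ _)
    have hT1r : (1:ℝ) ≤ T1 := by exact_mod_cast hT1a
    have hfd : 0 ≤ fd d := by unfold fd; positivity
    refine ⟨2 * (T1:ℝ) ^ (fd d + ε'), by positivity, ?_⟩
    intro t ht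
    have ht' : (1:ℝ) ≤ t := by exact_mod_cast ht
    have hpow1 : (1:ℝ) ≤ (T1:ℝ) ^ (fd d + ε') := Real.one_le_rpow hT1r (by linarith only [hε'0, hfd])
    rcases le_or_gt T0 (t:ℝ) with h1 | h1
    · apply pinnedBy_mono le_rfl _ (hT0 t h1)
      have h2 : (t:ℝ) ^ (fd d + ε') ≤ (t:ℝ) ^ (fd d + ε) :=
        Real.rpow_le_rpow_of_exponent_le ht' (by linarith only [hε'1])
      have h3 : 0 ≤ (t:ℝ) ^ (fd d + ε) := by positivity
      nlinarith only [h2, hpow1, h3]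
    · have h2 : t ≤ T1 := by
        have : (t:ℝ) ≤ T1 := h1.le.trans hT1b
        exact_mod_cast this
      apply pinnedBy_mono h2 _ (hT0 T1 hT1b)
      have h3 : (1:ℝ) ≤ (t:ℝ) ^ (fd d + ε) := Real.one_le_rpow ht' (by linarith only [hε, hfd])
      have h4 : 0 ≤ 2 * (T1:ℝ) ^ (fd d + ε') := by positivity
      exact le_mul_of_one_le_right h4 h3

open scoped Classical in
/-- pinned distinct distances, improved exponent -/
theorem pinned_lower2 (d : ℕ) (hd : 1 ≤ d) (ε : ℝ) (hε : 0 < ε) : ∃ c : ℝ, 0 < c ∧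
    ∀ P : Finset (EuclideanSpace ℝ (Fin d)), 2 ≤ P.card → ∃ p ∈ P,
      c * (P.card : ℝ) ^ (2 * (d:ℝ) / ((d:ℝ) ^ 2 + 1) - ε) ≤
        ((((P.erase p).image (dist p)).card : ℕ) : ℝ) := by
  have hD : (1:ℝ) ≤ d := by exact_mod_cast hd
  have hfe0 : 0 < fd d := by unfold fd; positivity
  have hinv : 1 / fd d = 2 * (d:ℝ) / ((d:ℝ) ^ 2 + 1) := by
    unfold fd
    rw [one_div_div]
  obtain ⟨C, hC0, hC⟩ := main_pinned2 d hd (ε * fd d ^ 2) (by positivity)
  set f : ℝ := fd d with hf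
  have hexp : 1 / f - ε ≤ 1 / (f + ε * f ^ 2) := by
    rw [le_div_iff₀ (by positivity)]
    have h1 : (1 / f - ε) * (f + ε * f ^ 2) = 1 - ε ^ 2 * f ^ 2 := by field_simp; ring
    rw [h1]
    have : 0 ≤ ε ^ 2 * f ^ 2 := by positivity
    linarith only [this]
  set g : ℝ := f + ε * f ^ 2 with hg
  have hg0 : 0 < g := by positivity
  obtain ⟨c, hc⟩ : ∃ c : ℝ, c = (1 / C) ^ (1 / g) := ⟨_, rfl⟩
  have hc0 : 0 < c := by rw [hc]; positivity
  refine ⟨c, hc0, ?_⟩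
  intro P hP
  have hPne : P.Nonempty := Finset.card_pos.mp (by omega)
  obtain ⟨p, hp, hmax⟩ := P.exists_max_image (fun p => ((P.erase p).image (dist p)).card) hPne
  refine ⟨p, hp, ?_⟩
  set t := ((P.erase p).image (dist p)).card with ht
  have ht1 : 1 ≤ t := by
    rw [ht, Nat.one_le_iff_ne_zero, ← Nat.pos_iff_ne_zero, Finset.card_pos, Finset.image_nonempty,
      ← Finset.card_pos, Finset.card_erase_of_mem hp]
    omega
  have hpin : ∀ q ∈ P, (P.image (dist q)).card ≤ t + 1 := by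
    intro q hq
    have h1 : P.image (dist q) = insert (dist q q) ((P.erase q).image (dist q)) := by
      rw [← Finset.image_insert, Finset.insert_erase hq]
    rw [h1]
    exact (Finset.card_insert_le _ _).trans (Nat.add_le_add_right (hmax q hq) 1)
  have h1 := hC t ht1 P (fun q hq => by convert hpin q hq)
  have hn1 : (1:ℝ) ≤ P.card := by exact_mod_cast (show 1 ≤ P.card by omega)
  have ht0 : (0:ℝ) ≤ t := by (clear * - ht1; positivity)
  have h2 : (1 / C * (P.card:ℝ)) ≤ (t:ℝ) ^ g := by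
    rw [one_div, inv_mul_le_iff₀ hC0]; exact h1
  have h3 : (1 / C * (P.card:ℝ)) ^ (1 / g) ≤ t := by
    calc (1 / C * (P.card:ℝ)) ^ (1 / g) ≤ ((t:ℝ) ^ g) ^ (1 / g) :=
          Real.rpow_le_rpow (by (clear * - hC0 hc hc0 hPne; positivity)) h2 (by positivity)
      _ = t := by
          rw [← Real.rpow_mul ht0, mul_one_div_cancel hg0.ne', Real.rpow_one]
  refine le_trans ?_ h3
  rw [Real.mul_rpow (by positivity) (by (clear * - hc hc0 hPne; positivity)), ← hc]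
  apply mul_le_mul_of_nonneg_left _ hc0.le
  apply Real.rpow_le_rpow_of_exponent_le hn1
  rw [← hinv]
  exact hexp

end Vale.Agent.P054K
end

section

namespace Vale.Agent.P054K

open Finset
open scoped Pointwise Classical

variable {E : Type*} [AddCommGroup E] [Module ℝ E]

lemma exists_dual_ne_zero (S : Finset E) :
    ∃ φ : Module.Dual ℝ E, ∀ v ∈ S, v ≠ 0 → φ v ≠ 0 := by
  have : Finite {v // v ∈ S ∧ v ≠ 0} := by
    apply Finite.of_injective (fun v : {v // v ∈ S ∧ v ≠ 0} => (⟨v.1, v.2.1⟩ : {v // v ∈ S}))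
    intro a b hab
    simp only [Subtype.mk.injEq] at hab
    exact Subtype.ext hab
  obtain ⟨f, hf⟩ := Module.exists_dual_forall_apply_ne_zero (K := ℝ)
    (ι := {v // v ∈ S ∧ v ≠ 0}) (fun v => (v : E)) (fun v => v.2.2)
  exact ⟨f, fun v hv h0 => hf ⟨v, hv, h0⟩⟩

/-- Number of nonzero points of `Y` on the line through `y`. -/
noncomputable def lineCard (Y : Finset E) (y : E) : ℕ :=
  (Y.filter (fun z => z ≠ 0 ∧ z ∈ Submodule.span ℝ {y})).card

lemma span_neg_singleton (y : E) : Submodule.span ℝ {-y} = Submodule.span ℝ {y} := by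
  apply le_antisymm
  · rw [Submodule.span_singleton_le_iff_mem]
    exact Submodule.neg_mem _ (Submodule.mem_span_singleton_self y)
  · rw [Submodule.span_singleton_le_iff_mem]
    have := Submodule.neg_mem _ (Submodule.mem_span_singleton_self (R := ℝ) (-y))
    simpa using this

lemma lineCard_neg (Y : Finset E) (y : E) : lineCard Y (-y) = lineCard Y y := by
  simp only [lineCard, span_neg_singleton]

lemma lineCard_congr (Y : Finset E) {y z : E} (h : z ∈ Submodule.span ℝ {y}) (hz : z ≠ 0) :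
    lineCard Y z = lineCard Y y := by
  have : Submodule.span ℝ {z} = Submodule.span ℝ {y} := by
    obtain ⟨c, rfl⟩ := Submodule.mem_span_singleton.1 h
    have hc : c ≠ 0 := by
      rintro rfl
      simp at hz
    exact Submodule.span_singleton_smul_eq (IsUnit.mk0 c hc) y
  simp only [lineCard, this]

/-- Solymosi's sector argument: outside one line `ℝ y₀`, the points of a symmetric finite set `Y`
that lie on lines (through the origin) with at least `R` nonzero points of `Y` number at most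
`4 |Y + Y| / R`. -/
lemma sectors (Y : Finset E) (hneg : ∀ y ∈ Y, -y ∈ Y) (R : ℕ) :
    ∃ y₀ : E, R * (Y.filter (fun y => y ≠ 0 ∧ y ∉ Submodule.span ℝ {y₀} ∧
      R ≤ lineCard Y y)).card ≤ 4 * (Y + Y).card := by
  obtain ⟨φ, hφ⟩ := exists_dual_ne_zero Y
  obtain ⟨ψ, hψ⟩ := exists_dual_ne_zero ((Y ×ˢ Y).image (fun p : E × E => φ p.2 • p.1 - φ p.1 • p.2))
  set P : Finset E := Y.filter (fun y => 0 < φ y) with hP
  set σ : E → ℝ := fun y => ψ y / φ y with hσ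
  have hPpos : ∀ y ∈ P, 0 < φ y := fun y hy => (mem_filter.1 hy).2
  have hPY : ∀ y ∈ P, y ∈ Y := fun y hy => (mem_filter.1 hy).1
  have hP0 : ∀ y ∈ P, y ≠ 0 := by
    intro y hy h
    have := hPpos y hy
    rw [h] at this
    simp at this
  have hψφ : ∀ y ∈ P, ψ y = φ y * σ y := by
    intro y hy
    simp only [hσ]
    field_simp [(hPpos y hy).ne']
  have hσeq : ∀ y ∈ P, ∀ z ∈ P, σ y = σ z → φ z • y = φ y • z := by
    intro y hy z hz h
    by_contra hne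
    have h1 : φ z • y - φ y • z ≠ 0 := sub_ne_zero.2 hne
    have h2 := hψ (φ z • y - φ y • z) (mem_image.2 ⟨(y, z), by simp [hPY y hy, hPY z hz], rfl⟩) h1
    apply h2
    rw [map_sub, map_smul, map_smul, smul_eq_mul, smul_eq_mul, hψφ y hy, hψφ z hz, h]
    ring
  -- half of the points of a line
  have hhalf : ∀ y : E, lineCard Y y ≤ 2 * (P.filter (fun z => z ∈ Submodule.span ℝ {y})).card := by
    intro y
    have hsub : Y.filter (fun z => z ≠ 0 ∧ z ∈ Submodule.span ℝ {y}) ⊆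
        (P.filter (fun z => z ∈ Submodule.span ℝ {y})) ∪
          (P.filter (fun z => z ∈ Submodule.span ℝ {y})).image (fun z => -z) := by
      intro z hz
      obtain ⟨hzY, hz0, hzs⟩ := mem_filter.1 hz
      rcases lt_or_gt_of_ne (hφ z hzY hz0) with h | h
      · apply mem_union_right
        refine mem_image.2 ⟨-z, ?_, neg_neg z⟩
        refine mem_filter.2 ⟨mem_filter.2 ⟨hneg z hzY, ?_⟩, Submodule.neg_mem _ hzs⟩
        rw [map_neg]; linarith only [h]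
      · apply mem_union_left
        exact mem_filter.2 ⟨mem_filter.2 ⟨hzY, h⟩, hzs⟩
    calc lineCard Y y ≤ _ := card_le_card hsub
      _ ≤ _ := card_union_le _ _
      _ ≤ _ := by
        have := card_image_le (s := P.filter (fun z => z ∈ Submodule.span ℝ {y})) (f := fun z => -z)
        omega
  set B : Finset E := P.filter (fun y => R ≤ lineCard Y y) with hB
  rcases B.eq_empty_or_nonempty with hBe | hBne
  · refine ⟨0, ?_⟩
    have : (Y.filter (fun y => y ≠ 0 ∧ y ∉ Submodule.span ℝ {(0:E)} ∧ R ≤ lineCard Y y)) = ∅ := by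
      rw [filter_eq_empty_iff]
      rintro y hyY ⟨hy0, -, hyR⟩
      rcases lt_or_gt_of_ne (hφ y hyY hy0) with h | h
      · have : -y ∈ B := by
          refine mem_filter.2 ⟨mem_filter.2 ⟨hneg y hyY, ?_⟩, ?_⟩
          · rw [map_neg]; linarith only [h]
          · rwa [lineCard_neg]
        rw [hBe] at this
        simp at this
      · have : y ∈ B := mem_filter.2 ⟨mem_filter.2 ⟨hyY, h⟩, hyR⟩
        rw [hBe] at this
        simp at this
    rw [this]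
    simp
  obtain ⟨y₀, hy₀B, hy₀⟩ := exists_max_image B σ hBne
  refine ⟨y₀, ?_⟩
  set T : Finset E := B.filter (fun y => y ∉ Submodule.span ℝ {y₀}) with hT
  have hBP : ∀ y ∈ B, y ∈ P := fun y hy => (mem_filter.1 hy).1
  have hTB : ∀ y ∈ T, y ∈ B := fun y hy => (mem_filter.1 hy).1
  have hcardT : (Y.filter (fun y => y ≠ 0 ∧ y ∉ Submodule.span ℝ {y₀} ∧ R ≤ lineCard Y y)).card
      ≤ 2 * T.card := by
    have hsub : (Y.filter (fun y => y ≠ 0 ∧ y ∉ Submodule.span ℝ {y₀} ∧ R ≤ lineCard Y y)) ⊆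
        T ∪ T.image (fun z => -z) := by
      intro y hy
      obtain ⟨hyY, hy0, hys, hyR⟩ := mem_filter.1 hy
      rcases lt_or_gt_of_ne (hφ y hyY hy0) with h | h
      · apply mem_union_right
        refine mem_image.2 ⟨-y, ?_, neg_neg y⟩
        refine mem_filter.2 ⟨mem_filter.2 ⟨mem_filter.2 ⟨hneg y hyY, ?_⟩, ?_⟩, ?_⟩
        · rw [map_neg]; linarith only [h]
        · rwa [lineCard_neg]
        · rwa [Submodule.neg_mem_iff]
      · apply mem_union_left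
        exact mem_filter.2 ⟨mem_filter.2 ⟨mem_filter.2 ⟨hyY, h⟩, hyR⟩, hys⟩
    calc _ ≤ _ := card_le_card hsub
      _ ≤ _ := card_union_le _ _
      _ ≤ _ := by
        have := card_image_le (s := T) (f := fun z => -z)
        omega
  have hTlt : ∀ y ∈ T, σ y < σ y₀ := by
    intro y hy
    refine lt_of_le_of_ne (hy₀ y (hTB y hy)) ?_
    intro h
    have h1 := hσeq y (hBP y (hTB y hy)) y₀ (hBP y₀ hy₀B) h
    apply (mem_filter.1 hy).2
    rw [Submodule.mem_span_singleton]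
    refine ⟨φ y / φ y₀, ?_⟩
    have h0 : φ y₀ ≠ 0 := (hPpos y₀ (hBP y₀ hy₀B)).ne'
    rw [div_eq_inv_mul, mul_smul, ← h1, smul_smul, inv_mul_cancel₀ h0, one_smul]
  have hnext : ∀ y : E, ∃ z : E, y ∈ T → (z ∈ B ∧ σ y < σ z ∧ ∀ w ∈ B, σ y < σ w → σ z ≤ σ w) := by
    intro y
    by_cases hy : y ∈ T
    · have hne : (B.filter (fun w => σ y < σ w)).Nonempty :=
        ⟨y₀, mem_filter.2 ⟨hy₀B, hTlt y hy⟩⟩
      obtain ⟨z, hz, hzmin⟩ := exists_min_image _ σ hne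
      refine ⟨z, fun _ => ⟨(mem_filter.1 hz).1, (mem_filter.1 hz).2, ?_⟩⟩
      intro w hw hyw
      exact hzmin w (mem_filter.2 ⟨hw, hyw⟩)
    · exact ⟨0, fun h => absurd h hy⟩
  choose nx hnx using hnext
  set N : E → Finset E := fun y => P.filter (fun z => z ∈ Submodule.span ℝ {nx y}) with hN
  have hNσ : ∀ y ∈ T, ∀ z ∈ N y, σ z = σ (nx y) := by
    intro y hy z hz
    obtain ⟨hzP, hzs⟩ := mem_filter.1 hz
    obtain ⟨c, rfl⟩ := Submodule.mem_span_singleton.1 hzs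
    have hc : c ≠ 0 := by
      rintro rfl
      exact hP0 _ hzP (by simp)
    have hnxP := hPpos _ (hBP _ (hnx y hy).1)
    simp only [hσ, map_smul, smul_eq_mul]
    (clear * - hc hnxP; field_simp)
  have hinj : Set.InjOn (fun p : (Σ _ : E, E) => p.1 + p.2) (T.sigma N : Set (Σ _ : E, E)) := by
    rintro ⟨y, z⟩ hyz ⟨y', z'⟩ hyz' h
    simp only [coe_sigma, Set.mem_sigma_iff, mem_coe] at hyz hyz'
    obtain ⟨hy, hz⟩ := hyz
    obtain ⟨hy', hz'⟩ := hyz'
    simp only at h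
    have hyP := hBP y (hTB y hy)
    have hyP' := hBP y' (hTB y' hy')
    have hzP := (mem_filter.1 hz).1
    have hzP' := (mem_filter.1 hz').1
    have e1 : φ y + φ z = φ y' + φ z' := by rw [← map_add, ← map_add, h]
    have e2 : ψ y + ψ z = ψ y' + ψ z' := by rw [← map_add, ← map_add, h]
    rw [hψφ y hyP, hψφ z hzP, hψφ y' hyP', hψφ z' hzP'] at e2
    have p1 := hPpos y hyP
    have p2 := hPpos z hzP
    have p3 := hPpos y' hyP'
    have p4 := hPpos z' hzP'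
    have s1 : σ y < σ z := by rw [hNσ y hy z hz]; exact (hnx y hy).2.1
    have s2 : σ y' < σ z' := by rw [hNσ y' hy' z' hz']; exact (hnx y' hy').2.1
    have key : σ y = σ y' := by
      rcases lt_trichotomy (σ y) (σ y') with hlt | heq | hgt
      · exfalso
        have h3 : σ z ≤ σ y' := by
          rw [hNσ y hy z hz]; exact (hnx y hy).2.2 y' (hTB y' hy') hlt
        have a1 := mul_pos p1 (sub_pos.2 s1)
        have a2 := mul_pos p4 (sub_pos.2 s2)
        have a3 := mul_nonneg (add_pos p1 p2).le (sub_nonneg.2 h3)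
        have a4 : (φ y + φ z) * σ y' = (φ y' + φ z') * σ y' := by rw [e1]
        linarith only [e2, a1, a2, a3, a4]
      · exact heq
      · exfalso
        have h3 : σ z' ≤ σ y := by
          rw [hNσ y' hy' z' hz']; exact (hnx y' hy').2.2 y (hTB y hy) hgt
        have a1 := mul_pos p3 (sub_pos.2 s2)
        have a2 := mul_pos p2 (sub_pos.2 s1)
        have a3 := mul_nonneg (add_pos p3 p4).le (sub_nonneg.2 h3)
        have a4 : (φ y + φ z) * σ y = (φ y' + φ z') * σ y := by rw [e1]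
        linarith only [e2, a1, a2, a3, a4]
    have key2 : σ z = σ z' := by
      rw [hNσ y hy z hz, hNσ y' hy' z' hz']
      apply le_antisymm
      · exact (hnx y hy).2.2 _ (hnx y' hy').1 (by rw [key]; exact (hnx y' hy').2.1)
      · exact (hnx y' hy').2.2 _ (hnx y hy).1 (by rw [← key]; exact (hnx y hy).2.1)
    rw [← key, ← key2] at e2
    have e3 : φ z = φ z' := by
      have h4 : (φ z - φ z') * (σ z - σ y) = 0 := by
        have a5 : (φ y + φ z) * σ y = (φ y' + φ z') * σ y := by rw [e1]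
        linarith only [e2, a5]
      rcases mul_eq_zero.1 h4 with h5 | h5
      · linarith only [h5]
      · linarith only [s1, h5]
    have e4 : φ y = φ y' := by linarith only [e1, e3]
    have f1 : y = y' := by
      have := hσeq y hyP y' hyP' key
      rw [e4] at this
      exact smul_right_injective E p3.ne' this
    have f2 : z = z' := by
      have := hσeq z hzP z' hzP' key2
      rw [e3] at this
      exact smul_right_injective E p4.ne' this
    rw [f1, f2]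
  have hsum : ∑ y ∈ T, (N y).card ≤ (Y + Y).card := by
    rw [← card_sigma, ← card_image_of_injOn hinj]
    apply card_le_card
    intro x hx
    obtain ⟨⟨y, z⟩, hyz, rfl⟩ := mem_image.1 hx
    rw [mem_sigma] at hyz
    exact add_mem_add (hPY y (hBP y (hTB y hyz.1))) (hPY z (mem_filter.1 hyz.2).1)
  have hNR : ∀ y ∈ T, R ≤ 2 * (N y).card := by
    intro y hy
    exact le_trans (mem_filter.1 (hnx y hy).1).2 (hhalf (nx y))
  have h1 : T.card * R ≤ 2 * ∑ y ∈ T, (N y).card := by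
    rw [mul_sum, ← smul_eq_mul]
    exact card_nsmul_le_sum T _ R hNR
  nlinarith only [hcardT, hsum, h1]

end Vale.Agent.P054K
end

section

namespace Vale.Agent.P054K

open Finset
open scoped Pointwise Classical

section counting

variable {G H : Type*} [AddCommGroup G] [AddCommGroup H]

lemma card_le_image_mul (π : G →+ H) (S T : Finset G)
    (h : ∀ x ∈ S, ∀ y ∈ S, π x = π y → x - y ∈ T) :
    S.card ≤ (S.image π).card * T.card := by
  rw [mul_comm]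
  apply card_le_mul_card_image
  intro b hb
  obtain ⟨y, hy, rfl⟩ := mem_image.1 hb
  have : (S.filter (fun x => π x = π y)).image (fun x => x - y) ⊆ T := by
    intro z hz
    obtain ⟨x, hx, rfl⟩ := mem_image.1 hz
    obtain ⟨hxS, hxy⟩ := mem_filter.1 hx
    exact h x hxS y hy hxy
  calc (S.filter (fun x => π x = π y)).card
      = ((S.filter (fun x => π x = π y)).image (fun x => x - y)).card := by
        rw [card_image_of_injective]
        intro a b hab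
        simpa using hab
    _ ≤ T.card := card_le_card this

lemma image_mul_card_le (π : G →+ H) (S T R : Finset G)
    (h : ∀ x ∈ S, ∀ t ∈ T, x + t ∈ R) (hT : ∀ t ∈ T, π t = 0) :
    (S.image π).card * T.card ≤ R.card := by
  have hch : ∀ b : H, ∃ x : G, b ∈ S.image π → (x ∈ S ∧ π x = b) := by
    intro b
    by_cases hb : b ∈ S.image π
    · obtain ⟨x, hx, hxb⟩ := mem_image.1 hb
      exact ⟨x, fun _ => ⟨hx, hxb⟩⟩
    · exact ⟨0, fun h => absurd h hb⟩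
  choose r hr using hch
  rw [← card_product]
  apply card_le_card_of_injOn (fun p : H × G => r p.1 + p.2)
  · rintro ⟨b, t⟩ hbt
    simp only [coe_product, Set.mem_prod, mem_coe] at hbt
    exact h _ (hr b hbt.1).1 _ hbt.2
  · rintro ⟨b, t⟩ hbt ⟨b', t'⟩ hbt' heq
    simp only [coe_product, Set.mem_prod, mem_coe] at hbt hbt'
    simp only at heq
    have h1 : b = b' := by
      have := congrArg π heq
      rw [map_add, map_add, hT t hbt.2, hT t' hbt'.2, (hr b hbt.1).2, (hr b' hbt'.1).2,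
        add_zero, add_zero] at this
      exact this
    subst h1
    have h2 : t = t' := by simpa using heq
    rw [h2]

end counting

variable {E : Type*} [AddCommGroup E] [Module ℝ E]
variable {F : Type*} [AddCommGroup F] [Module ℝ F]

/-- A filtration of finite symmetric sets with polynomial growth controlled by `K`. -/
structure Filt (K : ℕ) (X : ℕ → Finset E) : Prop where
  zero_mem : ∀ j, (0 : E) ∈ X j
  neg_mem : ∀ j, ∀ x ∈ X j, -x ∈ X j
  add_mem : ∀ i j, ∀ x ∈ X i, ∀ y ∈ X j, x + y ∈ X (i + j)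
  card_le : ∀ j, 1 ≤ j → (X j).card ≤ K ^ j * (X 1).card

namespace Filt

variable {K : ℕ} {X : ℕ → Finset E}

lemma card_pos (h : Filt K X) (j : ℕ) : 0 < (X j).card := Finset.card_pos.2 ⟨0, h.zero_mem j⟩

lemma sub_mem (h : Filt K X) (i j : ℕ) {x y : E} (hx : x ∈ X i) (hy : y ∈ X j) :
    x - y ∈ X (i + j) := by
  rw [sub_eq_add_neg]
  exact h.add_mem i j x hx _ (h.neg_mem j y hy)

lemma mono (h : Filt K X) {i j : ℕ} (hij : i ≤ j) : X i ⊆ X j := by
  intro x hx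
  obtain ⟨k, rfl⟩ := Nat.exists_eq_add_of_le hij
  have := h.add_mem i k x hx 0 (h.zero_mem k)
  rwa [add_zero] at this

lemma weaken (h : Filt K X) {K' : ℕ} (hK : K ≤ K') : Filt K' X where
  zero_mem := h.zero_mem
  neg_mem := h.neg_mem
  add_mem := h.add_mem
  card_le := fun j hj => (h.card_le j hj).trans (Nat.mul_le_mul_right _ (Nat.pow_le_pow_left hK j))

lemma K_pos (h : Filt K X) : 1 ≤ K := by
  by_contra hK
  have hK0 : K = 0 := by omega
  have := h.card_le 1 le_rfl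
  rw [hK0] at this
  have h1 := h.card_pos 1
  simp at this
  rw [this] at h1
  simp at h1

/-- The part of `X j` in the kernel of `π`. -/
lemma card_one_le (h : Filt K X) (π : E →ₗ[ℝ] F) :
    (X 1).card ≤ ((X 1).image π).card * ((X 2).filter (fun x => π x = 0)).card := by
  apply card_le_image_mul π.toAddMonoidHom
  intro x hx y hy hxy
  refine mem_filter.2 ⟨h.sub_mem 1 1 hx hy, ?_⟩
  have : π x = π y := hxy
  rw [map_sub, this, sub_self]

lemma image_mul_le (h : Filt K X) (π : E →ₗ[ℝ] F) (i j : ℕ) :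
    ((X i).image π).card * ((X j).filter (fun x => π x = 0)).card ≤ (X (i + j)).card := by
  apply image_mul_card_le π.toAddMonoidHom
  · intro x hx t ht
    exact h.add_mem i j x hx t (mem_filter.1 ht).1
  · intro t ht
    exact (mem_filter.1 ht).2

lemma image_pos (h : Filt K X) (π : E →ₗ[ℝ] F) (j : ℕ) : 0 < ((X j).image π).card :=
  Finset.card_pos.2 ⟨π 0, mem_image_of_mem _ (h.zero_mem j)⟩

lemma ker_pos (h : Filt K X) (π : E →ₗ[ℝ] F) (j : ℕ) :
    0 < ((X j).filter (fun x => π x = 0)).card :=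
  Finset.card_pos.2 ⟨0, mem_filter.2 ⟨h.zero_mem j, map_zero π⟩⟩

lemma card_ker_le (h : Filt K X) (π : E →ₗ[ℝ] F) (j : ℕ) :
    ((X j).filter (fun x => π x = 0)).card ≤
      K ^ (j + 1) * ((X 2).filter (fun x => π x = 0)).card := by
  have h1 := h.image_mul_le π 1 j
  have h2 := h.card_le (1 + j) (by omega)
  have h3 := h.card_one_le π
  have h4 := h.image_pos π 1
  refine Nat.le_of_mul_le_mul_left ?_ h4
  calc _ ≤ _ := h1
    _ ≤ _ := h2
    _ ≤ K ^ (1 + j) * (((X 1).image π).card * ((X 2).filter (fun x => π x = 0)).card) :=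
        Nat.mul_le_mul_left _ h3
    _ = _ := by ring

lemma card_image_le (h : Filt K X) (π : E →ₗ[ℝ] F) (j : ℕ) :
    ((X j).image π).card ≤ K ^ (j + 2) * ((X 1).image π).card := by
  have h1 := h.image_mul_le π j 2
  have h2 := h.card_le (j + 2) (by omega)
  have h3 := h.card_one_le π
  have h4 := h.ker_pos π 2
  refine Nat.le_of_mul_le_mul_right ?_ h4
  calc _ ≤ _ := h1
    _ ≤ _ := h2
    _ ≤ K ^ (j + 2) * (((X 1).image π).card * ((X 2).filter (fun x => π x = 0)).card) :=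
        Nat.mul_le_mul_left _ h3
    _ = _ := by ring

lemma image (h : Filt K X) (π : E →ₗ[ℝ] F) : Filt (K ^ 3) (fun j => (X j).image π) where
  zero_mem := fun j => mem_image.2 ⟨0, h.zero_mem j, map_zero π⟩
  neg_mem := by
    intro j x hx
    obtain ⟨y, hy, rfl⟩ := mem_image.1 hx
    exact mem_image.2 ⟨-y, h.neg_mem j y hy, map_neg π y⟩
  add_mem := by
    intro i j x hx y hy
    obtain ⟨x', hx', rfl⟩ := mem_image.1 hx
    obtain ⟨y', hy', rfl⟩ := mem_image.1 hy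
    exact mem_image.2 ⟨x' + y', h.add_mem i j x' hx' y' hy', map_add π x' y'⟩
  card_le := by
    intro j hj
    refine (h.card_image_le π j).trans (Nat.mul_le_mul_right _ ?_)
    rw [← pow_mul]
    exact Nat.pow_le_pow_right h.K_pos (by omega)

/-- The number of points of `X j` in the subspace `W`. -/
noncomputable def cnt (X : ℕ → Finset E) (j : ℕ) (W : Submodule ℝ E) : ℕ :=
  ((X j).filter (fun x => x ∈ W)).card

lemma cnt_pos (h : Filt K X) (j : ℕ) (W : Submodule ℝ E) : 0 < cnt X j W :=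
  Finset.card_pos.2 ⟨0, mem_filter.2 ⟨h.zero_mem j, W.zero_mem⟩⟩

lemma cnt_eq_ker (X : ℕ → Finset E) (j : ℕ) (W : Submodule ℝ E) :
    cnt X j W = ((X j).filter (fun x => W.mkQ x = 0)).card := by
  unfold cnt
  congr 1
  ext x
  simp [Submodule.Quotient.mk_eq_zero]

lemma cnt_le (h : Filt K X) (j : ℕ) (W : Submodule ℝ E) :
    cnt X j W ≤ K ^ (j + 1) * cnt X 2 W := by
  rw [cnt_eq_ker, cnt_eq_ker]
  exact h.card_ker_le W.mkQ j

lemma cnt_mono (X : ℕ → Finset E) (j : ℕ) {W W' : Submodule ℝ E} (hW : W ≤ W') :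
    cnt X j W ≤ cnt X j W' := by
  apply card_le_card
  intro x hx
  exact mem_filter.2 ⟨(mem_filter.1 hx).1, hW (mem_filter.1 hx).2⟩

end Filt

end Vale.Agent.P054K
end

section

namespace Vale.Agent.P054K

open Finset Module
open scoped Pointwise Classical RealInnerProductSpace

variable {E : Type*} [NormedAddCommGroup E] [InnerProductSpace ℝ E] [FiniteDimensional ℝ E]

/-- The linear functional given by the inner product with `f`. -/
noncomputable def ip (f : E) : E →ₗ[ℝ] ℝ := (innerSL ℝ f).toLinearMap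

omit [FiniteDimensional ℝ E] in
lemma ip_apply (f x : E) : ip f x = ⟪f, x⟫ := rfl

/-- The orthogonal projection on `U` as a linear map. -/
noncomputable def prj (U : Submodule ℝ E) : E →ₗ[ℝ] E := U.starProjection.toLinearMap

lemma prj_apply (U : Submodule ℝ E) (x : E) : prj U x = U.starProjection x := rfl

lemma prj_eq_zero_iff (U : Submodule ℝ E) (x : E) : prj U x = 0 ↔ x ∈ Uᗮ := by
  rw [prj_apply]
  exact Submodule.starProjection_apply_eq_zero_iff U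

lemma prj_mem (U : Submodule ℝ E) (x : E) : prj U x ∈ U := Submodule.starProjection_apply_mem _ _

lemma ip_prj {U : Submodule ℝ E} {f : E} (hf : f ∈ U) (x : E) : ip f (prj U x) = ip f x := by
  rw [ip_apply, ip_apply, prj_apply, ← Submodule.inner_starProjection_left_eq_right U f x,
    Submodule.starProjection_eq_self_iff.2 hf]

lemma prj_prj_of_le {U V : Submodule ℝ E} (h : U ≤ V) (x : E) : prj U (prj V x) = prj U x := by
  have := Submodule.starProjection_comp_starProjection_of_le h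
  simp only [prj_apply]
  exact congrFun (congrArg DFunLike.coe this) x

open Filt

/-- Hypotheses on a family `𝓕` of directions, relative to a filtration `X`. -/
structure Fam (K k : ℕ) (X : ℕ → Finset E) (𝓕 : Finset E) : Prop where
  ne_zero : ∀ f ∈ 𝓕, f ≠ 0
  nonpar : ∀ f ∈ 𝓕, ∀ g ∈ 𝓕, g ∈ Submodule.span ℝ {f} → g = f
  width : ∀ f ∈ 𝓕, ((X 1).image (ip f)).card ≤ k
  dcond : ∀ Z : Submodule ℝ E,
    (𝓕.filter (fun f => f ∈ Z)).card ≤ K * ((X 1).image (prj Z)).card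

namespace Fam

variable {K k : ℕ} {X : ℕ → Finset E} {𝓕 𝓖 : Finset E}

lemma subset (h : Fam K k X 𝓕) (hs : 𝓖 ⊆ 𝓕) : Fam K k X 𝓖 where
  ne_zero := fun f hf => h.ne_zero f (hs hf)
  nonpar := fun f hf g hg => h.nonpar f (hs hf) g (hs hg)
  width := fun f hf => h.width f (hs hf)
  dcond := fun Z => le_trans (card_le_card (filter_subset_filter _ hs)) (h.dcond Z)

lemma weaken (h : Fam K k X 𝓕) {K' : ℕ} (hK : K ≤ K') : Fam K' k X 𝓕 where
  ne_zero := h.ne_zero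
  nonpar := h.nonpar
  width := h.width
  dcond := fun Z => le_trans (h.dcond Z) (Nat.mul_le_mul_right _ hK)

/-- Passing to the projection on the span of the family. -/
lemma project (h : Fam K k X 𝓕) :
    Fam K k (fun j => (X j).image (prj (Submodule.span ℝ (𝓕 : Set E)))) 𝓕 where
  ne_zero := h.ne_zero
  nonpar := h.nonpar
  width := by
    intro f hf
    have hfU : f ∈ Submodule.span ℝ (𝓕 : Set E) := Submodule.subset_span hf
    have : ((X 1).image (prj (Submodule.span ℝ (𝓕 : Set E)))).image (ip f) =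
        (X 1).image (ip f) := by
      rw [image_image]
      apply image_congr
      intro x _
      exact ip_prj hfU x
    simp only [this]
    exact h.width f hf
  dcond := by
    intro Z
    set U := Submodule.span ℝ (𝓕 : Set E) with hU
    have h1 : 𝓕.filter (fun f => f ∈ Z) = 𝓕.filter (fun f => f ∈ Z ⊓ U) := by
      apply filter_congr
      intro f hf
      have hfU : f ∈ U := Submodule.subset_span hf
      simp only [Submodule.mem_inf, hfU, and_true]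
    have h2 : (X 1).image (prj (Z ⊓ U)) =
        (((X 1).image (prj U)).image (prj Z)).image (prj (Z ⊓ U)) := by
      rw [image_image, image_image]
      apply image_congr
      intro x _
      simp only [Function.comp]
      rw [prj_prj_of_le inf_le_left, prj_prj_of_le inf_le_right]
    rw [h1]
    refine (h.dcond (Z ⊓ U)).trans (Nat.mul_le_mul_left _ ?_)
    rw [h2]
    exact card_image_le

end Fam

lemma cnt_perp_eq (X : ℕ → Finset E) (j : ℕ) (U : Submodule ℝ E) :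
    ((X j).filter (fun x => prj U x = 0)).card = cnt X j Uᗮ := by
  unfold cnt
  congr 1
  apply filter_congr
  intro x _
  rw [prj_eq_zero_iff]

lemma card_one_le_prj {K : ℕ} {X : ℕ → Finset E} (h : Filt K X) (U : Submodule ℝ E) :
    (X 1).card ≤ ((X 1).image (prj U)).card * cnt X 2 Uᗮ := by
  rw [← cnt_perp_eq]
  exact h.card_one_le (prj U)

/-- Fibre lemma: slices of `X 2` in cosets of `V₀ᗮ`. -/
lemma fiber_le {K k : ℕ} {X : ℕ → Finset E} (h : Filt K X) {𝓕 : Finset E} (hF : Fam K k X 𝓕)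
    (hX : ∀ x ∈ X 2, x ∈ Submodule.span ℝ (𝓕 : Set E)) (m : ℕ) :
    ∀ V₀ : Submodule ℝ E, V₀ ≤ Submodule.span ℝ (𝓕 : Set E) →
      finrank ℝ (Submodule.span ℝ (𝓕 : Set E)) = finrank ℝ V₀ + m →
      ∀ S : Finset E, S ⊆ X 2 → (∀ x ∈ S, ∀ y ∈ S, x - y ∈ V₀ᗮ) → S.card ≤ (K ^ 4 * k) ^ m := by
  induction m with
  | zero =>
    intro V₀ hV hfr S hS hd
    have hVeq : V₀ = Submodule.span ℝ (𝓕 : Set E) :=
      Submodule.eq_of_le_of_finrank_eq hV (by omega)
    rw [pow_zero, card_le_one]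
    intro x hx y hy
    have h1 := hd x hx y hy
    have h2 : x - y ∈ V₀ := by
      rw [hVeq]
      exact Submodule.sub_mem _ (hX x (hS hx)) (hX y (hS hy))
    have h3 : x - y ∈ V₀ ⊓ V₀ᗮ := ⟨h2, h1⟩
    rw [Submodule.inf_orthogonal_eq_bot, Submodule.mem_bot] at h3
    exact sub_eq_zero.1 h3
  | succ m ih =>
    intro V₀ hV hfr S hS hd
    obtain ⟨f, hf, hfV⟩ : ∃ f ∈ 𝓕, f ∉ V₀ := by
      by_contra hcon
      push Not at hcon
      have h1 : Submodule.span ℝ (𝓕 : Set E) ≤ V₀ := Submodule.span_le.2 hcon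
      have h2 := Submodule.finrank_mono h1
      omega
    set V₁ := V₀ ⊔ Submodule.span ℝ {f} with hV₁
    have hf0 : f ≠ 0 := hF.ne_zero f hf
    have hV₁le : V₁ ≤ Submodule.span ℝ (𝓕 : Set E) := by
      apply sup_le hV
      rw [Submodule.span_singleton_le_iff_mem]
      exact Submodule.subset_span hf
    have hfr₁ : finrank ℝ V₁ = finrank ℝ V₀ + 1 := by
      have hdisj : V₀ ⊓ Submodule.span ℝ {f} = ⊥ := by
        rw [← disjoint_iff, Submodule.disjoint_span_singleton' hf0]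
        exact hfV
      have := Submodule.finrank_sup_add_finrank_inf_eq V₀ (Submodule.span ℝ {f})
      rw [hdisj, finrank_bot, finrank_span_singleton hf0] at this
      omega
    have key : S.card ≤ (K ^ 4 * k) ^ m * (S.image (ip f)).card := by
      apply card_le_mul_card_image
      intro c hc
      apply ih V₁ hV₁le (by omega) _ ((filter_subset _ _).trans hS)
      intro x hx y hy
      obtain ⟨hxS, hxc⟩ := mem_filter.1 hx
      obtain ⟨hyS, hyc⟩ := mem_filter.1 hy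
      rw [hV₁, ← Submodule.inf_orthogonal]
      refine ⟨hd x hxS y hyS, ?_⟩
      change x - y ∈ (Submodule.span ℝ {f})ᗮ
      rw [Submodule.mem_orthogonal_singleton_iff_inner_right]
      have : ip f (x - y) = 0 := by rw [map_sub, hxc, hyc, sub_self]
      exact this
    calc S.card ≤ _ := key
      _ ≤ (K ^ 4 * k) ^ m * (K ^ 4 * k) := by
        apply Nat.mul_le_mul_left
        calc (S.image (ip f)).card ≤ ((X 2).image (ip f)).card := card_le_card (image_subset_image hS)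
          _ ≤ K ^ 4 * ((X 1).image (ip f)).card := h.card_image_le (ip f) 2
          _ ≤ K ^ 4 * k := Nat.mul_le_mul_left _ (hF.width f hf)
      _ = _ := by ring

/-- `|X₂ ∩ A| ≤ K⁹ k |X₂ ∩ A ∩ f^⊥|`. -/
lemma slice_le {K k : ℕ} {X : ℕ → Finset E} (h : Filt K X) {f : E}
    (hf : ((X 1).image (ip f)).card ≤ k) (A : Submodule ℝ E) :
    cnt X 2 A ≤ K ^ 9 * k * cnt X 2 (A ⊓ (Submodule.span ℝ {f})ᗮ) := by
  have h1 : cnt X 2 A ≤ (((X 2).filter (fun x => x ∈ A)).image (ip f)).card *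
      cnt X 4 (A ⊓ (Submodule.span ℝ {f})ᗮ) := by
    apply card_le_image_mul (ip f).toAddMonoidHom
    intro x hx y hy hxy
    obtain ⟨hx2, hxA⟩ := mem_filter.1 hx
    obtain ⟨hy2, hyA⟩ := mem_filter.1 hy
    refine mem_filter.2 ⟨h.sub_mem 2 2 hx2 hy2, Submodule.sub_mem _ hxA hyA, ?_⟩
    change x - y ∈ (Submodule.span ℝ {f})ᗮ
    rw [Submodule.mem_orthogonal_singleton_iff_inner_right]
    have h2 : ip f x = ip f y := hxy
    have : ip f (x - y) = 0 := by rw [map_sub, h2, sub_self]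
    exact this
  have h2 : (((X 2).filter (fun x => x ∈ A)).image (ip f)).card ≤ K ^ 4 * k := by
    calc _ ≤ ((X 2).image (ip f)).card := card_le_card (image_subset_image (filter_subset _ _))
      _ ≤ K ^ 4 * ((X 1).image (ip f)).card := h.card_image_le (ip f) 2
      _ ≤ K ^ 4 * k := Nat.mul_le_mul_left _ hf
  have h3 := h.cnt_le 4 (A ⊓ (Submodule.span ℝ {f})ᗮ)
  calc cnt X 2 A ≤ _ := h1
    _ ≤ (K ^ 4 * k) * (K ^ 5 * cnt X 2 (A ⊓ (Submodule.span ℝ {f})ᗮ)) := Nat.mul_le_mul h2 h3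
    _ = _ := by ring

end Vale.Agent.P054K
end
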