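import Vale.Agent.P054.MathlibUsed
import Vale.Agent.P054.Bdl.B7
import Vale.Agent.P054.Bdl.B1
import Vale.Agent.P054.Bdl.B5
attribute [-instance] ProperSMul.toContinuousSMul IsTopologicalTorsor.toContinuousSMul IdemSemiring.toCanonicallyOrderedAdd IdemSemiring.toMulLeftMono IdemSemiring.toMulRightMono AddQuantale.instAddLeftMono AddQuantale.instAddRightMono Quantale.instMulLeftMono Quantale.instMulRightMono FiniteDimensional.rclike_to_real IsScalarTower.complexToReal FiniteDimensional.complexToReal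

set_option linter.all false

section

set_option autoImplicit false

open Finset

namespace Vale.Agent.P054K

theorem natlog_le (N : ℕ) (hN : 1 ≤ N) (Λ : ℝ) (hΛ : 20 * (Real.log ((N:ℝ) + 3) + 1) ≤ Λ) :
    ((Nat.log 2 N + 1 : ℕ) : ℝ) ≤ Λ := by
  have h1 : (2:ℝ) ^ (Nat.log 2 N) ≤ N := by
    exact_mod_cast Nat.pow_log_le_self 2 (by omega)
  have h2 : (Nat.log 2 N : ℝ) * Real.log 2 ≤ Real.log N := by
    rw [← Real.log_pow]
    exact Real.log_le_log (by positivity) h1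
  have h3 : (1/2 : ℝ) ≤ Real.log 2 := by
    have := Real.log_two_gt_d9
    linarith only [this]
  have hN' : (1:ℝ) ≤ N := by exact_mod_cast hN
  have h4 : Real.log N ≤ Real.log ((N:ℝ) + 3) := Real.log_le_log (by linarith only [hN']) (by linarith only [])
  have h5 : 0 ≤ Real.log N := Real.log_nonneg hN'
  have h6 : (0:ℝ) ≤ Nat.log 2 N := by positivity
  push_cast
  nlinarith only [hΛ, h2, h4, h3]

open scoped Classical in
/-- pigeonhole over the levels -/
theorem level_pigeonhole {α : Type} (O : Finset α) (f : α → ℝ) (lev : α → ℕ) (J : ℕ)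
    (hlev : ∀ a ∈ O, lev a < J) (hJ : 1 ≤ J) :
    ∃ j, ∑ a ∈ O, f a ≤ J * ∑ a ∈ O.filter (fun a => lev a = j), f a := by
  by_contra hcon
  push Not at hcon
  have h1 : ∑ a ∈ O, f a = ∑ j ∈ range J, ∑ a ∈ O.filter (fun a => lev a = j), f a := by
    rw [Finset.sum_fiberwise_of_maps_to]
    intro a ha
    exact mem_range.mpr (hlev a ha)
  have h2 : (J:ℝ) * ∑ a ∈ O, f a < J * ∑ a ∈ O, f a := by
    calc (J:ℝ) * ∑ a ∈ O, f a = ∑ j ∈ range J, J * ∑ a ∈ O.filter (fun a => lev a = j), f a := by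
          rw [h1, Finset.mul_sum]
      _ < ∑ _j ∈ range J, ∑ a ∈ O, f a := by
          apply Finset.sum_lt_sum_of_nonempty
          · exact ⟨0, mem_range.mpr (by omega)⟩
          · intro j _; exact hcon j
      _ = J * ∑ a ∈ O, f a := by rw [Finset.sum_const, card_range, nsmul_eq_mul]
  exact lt_irrefl _ h2

/-- the richness of the dominating level is small -/
theorem num_alpha (K K1 Λ x n N ρ Pi M : ℝ) (hK1 : 1 ≤ K1) (hKK1 : 2 ^ 24 * K1 ≤ K) (hΛ1 : 1 ≤ Λ)
    (hn0 : 0 < n) (hx0 : 0 < x) (hN0 : 0 < N) (hρ0 : 0 < ρ)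
    (hMj : 3 / 4 * (N * n) ^ 2 ≤ x * Λ * M) (hM : M ≤ Pi * (2 * n))
    (hPi : Pi ≤ K1 * Λ ^ 2 * (N ^ 2 / ρ + N * ρ)) (hρN : ρ * (K * Λ ^ 4 * x) ≤ n * N) :
    ρ * n ≤ 4 * K1 * Λ ^ 3 * x := by
  have hK10 : 0 < K1 := by linarith only [hK1]
  have hK0 : 0 < K := by
    have : (0:ℝ) < 2 ^ 24 * K1 := by positivity
    linarith only [hK1, hKK1]
  have hΛ0 : 0 < Λ := by linarith only [hΛ1]
  have h1 : 3 / 4 * (N * n) ^ 2 ≤ x * Λ * ((K1 * Λ ^ 2 * (N ^ 2 / ρ + N * ρ)) * (2 * n)) := by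
    refine hMj.trans (mul_le_mul_of_nonneg_left ?_ (by positivity))
    exact hM.trans (mul_le_mul_of_nonneg_right hPi (by positivity))
  have h2 : x * Λ * ((K1 * Λ ^ 2 * (N * ρ)) * (2 * n)) ≤ 1 / 4 * (N * n) ^ 2 := by
    have h3 : K * (x * Λ * ((K1 * Λ ^ 2 * (N * ρ)) * (2 * n))) ≤ K * (1 / 4 * (N * n) ^ 2) := by
      calc K * (x * Λ * ((K1 * Λ ^ 2 * (N * ρ)) * (2 * n)))
          = 2 * K1 * (N * n) * (ρ * (K * Λ ^ 3 * x)) := by ring
        _ ≤ 2 * K1 * (N * n) * (ρ * (K * Λ ^ 4 * x)) := by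
            apply mul_le_mul_of_nonneg_left _ (by positivity)
            apply mul_le_mul_of_nonneg_left _ hρ0.le
            apply mul_le_mul_of_nonneg_right _ hx0.le
            apply mul_le_mul_of_nonneg_left _ hK0.le
            exact pow_le_pow_right₀ hΛ1 (by norm_num)
        _ ≤ 2 * K1 * (N * n) * (n * N) := mul_le_mul_of_nonneg_left hρN (by positivity)
        _ = (8 * K1) * (1 / 4 * (N * n) ^ 2) := by ring
        _ ≤ K * (1 / 4 * (N * n) ^ 2) := by
            apply mul_le_mul_of_nonneg_right _ (by positivity)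
            refine le_trans ?_ hKK1
            linarith only [hK1]
    exact le_of_mul_le_mul_left h3 hK0
  have h4 : x * Λ * ((K1 * Λ ^ 2 * (N ^ 2 / ρ + N * ρ)) * (2 * n)) =
      (N ^ 2 * n / ρ) * (2 * K1 * Λ ^ 3 * x) + x * Λ * ((K1 * Λ ^ 2 * (N * ρ)) * (2 * n)) := by
    field_simp
  rw [h4] at h1
  have h5 : 1 / 2 * (N * n) ^ 2 ≤ (N ^ 2 * n / ρ) * (2 * K1 * Λ ^ 3 * x) := by linarith only [h1, h2]
  have h6 : (N ^ 2 * n / ρ) * (1 / 2 * (ρ * n)) ≤ (N ^ 2 * n / ρ) * (2 * K1 * Λ ^ 3 * x) := by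
    refine le_trans (le_of_eq ?_) h5
    field_simp
  have h7 := le_of_mul_le_mul_left h6 (by positivity)
  linarith only [h7]

/-- numerics of the nondegenerate case -/
theorem num_caseA (K1 Λ x n N ρ Pi M S U : ℝ) (hK1 : 1 ≤ K1) (hΛ1 : 1 ≤ Λ)
    (hn0 : 0 < n) (hx0 : 0 < x) (hN0 : 0 < N) (hρ0 : 0 < ρ) (hU0 : 0 ≤ U) (hS0 : 0 ≤ S)
    (hc : 1 / 4 * (N * n) ^ 2 ≤ x * Λ * M)
    (h3 : M ^ 2 ≤ Pi * S) (h4 : S ≤ 2 * (2 * ρ * (x ^ 2 * U)))
    (hPi2 : Pi ≤ 2 * K1 * Λ ^ 2 * (N ^ 2 / ρ)) :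
    N ^ 2 * n ^ 4 ≤ 128 * K1 * Λ ^ 4 * x ^ 4 * U := by
  have hK10 : 0 < K1 := by linarith only [hK1]
  have hΛ0 : 0 < Λ := by linarith only [hΛ1]
  have h5 : M ^ 2 ≤ 8 * K1 * Λ ^ 2 * N ^ 2 * x ^ 2 * U := by
    calc M ^ 2 ≤ Pi * S := h3
      _ ≤ (2 * K1 * Λ ^ 2 * (N ^ 2 / ρ)) * (2 * (2 * ρ * (x ^ 2 * U))) := by
          apply mul_le_mul hPi2 h4 hS0 (by positivity)
      _ = _ := by field_simp; ring
  have h6 : (1 / 4 * (N * n) ^ 2) ^ 2 ≤ (x * Λ * M) ^ 2 :=
    pow_le_pow_left₀ (by positivity) hc 2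
  have h7 : (x * Λ * M) ^ 2 ≤ (x * Λ) ^ 2 * (8 * K1 * Λ ^ 2 * N ^ 2 * x ^ 2 * U) := by
    rw [mul_pow]
    exact mul_le_mul_of_nonneg_left h5 (by positivity)
  have h8 : N ^ 2 * (N ^ 2 * n ^ 4) ≤ N ^ 2 * (128 * K1 * Λ ^ 4 * x ^ 4 * U) := by
    have h9 := h6.trans h7
    calc N ^ 2 * (N ^ 2 * n ^ 4) = 16 * (1 / 4 * (N * n) ^ 2) ^ 2 := by ring
      _ ≤ 16 * ((x * Λ) ^ 2 * (8 * K1 * Λ ^ 2 * N ^ 2 * x ^ 2 * U)) :=
          mul_le_mul_of_nonneg_left h9 (by norm_num)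
      _ = _ := by ring
  exact le_of_mul_le_mul_left h8 (by positivity)

end Vale.Agent.P054K
end

section

set_option autoImplicit false

open Finset

namespace Vale.Agent.P054K

/-- a nonempty level set has a small level -/
theorem level_facts {r : ℕ} (X : Fin r → Finset E3) (Good : Fin r → Finset (E3 × E3))
    (hGood : ∀ k, Good k ⊆ (X k).offDiag) (x : ℕ) (hx : ∀ k, (X k).card = x) (i l : ℕ)
    (hT : (TT X Good i l).Nonempty) : (2:ℝ) ^ l ≤ x ∧ (2:ℝ) ^ i ≤ 4 * 2 ^ l := by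
  obtain ⟨π₁, hπ₁⟩ := hT
  obtain ⟨k₁, hk₁, hki, hkl⟩ := (mem_TT X Good).mp hπ₁
  have hoff₁ := hGood k₁ hk₁
  have hmu := mu_pos (X k₁) π₁ hoff₁
  have hcutp := cut_pos (X k₁) π₁ hoff₁
  have hν1 : 2 ^ i ≤ (SS (X k₁) (dualVec π₁)).card := by
    rw [← hki]
    exact Nat.pow_log_le_self 2 (by omega)
  have hcl : 2 ^ l ≤ cut (X k₁) π₁.1 π₁.2 := by
    rw [← hkl]
    exact Nat.pow_log_le_self 2 (by omega)
  have hcu : cut (X k₁) π₁.1 π₁.2 < 2 * 2 ^ l := by
    rw [← hkl, ← pow_succ']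
    exact Nat.lt_pow_succ_log_self (by norm_num) _
  have hmc : (SS (X k₁) (dualVec π₁)).card ≤ 2 * cut (X k₁) π₁.1 π₁.2 :=
    mu_le_cut (X k₁) π₁.1 π₁.2 (mem_offDiag.mp hoff₁).2.2
  have hil2 : 2 ^ i ≤ 4 * 2 ^ l := by omega
  have hclx : 2 ^ l ≤ x := by
    have h1 := cut_le (X k₁) π₁.1 π₁.2
    rw [hx k₁] at h1
    (clear * - hcl h1; omega)
  exact ⟨by exact_mod_cast hclx, by exact_mod_cast hil2⟩

theorem TT_bounds {r : ℕ} (X : Fin r → Finset E3) (Good : Fin r → Finset (E3 × E3))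
    (hdis : ∀ k l, k ≠ l → Disjoint (X k) (X l))
    (hGood : ∀ k, Good k ⊆ (X k).offDiag) (x : ℕ) (hx : ∀ k, (X k).card = x) (N : ℕ)
    (hrn : r * x ≤ N) (ν₀ B : ℝ) (hν₀ : 0 ≤ ν₀) (hB : 0 ≤ B) (i l : ℕ)
    (hlev : ∀ k, (((Good k).filter (fun π => muLog (X k) π = i)).card : ℝ) * 2 ^ i ≤
      B * (x : ℝ) ^ 2 * ν₀) :
    ((TT X Good i l).card : ℝ) ≤ 2916 * 2 ^ l * N ∧
    ((TT X Good i l).card : ℝ) * 2 ^ i ≤ N * (B * x * ν₀) ∧
    ((TT X Good i l).card : ℝ) ≤ N * x := by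
  refine ⟨?_, ?_, ?_⟩
  · have h1 := TT_card1 X Good hdis hGood x hx i l
    have h2 : 2916 * 2 ^ l * (r * x) ≤ 2916 * 2 ^ l * N := Nat.mul_le_mul_left _ hrn
    exact_mod_cast h1.trans h2
  · have h1 := TT_card2 X Good hdis hGood (B * (x : ℝ) ^ 2 * ν₀) i l hlev
    have h2 : (r:ℝ) * x ≤ N := by exact_mod_cast hrn
    calc ((TT X Good i l).card : ℝ) * 2 ^ i ≤ r * (B * (x : ℝ) ^ 2 * ν₀) := h1
      _ = (r * x) * (B * x * ν₀) := by ring
      _ ≤ N * (B * x * ν₀) := mul_le_mul_of_nonneg_right h2 (by (clear * - hν₀ hB; positivity))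
  · have h1 := TT_card0 X Good hdis hGood x hx i l
    have h2 : (r * x) * x ≤ N * x := Nat.mul_le_mul_right x hrn
    exact_mod_cast h1.trans h2

theorem m_le_theta (K₁ Λ n s ν c : ℝ) (c₁ : ℕ) (hK₁ : 1 ≤ K₁) (hΛ0 : 0 < Λ) (hn0 : 0 < n)
    (hs' : 0 < s) (hc : 0 < c) (hil2' : ν ≤ 4 * c)
    (hKs : 16 * K₁ * Λ ^ (c₁ + 3) ≤ s) :
    K₁ * Λ ^ c₁ * (ν * n * Λ / (s * c)) ≤ n / (4 * Λ ^ 2) := by
  have h1 : ν * n * Λ / (s * c) ≤ 4 * n * Λ / s := by
    rw [div_le_div_iff₀ (by positivity) hs']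
    have h2 : ν * (n * Λ * s) ≤ (4 * c) * (n * Λ * s) :=
      mul_le_mul_of_nonneg_right hil2' (by positivity)
    calc ν * n * Λ * s = ν * (n * Λ * s) := by ring
      _ ≤ (4 * c) * (n * Λ * s) := h2
      _ = _ := by ring
  have h2 : K₁ * Λ ^ c₁ * (ν * n * Λ / (s * c)) ≤ K₁ * Λ ^ c₁ * (4 * n * Λ / s) :=
    mul_le_mul_of_nonneg_left h1 (by positivity)
  refine h2.trans ?_
  rw [mul_div_assoc', div_le_div_iff₀ hs' (by positivity)]
  calc K₁ * Λ ^ c₁ * (4 * n * Λ) * (4 * Λ ^ 2) = (16 * K₁ * Λ ^ (c₁ + 3)) * n := by ring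
    _ ≤ s * n := mul_le_mul_of_nonneg_right hKs hn0.le
    _ = n * s := by ring

open scoped Classical in
/-- capacity statement -/
def CapProp (K₁ : ℝ) (c₁ : ℕ) : Prop := ∀ (P : Finset E3) (T : Finset (E3 × E3)) (M m θ Λ g : ℝ),
      (∀ π ∈ T, π.1 ≠ π.2) → (T.card : ℝ) ≤ M →
      20 * (Real.log (M + 3) + 1) ≤ Λ → 0 < m → K₁ * Λ ^ c₁ * m ≤ θ → θ ≤ M →
      (∀ π₀ ∈ T, ((T.filter (fun π => dualVec π ∈ Submodule.span ℝ {dualVec π₀})).card : ℝ) ≤ m) →
      (∀ p ∈ P, θ ≤ ((T.filter (fun π => dist p π.1 = dist p π.2)).card : ℝ)) →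
      (∀ q₁ ∈ P, ∀ q₂ ∈ P, q₁ ≠ q₂ →
        ((P.filter (fun q => ∃ τ : ℝ, q = q₁ + τ • (q₂ - q₁))).card : ℝ) ≤ g) → 1 ≤ g →
      (P.card : ℝ) ≤ K₁ * Λ ^ c₁ * ((M / θ) ^ 3 * (m / θ) + (M / θ) ^ 2 +
        ((M / θ) ^ 2 * (m / θ) + M / θ) * g)

open scoped Classical in
/-- the key inequality for one level -/
theorem space_level (K₁ : ℝ) (c₁ : ℕ) (hK₁ : 1 ≤ K₁) (hcap : CapProp K₁ c₁)
    {r : ℕ} (X : Fin r → Finset E3) (Good : Fin r → Finset (E3 × E3))
    (P : Finset E3) (x s : ℕ) (Λ g ν₀ B : ℝ)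
    (hXP : ∀ k, X k ⊆ P) (hx : ∀ k, (X k).card = x) (hdis : ∀ k l, k ≠ l → Disjoint (X k) (X l))
    (hrn : r * x ≤ P.card)
    (hcut : ∀ a ∈ P, ∀ b ∈ P, a ≠ b → ∑ k, (cut (X k) a b : ℝ) ≤ (P.card : ℝ) * Λ / (2 * s))
    (hs : 1 ≤ s) (hx1 : 1 ≤ x) (hP : 0 < P.card)
    (hΛ : 20 * (Real.log ((P.card:ℝ) * x + 3) + 1) ≤ Λ) (hKs : 16 * K₁ * Λ ^ (c₁ + 3) ≤ s)
    (hg : ∀ q₁ ∈ P, ∀ q₂ ∈ P, q₁ ≠ q₂ →
        ((P.filter (fun q => ∃ τ : ℝ, q = q₁ + τ • (q₂ - q₁))).card : ℝ) ≤ g) (hg1 : 1 ≤ g)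
    (hν₀ : 1 ≤ ν₀) (hB : 1 ≤ B) (hGood : ∀ k, Good k ⊆ (X k).offDiag)
    (i l : ℕ) (hlev : ∀ k, (((Good k).filter (fun π => muLog (X k) π = i)).card : ℝ) * 2 ^ i ≤
      B * (x : ℝ) ^ 2 * ν₀)
    (P₂ : Finset E3) (hP₂ : P₂ ⊆ P) (hP₂ne : P₂.Nonempty)
    (hθ : ∀ p ∈ P₂, (P.card : ℝ) / (4 * Λ ^ 2) ≤
      (((TT X Good i l).filter (fun π => dist p π.1 = dist p π.2)).card : ℝ)) :
    2 * Λ ^ 2 * (P₂.card : ℝ) ≤ (2 ^ 34 * K₁) * (B * Λ) ^ (c₁ + 11) *
        ((x:ℝ) ^ 2 * ν₀ / s + (x:ℝ) ^ 2 + x * ν₀ * g / s + x * g) := by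
  have hn0 : (0:ℝ) < P.card := by exact_mod_cast hP
  have hs' : (0:ℝ) < s := by exact_mod_cast hs
  have hx' : (1:ℝ) ≤ x := by exact_mod_cast hx1
  have hx0 : (0:ℝ) < x := by linarith only [hx']
  have hlog : 0 ≤ Real.log ((P.card:ℝ) * x + 3) := Real.log_nonneg (by nlinarith only [])
  have hΛ1 : 1 ≤ Λ := by linarith only [hΛ, hlog]
  have hΛ0 : 0 < Λ := by linarith only [hΛ, hlog]
  obtain ⟨p₂, hp₂⟩ := hP₂ne
  have hθM : (P.card : ℝ) / (4 * Λ ^ 2) ≤ ((TT X Good i l).card : ℝ) := by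
    refine (hθ p₂ hp₂).trans ?_
    exact_mod_cast card_filter_le _ _
  have hθ0 : (0:ℝ) < (P.card : ℝ) / (4 * Λ ^ 2) := by (clear * - hP hΛ1; positivity)
  have hMpos : (0:ℝ) < ((TT X Good i l).card : ℝ) := by linarith only [hθM, hθ0]
  have hTne : (TT X Good i l).Nonempty := by
    rw [← Finset.card_pos]
    exact_mod_cast hMpos
  obtain ⟨hclx, hil2⟩ := level_facts X Good hGood x hx i l hTne
  obtain ⟨hM1, hM2, hM0⟩ := TT_bounds X Good hdis hGood x hx P.card hrn ν₀ B (by linarith only [hν₀])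
    (by linarith only [hB]) i l hlev
  have hline := TT_line X Good P hXP hdis hGood ((P.card : ℝ) * Λ / (2 * s)) hcut i l
  have hcapp := hcap P₂ (TT X Good i l) ((TT X Good i l).card : ℝ)
    (2 ^ i * (P.card : ℝ) * Λ / (s * 2 ^ l)) ((P.card : ℝ) / (4 * Λ ^ 2)) Λ g
    (TT_ne X Good hGood i l) le_rfl
    (by
      have h1 : Real.log (((TT X Good i l).card : ℝ) + 3) ≤ Real.log ((P.card:ℝ) * x + 3) :=
        Real.log_le_log (by linarith only []) (by linarith only [hM0])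
      linarith only [hΛ, h1]) (by (clear * - hs hP hΛ1; positivity))
    (m_le_theta K₁ Λ P.card s (2 ^ i) (2 ^ l) c₁ hK₁ hΛ0 hn0 hs' (by positivity) hil2 hKs) hθM
    (by
      intro π₀ hπ₀
      refine (hline π₀ hπ₀).trans (le_of_eq ?_)
      (clear * - hs hP hΛ1; field_simp))
    hθ
    (fun q₁ h1 q₂ h2 h12 => by
      refine le_trans ?_ (hg q₁ (hP₂ h1) q₂ (hP₂ h2) h12)
      rw [Nat.cast_le]
      apply card_le_card
      exact Finset.filter_subset_filter _ hP₂) hg1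
  have hnum := space_numeric K₁ Λ B P.card x s g ν₀ ((TT X Good i l).card : ℝ)
    (2 ^ i * (P.card : ℝ) * Λ / (s * 2 ^ l)) ((P.card : ℝ) / (4 * Λ ^ 2)) (2 ^ l) (2 ^ i) c₁ hK₁ hΛ1
    hB hn0 hx0 hs' hg1 hν₀ hMpos.le (by positivity) (by positivity) hclx rfl rfl hM1 hM2
  exact le_trans (mul_le_mul_of_nonneg_left hcapp (by positivity)) hnum

open scoped Classical in
/-- the key inequality for a family of classes -/
theorem space_classes (K₁ : ℝ) (c₁ : ℕ) (hK₁ : 1 ≤ K₁) (hcap : CapProp K₁ c₁)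
    {r : ℕ} (X : Fin r → Finset E3) (Good : Fin r → Finset (E3 × E3))
    (P : Finset E3) (x s : ℕ) (Λ g ν₀ B : ℝ)
    (hXP : ∀ k, X k ⊆ P) (hx : ∀ k, (X k).card = x) (hdis : ∀ k l, k ≠ l → Disjoint (X k) (X l))
    (hrn : r * x ≤ P.card) (hr : 0 < r)
    (hcut : ∀ a ∈ P, ∀ b ∈ P, a ≠ b → ∑ k, (cut (X k) a b : ℝ) ≤ (P.card : ℝ) * Λ / (2 * s))
    (hs : 1 ≤ s) (hx1 : 1 ≤ x) (hP : 0 < P.card)
    (hΛ : 20 * (Real.log ((P.card:ℝ) * x + 3) + 1) ≤ Λ) (hKs : 16 * K₁ * Λ ^ (c₁ + 3) ≤ s)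
    (hg : ∀ q₁ ∈ P, ∀ q₂ ∈ P, q₁ ≠ q₂ →
        ((P.filter (fun q => ∃ τ : ℝ, q = q₁ + τ • (q₂ - q₁))).card : ℝ) ≤ g) (hg1 : 1 ≤ g)
    (hν₀ : 1 ≤ ν₀) (hB : 1 ≤ B) (hGood : ∀ k, Good k ⊆ (X k).offDiag)
    (hlev : ∀ k, ∀ i : ℕ, (((Good k).filter (fun π => muLog (X k) π = i)).card : ℝ) * 2 ^ i ≤
      B * (x : ℝ) ^ 2 * ν₀)
    (P₁ : Finset E3) (hP₁ : P₁ ⊆ P) (hP₁n : (P.card : ℝ) ≤ 2 * P₁.card)
    (hmass : ∀ p ∈ P₁, (P.card : ℝ) / 4 ≤
      ∑ k, (((Good k).filter (fun π => dualVec π ∈ hyp p)).card : ℝ)) :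
    (P.card : ℝ) ≤ (2 ^ 34 * K₁) * (B * Λ) ^ (c₁ + 11) *
        ((x:ℝ) ^ 2 * ν₀ / s + (x:ℝ) ^ 2 + x * ν₀ * g / s + x * g) := by
  have hn0 : (0:ℝ) < P.card := by exact_mod_cast hP
  have hx' : (1:ℝ) ≤ x := by exact_mod_cast hx1
  have hnx : (x:ℝ) ≤ P.card := by
    have h1 : 1 * x ≤ r * x := Nat.mul_le_mul_right x hr
    exact_mod_cast (by omega : x ≤ P.card)
  have hlog : 0 ≤ Real.log ((P.card:ℝ) * x + 3) := Real.log_nonneg (by nlinarith only [])
  have hΛ1 : 1 ≤ Λ := by linarith only [hΛ, hlog]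
  have hΛ0 : 0 < Λ := by linarith only [hΛ, hlog]
  have hJ : ((Nat.log 2 x + 1 : ℕ) : ℝ) ≤ Λ := by
    apply natlog_le x hx1 Λ
    have h1 : Real.log ((x:ℝ) + 3) ≤ Real.log ((P.card:ℝ) * x + 3) := by
      apply Real.log_le_log (by positivity)
      nlinarith only [hx', hnx]
    linarith only [hΛ, h1]
  obtain ⟨i, l, hil⟩ := level_points X Good hdis hGood x hx P₁ ((P.card:ℝ) / 4) Λ hJ (by (clear * - hP; positivity))
    hmass
  have hθe : (P.card:ℝ) / 4 / Λ ^ 2 = (P.card:ℝ) / (4 * Λ ^ 2) := by (clear * - hP hΛ1; field_simp)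
  rw [hθe] at hil
  set P₂ := P₁.filter (fun p => (P.card:ℝ) / (4 * Λ ^ 2) ≤
      (((TT X Good i l).filter (fun π => dist p π.1 = dist p π.2)).card : ℝ)) with hP₂
  have hP₂ne : P₂.Nonempty := by
    by_contra h
    rw [Finset.not_nonempty_iff_eq_empty] at h
    rw [h] at hil
    simp only [card_empty, Nat.cast_zero, mul_zero] at hil
    linarith only [hP₁n, hn0, hil]
  have h1 := space_level K₁ c₁ hK₁ hcap X Good P x s Λ g ν₀ B hXP hx hdis hrn hcut hs hx1 hP hΛ hKs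
    hg hg1 hν₀ hB hGood i l (fun k => hlev k i) P₂ ((filter_subset _ _).trans hP₁) hP₂ne
    (fun p hp => (mem_filter.mp hp).2)
  linarith only [hP₁n, hil, h1]

open scoped Classical in
/-- the key inequality in space, for sets whose classes split -/
theorem space_key : ∃ (K : ℝ) (c : ℕ), 1 ≤ K ∧
    ∀ (P : Finset E3) (t x s : ℕ) (Λ g ν₀ B : ℝ),
      (∀ p ∈ P, (P.image (dist p)).card ≤ t + 1) → 1 ≤ s → 1 ≤ x →
      20 * (Real.log ((P.card:ℝ) * x + 3) + 1) ≤ Λ →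
      4 * x * (2 * s + 1) ^ 3 ≤ P.card → K * B * (((t:ℝ) + 1) * Λ / s + 1) ≤ x →
      K * Λ ^ c ≤ s →
      (∀ q₁ ∈ P, ∀ q₂ ∈ P, q₁ ≠ q₂ →
        ((P.filter (fun q => ∃ τ : ℝ, q = q₁ + τ • (q₂ - q₁))).card : ℝ) ≤ g) → 1 ≤ g →
      1 ≤ ν₀ → 1 ≤ B → (∀ X ⊆ P, X.card = x → Split X B ν₀) →
      (P.card : ℝ) ≤ K * (B * Λ) ^ c *
        ((x:ℝ) ^ 2 * ν₀ / s + (x:ℝ) ^ 2 + x * ν₀ * g / s + x * g) := by
  obtain ⟨K₁, c₁, hK₁, hcap⟩ := flat_capacity
  refine ⟨2 ^ 34 * K₁, c₁ + 11, by linarith only [hK₁], ?_⟩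
  intro P t x s Λ g ν₀ B ht hs hx hΛ h1 h2 hKs hg hg1 hν₀ hB hsplit
  have hP : 0 < P.card := by
    have : 0 < 4 * x * (2 * s + 1) ^ 3 := by positivity
    omega
  have hn0 : (0:ℝ) < P.card := by exact_mod_cast hP
  have hn1 : (1:ℝ) ≤ P.card := by exact_mod_cast hP
  have hs' : (0:ℝ) < s := by exact_mod_cast hs
  have hx' : (1:ℝ) ≤ x := by exact_mod_cast hx
  have hlog' : Real.log ((P.card:ℝ) + 3) ≤ Real.log ((P.card:ℝ) * x + 3) :=
    Real.log_le_log (by (clear * - hP; positivity)) (by nlinarith only [hx'])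
  have hlog : 0 ≤ Real.log ((P.card:ℝ) + 3) := Real.log_nonneg (by linarith only [])
  have hΛ1 : 1 ≤ Λ := by linarith only [hΛ, hlog', hlog]
  have hΛ0 : 0 < Λ := by linarith only [hΛ, hlog', hlog]
  obtain ⟨r, X, hXP, hXc, hXd, hnr, hrn, hcut, hD⟩ := exists_classes P t x s Λ (by linarith only [hΛ, hlog', hlog]) ht hs hx
    h1
  have hr : 0 < r := by
    rcases Nat.eq_zero_or_pos r with h0 | h0
    · rw [h0, Nat.zero_mul] at hnr
      omega
    · exact h0
  have hr' : (0:ℝ) < r := by exact_mod_cast hr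
  choose Good A hGood hA2 hAb hlev hrem using fun k => hsplit (X k) (hXP k) (hXc k)
  -- the cut condition
  have hcut' : ∀ a ∈ P, ∀ b ∈ P, a ≠ b → ∑ k, (cut (X k) a b : ℝ) ≤ (P.card : ℝ) * Λ / (2 * s) := by
    intro a ha b hb hab
    have h3 := hcut a ha b hb hab
    rw [← Finset.mul_sum] at h3
    have h4 : (x:ℝ) * ∑ k, (cut (X k) a b : ℝ) ≤ x * ((x * r) * Λ / (2 * s)) := by
      refine le_trans h3 (le_of_eq ?_)
      ring
    have h5 := le_of_mul_le_mul_left h4 (by linarith only [hx'])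
    refine h5.trans ?_
    apply div_le_div_of_nonneg_right _ (by positivity)
    apply mul_le_mul_of_nonneg_right _ hΛ0.le
    rw [mul_comm]
    exact_mod_cast hrn
  set W : ℝ := (x:ℝ) ^ 2 * ν₀ / s + (x:ℝ) ^ 2 + x * ν₀ * g / s + x * g with hW
  -- constants
  have hx64 : 64 * B * (((t:ℝ) + 1) * Λ / s + 1) ≤ x := by
    refine le_trans ?_ h2
    apply mul_le_mul_of_nonneg_right _ (by (clear * - hs hΛ1; positivity))
    apply mul_le_mul_of_nonneg_right _ (by linarith only [hB])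
    linarith only [hK₁]
  have hxB : 32 * B ≤ x := by
    have h3 : 0 ≤ B * (((t:ℝ) + 1) * Λ / s) := by (clear * - hs hB hΛ1; positivity)
    linarith only [hx64, h3]
  have hxD : 64 * B * (((t:ℝ) + 1) * Λ / s) ≤ x := by linarith only [hB, hx64]
  set P₁ := P.filter (fun p => 16 * (badCl A p).card ≤ r) with hP₁
  by_cases hcase : (P.card : ℝ) ≤ 2 * P₁.card
  · apply space_classes K₁ c₁ hK₁ hcap X Good P x s Λ g ν₀ B hXP hXc hXd hrn hr hcut' hs hx hP hΛ
      (by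
        refine le_trans ?_ hKs
        apply mul_le_mul
        · linarith only [hK₁]
        · exact pow_le_pow_right₀ hΛ1 (by omega)
        · positivity
        · positivity) hg hg1 hν₀ hB hGood
      (fun k i => by
        have := hlev k i
        rw [hXc k] at this
        exact this) P₁ (filter_subset _ _) hcase
    intro p hp
    obtain ⟨hpP, hpbad⟩ := mem_filter.mp hp
    obtain ⟨D, hD0, hDs, hDE⟩ := hD p hpP
    refine le_trans ?_ (good_mass X Good A x hXc p D hD0 B hB hxB ?_ hDE hpbad ?_)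
    · have h3 : (P.card : ℝ) ≤ 4 * (r * x) := by exact_mod_cast hnr
      linarith only [h3]
    · calc 128 * B * ∑ k, D k ≤ 128 * B * (((t:ℝ) + 1) * (r * Λ / (2 * s))) :=
            mul_le_mul_of_nonneg_left hDs (by positivity)
        _ = r * (64 * B * (((t:ℝ) + 1) * Λ / s)) := by field_simp; ring
        _ ≤ r * x := mul_le_mul_of_nonneg_left hxD hr'.le
    · intro k hk
      have := hrem k p hk
      rw [hXc k] at this
      exact this
  · push Not at hcase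
    have hb := bad_points A hr P g (B * x / ν₀) (by positivity) hg hg1 hA2 (fun k => by
      have := hAb k
      rw [hXc k] at this
      exact this)
    have hsum : P₁.card + (P.filter (fun p => ¬ 16 * (badCl A p).card ≤ r)).card = P.card :=
      Finset.card_filter_add_card_filter_not _
    have hsum' : (P₁.card : ℝ) + ((P.filter (fun p => ¬ 16 * (badCl A p).card ≤ r)).card : ℝ) =
        P.card := by exact_mod_cast hsum
    have h3 : (P.card : ℝ) ≤ 32 * (B * x / ν₀) * g := by linarith only [hcase, hb, hsum']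
    have h4 : B * x / ν₀ ≤ B * x := div_le_self (by positivity) hν₀
    have h5 : (P.card : ℝ) ≤ 32 * (B * x) * g := by
      refine h3.trans ?_
      apply mul_le_mul_of_nonneg_right _ (by linarith only [hg1])
      linarith only [h4]
    have hxg : (x:ℝ) * g ≤ W := by
      rw [hW]
      have h6 : 0 ≤ (x:ℝ) ^ 2 * ν₀ / s + (x:ℝ) ^ 2 + x * ν₀ * g / s := by positivity
      linarith only [h6]
    calc (P.card : ℝ) ≤ 32 * (B * x) * g := h5
      _ = (32 * B) * (x * g) := by ring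
      _ ≤ (2 ^ 34 * K₁ * (B * Λ) ^ (c₁ + 11)) * W := by
          apply mul_le_mul _ hxg (by positivity) (by positivity)
          have h7 : B ≤ (B * Λ) ^ (c₁ + 11) := by
            calc B = B * 1 := (mul_one B).symm
              _ ≤ B * Λ := mul_le_mul_of_nonneg_left hΛ1 (by linarith only [hB])
              _ = (B * Λ) ^ 1 := (pow_one _).symm
              _ ≤ (B * Λ) ^ (c₁ + 11) := pow_le_pow_right₀ (by nlinarith only [hΛ, hB, hlog', hlog]) (by omega)
          apply mul_le_mul _ h7 (by linarith only [hB]) (by positivity)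
          linarith only [hK₁]

end Vale.Agent.P054K
end

section

set_option autoImplicit false

open Finset

namespace Vale.Agent.P054K

/-- rank of a real number with respect to a finite set -/
noncomputable def prk (D : Finset ℝ) (x : ℝ) : ℤ := ((D.filter (fun y => y < x)).card : ℤ)

theorem prk_nonneg (D : Finset ℝ) (x : ℝ) : 0 ≤ prk D x := by
  unfold prk; positivity

theorem prk_lt {D : Finset ℝ} {u v : ℝ} (hu : u ∈ D) (h : u < v) : prk D u + 1 ≤ prk D v := by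
  unfold prk
  have h1 : (D.filter (fun y => y < u)).card < (D.filter (fun y => y < v)).card := by
    apply Finset.card_lt_card
    rw [Finset.ssubset_iff_of_subset]
    · exact ⟨u, by simp [hu, h], by simp⟩
    · intro y hy
      simp only [Finset.mem_filter] at hy ⊢
      exact ⟨hy.1, hy.2.trans h⟩
  exact_mod_cast h1

theorem prk_le_card {D : Finset ℝ} {u : ℝ} (hu : u ∈ D) : prk D u + 1 ≤ D.card := by
  unfold prk
  have h1 : (D.filter (fun y => y < u)).card < D.card := by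
    apply Finset.card_lt_card
    rw [Finset.ssubset_iff_of_subset (Finset.filter_subset _ _)]
    exact ⟨u, hu, by simp⟩
  exact_mod_cast h1

theorem prk_inj {D : Finset ℝ} {u v : ℝ} (hu : u ∈ D) (hv : v ∈ D) (h : prk D u = prk D v) : u = v := by
  rcases lt_trichotomy u v with h1 | h1 | h1
  · have := prk_lt hu h1; omega
  · exact h1
  · have := prk_lt hv h1; omega

/-- the proximity predicate -/
def close (D : Finset ℝ) (s : ℕ) (u v : ℝ) : Prop :=
  |prk D v - prk D u| * ((s : ℤ) - 1) ≤ 4 * (D.card : ℤ)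

noncomputable instance (D : Finset ℝ) (s : ℕ) (u v : ℝ) : Decidable (close D s u v) :=
  Classical.propDecidable _

/-- unimodal sequences with values in `D`: total variation of the ranks and length -/
theorem variation {D : Finset ℝ} {s : ℕ} (hs : 1 ≤ s) (f : ℕ → ℝ) (hf : ∀ i < s, f i ∈ D)
    (p : ℕ → Prop) (h1 : ∀ i, i + 1 < s → p i → f i < f (i + 1))
    (h2 : ∀ i, i + 1 < s → ¬ p (i + 1) → f (i + 1) < f i)
    (h3 : ∀ i, i + 1 < s → p i → p (i + 1)) :
    ∑ i ∈ range (s - 1), |prk D (f (i + 1)) - prk D (f i)| ≤ 2 * (D.card : ℤ) ∧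
      (s : ℤ) - 1 ≤ 2 * (D.card : ℤ) := by
  classical
  set psi : ℕ → ℤ := fun i => if p i then prk D (f i) + 1 else -(prk D (f i) + 1) with hpsi
  have hstep : ∀ i, i + 1 < s → |prk D (f (i + 1)) - prk D (f i)| ≤ psi (i + 1) - psi i ∧
      1 ≤ psi (i + 1) - psi i := by
    intro i hi
    have hn1 := prk_nonneg D (f i)
    have hn2 := prk_nonneg D (f (i + 1))
    by_cases hp : p i
    · have hp' := h3 i hi hp
      have hlt := prk_lt (hf i (by omega)) (h1 i hi hp)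
      simp only [hpsi, hp, hp', if_true]
      rw [abs_of_nonneg (by omega)]
      omega
    · by_cases hp' : p (i + 1)
      · simp only [hpsi, hp, hp', if_true, if_false]
        refine ⟨?_, by omega⟩
        rw [abs_le]
        omega
      · have hlt := prk_lt (hf (i + 1) hi) (h2 i hi hp')
        simp only [hpsi, hp, hp', if_false]
        rw [abs_of_nonpos (by omega)]
        omega
  have hbd : ∀ i < s, -(D.card : ℤ) ≤ psi i ∧ psi i ≤ (D.card : ℤ) := by
    intro i hi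
    have hn1 := prk_nonneg D (f i)
    have hc := prk_le_card (hf i hi)
    by_cases hp : p i
    · simp only [hpsi, hp, if_true]; omega
    · simp only [hpsi, hp, if_false]; omega
  have htel : ∑ i ∈ range (s - 1), (psi (i + 1) - psi i) = psi (s - 1) - psi 0 :=
    Finset.sum_range_sub psi (s - 1)
  have hb1 := hbd (s - 1) (by omega)
  have hb0 := hbd 0 (by omega)
  constructor
  · calc ∑ i ∈ range (s - 1), |prk D (f (i + 1)) - prk D (f i)|
        ≤ ∑ i ∈ range (s - 1), (psi (i + 1) - psi i) := by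
          apply Finset.sum_le_sum
          intro i hi
          exact (hstep i (by have := Finset.mem_range.1 hi; omega)).1
      _ = psi (s - 1) - psi 0 := htel
      _ ≤ 2 * (D.card : ℤ) := by omega
  · have h4 : ∑ i ∈ range (s - 1), (1 : ℤ) ≤ ∑ i ∈ range (s - 1), (psi (i + 1) - psi i) := by
      apply Finset.sum_le_sum
      intro i hi
      exact (hstep i (by have := Finset.mem_range.1 hi; omega)).2
    rw [htel] at h4
    simp only [Finset.sum_const, Finset.card_range, nsmul_eq_mul, mul_one] at h4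
    have : ((s - 1 : ℕ) : ℤ) = (s : ℤ) - 1 := by omega
    omega

/-- at least half of the adjacent pairs are close -/
theorem half_close {D : Finset ℝ} {s : ℕ} (hs : 1 ≤ s) (f : ℕ → ℝ) (hf : ∀ i < s, f i ∈ D)
    (p : ℕ → Prop) (h1 : ∀ i, i + 1 < s → p i → f i < f (i + 1))
    (h2 : ∀ i, i + 1 < s → ¬ p (i + 1) → f (i + 1) < f i)
    (h3 : ∀ i, i + 1 < s → p i → p (i + 1)) :
    s - 1 ≤ 2 * ((range (s - 1)).filter (fun i => close D s (f i) (f (i + 1)))).card := by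
  have hv := (variation hs f hf p h1 h2 h3).1
  have hD : 0 < D.card := Finset.card_pos.2 ⟨f 0, hf 0 (by omega)⟩
  set bad := (range (s - 1)).filter (fun i => ¬ close D s (f i) (f (i + 1))) with hbad
  have hsplit := Finset.card_filter_add_card_filter_not (s := range (s - 1))
    (fun i => close D s (f i) (f (i + 1)))
  rw [← hbad, Finset.card_range] at hsplit
  have hb : (bad.card : ℤ) * (4 * (D.card : ℤ)) ≤
      (∑ i ∈ range (s - 1), |prk D (f (i + 1)) - prk D (f i)|) * ((s : ℤ) - 1) := by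
    calc (bad.card : ℤ) * (4 * (D.card : ℤ)) = ∑ i ∈ bad, (4 * (D.card : ℤ)) := by
          simp
      _ ≤ ∑ i ∈ bad, |prk D (f (i + 1)) - prk D (f i)| * ((s : ℤ) - 1) := by
          apply Finset.sum_le_sum
          intro i hi
          have := (Finset.mem_filter.1 hi).2
          unfold close at this
          omega
      _ ≤ ∑ i ∈ range (s - 1), |prk D (f (i + 1)) - prk D (f i)| * ((s : ℤ) - 1) := by
          apply Finset.sum_le_sum_of_subset_of_nonneg (Finset.filter_subset _ _)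
          intro i _ _
          apply mul_nonneg (abs_nonneg _)
          omega
      _ = _ := by rw [Finset.sum_mul]
  have hb2 : (bad.card : ℤ) * (4 * (D.card : ℤ)) ≤ 2 * (D.card : ℤ) * ((s : ℤ) - 1) :=
    hb.trans (mul_le_mul_of_nonneg_right hv (by omega))
  have hb3 : 2 * (bad.card : ℤ) ≤ (s : ℤ) - 1 := by
    have hDz : (0 : ℤ) < D.card := by exact_mod_cast hD
    by_contra hcon
    push Not at hcon
    nlinarith only [hD, hb2, hcon]
  omega

/-- the number of close pairs -/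
theorem card_close (D : Finset ℝ) (s : ℕ) (hs : 2 ≤ s) :
    ((s : ℤ) - 1) * ((D ×ˢ D).filter (fun q => close D s q.1 q.2)).card ≤
      (D.card : ℤ) * (8 * (D.card : ℤ) + ((s : ℤ) - 1)) := by
  classical
  set K : ℤ := 4 * (D.card : ℤ) / ((s : ℤ) - 1) with hK
  have hs1 : (0 : ℤ) < (s : ℤ) - 1 := by omega
  have hK0 : 0 ≤ K := Int.ediv_nonneg (by (clear * -; positivity)) hs1.le
  have hKle : ((s : ℤ) - 1) * K ≤ 4 * (D.card : ℤ) := Int.mul_ediv_self_le hs1.ne'
  have hcard : ((D ×ˢ D).filter (fun q => close D s q.1 q.2)).card ≤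
      (D ×ˢ Finset.Icc (-K) K).card := by
    apply Finset.card_le_card_of_injOn (fun q => (q.1, prk D q.2 - prk D q.1))
    · intro q hq
      simp only [Finset.coe_filter, Finset.mem_product, Set.mem_ofPred_eq] at hq
      simp only [Finset.coe_product, Set.mem_prod, Finset.mem_coe, Finset.mem_Icc]
      refine ⟨hq.1.1, ?_⟩
      have h := hq.2
      unfold close at h
      have h5 : |prk D q.2 - prk D q.1| ≤ K := by
        rw [hK]
        rw [Int.le_ediv_iff_mul_le hs1]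
        exact h
      exact abs_le.1 h5
    · intro q hq q' hq' he
      simp only [Finset.coe_filter, Finset.mem_product, Set.mem_ofPred_eq] at hq hq'
      simp only [Prod.mk.injEq] at he
      obtain ⟨e1, e2⟩ := he
      rw [e1] at e2
      have : prk D q.2 = prk D q'.2 := by omega
      exact Prod.ext e1 (prk_inj hq.1.2 hq'.1.2 this)
  rw [Finset.card_product, Int.card_Icc] at hcard
  have h6 : ((((D ×ˢ D).filter (fun q => close D s q.1 q.2)).card : ℕ) : ℤ) ≤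
      (D.card : ℤ) * (2 * K + 1) := by
    calc ((((D ×ˢ D).filter (fun q => close D s q.1 q.2)).card : ℕ) : ℤ)
        ≤ ((D.card * (K + 1 - -K).toNat : ℕ) : ℤ) := by exact_mod_cast hcard
      _ = (D.card : ℤ) * (2 * K + 1) := by
          push_cast
          rw [Int.toNat_of_nonneg (by omega)]
          ring
  have hDz : (0 : ℤ) ≤ D.card := by (clear * -; positivity)
  linarith only [mul_le_mul_of_nonneg_left h6 hs1.le, mul_le_mul_of_nonneg_left hKle hDz, hs1,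
    hKle, h6, hDz]

/-- increasing enumeration of a subset of prescribed cardinality -/
theorem exists_enum (A : Finset ℝ) (s : ℕ) (hA : s ≤ A.card) :
    ∃ a : ℕ → ℝ, (∀ i < s, a i ∈ A) ∧ ∀ i j, i < j → j < s → a i < a j := by
  classical
  obtain ⟨A', hA', hc⟩ := Finset.exists_subset_card_eq hA
  refine ⟨fun i => if h : i < s then A'.orderEmbOfFin hc ⟨i, h⟩ else 0, ?_, ?_⟩
  · intro i hi
    simp only [hi, dif_pos]
    exact hA' (Finset.orderEmbOfFin_mem _ _ _)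
  · intro i j hij hj
    have hi : i < s := by omega
    simp only [hi, hj, dif_pos]
    exact (A'.orderEmbOfFin hc).strictMono (by simpa [Fin.lt_def] using hij)

end Vale.Agent.P054K
end

section

set_option autoImplicit false

open Finset

namespace Vale.Agent.P054K

/-- a nontrivial quadratic has at most two roots -/
theorem quad_roots (p q r : ℝ) (hpq : p ≠ 0 ∨ q ≠ 0) (S : Finset ℝ)
    (h : ∀ b ∈ S, p * b ^ 2 + q * b + r = 0) : S.card ≤ 2 := by
  by_contra hc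
  push Not at hc
  obtain ⟨x, hx, y, hy, z, hz, hxy, hxz, hyz⟩ := Finset.two_lt_card.1 hc
  have e1 := h x hx
  have e2 := h y hy
  have e3 := h z hz
  have f1 : (x - y) * (p * (x + y) + q) = 0 := by linear_combination e1 - e2
  have f2 : (x - z) * (p * (x + z) + q) = 0 := by linear_combination e1 - e3
  have g1 : p * (x + y) + q = 0 := by
    rcases mul_eq_zero.1 f1 with h | h
    · exact absurd (sub_eq_zero.1 h) hxy
    · exact h
  have g2 : p * (x + z) + q = 0 := by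
    rcases mul_eq_zero.1 f2 with h | h
    · exact absurd (sub_eq_zero.1 h) hxz
    · exact h
  have g3 : p * (y - z) = 0 := by linear_combination g1 - g2
  have hp : p = 0 := by
    rcases mul_eq_zero.1 g3 with h | h
    · exact h
    · exact absurd (sub_eq_zero.1 h) hyz
  have hq : q = 0 := by rw [hp] at g1; linarith only [g1]
  rcases hpq with h | h
  · exact h hp
  · exact h hq

/-- Cauchy-Schwarz for a family of sets with small pairwise intersections -/
theorem cs_family {α : Type*} [DecidableEq α] (n : ℕ) (S : ℕ → Finset α) (X : Finset α)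
    (hS : ∀ i < n, S i ⊆ X) (hI : ∀ i < n, ∀ j < n, i ≠ j → (S i ∩ S j).card ≤ 2) :
    (∑ i ∈ range n, (S i).card) ^ 2 ≤ X.card * (∑ i ∈ range n, (S i).card + 2 * n ^ 2) := by
  have h1 : ∀ i ∈ range n, (S i).card = ∑ x ∈ X, if x ∈ S i then 1 else 0 := by
    intro i hi
    rw [← Finset.card_filter]
    congr 1
    ext x
    simp only [Finset.mem_filter]
    exact ⟨fun hx => ⟨hS i (Finset.mem_range.1 hi) hx, hx⟩, fun hx => hx.2⟩
  have h2 : ∑ i ∈ range n, (S i).card = ∑ x ∈ X, ∑ i ∈ range n, if x ∈ S i then 1 else 0 := by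
    rw [Finset.sum_congr rfl h1, Finset.sum_comm]
  have h3 : ∑ x ∈ X, (∑ i ∈ range n, if x ∈ S i then 1 else 0) ^ 2 =
      ∑ i ∈ range n, ∑ j ∈ range n, (S i ∩ S j).card := by
    have h4 : ∀ i ∈ range n, ∀ j ∈ range n, (S i ∩ S j).card =
        ∑ x ∈ X, (if x ∈ S i then 1 else 0) * (if x ∈ S j then 1 else 0) := by
      intro i hi j hj
      have : ∀ x, ((if x ∈ S i then 1 else 0) * (if x ∈ S j then 1 else 0) : ℕ) =
          if x ∈ S i ∩ S j then 1 else 0 := by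
        intro x
        by_cases h1 : x ∈ S i <;> by_cases h2 : x ∈ S j <;> simp [h1, h2]
      simp only [this]
      rw [← Finset.card_filter]
      congr 1
      ext x
      simp only [Finset.mem_filter]
      exact ⟨fun hx => ⟨hS i (Finset.mem_range.1 hi) (Finset.mem_inter.1 hx).1, hx⟩,
        fun hx => hx.2⟩
    rw [Finset.sum_congr rfl fun i hi => Finset.sum_congr rfl fun j hj => h4 i hi j hj]
    rw [Finset.sum_congr rfl fun i _ => Finset.sum_comm]
    rw [Finset.sum_comm]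
    apply Finset.sum_congr rfl
    intro x _
    rw [sq, Finset.sum_mul_sum]
  have h5 : ∑ i ∈ range n, ∑ j ∈ range n, (S i ∩ S j).card ≤
      ∑ i ∈ range n, (S i).card + 2 * n ^ 2 := by
    calc ∑ i ∈ range n, ∑ j ∈ range n, (S i ∩ S j).card
        ≤ ∑ i ∈ range n, ∑ j ∈ range n, ((if i = j then (S i).card else 0) + 2) := by
          apply Finset.sum_le_sum
          intro i hi
          apply Finset.sum_le_sum
          intro j hj
          by_cases hij : i = j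
          · subst hij; simp only [inter_self, ↓reduceIte, le_add_iff_nonneg_right, zero_le]
          · simp only [hij, if_false, zero_add]
            exact hI i (Finset.mem_range.1 hi) j (Finset.mem_range.1 hj) hij
      _ = ∑ i ∈ range n, (S i).card + 2 * n ^ 2 := by
          simp only [Finset.sum_add_distrib, Finset.sum_const, Finset.card_range, smul_eq_mul]
          congr 1
          · apply Finset.sum_congr rfl
            intro i hi
            rw [Finset.sum_ite_eq]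
            simp [Finset.mem_range.1 hi]
          · ring
  calc (∑ i ∈ range n, (S i).card) ^ 2
      = (∑ x ∈ X, ∑ i ∈ range n, if x ∈ S i then 1 else 0) ^ 2 := by rw [h2]
    _ ≤ X.card * ∑ x ∈ X, (∑ i ∈ range n, if x ∈ S i then 1 else 0) ^ 2 :=
        sq_sum_le_card_mul_sum_sq
    _ = X.card * ∑ i ∈ range n, ∑ j ∈ range n, (S i ∩ S j).card := by rw [h3]
    _ ≤ _ := Nat.mul_le_mul_left _ h5

/-- final arithmetic -/
theorem two_lines_arith {σ t ξ τ : ℝ} (c0 : τ ^ 2 ≤ ξ * (τ + 2 * (σ - 1) ^ 2))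
    (c1 : σ * (σ - 1) ≤ 2 * τ) (c1' : τ ≤ σ * (σ - 1)) (c2 : (σ - 1) * ξ ≤ t * (8 * t + (σ - 1)))
    (c3 : σ - 1 ≤ 2 * t) (c4 : 2 ≤ σ) (_c5 : 0 ≤ t) (c7 : 0 ≤ ξ) : σ ^ 3 ≤ 1000 * t ^ 2 := by
  have c8 : (σ - 1) * ξ ≤ 10 * t ^ 2 := by nlinarith only [c2, c3, c4]
  have c9 : σ ≤ 2 * (σ - 1) := by linarith only [c4]
  have e1 : τ + 2 * (σ - 1) ^ 2 ≤ 3 * (σ * (σ - 1)) := by linarith only [c1', c4]
  have hpos : 0 < σ * (σ - 1) := by nlinarith only [c4]
  have e2 : (σ * (σ - 1)) ^ 2 ≤ 4 * τ ^ 2 := by nlinarith only [c1, c1']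
  have e3 : (σ * (σ - 1)) ^ 2 ≤ 12 * ξ * (σ * (σ - 1)) := by
    calc (σ * (σ - 1)) ^ 2 ≤ 4 * τ ^ 2 := e2
      _ ≤ 4 * (ξ * (τ + 2 * (σ - 1) ^ 2)) := by linarith only [c0]
      _ ≤ 4 * (ξ * (3 * (σ * (σ - 1)))) := by
          have := mul_le_mul_of_nonneg_left e1 c7
          linarith only [this]
      _ = 12 * ξ * (σ * (σ - 1)) := by ring
  have e4 : σ * (σ - 1) ≤ 12 * ξ := by
    have : (σ * (σ - 1)) * (σ * (σ - 1)) ≤ (12 * ξ) * (σ * (σ - 1)) := by
      linarith only [e3]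
    exact le_of_mul_le_mul_right this hpos
  have e5 : σ * (σ - 1) * (σ - 1) ≤ 120 * t ^ 2 := by
    calc σ * (σ - 1) * (σ - 1) ≤ 12 * ξ * (σ - 1) :=
          mul_le_mul_of_nonneg_right e4 (by linarith only [c4])
      _ = 12 * ((σ - 1) * ξ) := by ring
      _ ≤ 12 * (10 * t ^ 2) := by linarith only [c8]
      _ = 120 * t ^ 2 := by ring
  have e6 : σ ^ 3 ≤ 4 * (σ * (σ - 1) * (σ - 1)) := by
    have h1 : σ ^ 2 ≤ 4 * (σ - 1) ^ 2 := by nlinarith only [c4]
    have : σ * σ ^ 2 ≤ σ * (4 * (σ - 1) ^ 2) := mul_le_mul_of_nonneg_left h1 (by linarith only [c4])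
    linarith only [this]
  linarith only [e5, e6, sq_nonneg t]

/-- two lines which are neither parallel nor orthogonal, real coordinates -/
theorem two_lines_real (c k : ℝ) (hc0 : c ≠ 0) (hc1 : c ^ 2 < 1) (A B D : Finset ℝ) (s : ℕ)
    (hA : s ≤ A.card) (hB : s ≤ B.card)
    (hD : ∀ a ∈ A, ∀ b ∈ B, a ^ 2 + b ^ 2 - 2 * c * a * b + k ∈ D) :
    (s : ℝ) ^ 3 ≤ 1000 * (D.card : ℝ) ^ 2 := by
  classical
  rcases Nat.lt_or_ge s 2 with hs2 | hs
  · -- small `s`
    interval_cases s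
    · simp only [CharP.cast_eq_zero, ne_eq, OfNat.ofNat_ne_zero, not_false_eq_true, zero_pow,
        Nat.ofNat_pos, mul_nonneg_iff_of_pos_left, Nat.cast_nonneg, pow_succ_nonneg]
    · obtain ⟨a, ha⟩ := Finset.card_pos.1 (show 0 < A.card by omega)
      obtain ⟨b, hb⟩ := Finset.card_pos.1 (show 0 < B.card by omega)
      have h1 : 1 ≤ D.card := Finset.card_pos.2 ⟨_, hD a ha b hb⟩
      have h2 : (1 : ℝ) ≤ D.card := by exact_mod_cast h1
      norm_num
      nlinarith only [h2]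
  obtain ⟨a, haA, hmono⟩ := exists_enum A s hA
  obtain ⟨B', hB', hBc⟩ := Finset.exists_subset_card_eq hB
  set F : ℝ → ℝ → ℝ := fun x b => x ^ 2 + b ^ 2 - 2 * c * x * b + k with hF
  have hf : ∀ b ∈ B', ∀ i < s, F (a i) b ∈ D := fun b hb i hi => hD _ (haA i hi) b (hB' hb)
  have hdiff : ∀ x y b, F y b - F x b = (y - x) * (y + x - 2 * c * b) := by
    intro x y b; simp only [hF]; ring
  have h1 : ∀ b, ∀ i, i + 1 < s → c * b ≤ a i → F (a i) b < F (a (i + 1)) b := by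
    intro b i hi hp
    have h := hmono i (i + 1) (by omega) hi
    have := hdiff (a i) (a (i + 1)) b
    nlinarith only [hp, h]
  have h2 : ∀ b, ∀ i, i + 1 < s → ¬ (c * b ≤ a (i + 1)) → F (a (i + 1)) b < F (a i) b := by
    intro b i hi hp
    push Not at hp
    have h := hmono i (i + 1) (by omega) hi
    have := hdiff (a i) (a (i + 1)) b
    nlinarith only [hp, h]
  have h3 : ∀ b, ∀ i, i + 1 < s → c * b ≤ a i → c * b ≤ a (i + 1) := by
    intro b i hi hp
    have := hmono i (i + 1) (by omega) hi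
    linarith only [hp, this]
  have hhalf : ∀ b ∈ B', s - 1 ≤ 2 * ((range (s - 1)).filter
      (fun i => close D s (F (a i) b) (F (a (i + 1)) b))).card := by
    intro b hb
    exact half_close (by omega) (fun i => F (a i) b) (hf b hb) (fun i => c * b ≤ a i)
      (h1 b) (h2 b) (h3 b)
  have hlen : (s : ℤ) - 1 ≤ 2 * (D.card : ℤ) := by
    obtain ⟨b, hb⟩ := Finset.card_pos.1 (show 0 < B'.card by omega)
    exact (variation (by omega) (fun i => F (a i) b) (hf b hb) (fun i => c * b ≤ a i)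
      (h1 b) (h2 b) (h3 b)).2
  set Gd : ℕ → Finset ℝ := fun i => B'.filter (fun b => close D s (F (a i) b) (F (a (i + 1)) b))
    with hGd
  set S : ℕ → Finset (ℝ × ℝ) := fun i => (Gd i).image (fun b => (F (a i) b, F (a (i + 1)) b))
    with hSdef
  set X := (D ×ˢ D).filter (fun q => close D s q.1 q.2) with hX
  have hSX : ∀ i < s - 1, S i ⊆ X := by
    intro i hi q hq
    obtain ⟨b, hb, rfl⟩ := Finset.mem_image.1 hq
    have hb' := Finset.mem_filter.1 hb
    rw [hX, Finset.mem_filter, Finset.mem_product]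
    exact ⟨⟨hf b hb'.1 i (by omega), hf b hb'.1 (i + 1) (by omega)⟩, hb'.2⟩
  have hinj : ∀ i < s - 1, ∀ b b', F (a i) b = F (a i) b' → F (a (i + 1)) b = F (a (i + 1)) b' →
      b = b' := by
    intro i hi b b' e1 e2
    have h := hmono i (i + 1) (by omega) (by omega)
    have d1 := hdiff (a i) (a (i + 1)) b
    have d2 := hdiff (a i) (a (i + 1)) b'
    have e3 : (a (i + 1) - a i) * (2 * c * (b - b')) = 0 := by
      rw [e1, e2] at d1
      linear_combination d1 - d2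
    rcases mul_eq_zero.1 e3 with h' | h'
    · linarith only [h, h']
    · rcases mul_eq_zero.1 h' with h'' | h''
      · exact absurd h'' (by simpa using hc0)
      · linarith only [h'']
  have hScard : ∀ i ∈ range (s - 1), (S i).card = (Gd i).card := by
    intro i hi
    apply Finset.card_image_of_injOn
    intro b _ b' _ he
    simp only [Prod.mk.injEq] at he
    exact hinj i (Finset.mem_range.1 hi) b b' he.1 he.2
  have hdc : ∑ i ∈ range (s - 1), (Gd i).card = ∑ b ∈ B', ((range (s - 1)).filter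
      (fun i => close D s (F (a i) b) (F (a (i + 1)) b))).card := by
    simp only [hGd, Finset.card_filter]
    exact Finset.sum_comm
  set T := ∑ i ∈ range (s - 1), (S i).card with hT
  have hTG : T = ∑ i ∈ range (s - 1), (Gd i).card := Finset.sum_congr rfl hScard
  have hTlow : s * (s - 1) ≤ 2 * T := by
    rw [hTG, hdc, Finset.mul_sum]
    calc s * (s - 1) = ∑ b ∈ B', (s - 1) := by simp only [sum_const, hBc, smul_eq_mul]
      _ ≤ _ := Finset.sum_le_sum hhalf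
  have hThigh : T ≤ s * (s - 1) := by
    rw [hTG]
    calc ∑ i ∈ range (s - 1), (Gd i).card ≤ ∑ i ∈ range (s - 1), s := by
          apply Finset.sum_le_sum
          intro i _
          rw [← hBc]
          exact Finset.card_filter_le _ _
      _ = s * (s - 1) := by simp only [sum_const, card_range, smul_eq_mul, mul_comm]
  -- pairwise intersections
  have hI : ∀ i < s - 1, ∀ j < s - 1, i ≠ j → (S i ∩ S j).card ≤ 2 := by
    intro i hi j hj hij
    set x := a i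
    set x' := a (i + 1)
    set e := a j
    set e' := a (j + 1)
    have hx : x < x' := hmono i (i + 1) (by omega) (by omega)
    have he : e < e' := hmono j (j + 1) (by omega) (by omega)
    have hne : x ≠ e := by
      rcases Nat.lt_or_gt_of_ne hij with h | h
      · exact (hmono i j h (by (clear * - hs hBc hj hij h; omega))).ne
      · exact (hmono j i h (by (clear * - hs hBc hi hij h; omega))).ne'
    set β : ℝ := (x' - x) / (e' - e) with hβ
    have hβpos : 0 < β := div_pos (by linarith only [hx]) (by linarith only [he])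
    have hβe : β * (e' - e) = x' - x := by
      rw [hβ]; exact div_mul_cancel₀ _ (by linarith only [he])
    set α : ℝ := (e + e' - β * (x + x')) / (2 * c) with hα
    have h2c : (2 * c) ≠ 0 := by simpa using hc0
    have hαe : 2 * c * α = e + e' - β * (x + x') := by
      rw [hα]; (clear * - hc0; field_simp)
    set p : ℝ := 1 - β ^ 2 with hp
    set q : ℝ := -2 * c * x - 2 * α * β + 2 * c * e * β with hq
    set r : ℝ := x ^ 2 - e ^ 2 - α ^ 2 + 2 * c * e * α with hr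
    have hpq : p ≠ 0 ∨ q ≠ 0 := by
      by_cases hb1 : β = 1
      · right
        intro hq0
        have g1 : e' - e = x' - x := by rw [← hβe, hb1]; ring
        have g2 : c * α = e - x := by
          rw [hb1] at hαe
          linear_combination (1 / 2) * hαe + (1 / 2) * g1
        rw [hq, hb1] at hq0
        have g3 : (e - x) * (c ^ 2 - 1) = 0 := by
          linear_combination (c / 2) * hq0 + g2
        rcases mul_eq_zero.1 g3 with h | h
        · exact hne (by linarith only [h])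
        · linarith only [hc1, h]
      · left
        intro hp0
        have : (1 - β) * (1 + β) = 0 := by rw [hp] at hp0; linear_combination hp0
        rcases mul_eq_zero.1 this with h | h
        · exact hb1 (by linarith only [h])
        · linarith only [hβpos, h]
    have hroots := quad_roots p q r hpq (B'.filter (fun b => p * b ^ 2 + q * b + r = 0))
      (fun b hb => (Finset.mem_filter.1 hb).2)
    refine le_trans ?_ hroots
    have hsub : S i ∩ S j ⊆ (B'.filter (fun b => p * b ^ 2 + q * b + r = 0)).image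
        (fun b => (F x b, F x' b)) := by
      intro z hz
      obtain ⟨hz1, hz2⟩ := Finset.mem_inter.1 hz
      obtain ⟨b, hb, hbz⟩ := Finset.mem_image.1 hz1
      obtain ⟨b', _, hbz'⟩ := Finset.mem_image.1 hz2
      rw [Finset.mem_image]
      refine ⟨b, ?_, hbz⟩
      rw [Finset.mem_filter]
      refine ⟨(Finset.mem_filter.1 hb).1, ?_⟩
      have hzz : (F x b, F x' b) = (F e b', F e' b') := hbz.trans hbz'.symm
      simp only [Prod.mk.injEq] at hzz
      obtain ⟨k1, k2⟩ := hzz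
      have d1 := hdiff x x' b
      have d2 := hdiff e e' b'
      rw [k1, k2, d2] at d1
      -- (e'-e)(e'+e-2cb') = (x'-x)(x'+x-2cb)
      have d3 : (e' - e) * (e' + e - 2 * c * b') = (e' - e) * (β * (x' + x - 2 * c * b)) := by
        rw [d1, ← hβe]; ring
      have d4 : e' + e - 2 * c * b' = β * (x' + x - 2 * c * b) :=
        mul_left_cancel₀ (by linarith only [he] : e' - e ≠ 0) d3
      have d5 : 2 * c * (b' - (α + β * b)) = 0 := by
        linear_combination -d4 - hαe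
      have d6 : b' = α + β * b := by
        rcases mul_eq_zero.1 d5 with h | h
        · exact absurd h h2c
        · linarith only [h]
      simp only [hF] at k1
      rw [d6] at k1
      rw [hp, hq, hr]
      linear_combination k1
    exact (Finset.card_le_card hsub).trans Finset.card_image_le
  have hCS := cs_family (s - 1) S X hSX hI
  rw [← hT] at hCS
  have hXc := card_close D s hs
  rw [← hX] at hXc
  -- final arithmetic over the reals
  have hs1 : ((s - 1 : ℕ) : ℝ) = (s : ℝ) - 1 := by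
    rw [Nat.cast_sub (by omega)]; simp
  have c0 : (T : ℝ) ^ 2 ≤ X.card * (T + 2 * ((s : ℝ) - 1) ^ 2) := by
    rw [← hs1]; exact_mod_cast hCS
  have c1 : (s : ℝ) * ((s : ℝ) - 1) ≤ 2 * T := by
    rw [← hs1]; exact_mod_cast hTlow
  have c1' : (T : ℝ) ≤ (s : ℝ) * ((s : ℝ) - 1) := by
    rw [← hs1]; exact_mod_cast hThigh
  have c2 : ((s : ℝ) - 1) * X.card ≤ (D.card : ℝ) * (8 * (D.card : ℝ) + ((s : ℝ) - 1)) := by
    exact_mod_cast hXc
  have c3 : (s : ℝ) - 1 ≤ 2 * (D.card : ℝ) := by exact_mod_cast hlen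
  have c4 : (2 : ℝ) ≤ s := by exact_mod_cast hs
  have c5 : (0 : ℝ) ≤ D.card := by (clear * -; positivity)
  have c7 : (0 : ℝ) ≤ X.card := by (clear * -; positivity)
  exact two_lines_arith c0 c1 c1' c2 c3 c4 c5 c7

end Vale.Agent.P054K
end

section

set_option autoImplicit false

open Finset

namespace Vale.Agent.P054K

/-- parallel lines: `Hs` is the set of squared distances from a fixed line, `B h` the coordinates of
the points on one line at squared distance `h` -/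
theorem par_lines_real (A D Hs : Finset ℝ) (B : ℝ → Finset ℝ) (s : ℕ) (hs : 2 ≤ s)
    (hA : s ≤ A.card) (hB : ∀ h ∈ Hs, s ≤ (B h).card)
    (hD : ∀ h ∈ Hs, ∀ a ∈ A, ∀ b ∈ B h, (a - b) ^ 2 + h ∈ D) :
    (s : ℝ) ^ 2 * Hs.card ≤ 1000 * (D.card : ℝ) ^ 2 := by
  classical
  obtain ⟨a, haA, hmono⟩ := exists_enum A s hA
  rcases Hs.eq_empty_or_nonempty with h0 | ⟨h₀, hh₀⟩
  · rw [h0]; simp only [card_empty, CharP.cast_eq_zero, mul_zero, Nat.ofNat_pos,
               mul_nonneg_iff_of_pos_left, Nat.cast_nonneg, pow_succ_nonneg]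
  set P : Finset (Σ _ : ℝ, ℝ) := Hs.sigma B with hP
  have hPmem : ∀ q ∈ P, q.1 ∈ Hs ∧ q.2 ∈ B q.1 := by
    intro q hq; exact Finset.mem_sigma.1 hq
  have hPcard : s * Hs.card ≤ P.card := by
    rw [hP, Finset.card_sigma]
    calc s * Hs.card = ∑ _h ∈ Hs, s := by simp [mul_comm]
      _ ≤ ∑ h ∈ Hs, (B h).card := Finset.sum_le_sum hB
  have hf : ∀ q ∈ P, ∀ i < s, (a i - q.2) ^ 2 + q.1 ∈ D := by
    intro q hq i hi
    exact hD q.1 (hPmem q hq).1 (a i) (haA i hi) q.2 (hPmem q hq).2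
  have h1 : ∀ q : (Σ _ : ℝ, ℝ), ∀ i, i + 1 < s → q.2 ≤ a i →
      (a i - q.2) ^ 2 + q.1 < (a (i + 1) - q.2) ^ 2 + q.1 := by
    intro q i hi hp
    have := hmono i (i + 1) (by omega) hi
    nlinarith only [hp, this]
  have h2 : ∀ q : (Σ _ : ℝ, ℝ), ∀ i, i + 1 < s → ¬ (q.2 ≤ a (i + 1)) →
      (a (i + 1) - q.2) ^ 2 + q.1 < (a i - q.2) ^ 2 + q.1 := by
    intro q i hi hp
    have := hmono i (i + 1) (by omega) hi
    push Not at hp
    nlinarith only [this, hp]
  have h3 : ∀ q : (Σ _ : ℝ, ℝ), ∀ i, i + 1 < s → q.2 ≤ a i → q.2 ≤ a (i + 1) := by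
    intro q i hi hp
    have := hmono i (i + 1) (by omega) hi
    linarith only [hp, this]
  have hhalf : ∀ q ∈ P, s - 1 ≤ 2 * ((range (s - 1)).filter
      (fun i => close D s ((a i - q.2) ^ 2 + q.1) ((a (i + 1) - q.2) ^ 2 + q.1))).card := by
    intro q hq
    exact half_close (by omega) (fun i => (a i - q.2) ^ 2 + q.1) (hf q hq) (fun i => q.2 ≤ a i)
      (h1 q) (h2 q) (h3 q)
  have hlen : (s : ℤ) - 1 ≤ 2 * (D.card : ℤ) := by
    obtain ⟨b, hb⟩ := Finset.card_pos.1 (lt_of_lt_of_le (by omega : 0 < s) (hB h₀ hh₀))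
    have hq : (⟨h₀, b⟩ : Σ _ : ℝ, ℝ) ∈ P := Finset.mem_sigma.2 ⟨hh₀, hb⟩
    exact (variation (by omega) (fun i => (a i - b) ^ 2 + h₀) (hf _ hq) (fun i => b ≤ a i)
      (h1 ⟨h₀, b⟩) (h2 ⟨h₀, b⟩) (h3 ⟨h₀, b⟩)).2
  -- double counting
  set G : ℕ → Finset (Σ _ : ℝ, ℝ) := fun i => P.filter (fun q =>
    close D s ((a i - q.2) ^ 2 + q.1) ((a (i + 1) - q.2) ^ 2 + q.1)) with hG
  have hdc : ∑ i ∈ range (s - 1), (G i).card = ∑ q ∈ P, ((range (s - 1)).filter
      (fun i => close D s ((a i - q.2) ^ 2 + q.1) ((a (i + 1) - q.2) ^ 2 + q.1))).card := by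
    simp only [hG, Finset.card_filter]
    exact Finset.sum_comm
  have hGcard : ∀ i ∈ range (s - 1), (G i).card ≤
      ((D ×ˢ D).filter (fun q => close D s q.1 q.2)).card := by
    intro i hi
    have hi' : i + 1 < s := by have := Finset.mem_range.1 hi; omega
    apply Finset.card_le_card_of_injOn
      (fun q => ((a i - q.2) ^ 2 + q.1, (a (i + 1) - q.2) ^ 2 + q.1))
    · intro q hq
      have hq' := Finset.mem_filter.1 (Finset.mem_coe.1 hq)
      simp only [Finset.coe_filter, Finset.mem_product, Set.mem_ofPred_eq]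
      exact ⟨⟨hf q hq'.1 i (by omega), hf q hq'.1 (i + 1) hi'⟩, hq'.2⟩
    · intro q _ q' _ he
      simp only [Prod.mk.injEq] at he
      obtain ⟨e1, e2⟩ := he
      have hlt := hmono i (i + 1) (by omega) hi'
      have e3 : (a (i + 1) - a i) * (q.2 - q'.2) = 0 := by linarith only [e1, e2]
      have e4 : q.2 = q'.2 := by
        rcases mul_eq_zero.1 e3 with h | h
        · linarith only [hlt, h]
        · linarith only [h]
      have e5 : q.1 = q'.1 := by
        rw [e4] at e1; linarith only [e1]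
      rcases q with ⟨q1, q2⟩
      rcases q' with ⟨r1, r2⟩
      simp only at e4 e5
      subst e4; subst e5; rfl
  set X := ((D ×ˢ D).filter (fun q => close D s q.1 q.2)).card with hX
  have hXc := card_close D s hs
  rw [← hX] at hXc
  have hsum : (s - 1) * P.card ≤ 2 * ((s - 1) * X) := by
    calc (s - 1) * P.card = ∑ q ∈ P, (s - 1) := by simp only [sum_const, smul_eq_mul, mul_comm]
      _ ≤ ∑ q ∈ P, 2 * ((range (s - 1)).filter
        (fun i => close D s ((a i - q.2) ^ 2 + q.1) ((a (i + 1) - q.2) ^ 2 + q.1))).card :=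
          Finset.sum_le_sum hhalf
      _ = 2 * ∑ i ∈ range (s - 1), (G i).card := by rw [hdc, Finset.mul_sum]
      _ ≤ 2 * ∑ i ∈ range (s - 1), X := by
          apply Nat.mul_le_mul_left
          exact Finset.sum_le_sum hGcard
      _ = 2 * ((s - 1) * X) := by simp only [sum_const, card_range, smul_eq_mul]
  have hPX : P.card ≤ 2 * X := by
    have : 0 < s - 1 := by (clear * - hs; omega)
    have h' : (s - 1) * P.card ≤ (s - 1) * (2 * X) := by
      calc (s - 1) * P.card ≤ 2 * ((s - 1) * X) := hsum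
        _ = (s - 1) * (2 * X) := by ring
    exact Nat.le_of_mul_le_mul_left h' this
  -- final arithmetic over the reals
  have c1 : (s : ℝ) * Hs.card ≤ 2 * X := by exact_mod_cast hPcard.trans hPX
  have c2 : ((s : ℝ) - 1) * X ≤ (D.card : ℝ) * (8 * (D.card : ℝ) + ((s : ℝ) - 1)) := by
    exact_mod_cast hXc
  have c3 : (s : ℝ) - 1 ≤ 2 * (D.card : ℝ) := by exact_mod_cast hlen
  have c4 : (2 : ℝ) ≤ s := by exact_mod_cast hs
  have c5 : (0 : ℝ) ≤ D.card := by (clear * -; positivity)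
  have c6 : (0 : ℝ) ≤ Hs.card := by (clear * -; positivity)
  have c7 : (0 : ℝ) ≤ X := by (clear * -; positivity)
  have c8 : ((s : ℝ) - 1) * X ≤ 10 * (D.card : ℝ) ^ 2 := by nlinarith only [c2, c3]
  have c9 : (s : ℝ) ≤ 2 * ((s : ℝ) - 1) := by linarith only [c4]
  calc (s : ℝ) ^ 2 * Hs.card = (s : ℝ) * ((s : ℝ) * Hs.card) := by ring
    _ ≤ (s : ℝ) * (2 * X) := by apply mul_le_mul_of_nonneg_left c1 (by linarith only [])
    _ ≤ (2 * ((s : ℝ) - 1)) * (2 * X) := by apply mul_le_mul_of_nonneg_right c9 (by linarith only [])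
    _ = 4 * (((s : ℝ) - 1) * X) := by ring
    _ ≤ 4 * (10 * (D.card : ℝ) ^ 2) := by linarith only [c8]
    _ ≤ 1000 * (D.card : ℝ) ^ 2 := by nlinarith only []

end Vale.Agent.P054K
end

section

set_option autoImplicit false

open Finset

namespace Vale.Agent.P054K

open scoped Classical in
/-- the points of `P` on the line through `p` with direction `e` -/
noncomputable def HvL (P : Finset (EuclideanSpace ℝ (Fin 3))) (p e : EuclideanSpace ℝ (Fin 3)) :
    Finset (EuclideanSpace ℝ (Fin 3)) :=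
  P.filter (fun q => ∃ τ : ℝ, q = p + τ • e)

open scoped Classical in
/-- the squares of the distances, and zero -/
noncomputable def HvD (P : Finset (EuclideanSpace ℝ (Fin 3))) : Finset ℝ :=
  (insert 0 (distances P)).image (fun x => x ^ 2)

theorem HvD_card {P : Finset (EuclideanSpace ℝ (Fin 3))} {t : ℕ} (h : (distances P).card ≤ t) :
    (HvD P).card ≤ t + 1 := by
  classical
  unfold HvD
  exact (card_image_le.trans (card_insert_le _ _)).trans (by omega)

theorem mem_HvD {P : Finset (EuclideanSpace ℝ (Fin 3))} {x y : EuclideanSpace ℝ (Fin 3)}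
    (hx : x ∈ P) (hy : y ∈ P) : dist x y ^ 2 ∈ HvD P := by
  classical
  unfold HvD
  refine mem_image.2 ⟨dist x y, ?_, rfl⟩
  by_cases h : x = y
  · rw [h, dist_self]
    exact mem_insert_self _ _
  · refine mem_insert_of_mem ?_
    unfold distances
    exact mem_image.2 ⟨(x, y), mem_offDiag.2 ⟨hx, hy, h⟩, rfl⟩

theorem mem_HvL {P : Finset (EuclideanSpace ℝ (Fin 3))} {p e q : EuclideanSpace ℝ (Fin 3)} :
    q ∈ HvL P p e ↔ q ∈ P ∧ ∃ τ : ℝ, q = p + τ • e := by
  classical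
  unfold HvL
  rw [mem_filter]

theorem Hv_inner_self {e : EuclideanSpace ℝ (Fin 3)} (he : ‖e‖ = 1) : inner ℝ e e = (1 : ℝ) := by
  rw [real_inner_self_eq_norm_sq, he, one_pow]

/-- two heavy lines are parallel or orthogonal -/
theorem Hv_two {P : Finset (EuclideanSpace ℝ (Fin 3))} {t : ℕ} (ht : (distances P).card ≤ t)
    {p q e f : EuclideanSpace ℝ (Fin 3)} (he : ‖e‖ = 1) (hf : ‖f‖ = 1)
    (hc0 : inner ℝ e f ≠ (0 : ℝ)) (hc1 : (inner ℝ e f : ℝ) ^ 2 < 1) {s : ℕ}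
    (hs : s ≤ (HvL P p e).card) (hs' : s ≤ (HvL P q f).card) :
    (s : ℝ) ^ 3 ≤ 1000 * ((t : ℝ) + 1) ^ 2 := by
  classical
  set c : ℝ := inner ℝ e f with hc
  set u : ℝ := inner ℝ e (p - q) with hu
  set v : ℝ := inner ℝ f (p - q) with hv
  have h1c : (1 - c ^ 2) ≠ 0 := by linarith only [hc1]
  set a₀ : ℝ := (c * v - u) / (1 - c ^ 2) with ha₀
  set b₀ : ℝ := (v - c * u) / (1 - c ^ 2) with hb₀
  have e1 : a₀ - c * b₀ + u = 0 := by
    rw [ha₀, hb₀]; field_simp; ring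
  have e2 : b₀ - c * a₀ - v = 0 := by
    rw [ha₀, hb₀]; field_simp; ring
  set k : ℝ := a₀ ^ 2 + b₀ ^ 2 - 2 * c * a₀ * b₀ + 2 * a₀ * u - 2 * b₀ * v + ‖p - q‖ ^ 2 with hk
  set A : Finset ℝ := (HvL P p e).image (fun x => inner ℝ e (x - p) - a₀) with hA
  set B : Finset ℝ := (HvL P q f).image (fun x => inner ℝ f (x - q) - b₀) with hB
  have hcoord : ∀ (p e : EuclideanSpace ℝ (Fin 3)), ‖e‖ = 1 → ∀ τ : ℝ,
      inner ℝ e ((p + τ • e) - p) = τ := by
    intro p e he τ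
    rw [add_sub_cancel_left, inner_smul_right, Hv_inner_self he, mul_one]
  have hAc : A.card = (HvL P p e).card := by
    rw [hA]
    refine card_image_of_injOn ?_
    intro x hx y hy hxy
    obtain ⟨-, τ, rfl⟩ := mem_HvL.1 (mem_coe.1 hx)
    obtain ⟨-, σ, rfl⟩ := mem_HvL.1 (mem_coe.1 hy)
    simp only [hcoord p e he] at hxy
    have : τ = σ := by linarith only [hxy]
    rw [this]
  have hBc : B.card = (HvL P q f).card := by
    rw [hB]
    refine card_image_of_injOn ?_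
    intro x hx y hy hxy
    obtain ⟨-, τ, rfl⟩ := mem_HvL.1 (mem_coe.1 hx)
    obtain ⟨-, σ, rfl⟩ := mem_HvL.1 (mem_coe.1 hy)
    simp only [hcoord q f hf] at hxy
    have : τ = σ := by linarith only [hxy]
    rw [this]
  have key := two_lines_real c k hc0 hc1 A B (HvD P) s (hAc ▸ hs) (hBc ▸ hs') (by
    intro a ha b hb
    obtain ⟨x, hx, rfl⟩ := mem_image.1 ha
    obtain ⟨y, hy, rfl⟩ := mem_image.1 hb
    obtain ⟨hxP, τ, rfl⟩ := mem_HvL.1 hx
    obtain ⟨hyP, σ, rfl⟩ := mem_HvL.1 hy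
    have h1 := mem_HvD hxP hyP
    rw [hcoord p e he, hcoord q f hf]
    have h2 : dist (p + τ • e) (q + σ • f) ^ 2 =
        τ ^ 2 + σ ^ 2 - 2 * c * τ * σ + 2 * τ * u - 2 * σ * v + ‖p - q‖ ^ 2 := by
      rw [dist_eq_norm]
      have h3 : p + τ • e - (q + σ • f) = (p - q) + (τ • e - σ • f) := by abel
      rw [h3, norm_add_sq_real, norm_sub_sq_real (τ • e) (σ • f), norm_smul, norm_smul, he, hf, inner_sub_right,
        inner_smul_right, inner_smul_right, inner_smul_left, inner_smul_right]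
      have h4 : inner ℝ (p - q) e = u := real_inner_comm _ _
      have h5 : inner ℝ (p - q) f = v := real_inner_comm _ _
      rw [h4, h5]
      simp only [Real.norm_eq_abs, mul_one, sq_abs, conj_trivial]
      rw [← hc]
      ring
    rw [h2] at h1
    have h6 : (τ - a₀) ^ 2 + (σ - b₀) ^ 2 - 2 * c * (τ - a₀) * (σ - b₀) + k =
        τ ^ 2 + σ ^ 2 - 2 * c * τ * σ + 2 * τ * u - 2 * σ * v + ‖p - q‖ ^ 2 := by
      rw [hk]
      linear_combination (2 * a₀ - 2 * τ) * e1 + (2 * b₀ - 2 * σ) * e2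
    rw [h6]
    exact h1)
  refine key.trans ?_
  have h1 : ((HvD P).card : ℝ) ≤ (t : ℝ) + 1 := by exact_mod_cast HvD_card ht
  have h2 : ((HvD P).card : ℝ) ^ 2 ≤ ((t : ℝ) + 1) ^ 2 := pow_le_pow_left₀ (by (clear * -; positivity)) h1 2
  linarith only [h2]

/-- unit vectors which are neither orthogonal nor generic are proportional -/
theorem Hv_parallel {e f : EuclideanSpace ℝ (Fin 3)} (he : ‖e‖ = 1) (hf : ‖f‖ = 1)
    (hc1 : ¬ (inner ℝ e f : ℝ) ^ 2 < 1) : e = (inner ℝ e f : ℝ) • f ∧ (inner ℝ e f : ℝ) ^ 2 = 1 := by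
  have h1 : |(inner ℝ e f : ℝ)| ≤ 1 := by
    have := abs_real_inner_le_norm e f
    rwa [he, hf, one_mul] at this
  have h2 : (inner ℝ e f : ℝ) ^ 2 ≤ 1 := by
    rw [← sq_abs]
    exact pow_le_one₀ (abs_nonneg _) h1
  have h3 : (inner ℝ e f : ℝ) ^ 2 = 1 := le_antisymm h2 (not_lt.1 hc1)
  refine ⟨?_, h3⟩
  have h4 : ‖e - (inner ℝ e f : ℝ) • f‖ ^ 2 = 0 := by
    rw [norm_sub_sq_real, inner_smul_right, norm_smul, he, hf, Real.norm_eq_abs, mul_one, sq_abs]
    linear_combination -h3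
  have h5 : ‖e - (inner ℝ e f : ℝ) • f‖ = 0 := by
    exact pow_eq_zero_iff (two_ne_zero) |>.1 h4
  exact sub_eq_zero.1 (norm_eq_zero.1 h5)

theorem HvL_congr {P : Finset (EuclideanSpace ℝ (Fin 3))} {p e f : EuclideanSpace ℝ (Fin 3)}
    {c : ℝ} (hc : c ≠ 0) (h : e = c • f) : HvL P p e = HvL P p f := by
  ext q
  rw [mem_HvL, mem_HvL]
  refine and_congr_right fun _ => ?_
  constructor
  · rintro ⟨τ, rfl⟩
    exact ⟨τ * c, by rw [h, smul_smul]⟩
  · rintro ⟨τ, rfl⟩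
    exact ⟨τ * c⁻¹, by rw [h, smul_smul, mul_assoc, inv_mul_cancel₀ hc, mul_one]⟩

/-- a finite set of pairwise orthogonal unit vectors in space has at most three elements -/
theorem Hv_three (F : Finset (EuclideanSpace ℝ (Fin 3))) (h1 : ∀ e ∈ F, ‖e‖ = 1)
    (h2 : ∀ e ∈ F, ∀ f ∈ F, e ≠ f → inner ℝ e f = (0 : ℝ)) : F.card ≤ 3 := by
  have ho : Orthonormal ℝ (fun v : F => (v : EuclideanSpace ℝ (Fin 3))) := by
    refine ⟨fun v => h1 v v.2, fun v w hvw => h2 v v.2 w w.2 fun h => hvw (Subtype.ext h)⟩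
  have h3 := ho.linearIndependent.fintype_card_le_finrank
  rwa [finrank_euclideanSpace_fin, Fintype.card_coe] at h3

/-- selection of the directions -/
theorem Hv_select {P : Finset (EuclideanSpace ℝ (Fin 3))} {t : ℕ} (ht : (distances P).card ≤ t)
    (s : ℕ) (hs : 1000 * ((t : ℝ) + 1) ^ 2 < (s : ℝ) ^ 3) :
    ∃ F : Finset (EuclideanSpace ℝ (Fin 3)), F.card ≤ 3 ∧ (∀ e ∈ F, ‖e‖ = 1) ∧
      ∀ p ∈ P, ∀ e : EuclideanSpace ℝ (Fin 3), ‖e‖ = 1 → s ≤ (HvL P p e).card →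
        ∃ f ∈ F, s ≤ (HvL P p f).card := by
  classical
  set bad : Finset (EuclideanSpace ℝ (Fin 3)) :=
    P.filter (fun p => ∃ e : EuclideanSpace ℝ (Fin 3), ‖e‖ = 1 ∧ s ≤ (HvL P p e).card) with hbad
  have hch : ∀ p ∈ bad, ∃ e : EuclideanSpace ℝ (Fin 3), ‖e‖ = 1 ∧ s ≤ (HvL P p e).card := by
    intro p hp
    exact (mem_filter.1 hp).2
  choose! d hd using hch
  set H : Finset (EuclideanSpace ℝ (Fin 3)) := bad.image d with hH
  have hHprop : ∀ e ∈ H, ‖e‖ = 1 ∧ ∃ p, s ≤ (HvL P p e).card := by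
    intro e he
    obtain ⟨p, hp, rfl⟩ := mem_image.1 he
    exact ⟨(hd p hp).1, p, (hd p hp).2⟩
  set S : Finset (Finset (EuclideanSpace ℝ (Fin 3))) :=
    H.powerset.filter (fun F => ∀ e ∈ F, ∀ f ∈ F, e ≠ f → inner ℝ e f = (0 : ℝ)) with hS
  have hSne : S.Nonempty := ⟨∅, mem_filter.2 ⟨empty_mem_powerset _, by simp only [notMem_empty,
                                                                         ne_eq,
                                                                         IsEmpty.forall_iff,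
                                                                         implies_true]⟩⟩
  obtain ⟨F, hF, hmaxF⟩ := S.exists_max_image card hSne
  obtain ⟨hFH, hFo⟩ := mem_filter.1 hF
  rw [mem_powerset] at hFH
  refine ⟨F, Hv_three F (fun e he => (hHprop e (hFH he)).1) hFo,
    fun e he => (hHprop e (hFH he)).1, ?_⟩
  intro p hp e he hse
  have hpb : p ∈ bad := mem_filter.2 ⟨hp, e, he, hse⟩
  have hdp := hd p hpb
  have hdH : d p ∈ H := mem_image_of_mem d hpb
  by_contra hcon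
  push Not at hcon
  have hno : ∀ f ∈ F, inner ℝ (d p) f = (0 : ℝ) := by
    intro f hf
    by_contra h0
    have hfH := hHprop f (hFH hf)
    obtain ⟨q, hq⟩ := hfH.2
    by_cases hc1 : (inner ℝ (d p) f : ℝ) ^ 2 < 1
    · have := Hv_two ht hdp.1 hfH.1 h0 hc1 hdp.2 hq
      linarith only [hs, this]
    · have h5 := Hv_parallel hdp.1 hfH.1 hc1
      have h6 := HvL_congr (P := P) (p := p) h0 h5.1
      have h7 := hcon f hf
      rw [← h6] at h7
      exact absurd hdp.2 (not_le.2 h7)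
  have hnot : d p ∉ F := by
    intro h
    exact absurd hdp.2 (not_le.2 (hcon _ h))
  have hins : insert (d p) F ∈ S := by
    refine mem_filter.2 ⟨mem_powerset.2 (insert_subset hdH hFH), ?_⟩
    intro x hx y hy hxy
    rcases mem_insert.1 hx with rfl | hx
    · rcases mem_insert.1 hy with rfl | hy
      · exact absurd rfl hxy
      · exact hno y hy
    · rcases mem_insert.1 hy with rfl | hy
      · rw [real_inner_comm]
        exact hno x hx
      · exact hFo x hx y hy hxy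
  have := hmaxF _ hins
  rw [card_insert_of_notMem hnot] at this
  omega

/-- projection along a direction -/
theorem Hv_proj {e : EuclideanSpace ℝ (Fin 3)} (he : ‖e‖ = 1) :
    ∃ π : EuclideanSpace ℝ (Fin 3) → EuclideanSpace ℝ (Fin 2),
      (∀ x y, dist x y ^ 2 = (inner ℝ e x - inner ℝ e y) ^ 2 + dist (π x) (π y) ^ 2) ∧
      ∀ x y, π x = π y → ∃ τ : ℝ, y = x + τ • e := by
  have he0 : e ≠ 0 := by
    intro h; rw [h, norm_zero] at he; exact zero_ne_one he
  have : Fact (Module.finrank ℝ (EuclideanSpace ℝ (Fin 3)) = 2 + 1) :=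
    ⟨by rw [finrank_euclideanSpace_fin]⟩
  have hfr : Module.finrank ℝ (ℝ ∙ e)ᗮ = 2 :=
    Submodule.finrank_orthogonal_span_singleton (n := 2) he0
  let b : OrthonormalBasis (Fin 2) ℝ (ℝ ∙ e)ᗮ :=
    (stdOrthonormalBasis ℝ (ℝ ∙ e)ᗮ).reindex (finCongr hfr)
  have hmem : ∀ x : EuclideanSpace ℝ (Fin 3), x - (inner ℝ e x : ℝ) • e ∈ (ℝ ∙ e)ᗮ := by
    intro x
    rw [Submodule.mem_orthogonal_singleton_iff_inner_right, inner_sub_right, inner_smul_right,
      Hv_inner_self he, mul_one, sub_self]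
  let w : EuclideanSpace ℝ (Fin 3) → (ℝ ∙ e)ᗮ := fun x => ⟨x - (inner ℝ e x : ℝ) • e, hmem x⟩
  refine ⟨fun x => b.repr (w x), ?_, ?_⟩
  · intro x y
    rw [b.repr.dist_map, dist_eq_norm, dist_eq_norm]
    have h1 : ‖w x - w y‖ = ‖(x - (inner ℝ e x : ℝ) • e) - (y - (inner ℝ e y : ℝ) • e)‖ := rfl
    rw [h1]
    have h2 : (x - (inner ℝ e x : ℝ) • e) - (y - (inner ℝ e y : ℝ) • e) =
        (x - y) - (inner ℝ e (x - y) : ℝ) • e := by
      rw [inner_sub_right, sub_smul]; abel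
    rw [h2, norm_sub_sq_real (x - y) ((inner ℝ e (x - y) : ℝ) • e), inner_smul_right, norm_smul, he,
      real_inner_comm e (x - y), ← inner_sub_right, Real.norm_eq_abs, mul_one, sq_abs]
    ring
  · intro x y hxy
    have h1 : w x = w y := b.repr.injective hxy
    have h2 : x - (inner ℝ e x : ℝ) • e = y - (inner ℝ e y : ℝ) • e := congrArg Subtype.val h1
    refine ⟨(inner ℝ e y : ℝ) - (inner ℝ e x : ℝ), ?_⟩
    rw [sub_smul]
    have h3 : y = x - (inner ℝ e x : ℝ) • e + (inner ℝ e y : ℝ) • e := by rw [h2]; abel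
    rw [h3]
    have h4 : inner ℝ e (x - (inner ℝ e x : ℝ) • e + (inner ℝ e y : ℝ) • e) = inner ℝ e y := by
      rw [← h3]
    rw [h4]
    abel

open scoped Classical in
/-- the points whose line in direction `e` has between `s` and `2 s` points -/
noncomputable def HvB (P : Finset (EuclideanSpace ℝ (Fin 3))) (e : EuclideanSpace ℝ (Fin 3))
    (s : ℕ) : Finset (EuclideanSpace ℝ (Fin 3)) :=
  P.filter (fun p => s ≤ (HvL P p e).card ∧ (HvL P p e).card < 2 * s)

theorem mem_HvB {P : Finset (EuclideanSpace ℝ (Fin 3))} {e p : EuclideanSpace ℝ (Fin 3)} {s : ℕ} :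
    p ∈ HvB P e s ↔ p ∈ P ∧ s ≤ (HvL P p e).card ∧ (HvL P p e).card < 2 * s := by
  classical
  unfold HvB
  rw [mem_filter]

/-- one direction and one dyadic scale -/
theorem Hv_scale {P : Finset (EuclideanSpace ℝ (Fin 3))} {t : ℕ} (ht : (distances P).card ≤ t)
    {e : EuclideanSpace ℝ (Fin 3)} (he : ‖e‖ = 1) {s : ℕ} (hs : 2 ≤ s) {t₁ : ℕ} {g : ℝ}
    (hg : PinnedBy 2 t₁ g) (h1 : 1000 * ((t : ℝ) + 1) ^ 2 < (s : ℝ) ^ 2 * ((t₁ : ℝ) + 2)) :
    ((HvB P e s).card : ℝ) ≤ 2 * s * g := by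
  classical
  obtain ⟨π, hπ, hπ'⟩ := Hv_proj he
  set G : Finset (EuclideanSpace ℝ (Fin 2)) := (HvB P e s).image π with hG
  have hsr : (0 : ℝ) < s := by
    have : 0 < s := by omega
    exact_mod_cast this
  -- coordinates on a line
  have hcoord : ∀ p : EuclideanSpace ℝ (Fin 3),
      ((HvL P p e).image (fun q => (inner ℝ e q : ℝ))).card = (HvL P p e).card := by
    intro p
    refine card_image_of_injOn ?_
    intro x hx y hy hxy
    obtain ⟨-, τ, rfl⟩ := mem_HvL.1 (mem_coe.1 hx)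
    obtain ⟨-, σ, rfl⟩ := mem_HvL.1 (mem_coe.1 hy)
    simp only [inner_add_right, inner_smul_right, Hv_inner_self he, mul_one] at hxy
    have : τ = σ := by linarith only [hxy]
    rw [this]
  have hconst : ∀ (p : EuclideanSpace ℝ (Fin 3)) (τ : ℝ), π (p + τ • e) = π p := by
    intro p τ
    have h2 := hπ (p + τ • e) p
    rw [dist_eq_norm, add_sub_cancel_left, norm_smul, he, Real.norm_eq_abs, mul_one, sq_abs,
      inner_add_right, inner_smul_right, Hv_inner_self he, mul_one] at h2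
    have h3 : dist (π (p + τ • e)) (π p) ^ 2 = 0 := by linarith only [h2]
    exact dist_eq_zero.1 ((pow_eq_zero_iff two_ne_zero).1 h3)
  -- distances seen from a projected point
  have hpin : ∀ g₀ ∈ G, (G.image (dist g₀)).card ≤ t₁ + 1 := by
    intro g₀ hg₀
    obtain ⟨p₀, hp₀, hp₀'⟩ := mem_image.1 hg₀
    set Hs : Finset ℝ := G.image (fun g => dist g₀ g ^ 2) with hHs
    have hle : (G.image (dist g₀)).card ≤ Hs.card := by
      have h2 : G.image (dist g₀) ⊆ Hs.image Real.sqrt := by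
        intro x hx
        obtain ⟨g, hgG, rfl⟩ := mem_image.1 hx
        exact mem_image.2 ⟨dist g₀ g ^ 2, mem_image.2 ⟨g, hgG, rfl⟩, Real.sqrt_sq dist_nonneg⟩
      exact (card_le_card h2).trans card_image_le
    have hch : ∀ h ∈ Hs, ∃ p, p ∈ HvB P e s ∧ dist g₀ (π p) ^ 2 = h := by
      intro h hh
      obtain ⟨g, hgG, rfl⟩ := mem_image.1 hh
      obtain ⟨p, hp, rfl⟩ := mem_image.1 hgG
      exact ⟨p, hp, rfl⟩
    choose! φ hφ using hch
    have key := par_lines_real ((HvL P p₀ e).image (fun q => (inner ℝ e q : ℝ))) (HvD P) Hs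
      (fun h => (HvL P (φ h) e).image (fun q => (inner ℝ e q : ℝ))) s hs
      (by rw [hcoord]; exact (mem_HvB.1 hp₀).2.1)
      (by intro h hh; rw [hcoord]; exact (mem_HvB.1 (hφ h hh).1).2.1)
      (by
        intro h hh a ha b hb
        obtain ⟨x, hx, rfl⟩ := mem_image.1 ha
        obtain ⟨y, hy, rfl⟩ := mem_image.1 hb
        obtain ⟨hxP, τ, hτ⟩ := mem_HvL.1 hx
        obtain ⟨hyP, σ, hσ⟩ := mem_HvL.1 hy
        have h2 := mem_HvD hxP hyP
        rw [hπ x y] at h2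
        have h3 : π x = g₀ := by rw [hτ, hconst, hp₀']
        have h4 : π y = π (φ h) := by rw [hσ, hconst]
        rw [h3, h4, (hφ h hh).2] at h2
        exact h2)
    have h2 : ((HvD P).card : ℝ) ≤ (t : ℝ) + 1 := by exact_mod_cast HvD_card ht
    have h3 : ((HvD P).card : ℝ) ^ 2 ≤ ((t : ℝ) + 1) ^ 2 := pow_le_pow_left₀ (by (clear * -; positivity)) h2 2
    have h4 : (s : ℝ) ^ 2 * (Hs.card : ℝ) < (s : ℝ) ^ 2 * ((t₁ : ℝ) + 2) := by linarith only [h1,
                                                                                 key, h3]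
    have h5 : (Hs.card : ℝ) < (t₁ : ℝ) + 2 := lt_of_mul_lt_mul_left h4 (by positivity)
    have h6 : Hs.card < t₁ + 2 := by exact_mod_cast h5
    omega
  have hGc : (G.card : ℝ) ≤ g := hg G hpin
  -- fibres
  have hfib : (HvB P e s).card ≤ 2 * s * G.card := by
    refine card_le_mul_card_image (f := π) (HvB P e s) (2 * s) ?_
    intro g₀ hg₀
    obtain ⟨p₀, hp₀, hp₀'⟩ := mem_image.1 hg₀
    refine (card_le_card ?_).trans (mem_HvB.1 hp₀).2.2.le
    intro q hq
    obtain ⟨hqB, hqg⟩ := mem_filter.1 hq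
    refine mem_HvL.2 ⟨(mem_HvB.1 hqB).1, ?_⟩
    exact hπ' p₀ q (by rw [hp₀', hqg])
  calc ((HvB P e s).card : ℝ) ≤ ((2 * s * G.card : ℕ) : ℝ) := by exact_mod_cast hfib
    _ = 2 * s * (G.card : ℝ) := by push_cast; ring
    _ ≤ 2 * s * g := by
        refine mul_le_mul_of_nonneg_left hGc (by positivity)

/-- a line has at most `32 (t + 1)` points -/
theorem Hv_line {P : Finset (EuclideanSpace ℝ (Fin 3))} {t : ℕ} (ht : (distances P).card ≤ t)
    (p : EuclideanSpace ℝ (Fin 3)) {e : EuclideanSpace ℝ (Fin 3)} (he : ‖e‖ = 1) :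
    (HvL P p e).card ≤ 32 * (t + 1) := by
  classical
  rcases Nat.lt_or_ge (HvL P p e).card 2 with h2 | h2
  · omega
  have hcoord : ((HvL P p e).image (fun q => (inner ℝ e q : ℝ))).card = (HvL P p e).card := by
    refine card_image_of_injOn ?_
    intro x hx y hy hxy
    obtain ⟨-, τ, rfl⟩ := mem_HvL.1 (mem_coe.1 hx)
    obtain ⟨-, σ, rfl⟩ := mem_HvL.1 (mem_coe.1 hy)
    simp only [inner_add_right, inner_smul_right, Hv_inner_self he, mul_one] at hxy
    have : τ = σ := by linarith only [hxy]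
    rw [this]
  have key := par_lines_real ((HvL P p e).image (fun q => (inner ℝ e q : ℝ))) (HvD P) {0}
    (fun _ => (HvL P p e).image (fun q => (inner ℝ e q : ℝ))) (HvL P p e).card h2 hcoord.ge
    (fun _ _ => hcoord.ge)
    (by
      intro h hh a ha b hb
      obtain ⟨x, hx, rfl⟩ := mem_image.1 ha
      obtain ⟨y, hy, rfl⟩ := mem_image.1 hb
      obtain ⟨hxP, τ, rfl⟩ := mem_HvL.1 hx
      obtain ⟨hyP, σ, rfl⟩ := mem_HvL.1 hy
      have h3 := mem_HvD hxP hyP
      rw [mem_singleton.1 hh, add_zero]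
      have h4 : dist (p + τ • e) (p + σ • e) = |τ - σ| := by
        rw [dist_eq_norm, add_sub_add_left_eq_sub, ← sub_smul, norm_smul, he, mul_one,
          Real.norm_eq_abs]
      rw [h4, sq_abs] at h3
      have h5 : (inner ℝ e (p + τ • e) : ℝ) - inner ℝ e (p + σ • e) = τ - σ := by
        simp only [inner_add_right, inner_smul_right, Hv_inner_self he, mul_one]
        ring
      rw [h5]
      exact h3)
  rw [card_singleton, Nat.cast_one, mul_one] at key
  have h2' : ((HvD P).card : ℝ) ≤ (t : ℝ) + 1 := by exact_mod_cast HvD_card ht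
  have h3 : ((HvD P).card : ℝ) ^ 2 ≤ ((t : ℝ) + 1) ^ 2 := pow_le_pow_left₀ (by (clear * -; positivity)) h2' 2
  have h4 : ((HvL P p e).card : ℝ) ^ 2 ≤ (32 * ((t : ℝ) + 1)) ^ 2 := by linarith only [key, h3,
                                                                          sq_nonneg ((t : ℝ) + 1)]
  have h5 := (pow_le_pow_iff_left₀ (by (clear * - h2; positivity)) (by positivity) two_ne_zero).1 h4
  exact_mod_cast h5

/-- the number of points at one scale -/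
theorem Hv_scale_bound (ε : ℝ) (hε : 0 < ε) : ∃ K : ℝ, 0 < K ∧
    ∀ (P : Finset (EuclideanSpace ℝ (Fin 3))) (t : ℕ), 1 ≤ t → (distances P).card ≤ t →
      ∀ e : EuclideanSpace ℝ (Fin 3), ‖e‖ = 1 → ∀ s : ℕ, 2 ≤ s → s ≤ 32 * (t + 1) →
        (t : ℝ) ^ ((2 : ℝ) / 3) ≤ s →
        ((HvB P e s).card : ℝ) ≤ K * (t : ℝ) ^ ((14 : ℝ) / 9 + ε / 3) := by
  obtain ⟨C₁, hC₁, hpin⟩ := main_pinned 2 (ε / 2) (half_pos hε)
  have hfe : fe 2 = 4 / 3 := by unfold fe; norm_num
  rw [hfe] at hpin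
  set β : ℝ := 4 / 3 + ε / 2 with hβ
  refine ⟨2 * C₁ * 8000 ^ β, by positivity, ?_⟩
  intro P t ht hd e he s hs hst hst'
  have htr : (1 : ℝ) ≤ t := by exact_mod_cast ht
  have hsr : (2 : ℝ) ≤ s := by exact_mod_cast hs
  have hs0 : (0 : ℝ) < s := by linarith only [hsr]
  have ht0 : (0 : ℝ) < t := by linarith only [htr]
  have hstr : (s : ℝ) ≤ 32 * ((t : ℝ) + 1) := by exact_mod_cast hst
  set y : ℝ := 2000 * ((t : ℝ) + 1) ^ 2 / (s : ℝ) ^ 2 with hy
  have hy1 : 1 ≤ y := by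
    rw [hy, le_div_iff₀ (by positivity)]
    have : (s : ℝ) ^ 2 ≤ (32 * ((t : ℝ) + 1)) ^ 2 := pow_le_pow_left₀ hs0.le hstr 2
    linarith only [this, sq_nonneg ((t : ℝ) + 1)]
  set t₁ : ℕ := ⌊y⌋₊ with ht₁
  have ht₁1 : 1 ≤ t₁ := Nat.le_floor (by exact_mod_cast hy1)
  have ht₁y : (t₁ : ℝ) ≤ y := Nat.floor_le (by linarith only [hy1])
  have hyt₁ : y < (t₁ : ℝ) + 1 := Nat.lt_floor_add_one y
  have hg := hpin t₁ ht₁1
  have h1 : 1000 * ((t : ℝ) + 1) ^ 2 < (s : ℝ) ^ 2 * ((t₁ : ℝ) + 2) := by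
    have h2 : (s : ℝ) ^ 2 * y = 2000 * ((t : ℝ) + 1) ^ 2 := by
      rw [hy]; (clear * - ht hs; field_simp)
    have h3 : (s : ℝ) ^ 2 * y < (s : ℝ) ^ 2 * ((t₁ : ℝ) + 2) :=
      mul_lt_mul_of_pos_left (by linarith only [hyt₁]) (by positivity)
    have h4 : 0 < ((t : ℝ) + 1) ^ 2 := by positivity
    linarith only [h2, h3, h4]
  have h2 := Hv_scale hd he hs hg h1
  refine h2.trans ?_
  have hβ0 : 0 ≤ β := by rw [hβ]; positivity
  have hy2 : y ≤ 8000 * ((t : ℝ) / s) ^ 2 := by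
    rw [hy, div_pow, mul_div_assoc', div_le_div_iff_of_pos_right (by positivity)]
    nlinarith only [htr]
  have h3 : (t₁ : ℝ) ^ β ≤ 8000 ^ β * ((t : ℝ) / s) ^ (2 * β) := by
    calc (t₁ : ℝ) ^ β ≤ (8000 * ((t : ℝ) / s) ^ 2) ^ β :=
          Real.rpow_le_rpow (by positivity) (ht₁y.trans hy2) hβ0
      _ = 8000 ^ β * ((t : ℝ) / s) ^ (2 * β) := by
          rw [Real.mul_rpow (by norm_num) (by positivity), ← Real.rpow_natCast,
            ← Real.rpow_mul (by positivity)]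
          norm_num
  have h4 : (s : ℝ) * ((t : ℝ) / s) ^ (2 * β) ≤ (t : ℝ) ^ ((14 : ℝ) / 9 + ε / 3) := by
    have h5 : (s : ℝ) * ((t : ℝ) / s) ^ (2 * β) = (t : ℝ) ^ (2 * β) * (s : ℝ) ^ (1 - 2 * β) := by
      rw [Real.div_rpow ht0.le hs0.le, Real.rpow_sub hs0, Real.rpow_one]
      ring
    have h6 : (s : ℝ) ^ (1 - 2 * β) ≤ ((t : ℝ) ^ ((2 : ℝ) / 3)) ^ (1 - 2 * β) := by
      refine Real.rpow_le_rpow_of_nonpos (by positivity) hst' ?_
      rw [hβ]; linarith only [hε]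
    rw [h5]
    calc (t : ℝ) ^ (2 * β) * (s : ℝ) ^ (1 - 2 * β)
        ≤ (t : ℝ) ^ (2 * β) * ((t : ℝ) ^ ((2 : ℝ) / 3)) ^ (1 - 2 * β) :=
          mul_le_mul_of_nonneg_left h6 (by positivity)
      _ = (t : ℝ) ^ ((14 : ℝ) / 9 + ε / 3) := by
          rw [← Real.rpow_mul ht0.le, ← Real.rpow_add ht0]
          congr 1
          rw [hβ]; ring
  calc 2 * (s : ℝ) * (C₁ * (t₁ : ℝ) ^ β)
      ≤ 2 * (s : ℝ) * (C₁ * (8000 ^ β * ((t : ℝ) / s) ^ (2 * β))) := by (clear * - hC₁ hs h3; gcongr)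
    _ = 2 * C₁ * 8000 ^ β * ((s : ℝ) * ((t : ℝ) / s) ^ (2 * β)) := by ring
    _ ≤ 2 * C₁ * 8000 ^ β * (t : ℝ) ^ ((14 : ℝ) / 9 + ε / 3) :=
        mul_le_mul_of_nonneg_left h4 (by positivity)

/-- the number of scales -/
theorem Hv_log (ε : ℝ) (hε : 0 < ε) : ∃ K : ℝ, 0 < K ∧ ∀ t : ℕ, 1 ≤ t →
    ((Nat.log 2 (32 * (t + 1)) + 1 : ℕ) : ℝ) ≤ K * (t : ℝ) ^ (ε / 3) := by
  have hl : 0 < Real.log 2 := Real.log_pos (by norm_num)
  refine ⟨64 ^ (ε / 3) / (ε / 3) / Real.log 2 + 1, by positivity, ?_⟩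
  intro t ht
  have htr : (1 : ℝ) ≤ t := by exact_mod_cast ht
  have h1 : Nat.log 2 (32 * (t + 1)) ≤ Nat.log 2 (64 * t) := Nat.log_mono_right (by omega)
  have h2 : ((Nat.log 2 (64 * t) : ℕ) : ℝ) ≤ Real.log (64 * t) / Real.log 2 := by
    rw [le_div_iff₀ hl, ← Real.log_pow]
    refine Real.log_le_log (by positivity) ?_
    have := Nat.pow_log_le_self 2 (show 64 * t ≠ 0 by omega)
    exact_mod_cast this
  have h3 : Real.log (64 * t) ≤ (64 * (t : ℝ)) ^ (ε / 3) / (ε / 3) :=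
    Real.log_le_rpow_div (by positivity) (by positivity)
  rw [Real.mul_rpow (by norm_num) (by positivity)] at h3
  have h4 : (1 : ℝ) ≤ (t : ℝ) ^ (ε / 3) := Real.one_le_rpow htr (by positivity)
  push_cast
  have h5 : ((Nat.log 2 (32 * (t + 1)) : ℕ) : ℝ) ≤ ((Nat.log 2 (64 * t) : ℕ) : ℝ) := by
    exact_mod_cast h1
  calc ((Nat.log 2 (32 * (t + 1)) : ℕ) : ℝ) + 1 ≤ Real.log (64 * t) / Real.log 2 + 1 := by linarith only [h2,
                                                                                             h5]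
    _ ≤ (64 ^ (ε / 3) * (t : ℝ) ^ (ε / 3) / (ε / 3)) / Real.log 2 + (t : ℝ) ^ (ε / 3) := by
        (clear * - h3 h4; gcongr)
    _ = (64 ^ (ε / 3) / (ε / 3) / Real.log 2 + 1) * (t : ℝ) ^ (ε / 3) := by ring

open scoped Classical in
/-- a subset given by a predicate -/
noncomputable def HvW {α : Type} (P : Finset α) (Q : α → Prop) : Finset α := P.filter Q

theorem mem_HvW {α : Type} {P : Finset α} {Q : α → Prop} {p : α} :
    p ∈ HvW P Q ↔ p ∈ P ∧ Q p := by
  classical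
  unfold HvW
  rw [mem_filter]

/-- union bound -/
theorem Hv_union {α ι : Type} (P : Finset α) (I : Finset ι) (Q : ι → α → Prop) (K : ℝ)
    (h : ∀ i ∈ I, ((HvW P (Q i)).card : ℝ) ≤ K) :
    ((HvW P (fun p => ∃ i ∈ I, Q i p)).card : ℝ) ≤ I.card * K := by
  classical
  have h1 : HvW P (fun p => ∃ i ∈ I, Q i p) ⊆ I.biUnion fun i => HvW P (Q i) := by
    intro p hp
    obtain ⟨hpP, i, hi, hq⟩ := mem_HvW.1 hp
    exact mem_biUnion.2 ⟨i, hi, mem_HvW.2 ⟨hpP, hq⟩⟩
  have h2 : ((HvW P (fun p => ∃ i ∈ I, Q i p)).card : ℝ) ≤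
      ∑ i ∈ I, ((HvW P (Q i)).card : ℝ) := by
    exact_mod_cast (card_le_card h1).trans card_biUnion_le
  refine h2.trans ((sum_le_sum h).trans ?_)
  rw [sum_const, nsmul_eq_mul]

/-- the scales -/
noncomputable def HvI (t : ℕ) : Finset ℕ :=
  (range (Nat.log 2 (32 * (t + 1)) + 1)).filter fun i =>
    ⌈(t:ℝ) ^ ((2:ℝ) / 3)⌉₊ ≤ 2 ^ i ∧ 2 ≤ 2 ^ i

/-- the points on heavy lines of one direction -/
theorem Hv_dir (ε : ℝ) (hε : 0 < ε) : ∃ K : ℝ, 0 < K ∧
    ∀ (P : Finset (EuclideanSpace ℝ (Fin 3))) (t : ℕ), 1 ≤ t → (distances P).card ≤ t →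
      ∀ e : EuclideanSpace ℝ (Fin 3), ‖e‖ = 1 →
        ((HvW P (fun p => ∃ i ∈ HvI t, p ∈ HvB P e (2 ^ i))).card : ℝ) ≤
          K * (t : ℝ) ^ ((14 : ℝ) / 9 + ε) := by
  obtain ⟨K₁, hK₁, hsc⟩ := Hv_scale_bound ε hε
  obtain ⟨K₂, hK₂, hlog⟩ := Hv_log ε hε
  refine ⟨K₂ * K₁, by positivity, ?_⟩
  intro P t ht hd e he
  have htr : (1 : ℝ) ≤ t := by exact_mod_cast ht
  have ht0 : (0 : ℝ) < t := by linarith only [htr]
  have h1 := Hv_union P (HvI t) (fun i p => p ∈ HvB P e (2 ^ i))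
    (K₁ * (t : ℝ) ^ ((14 : ℝ) / 9 + ε / 3)) (by
      intro i hi
      obtain ⟨hi1, hi2, hi3⟩ := mem_filter.1 hi
      have h2 : HvW P (fun p => p ∈ HvB P e (2 ^ i)) ⊆ HvB P e (2 ^ i) := by
        intro p hp
        exact (mem_HvW.1 hp).2
      have h3 : i ≤ Nat.log 2 (32 * (t + 1)) := by
        have := mem_range.1 hi1
        omega
      have h4 := hsc P t ht hd e he (2 ^ i) hi3
        ((Nat.pow_le_pow_right (by norm_num) h3).trans (Nat.pow_log_le_self 2 (by omega)))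
        ((Nat.le_ceil _).trans (by exact_mod_cast hi2))
      refine le_trans ?_ h4
      exact_mod_cast card_le_card h2)
  refine h1.trans ?_
  have h5 : ((HvI t).card : ℝ) ≤ K₂ * (t : ℝ) ^ (ε / 3) := by
    refine le_trans ?_ (hlog t ht)
    have h6 : (HvI t).card ≤ Nat.log 2 (32 * (t + 1)) + 1 := by
      unfold HvI
      exact (card_filter_le _ _).trans (by rw [card_range])
    exact_mod_cast h6
  have h3 : (t : ℝ) ^ (ε / 3) * (t : ℝ) ^ ((14 : ℝ) / 9 + ε / 3) ≤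
      (t : ℝ) ^ ((14 : ℝ) / 9 + ε) := by
    rw [← Real.rpow_add ht0]
    exact Real.rpow_le_rpow_of_exponent_le htr (by linarith only [hε])
  calc ((HvI t).card : ℝ) * (K₁ * (t : ℝ) ^ ((14 : ℝ) / 9 + ε / 3))
      ≤ (K₂ * (t : ℝ) ^ (ε / 3)) * (K₁ * (t : ℝ) ^ ((14 : ℝ) / 9 + ε / 3)) :=
        mul_le_mul_of_nonneg_right h5 (by positivity)
    _ = (K₂ * K₁) * ((t : ℝ) ^ (ε / 3) * (t : ℝ) ^ ((14 : ℝ) / 9 + ε / 3)) := by ring
    _ ≤ (K₂ * K₁) * (t : ℝ) ^ ((14 : ℝ) / 9 + ε) := mul_le_mul_of_nonneg_left h3 (by positivity)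

theorem Hv_index {P : Finset (EuclideanSpace ℝ (Fin 3))} {t : ℕ} (hd : (distances P).card ≤ t)
    {p f : EuclideanSpace ℝ (Fin 3)} (hp : p ∈ P) (hf : ‖f‖ = 1) {s : ℕ}
    (ht : 1 ≤ t) (hs16 : 16 * (t:ℝ) ^ ((2:ℝ) / 3) < s)
    (hsf : s ≤ (HvL P p f).card) : ∃ i ∈ HvI t, p ∈ HvB P f (2 ^ i) := by
  have htr : (1 : ℝ) ≤ t := by exact_mod_cast ht
  have ht23 : (1 : ℝ) ≤ (t:ℝ) ^ ((2:ℝ) / 3) := Real.one_le_rpow htr (by norm_num)
  have hs0 : 0 < s := by
    have : (0 : ℝ) < s := by linarith only [hs16, ht23]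
    exact_mod_cast this
  have hn0 : (HvL P p f).card ≠ 0 := by omega
  have hlow := Nat.pow_log_le_self 2 hn0
  have hupp := Nat.lt_pow_succ_log_self (b := 2) (by norm_num) (HvL P p f).card
  rw [pow_succ] at hupp
  have hn := Hv_line hd p hf
  have h3 : s < 2 * 2 ^ Nat.log 2 (HvL P p f).card := by omega
  have h2 : (s : ℝ) < 2 * ((2 ^ Nat.log 2 (HvL P p f).card : ℕ) : ℝ) := by exact_mod_cast h3
  refine ⟨Nat.log 2 (HvL P p f).card, ?_, mem_HvB.2 ⟨hp, hlow, by omega⟩⟩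
  unfold HvI
  rw [mem_filter]
  refine ⟨?_, ?_, ?_⟩
  · rw [mem_range, Nat.lt_succ_iff]
    exact Nat.log_mono_right hn
  · rw [Nat.ceil_le]
    linarith only [hs16, h2]
  · have h4 : (8 : ℝ) < ((2 ^ Nat.log 2 (HvL P p f).card : ℕ) : ℝ) := by linarith only [hs16, ht23, h2]
    have h5 : 8 < 2 ^ Nat.log 2 (HvL P p f).card := by exact_mod_cast h4
    omega

open scoped Classical in
/-- after deleting at most half of the points all lines are light -/
theorem light_subset (ε : ℝ) (hε : 0 < ε) : ∃ C : ℝ, 1 ≤ C ∧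
    ∀ (P : Finset (EuclideanSpace ℝ (Fin 3))) (t : ℕ), 1 ≤ t → (distances P).card ≤ t →
      C * (t:ℝ) ^ ((14:ℝ) / 9 + ε) ≤ P.card →
      ∃ P' ⊆ P, P.card ≤ 2 * P'.card ∧ ∀ q₁ ∈ P', ∀ q₂ ∈ P', q₁ ≠ q₂ →
        ((P'.filter (fun q => ∃ τ : ℝ, q = q₁ + τ • (q₂ - q₁))).card : ℝ)
          ≤ C * (t:ℝ) ^ ((2:ℝ) / 3 + ε) := by
  obtain ⟨K, hK, hdir⟩ := Hv_dir ε hε
  refine ⟨max 16 (6 * K), (by norm_num : (1 : ℝ) ≤ 16).trans (le_max_left _ _), ?_⟩
  intro P t ht hd hP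
  set C : ℝ := max 16 (6 * K) with hC
  have hC16 : 16 ≤ C := le_max_left _ _
  have hCK : 6 * K ≤ C := le_max_right _ _
  have htr : (1 : ℝ) ≤ t := by exact_mod_cast ht
  have ht0 : (0 : ℝ) < t := by linarith only [htr]
  obtain ⟨s, hs⟩ : ∃ s : ℕ, s = ⌊C * (t:ℝ) ^ ((2:ℝ) / 3 + ε)⌋₊ + 1 := ⟨_, rfl⟩
  have hsC : C * (t:ℝ) ^ ((2:ℝ) / 3 + ε) < s := by
    rw [hs]; push_cast; exact Nat.lt_floor_add_one _
  have hs16 : 16 * (t:ℝ) ^ ((2:ℝ) / 3) < s := by
    refine lt_of_le_of_lt ?_ hsC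
    refine mul_le_mul hC16 ?_ (by positivity) (by linarith only [hC16])
    exact Real.rpow_le_rpow_of_exponent_le htr (by linarith only [hε])
  have hs3 : 1000 * ((t : ℝ) + 1) ^ 2 < (s : ℝ) ^ 3 := by
    have h1 : (16 * (t:ℝ) ^ ((2:ℝ) / 3)) ^ 3 < (s : ℝ) ^ 3 :=
      pow_lt_pow_left₀ hs16 (by positivity) (by norm_num)
    have h2 : ((t:ℝ) ^ ((2:ℝ) / 3)) ^ 3 = (t : ℝ) ^ 2 := by
      rw [← Real.rpow_natCast, ← Real.rpow_mul ht0.le, ← Real.rpow_natCast]
      norm_num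
    rw [mul_pow, h2] at h1
    nlinarith only [htr, h1]
  obtain ⟨F, hF3, hF1, hF⟩ := Hv_select hd s hs3
  have hbadc := Hv_union P F (fun f p => ∃ i ∈ HvI t, p ∈ HvB P f (2 ^ i))
    (K * (t : ℝ) ^ ((14 : ℝ) / 9 + ε)) (fun f hf => hdir P t ht hd f (hF1 f hf))
  have hF3' : (F.card : ℝ) ≤ 3 := by exact_mod_cast hF3
  have hbad2 : 2 * ((HvW P (fun p => ∃ f ∈ F, ∃ i ∈ HvI t, p ∈ HvB P f (2 ^ i))).card : ℝ) ≤
      P.card := by
    have h0 : 0 ≤ K * (t : ℝ) ^ ((14 : ℝ) / 9 + ε) := by positivity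
    have h1 : (F.card : ℝ) * (K * (t : ℝ) ^ ((14 : ℝ) / 9 + ε)) ≤
        3 * (K * (t : ℝ) ^ ((14 : ℝ) / 9 + ε)) := mul_le_mul_of_nonneg_right hF3' h0
    have h4 : 6 * K * (t : ℝ) ^ ((14 : ℝ) / 9 + ε) ≤ P.card :=
      (mul_le_mul_of_nonneg_right hCK (by positivity)).trans hP
    linarith only [hbadc, h1, h4]
  refine ⟨HvW P (fun p => ∀ e : EuclideanSpace ℝ (Fin 3), ‖e‖ = 1 → (HvL P p e).card < s),
    fun p hp => (mem_HvW.1 hp).1, ?_, ?_⟩
  · have hsub : P ⊆ HvW P (fun p => ∀ e : EuclideanSpace ℝ (Fin 3), ‖e‖ = 1 →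
        (HvL P p e).card < s) ∪
        HvW P (fun p => ∃ f ∈ F, ∃ i ∈ HvI t, p ∈ HvB P f (2 ^ i)) := by
      intro p hpP
      rw [mem_union]
      by_cases hg : ∀ e : EuclideanSpace ℝ (Fin 3), ‖e‖ = 1 → (HvL P p e).card < s
      · exact Or.inl (mem_HvW.2 ⟨hpP, hg⟩)
      · right
        push Not at hg
        obtain ⟨e, he, hse⟩ := hg
        obtain ⟨f, hf, hsf⟩ := hF p hpP e he hse
        exact mem_HvW.2 ⟨hpP, f, hf, Hv_index hd hpP (hF1 f hf) ht hs16 hsf⟩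
    have h1 := (card_le_card hsub).trans (card_union_le _ _)
    have h3 : 2 * (HvW P (fun p => ∃ f ∈ F, ∃ i ∈ HvI t, p ∈ HvB P f (2 ^ i))).card ≤
      P.card := by exact_mod_cast hbad2
    omega
  · intro q₁ hq₁ q₂ hq₂ hne
    have hne' : q₂ - q₁ ≠ 0 := sub_ne_zero.2 hne.symm
    have hno : ‖q₂ - q₁‖ ≠ 0 := norm_ne_zero_iff.2 hne'
    have he : ‖(‖q₂ - q₁‖⁻¹ : ℝ) • (q₂ - q₁)‖ = 1 := by
      rw [norm_smul, norm_inv, norm_norm, inv_mul_cancel₀ hno]
    have h1 := (mem_HvW.1 hq₁).2 _ he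
    refine le_trans ?_ (Nat.floor_le (by positivity : 0 ≤ C * (t:ℝ) ^ ((2:ℝ) / 3 + ε)))
    rw [Nat.cast_le]
    have h3 : (HvL P q₁ ((‖q₂ - q₁‖⁻¹ : ℝ) • (q₂ - q₁))).card ≤
        ⌊C * (t:ℝ) ^ ((2:ℝ) / 3 + ε)⌋₊ := by
      rw [hs] at h1
      exact Nat.lt_succ_iff.1 h1
    refine (card_le_card ?_).trans h3
    intro q hq
    obtain ⟨hqP', τ, hτ⟩ := mem_filter.1 hq
    refine mem_HvL.2 ⟨(mem_HvW.1 hqP').1, τ * ‖q₂ - q₁‖, ?_⟩
    rw [smul_smul, mul_assoc, mul_inv_cancel₀ hno, mul_one]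
    exact hτ

end Vale.Agent.P054K
end
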