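import Vale.Agent.P054.MathlibUsed
import Vale.Agent.P054.Bdl.B7
import Vale.Agent.P054.Bdl.B8
import Vale.Agent.P054.Bdl.B5
import Vale.Agent.P054.Bdl.B1

set_option linter.all false

section

set_option autoImplicit false

open Finset

namespace Vale.Agent.P054K

/-- the final numerical contradiction -/
theorem SF_num (κ : ℝ) (hκ0 : 0 ≤ κ) (hκ1 : κ ≤ 1) (K : ℝ) (c : ℕ) (hK : 1 ≤ K)
    (K1 : ℝ) (c1 : ℕ) (hK1 : 1 ≤ K1) (C1 : ℝ) (hC1 : 1 ≤ C1) (α σ ξ η ρ : ℝ)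
    (T : ℝ) (hT : 1 ≤ T) (n x s : ℝ) (hn1 : T ^ α ≤ n)
    (hx0 : 0 ≤ x) (hx2 : x ≤ 2 * T ^ ξ) (hs1 : T ^ σ ≤ s)
    (e1 : (32 * (K * K1 ^ c)) * T ^ (c * ((c1 + 1) * η) + (2 + κ) * ξ - σ) ≤ T ^ α)
    (e2 : (32 * (K * K1 ^ c)) * T ^ (c * ((c1 + 1) * η) + 2 * ξ) ≤ T ^ α)
    (e3 : (32 * (K * K1 ^ c * C1)) * T ^ (c * ((c1 + 1) * η) + (1 + κ) * ξ + ρ - σ) ≤ T ^ α)
    (e4 : (32 * (K * K1 ^ c * C1)) * T ^ (c * ((c1 + 1) * η) + ξ + ρ) ≤ T ^ α)
    (hfin : n ≤ K * ((K1 * (T ^ η) ^ c1) * T ^ η) ^ c *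
      (x ^ 2 * x ^ κ / s + x ^ 2 + x * x ^ κ * (C1 * T ^ ρ) / s + x * (C1 * T ^ ρ))) : False := by
  have hT0 : 0 < T := by linarith only [hT]
  have hs0 : 0 < s := lt_of_lt_of_le (by positivity) hs1
  have hTξ : 0 < T ^ ξ := by positivity
  have hTρ : 0 < T ^ ρ := by positivity
  have hC0 : 0 < C1 := by linarith only [hC1]
  -- the prefactor
  have hpre : ((K1 * (T ^ η) ^ c1) * T ^ η) ^ c = K1 ^ c * T ^ (c * ((c1 + 1) * η)) := by
    have h1 : (K1 * (T ^ η) ^ c1) * T ^ η = K1 * T ^ ((c1 + 1) * η) := by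
      rw [rpow_nat_mul T η hT0.le c1, mul_assoc, ← Real.rpow_add hT0]
      congr 2
      ring
    rw [h1, mul_pow, rpow_nat_mul T _ hT0.le c]
  -- the terms
  have hx2' : x ^ 2 ≤ 4 * T ^ (2 * ξ) := by
    have h1 : x ^ 2 ≤ (2 * T ^ ξ) ^ 2 := pow_le_pow_left₀ hx0 hx2 2
    rw [mul_pow, rpow_nat_mul T ξ hT0.le 2] at h1
    push_cast at h1
    linarith only [h1]
  have hxκ : x ^ κ ≤ 2 * T ^ (κ * ξ) := by
    have h1 : x ^ κ ≤ (2 * T ^ ξ) ^ κ := Real.rpow_le_rpow hx0 hx2 hκ0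
    rw [Real.mul_rpow (by norm_num) hTξ.le, ← Real.rpow_mul hT0.le] at h1
    have h2 : (2:ℝ) ^ κ ≤ 2 := by
      calc (2:ℝ) ^ κ ≤ 2 ^ (1:ℝ) := Real.rpow_le_rpow_of_exponent_le (by norm_num) hκ1
        _ = 2 := Real.rpow_one 2
    calc x ^ κ ≤ 2 ^ κ * T ^ (ξ * κ) := h1
      _ ≤ 2 * T ^ (ξ * κ) := mul_le_mul_of_nonneg_right h2 (by positivity)
      _ = 2 * T ^ (κ * ξ) := by rw [mul_comm ξ κ]
  have hxκ0 : 0 ≤ x ^ κ := by (clear * - hx0; positivity)
  have hsinv : ∀ y : ℝ, 0 ≤ y → y / s ≤ y * T ^ (-σ) := by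
    intro y hy
    rw [Real.rpow_neg hT0.le, ← div_eq_mul_inv]
    exact div_le_div_of_nonneg_left hy (by positivity) hs1
  have t1 : x ^ 2 * x ^ κ / s ≤ 8 * T ^ ((2 + κ) * ξ - σ) := by
    have h1 : x ^ 2 * x ^ κ ≤ (4 * T ^ (2 * ξ)) * (2 * T ^ (κ * ξ)) :=
      mul_le_mul hx2' hxκ hxκ0 (by positivity)
    calc x ^ 2 * x ^ κ / s ≤ x ^ 2 * x ^ κ * T ^ (-σ) := hsinv _ (by (clear * - hx0; positivity))
      _ ≤ (4 * T ^ (2 * ξ)) * (2 * T ^ (κ * ξ)) * T ^ (-σ) :=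
          mul_le_mul_of_nonneg_right h1 (by positivity)
      _ = 8 * T ^ ((2 + κ) * ξ - σ) := by
          have h2 : (2 + κ) * ξ - σ = 2 * ξ + κ * ξ + (-σ) := by ring
          rw [h2, Real.rpow_add hT0, Real.rpow_add hT0]
          ring
  have t3 : x * x ^ κ * (C1 * T ^ ρ) / s ≤ 4 * C1 * T ^ ((1 + κ) * ξ + ρ - σ) := by
    have h1 : x * x ^ κ ≤ (2 * T ^ ξ) * (2 * T ^ (κ * ξ)) :=
      mul_le_mul hx2 hxκ hxκ0 (by positivity)
    have h3 : x * x ^ κ * (C1 * T ^ ρ) ≤ (2 * T ^ ξ) * (2 * T ^ (κ * ξ)) * (C1 * T ^ ρ) :=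
      mul_le_mul_of_nonneg_right h1 (by positivity)
    calc x * x ^ κ * (C1 * T ^ ρ) / s ≤ x * x ^ κ * (C1 * T ^ ρ) * T ^ (-σ) :=
          hsinv _ (by (clear * - hC1 hT hx0; positivity))
      _ ≤ (2 * T ^ ξ) * (2 * T ^ (κ * ξ)) * (C1 * T ^ ρ) * T ^ (-σ) :=
          mul_le_mul_of_nonneg_right h3 (by positivity)
      _ = 4 * C1 * T ^ ((1 + κ) * ξ + ρ - σ) := by
          have h2 : (1 + κ) * ξ + ρ - σ = ξ + κ * ξ + ρ + (-σ) := by ring
          rw [h2, Real.rpow_add hT0, Real.rpow_add hT0, Real.rpow_add hT0]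
          ring
  have t4 : x * (C1 * T ^ ρ) ≤ 2 * C1 * T ^ (ξ + ρ) := by
    calc x * (C1 * T ^ ρ) ≤ (2 * T ^ ξ) * (C1 * T ^ ρ) :=
          mul_le_mul_of_nonneg_right hx2 (by positivity)
      _ = _ := by rw [Real.rpow_add hT0]; ring
  have hE0 : 0 < T ^ (c * ((c1 + 1) * η)) := by positivity
  have hM : 0 < K * K1 ^ c := by positivity
  have hsum : x ^ 2 * x ^ κ / s + x ^ 2 + x * x ^ κ * (C1 * T ^ ρ) / s + x * (C1 * T ^ ρ) ≤
      8 * T ^ ((2 + κ) * ξ - σ) + 4 * T ^ (2 * ξ) + 4 * C1 * T ^ ((1 + κ) * ξ + ρ - σ) +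
        2 * C1 * T ^ (ξ + ρ) := by linarith only [hx2', t1, t3, t4]
  rw [hpre] at hfin
  have h5 : n ≤ K * (K1 ^ c * T ^ (c * ((c1 + 1) * η))) *
      (8 * T ^ ((2 + κ) * ξ - σ) + 4 * T ^ (2 * ξ) + 4 * C1 * T ^ ((1 + κ) * ξ + ρ - σ) +
        2 * C1 * T ^ (ξ + ρ)) :=
    hfin.trans (mul_le_mul_of_nonneg_left hsum (by positivity))
  have q1 : T ^ (c * ((c1 + 1) * η)) * T ^ ((2 + κ) * ξ - σ) =
      T ^ (c * ((c1 + 1) * η) + (2 + κ) * ξ - σ) := by
    rw [← Real.rpow_add hT0]; congr 1; ring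
  have q2 : T ^ (c * ((c1 + 1) * η)) * T ^ (2 * ξ) = T ^ (c * ((c1 + 1) * η) + 2 * ξ) := by
    rw [← Real.rpow_add hT0]
  have q3 : T ^ (c * ((c1 + 1) * η)) * T ^ ((1 + κ) * ξ + ρ - σ) =
      T ^ (c * ((c1 + 1) * η) + (1 + κ) * ξ + ρ - σ) := by
    rw [← Real.rpow_add hT0]; congr 1; ring
  have q4 : T ^ (c * ((c1 + 1) * η)) * T ^ (ξ + ρ) = T ^ (c * ((c1 + 1) * η) + ξ + ρ) := by
    rw [← Real.rpow_add hT0]; congr 1; ring
  have h6 : K * (K1 ^ c * T ^ (c * ((c1 + 1) * η))) *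
      (8 * T ^ ((2 + κ) * ξ - σ) + 4 * T ^ (2 * ξ) + 4 * C1 * T ^ ((1 + κ) * ξ + ρ - σ) +
        2 * C1 * T ^ (ξ + ρ)) =
      8 * (K * K1 ^ c) * T ^ (c * ((c1 + 1) * η) + (2 + κ) * ξ - σ) +
      4 * (K * K1 ^ c) * T ^ (c * ((c1 + 1) * η) + 2 * ξ) +
      4 * (K * K1 ^ c * C1) * T ^ (c * ((c1 + 1) * η) + (1 + κ) * ξ + ρ - σ) +
      2 * (K * K1 ^ c * C1) * T ^ (c * ((c1 + 1) * η) + ξ + ρ) := by
    rw [← q1, ← q2, ← q3, ← q4]; ring
  rw [h6] at h5
  have hTα : 0 < T ^ α := by positivity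
  have hp1 : 0 < (K * K1 ^ c) * T ^ (c * ((c1 + 1) * η) + (2 + κ) * ξ - σ) := by positivity
  have hp2 : 0 < (K * K1 ^ c) * T ^ (c * ((c1 + 1) * η) + 2 * ξ) := by positivity
  have hp3 : 0 < (K * K1 ^ c * C1) * T ^ (c * ((c1 + 1) * η) + (1 + κ) * ξ + ρ - σ) := by
    positivity
  have hp4 : 0 < (K * K1 ^ c * C1) * T ^ (c * ((c1 + 1) * η) + ξ + ρ) := by positivity
  linarith only [hn1, e1, e2, e3, e4, h5, hTα]


theorem SF_natceil (y : ℝ) (hy : 1 ≤ y) : y ≤ ⌈y⌉₊ ∧ ((⌈y⌉₊ : ℕ) : ℝ) ≤ 2 * y := by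
  refine ⟨Nat.le_ceil _, ?_⟩
  have := Nat.ceil_lt_add_one (show 0 ≤ y by linarith only [hy])
  linarith only [hy, this]

open scoped Classical in
theorem SF_dist {P Q : Finset E3} {t : ℕ} (hQP : Q ⊆ P) (hP : (distances P).card ≤ t) :
    ∀ p ∈ Q, (Q.image (dist p)).card ≤ t + 1 := by
  intro p hp
  have h1 : Q.image (dist p) ⊆ insert 0 (distances P) := by
    intro r hr
    obtain ⟨q, hq, rfl⟩ := mem_image.mp hr
    rcases eq_or_ne p q with h | h
    · subst h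
      rw [dist_self]
      exact mem_insert_self _ _
    · apply mem_insert_of_mem
      unfold distances
      exact mem_image.mpr ⟨(p, q), mem_offDiag.mpr ⟨hQP hp, hQP hq, h⟩, rfl⟩
  exact (card_le_card h1).trans ((card_insert_le _ _).trans (by omega))

theorem SF_log1 (T α ξ : ℝ) (hT : 1 ≤ T) (hα : 0 ≤ α) (hξ : 0 ≤ ξ) (n x : ℝ) (hn0 : 0 ≤ n)
    (hx0 : 0 ≤ x) (hn : n ≤ 2 * T ^ α) (hx : x ≤ 2 * T ^ ξ) :
    Real.log (n * x + 3) ≤ Real.log (7 * T ^ (α + 2 * ξ)) := by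
  have hT0 : 0 < T := by linarith only [hT]
  have hpow : (1:ℝ) ≤ T ^ (α + 2 * ξ) := Real.one_le_rpow hT (by linarith only [hα, hξ])
  have h1 : n * x + 3 ≤ 7 * T ^ (α + 2 * ξ) := by
    have h2 : n * x ≤ (2 * T ^ α) * (2 * T ^ ξ) := mul_le_mul hn hx hx0 (by positivity)
    have h3 : T ^ α * T ^ ξ ≤ T ^ (α + 2 * ξ) := by
      rw [← Real.rpow_add hT0]
      exact Real.rpow_le_rpow_of_exponent_le hT (by linarith only [hξ])
    linarith only [hpow, h2, h3]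
  exact Real.log_le_log (by positivity) h1

theorem SF_log2 (T α ξ : ℝ) (hT : 1 ≤ T) (hα : 0 ≤ α) (hξ : 0 ≤ ξ) (x : ℝ)
    (hx0 : 0 ≤ x) (hx : x ≤ 2 * T ^ ξ) :
    Real.log (x ^ 2 + 3) ≤ Real.log (7 * T ^ (α + 2 * ξ)) := by
  have hT0 : 0 < T := by linarith only [hT]
  have hpow : (1:ℝ) ≤ T ^ (α + 2 * ξ) := Real.one_le_rpow hT (by linarith only [hα, hξ])
  have h1 : x ^ 2 + 3 ≤ 7 * T ^ (α + 2 * ξ) := by
    have h2 : x ^ 2 ≤ (2 * T ^ ξ) ^ 2 := pow_le_pow_left₀ hx0 hx 2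
    rw [mul_pow, rpow_nat_mul T ξ hT0.le 2] at h2
    push_cast at h2
    have h3 : T ^ (2 * ξ) ≤ T ^ (α + 2 * ξ) :=
      Real.rpow_le_rpow_of_exponent_le hT (by linarith only [hα])
    linarith only [hpow, h2, h3]
  exact Real.log_le_log (by positivity) h1

theorem SF_size (T α ξ σ : ℝ) (hT : 1 ≤ T) (n x s : ℝ) (hs0 : 0 ≤ s) (hn : T ^ α ≤ n)
    (hx : x ≤ 2 * T ^ ξ) (hs : s ≤ 2 * T ^ σ) (hTσ : 1 ≤ T ^ σ)
    (a1 : (250 * 8) * T ^ (ξ + 3 * σ) ≤ T ^ α) :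
    4 * x * (2 * s + 1) ^ 3 ≤ n := by
  have hT0 : 0 < T := by linarith only [hT]
  have h2 : 2 * s + 1 ≤ 5 * T ^ σ := by linarith only [hs, hTσ]
  have h3 : (2 * s + 1) ^ 3 ≤ (5 * T ^ σ) ^ 3 := pow_le_pow_left₀ (by positivity) h2 3
  have h4 : 4 * x ≤ 8 * T ^ ξ := by linarith only [hx]
  have h5 : 4 * x * (2 * s + 1) ^ 3 ≤ (8 * T ^ ξ) * (5 * T ^ σ) ^ 3 :=
    mul_le_mul h4 h3 (by positivity) (by positivity)
  have h6 : (8 * T ^ ξ) * (5 * T ^ σ) ^ 3 = 1000 * T ^ (ξ + 3 * σ) := by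
    rw [mul_pow, rpow_nat_mul T σ hT0.le 3, Real.rpow_add hT0]
    push_cast
    ring
  have h7 : 0 < T ^ (ξ + 3 * σ) := by positivity
  rw [h6] at h5
  linarith only [hn, a1, h5, h7]

theorem SF_cap (K K1 : ℝ) (hK : 1 ≤ K) (hK1 : 1 ≤ K1) (c1 : ℕ) (T ξ σ η : ℝ) (hT : 1 ≤ T)
    (x s : ℝ) (hs0 : 0 < s) (hx : T ^ ξ ≤ x) (hs : T ^ σ ≤ s)
    (a2 : (K * K1 * 4) * T ^ (((c1:ℝ) + 1) * η + 1 - σ) ≤ T ^ ξ)
    (a2' : (K * K1 * 2) * T ^ ((c1:ℝ) * η) ≤ T ^ ξ) :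
    K * (K1 * (T ^ η) ^ c1) * ((T + 1) * T ^ η / s + 1) ≤ x := by
  have hT0 : 0 < T := by linarith only [hT]
  refine le_trans ?_ hx
  have h1 : (T + 1) * T ^ η / s ≤ 2 * T ^ (η + 1 - σ) := by
    have h2 : (T + 1) * T ^ η ≤ 2 * T * T ^ η := by
      apply mul_le_mul_of_nonneg_right _ (by positivity)
      linarith only [hT]
    calc (T + 1) * T ^ η / s ≤ (2 * T * T ^ η) / s := div_le_div_of_nonneg_right h2 hs0.le
      _ ≤ (2 * T * T ^ η) / T ^ σ := div_le_div_of_nonneg_left (by positivity) (by positivity) hs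
      _ = 2 * T ^ (η + 1 - σ) := by
        rw [Real.rpow_sub hT0, Real.rpow_add hT0, Real.rpow_one]
        ring
  have h3 : (T ^ η) ^ c1 = T ^ ((c1:ℝ) * η) := rpow_nat_mul T η hT0.le c1
  rw [h3]
  have h4 : K * (K1 * T ^ ((c1:ℝ) * η)) * ((T + 1) * T ^ η / s + 1) ≤
      K * (K1 * T ^ ((c1:ℝ) * η)) * (2 * T ^ (η + 1 - σ) + 1) :=
    mul_le_mul_of_nonneg_left (by linarith only [h1]) (by positivity)
  have h5 : K * (K1 * T ^ ((c1:ℝ) * η)) * (2 * T ^ (η + 1 - σ) + 1) =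
      2 * K * K1 * T ^ (((c1:ℝ) + 1) * η + 1 - σ) + K * K1 * T ^ ((c1:ℝ) * η) := by
    have h6 : ((c1:ℝ) + 1) * η + 1 - σ = (c1:ℝ) * η + (η + 1 - σ) := by ring
    rw [h6, Real.rpow_add hT0]
    ring
  linarith only [a2, a2', h4, h5]

open scoped Classical in
/-- the conclusion of `space_key` -/
def SF_Key (K : ℝ) (c : ℕ) : Prop := ∀ (P : Finset E3) (t x s : ℕ) (Λ g ν₀ B : ℝ),
      (∀ p ∈ P, (P.image (dist p)).card ≤ t + 1) → 1 ≤ s → 1 ≤ x →
      20 * (Real.log ((P.card:ℝ) * x + 3) + 1) ≤ Λ →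
      4 * x * (2 * s + 1) ^ 3 ≤ P.card → K * B * (((t:ℝ) + 1) * Λ / s + 1) ≤ x →
      K * Λ ^ c ≤ s →
      (∀ q₁ ∈ P, ∀ q₂ ∈ P, q₁ ≠ q₂ →
        ((P.filter (fun q => ∃ τ : ℝ, q = q₁ + τ • (q₂ - q₁))).card : ℝ) ≤ g) → 1 ≤ g →
      1 ≤ ν₀ → 1 ≤ B → (∀ X ⊆ P, X.card = x → Split X B ν₀) →
      (P.card : ℝ) ≤ K * (B * Λ) ^ c *
        ((x:ℝ) ^ 2 * ν₀ / s + (x:ℝ) ^ 2 + x * ν₀ * g / s + x * g)

/-- the conclusion of the hypothesis on classes -/
def SF_Class (κ K1 : ℝ) (c1 : ℕ) : Prop := ∀ (X : Finset E3) (Λ : ℝ), 1 ≤ X.card →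
      20 * (Real.log ((X.card : ℝ) ^ 2 + 3) + 1) ≤ Λ →
      Split X (K1 * Λ ^ c1) ((X.card : ℝ) ^ κ)

open scoped Classical in
/-- the conclusion of `light_subset` -/
def SF_Light (C1 ε1 : ℝ) : Prop :=
  ∀ (P : Finset (EuclideanSpace ℝ (Fin 3))) (t : ℕ), 1 ≤ t → (distances P).card ≤ t →
      C1 * (t:ℝ) ^ ((14:ℝ) / 9 + ε1) ≤ P.card →
      ∃ P' ⊆ P, P.card ≤ 2 * P'.card ∧ ∀ q₁ ∈ P', ∀ q₂ ∈ P', q₁ ≠ q₂ →
        ((P'.filter (fun q => ∃ τ : ℝ, q = q₁ + τ • (q₂ - q₁))).card : ℝ)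
          ≤ C1 * (t:ℝ) ^ ((2:ℝ) / 3 + ε1)

open scoped Classical in
theorem SF_core1 (κ : ℝ) (hκ0 : 0 ≤ κ) (K : ℝ) (c : ℕ) (hK : 1 ≤ K)
    (hkey : SF_Key K c)
    (K1 : ℝ) (c1 : ℕ) (hK1 : 1 ≤ K1) (hclass : SF_Class κ K1 c1)
    (C1 : ℝ) (hC1 : 1 ≤ C1) (ε1 : ℝ) (hε1 : 0 ≤ ε1)
    (α σ ξ η : ℝ) (hσ : 0 ≤ σ) (hξ : 0 ≤ ξ) (hη : 0 ≤ η) (hα : 0 ≤ α)
    (t : ℕ) (T : ℝ) (hTt : T = t) (hT : 1 ≤ T)
    (a1 : (250 * 8) * T ^ (ξ + 3 * σ) ≤ T ^ α)
    (a2 : (K * K1 * 4) * T ^ (((c1:ℝ) + 1) * η + 1 - σ) ≤ T ^ ξ)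
    (a2' : (K * K1 * 2) * T ^ ((c1:ℝ) * η) ≤ T ^ ξ)
    (a3 : K * T ^ ((c:ℝ) * η) ≤ T ^ σ)
    (a4 : 20 * (Real.log (7 * T ^ (α + 2 * ξ)) + 1) ≤ T ^ η)
    (Q : Finset E3) (hQ : ∀ p ∈ Q, (Q.image (dist p)).card ≤ t + 1) (n x s : ℕ)
    (hn1 : T ^ α ≤ n) (hn2 : (n:ℝ) ≤ 2 * T ^ α) (hx1 : T ^ ξ ≤ x) (hx2 : (x:ℝ) ≤ 2 * T ^ ξ)
    (hs1 : T ^ σ ≤ s) (hs2 : (s:ℝ) ≤ 2 * T ^ σ) (hQcard : Q.card = n)
    (hline : ∀ q₁ ∈ Q, ∀ q₂ ∈ Q, q₁ ≠ q₂ →
        ((Q.filter (fun q => ∃ τ : ℝ, q = q₁ + τ • (q₂ - q₁))).card : ℝ)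
          ≤ C1 * T ^ ((2:ℝ) / 3 + ε1)) :
    (n:ℝ) ≤ K * ((K1 * (T ^ η) ^ c1) * T ^ η) ^ c *
      ((x:ℝ) ^ 2 * (x:ℝ) ^ κ / s + (x:ℝ) ^ 2 + x * (x:ℝ) ^ κ * (C1 * T ^ ((2:ℝ) / 3 + ε1)) / s +
        x * (C1 * T ^ ((2:ℝ) / 3 + ε1))) := by
  have hT0 : 0 < T := by linarith only [hT]
  have hTσ : 1 ≤ T ^ σ := Real.one_le_rpow hT hσ
  have hTξ : 1 ≤ T ^ ξ := Real.one_le_rpow hT hξ
  have hTη : 1 ≤ T ^ η := Real.one_le_rpow hT hη
  have hx0 : (0:ℝ) < x := by linarith only [hx1, hTξ]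
  have hs0 : (0:ℝ) < s := by linarith only [hs1, hTσ]
  have hn0 : (0:ℝ) ≤ n := by (clear * -; positivity)
  have hx1' : 1 ≤ x := by
    have : (1:ℝ) ≤ x := by linarith only [hx1, hTξ]
    exact_mod_cast this
  have hs1' : 1 ≤ s := by
    have : (1:ℝ) ≤ s := by linarith only [hs1, hTσ]
    exact_mod_cast this
  have hlog1 : 20 * (Real.log ((Q.card:ℝ) * x + 3) + 1) ≤ T ^ η := by
    rw [hQcard]
    have := SF_log1 T α ξ hT hα hξ n x hn0 hx0.le hn2 hx2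
    linarith only [a4, this]
  have hlog2 : 20 * (Real.log ((x:ℝ) ^ 2 + 3) + 1) ≤ T ^ η := by
    have := SF_log2 T α ξ hT hα hξ x hx0.le hx2
    linarith only [a4, this]
  have hsz : 4 * x * (2 * s + 1) ^ 3 ≤ Q.card := by
    rw [hQcard]
    have := SF_size T α ξ σ hT n x s hs0.le hn1 hx2 hs2 hTσ a1
    exact_mod_cast this
  have hB1 : 1 ≤ K1 * (T ^ η) ^ c1 := by
    have : (1:ℝ) ≤ (T ^ η) ^ c1 := one_le_pow₀ hTη
    calc (1:ℝ) = 1 * 1 := by ring
      _ ≤ K1 * (T ^ η) ^ c1 := mul_le_mul hK1 this zero_le_one (by linarith only [hK1])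
  have hcap : K * (K1 * (T ^ η) ^ c1) * (((t:ℝ) + 1) * T ^ η / s + 1) ≤ x := by
    rw [← hTt]
    exact SF_cap K K1 hK hK1 c1 T ξ σ η hT x s hs0 hx1 hs1 a2 a2'
  have hKs : K * (T ^ η) ^ c ≤ s := by
    rw [rpow_nat_mul T η hT0.le c]
    exact a3.trans hs1
  have hg1 : 1 ≤ C1 * T ^ ((2:ℝ) / 3 + ε1) := by
    have : (1:ℝ) ≤ T ^ ((2:ℝ) / 3 + ε1) := Real.one_le_rpow hT (by linarith only [hε1])
    calc (1:ℝ) = 1 * 1 := by ring
      _ ≤ C1 * T ^ ((2:ℝ) / 3 + ε1) := mul_le_mul hC1 this zero_le_one (by linarith only [hC1])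
  have hν1 : 1 ≤ (x:ℝ) ^ κ := Real.one_le_rpow (by linarith only [hx1, hTξ]) hκ0
  have hsplit : ∀ X ⊆ Q, X.card = x → Split X (K1 * (T ^ η) ^ c1) ((x:ℝ) ^ κ) := by
    intro X _ hXc
    have := hclass X (T ^ η) (by omega) (by rw [hXc]; exact hlog2)
    rw [hXc] at this
    exact this
  have hfin := hkey Q t x s (T ^ η) (C1 * T ^ ((2:ℝ) / 3 + ε1)) ((x:ℝ) ^ κ)
    (K1 * (T ^ η) ^ c1) hQ hs1' hx1' hlog1 hsz hcap hKs hline hg1 hν1 hB1 hsplit
  rw [hQcard] at hfin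
  exact hfin

open scoped Classical in
theorem SF_core (κ : ℝ) (hκ0 : 0 ≤ κ) (hκ1 : κ ≤ 1) (K : ℝ) (c : ℕ) (hK : 1 ≤ K)
    (hkey : SF_Key K c) (K1 : ℝ) (c1 : ℕ) (hK1 : 1 ≤ K1) (hclass : SF_Class κ K1 c1)
    (C1 : ℝ) (hC1 : 1 ≤ C1) (ε1 : ℝ) (hε1 : 0 ≤ ε1) (hlight : SF_Light C1 ε1)
    (α σ ξ η : ℝ) (hσ : 0 ≤ σ) (hξ : 0 ≤ ξ) (hη : 0 ≤ η) (hα : 0 ≤ α)
    (t : ℕ) (T : ℝ) (hTt : T = t) (hT : 1 ≤ T)
    (a1 : (250 * 8) * T ^ (ξ + 3 * σ) ≤ T ^ α)
    (a2 : (K * K1 * 4) * T ^ (((c1:ℝ) + 1) * η + 1 - σ) ≤ T ^ ξ)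
    (a2' : (K * K1 * 2) * T ^ ((c1:ℝ) * η) ≤ T ^ ξ)
    (a3 : K * T ^ ((c:ℝ) * η) ≤ T ^ σ)
    (a4 : 20 * (Real.log (7 * T ^ (α + 2 * ξ)) + 1) ≤ T ^ η)
    (a5 : C1 * T ^ ((14:ℝ) / 9 + ε1) ≤ T ^ α)
    (e1 : (32 * (K * K1 ^ c)) * T ^ (c * ((c1 + 1) * η) + (2 + κ) * ξ - σ) ≤ T ^ α)
    (e2 : (32 * (K * K1 ^ c)) * T ^ (c * ((c1 + 1) * η) + 2 * ξ) ≤ T ^ α)
    (e3 : (32 * (K * K1 ^ c * C1)) *
      T ^ (c * ((c1 + 1) * η) + (1 + κ) * ξ + ((2:ℝ) / 3 + ε1) - σ) ≤ T ^ α)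
    (e4 : (32 * (K * K1 ^ c * C1)) *
      T ^ (c * ((c1 + 1) * η) + ξ + ((2:ℝ) / 3 + ε1)) ≤ T ^ α)
    (P : Finset E3) (hP : (distances P).card ≤ t) : (P.card : ℝ) ≤ 4 * T ^ α := by
  by_contra hcon
  push Not at hcon
  have ht1 : 1 ≤ t := by
    have : (1:ℝ) ≤ t := by rw [← hTt]; exact hT
    exact_mod_cast this
  have hTα : 1 ≤ T ^ α := Real.one_le_rpow hT hα
  have hTσ : 1 ≤ T ^ σ := Real.one_le_rpow hT hσ
  have hTξ : 1 ≤ T ^ ξ := Real.one_le_rpow hT hξ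
  obtain ⟨P', hP'sub, hP'card, hline⟩ := hlight P t ht1 hP (by
    rw [← hTt]; linarith only [a5, hcon])
  obtain ⟨n, hn⟩ : ∃ n : ℕ, n = ⌈T ^ α⌉₊ := ⟨_, rfl⟩
  obtain ⟨x, hx⟩ : ∃ x : ℕ, x = ⌈T ^ ξ⌉₊ := ⟨_, rfl⟩
  obtain ⟨s, hs⟩ : ∃ s : ℕ, s = ⌈T ^ σ⌉₊ := ⟨_, rfl⟩
  obtain ⟨hn1, hn2⟩ := SF_natceil _ hTα
  obtain ⟨hx1, hx2⟩ := SF_natceil _ hTξ
  obtain ⟨hs1, hs2⟩ := SF_natceil _ hTσ
  rw [← hn] at hn1 hn2
  rw [← hx] at hx1 hx2
  rw [← hs] at hs1 hs2
  have hnP' : n ≤ P'.card := by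
    have h1 : (P.card : ℝ) ≤ 2 * (P'.card : ℝ) := by exact_mod_cast hP'card
    have h2 : (n:ℝ) ≤ P'.card := by linarith only [hcon, hn2, h1]
    exact_mod_cast h2
  obtain ⟨Q, hQsub, hQcard⟩ := exists_subset_card_eq hnP'
  have hdist := SF_dist (hQsub.trans hP'sub) hP
  have hlineQ : ∀ q₁ ∈ Q, ∀ q₂ ∈ Q, q₁ ≠ q₂ →
        ((Q.filter (fun q => ∃ τ : ℝ, q = q₁ + τ • (q₂ - q₁))).card : ℝ) ≤
          C1 * T ^ ((2:ℝ) / 3 + ε1) := by
    intro q₁ h1 q₂ h2 hne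
    have h3 := hline q₁ (hQsub h1) q₂ (hQsub h2) hne
    rw [← hTt] at h3
    refine le_trans ?_ h3
    exact_mod_cast card_le_card (filter_subset_filter _ hQsub)
  have hfin := SF_core1 κ hκ0 K c hK hkey K1 c1 hK1 hclass C1 hC1 ε1 hε1 α σ ξ η hσ hξ hη hα
    t T hTt hT a1 a2 a2' a3 a4 Q hdist n x s hn1 hn2 hx1 hx2 hs1 hs2 hQcard hlineQ
  exact SF_num κ hκ0 hκ1 K c hK K1 c1 hK1 C1 hC1 α σ ξ η ((2:ℝ) / 3 + ε1) T hT n x s hn1
    (by (clear * -; positivity)) hx2 hs1 e1 e2 e3 e4 hfin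

/-- the exponent -/
theorem SF_exp (κ : ℝ) (hκ0 : 3 / 5 ≤ κ) (hκ1 : κ ≤ 1) :
    ∃ a : ℝ, a = (7 + 3 * κ) / (5 + κ) ∧ (5 + κ) * a = 7 + 3 * κ ∧ 14 / 9 < a ∧ a ≤ 5 / 3 := by
  refine ⟨_, rfl, ?_, ?_, ?_⟩
  · field_simp
  · rw [lt_div_iff₀ (by linarith only [hκ0])]; linarith only [hκ0]
  · rw [div_le_iff₀ (by linarith)]; linarith only [hκ1]

/-- linear bounds for the exponents -/
theorem SF_lin (κ a δ z : ℝ) (hκ0 : 3 / 5 ≤ κ) (hκ1 : κ ≤ 1) (ha1 : (5 + κ) * a = 7 + 3 * κ)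
    (ha2 : 14 / 9 < a) (ha3 : a ≤ 5 / 3) (hδ0 : 0 < δ) (hδ2 : δ ≤ 1 / 10) (hz : z ≤ δ / 40)
    (α σ ξ : ℝ) (hα : α = a + δ) (hσ : σ = (α - 1) / 2 - δ / 20) (hξ : ξ = 1 - σ + δ / 20) :
    z + (2 + κ) * ξ - σ < α ∧ z + 2 * ξ < α ∧
      z + (1 + κ) * ξ + ((2:ℝ) / 3 + δ / 20) - σ < α ∧ z + ξ + ((2:ℝ) / 3 + δ / 20) < α := by
  have hκδ : κ * δ ≤ δ := by nlinarith only [hκ1, hδ0]
  have hκδ0 : 0 ≤ κ * δ := by nlinarith only [hδ0, hκ0]
  subst hξ hσ hα
  refine ⟨?_, ?_, ?_, ?_⟩ <;> nlinarith only [ha1, hδ0, hz, hκδ0, ha2, hδ2, ha3]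

open scoped Classical in
/-- upper bound for the number of points of a set with few distances in space -/
theorem space_exponent (κ : ℝ) (hκ0 : 3 / 5 ≤ κ) (hκ1 : κ ≤ 1) (h : ClassProp κ) (ε : ℝ)
    (hε : 0 < ε) : ∃ C : ℝ, 1 ≤ C ∧
    ∀ (P : Finset E3) (t : ℕ), 1 ≤ t → (distances P).card ≤ t →
      (P.card : ℝ) ≤ C * (t:ℝ) ^ ((7 + 3 * κ) / (5 + κ) + ε) := by
  obtain ⟨K, c, hK, hkey⟩ : ∃ (K : ℝ) (c : ℕ), 1 ≤ K ∧ SF_Key K c := space_key
  obtain ⟨K1, c1, hK1, hclass⟩ : ∃ (K1 : ℝ) (c1 : ℕ), 1 ≤ K1 ∧ SF_Class κ K1 c1 := h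
  obtain ⟨a, ha, ha1, ha2, ha3⟩ := SF_exp κ hκ0 hκ1
  rw [← ha]
  obtain ⟨δ, hδ⟩ : ∃ δ : ℝ, δ = min ε (1 / 10) := ⟨_, rfl⟩
  have hδ0 : 0 < δ := by rw [hδ]; exact lt_min hε (by norm_num)
  have hδ1 : δ ≤ ε := by rw [hδ]; exact min_le_left _ _
  have hδ2 : δ ≤ 1 / 10 := by rw [hδ]; exact min_le_right _ _
  clear hδ
  obtain ⟨C1, hC1, hlight⟩ : ∃ C1 : ℝ, 1 ≤ C1 ∧ SF_Light C1 (δ / 20) :=
    light_subset (δ / 20) (by linarith only [hδ0])
  obtain ⟨α, hα⟩ : ∃ α : ℝ, α = a + δ := ⟨_, rfl⟩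
  obtain ⟨σ, hσ⟩ : ∃ σ : ℝ, σ = (α - 1) / 2 - δ / 20 := ⟨_, rfl⟩
  obtain ⟨ξ, hξ⟩ : ∃ ξ : ℝ, ξ = 1 - σ + δ / 20 := ⟨_, rfl⟩
  have hc0 : (0:ℝ) ≤ c := by (clear * -; positivity)
  have hc10 : (0:ℝ) ≤ c1 := by (clear * -; positivity)
  obtain ⟨η, hη0, hηe⟩ : ∃ η : ℝ, 0 < η ∧ ((c:ℝ) + 1) * ((c1 + 1) * η) = δ / 40 := by
    refine ⟨δ / (40 * ((c + 1) * (c1 + 1))), by positivity, ?_⟩
    (clear * - hδ0; field_simp)
  have hp1 : 0 ≤ (c:ℝ) * ((c1:ℝ) * η) := by (clear * - hη0; positivity)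
  have hp2 : 0 ≤ (c:ℝ) * η := by (clear * - hη0; positivity)
  have hp3 : 0 ≤ (c1:ℝ) * η := by (clear * - hη0; positivity)
  have hη1 : (c:ℝ) * ((c1 + 1) * η) ≤ δ / 40 := by linarith only [hη0, hηe, hp3]
  have hη2 : ((c1:ℝ) + 1) * η ≤ δ / 40 := by linarith only [hηe, hp1, hp2]
  have hη3 : (c1:ℝ) * η ≤ δ / 40 := by linarith only [hη0, hηe, hp1, hp2]
  have hη4 : (c:ℝ) * η ≤ δ / 40 := by linarith only [hη0, hηe, hp1, hp3]
  have hα0 : 0 ≤ α := by linarith only [ha2, hδ0, hα]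
  have hσ0 : 1 / 5 ≤ σ := by linarith only [ha2, hδ0, hα, hσ]
  have hξ0 : 1 / 2 ≤ ξ := by linarith only [ha3, hδ2, hα, hσ, hξ]
  obtain ⟨l1, l2, l3, l4⟩ := SF_lin κ a δ (c * ((c1 + 1) * η)) hκ0 hκ1 ha1 ha2 ha3 hδ0 hδ2 hη1
    α σ ξ hα hσ hξ
  -- thresholds
  obtain ⟨T1, hT1, ev1⟩ := ev_rpow (250 * 8) (ξ + 3 * σ) α (by linarith only [hδ0, hσ, hξ])
  obtain ⟨T2, hT2, ev2⟩ := ev_rpow (K * K1 * 4) (((c1:ℝ) + 1) * η + 1 - σ) ξ (by linarith only [hξ, hη0, hηe, hp1, hp2, hp3])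
  obtain ⟨T3, hT3, ev3⟩ := ev_rpow (K * K1 * 2) ((c1:ℝ) * η) ξ (by linarith only [ha3, hδ2, hα, hσ, hξ, hη0, hηe, hp1, hp2])
  obtain ⟨T4, hT4, ev4⟩ := ev_rpow K ((c:ℝ) * η) σ (by linarith only [ha2, hδ0, hα, hσ, hη0, hηe, hp1, hp3])
  obtain ⟨T5, hT5, ev5⟩ := ev_log (α + 2 * ξ) η hη0
  obtain ⟨T6, hT6, ev6⟩ := ev_rpow C1 ((14:ℝ) / 9 + δ / 20) α (by linarith only [ha2, hδ0, hα])
  obtain ⟨T7, hT7, ev7⟩ := ev_rpow (32 * (K * K1 ^ c)) _ α l1
  obtain ⟨T8, hT8, ev8⟩ := ev_rpow (32 * (K * K1 ^ c)) _ α l2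
  obtain ⟨T9, hT9, ev9⟩ := ev_rpow (32 * (K * K1 ^ c * C1)) _ α l3
  obtain ⟨T10, hT10, ev10⟩ := ev_rpow (32 * (K * K1 ^ c * C1)) _ α l4
  clear l1 l2 l3 l4
  obtain ⟨T0, hT0⟩ : ∃ T0 : ℝ, T0 = T1 + T2 + T3 + T4 + T5 + T6 + T7 + T8 + T9 + T10 := ⟨_, rfl⟩
  obtain ⟨N, hN⟩ : ∃ N : ℕ, N = ⌈T0⌉₊ := ⟨_, rfl⟩
  have hNT : T0 ≤ N := by rw [hN]; exact Nat.le_ceil _
  have hN1 : (1:ℝ) ≤ N := by linarith only [hT1, hT2, hT3, hT4, hT5, hT6, hT7, hT8, hT9, hT10, hT0, hNT]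
  have hbig : ∀ (P : Finset E3) (t : ℕ), N ≤ t → (distances P).card ≤ t →
      (P.card : ℝ) ≤ 4 * (t:ℝ) ^ α := by
    intro P t ht hP
    have hNt : (N:ℝ) ≤ t := by exact_mod_cast ht
    have hb : T0 ≤ t := hNT.trans hNt
    exact SF_core κ (by linarith only [hκ0]) hκ1 K c hK hkey K1 c1 hK1 hclass C1 hC1 (δ / 20) (by linarith only [hδ0])
      hlight α σ ξ η (by linarith only [ha2, hδ0, hα, hσ]) (by linarith only [ha3, hδ2, hα, hσ, hξ]) hη0.le hα0 t t rfl (by linarith only [hT1, hT2, hT3, hT4, hT5, hT6, hT7, hT8, hT9, hT10, hT0, hNT, hNt])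
      (ev1 t (by linarith only [hT2, hT3, hT4, hT5, hT6, hT7, hT8, hT9, hT10, hT0, hNT, hNt])) (ev2 t (by linarith only [hT1, hT3, hT4, hT5, hT6, hT7, hT8, hT9, hT10, hT0, hNT, hNt])) (ev3 t (by linarith only [hT1, hT2, hT4, hT5, hT6, hT7, hT8, hT9, hT10, hT0, hNT, hNt])) (ev4 t (by linarith only [hT1, hT2, hT3, hT5, hT6, hT7, hT8, hT9, hT10, hT0, hNT, hNt]))
      (ev5 t (by linarith only [hT1, hT2, hT3, hT4, hT6, hT7, hT8, hT9, hT10, hT0, hNT, hNt])) (ev6 t (by linarith only [hT1, hT2, hT3, hT4, hT5, hT7, hT8, hT9, hT10, hT0, hNT, hNt])) (ev7 t (by linarith only [hT1, hT2, hT3, hT4, hT5, hT6, hT8, hT9, hT10, hT0, hNT, hNt])) (ev8 t (by linarith only [hT1, hT2, hT3, hT4, hT5, hT6, hT7, hT9, hT10, hT0, hNT, hNt]))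
      (ev9 t (by linarith only [hT1, hT2, hT3, hT4, hT5, hT6, hT7, hT8, hT10, hT0, hNT, hNt])) (ev10 t (by linarith only [hT1, hT2, hT3, hT4, hT5, hT6, hT7, hT8, hT9, hT0, hNT, hNt])) P hP
  have hNα : 1 ≤ (N:ℝ) ^ α := Real.one_le_rpow hN1 hα0
  refine ⟨4 * (N:ℝ) ^ α, by linarith only [hNα], ?_⟩
  intro P t ht hP
  have ht' : (1:ℝ) ≤ t := by exact_mod_cast ht
  have h4 : 1 ≤ (t:ℝ) ^ (a + ε) := Real.one_le_rpow ht' (by linarith only [hε, ha2])
  rcases le_or_gt N t with h1 | h1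
  · have h2 := hbig P t h1 hP
    have h3 : (t:ℝ) ^ α ≤ (t:ℝ) ^ (a + ε) :=
      Real.rpow_le_rpow_of_exponent_le ht' (by linarith only [hδ1, hα])
    calc (P.card : ℝ) ≤ 4 * (t:ℝ) ^ α := h2
      _ ≤ 4 * (t:ℝ) ^ (a + ε) := by linarith only [h3]
      _ ≤ 4 * (N:ℝ) ^ α * (t:ℝ) ^ (a + ε) := mul_le_mul_of_nonneg_right (by linarith only [hNα]) (by linarith only [h4])
  · have h2 := hbig P N le_rfl (by omega)
    calc (P.card : ℝ) ≤ 4 * (N:ℝ) ^ α := h2
      _ = 4 * (N:ℝ) ^ α * 1 := by ring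
      _ ≤ 4 * (N:ℝ) ^ α * (t:ℝ) ^ (a + ε) := mul_le_mul_of_nonneg_left h4 (by linarith only [hNα])

end Vale.Agent.P054K
end

section

set_option autoImplicit false

open Finset

namespace Vale.Agent.P054K

open scoped Classical in
theorem greedy_pencils_aux {V : Type} [AddCommGroup V] [Module ℝ V] (δ : ℝ)
    (hδ : 0 < δ) (hδ1 : δ ≤ 1) (n : ℕ) : ∀ R : Finset V, R.card = n →
    ∃ (R' : Finset V) (A : Finset (Submodule ℝ V)), R' ⊆ R ∧
      (R = ∅ → A = ∅) ∧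
      ((A.card : ℝ) ≤ Real.log (R.card) / δ + 1) ∧
      (∀ S ∈ A, ∃ v ∈ R, ∃ w ∈ R, v ≠ w ∧ S = Submodule.span ℝ {v, w}) ∧
      (∀ u ∈ R, u ∉ R' → ∃ S ∈ A, u ∈ S) ∧
      (∀ v ∈ R', ∀ w ∈ R', v ≠ w →
        ((R'.filter (fun u => u ∈ Submodule.span ℝ {v, w})).card : ℝ) ≤ δ * R'.card) := by
  induction n using Nat.strong_induction_on with
  | _ n ih =>
    intro R hR
    by_cases hgood : ∀ v ∈ R, ∀ w ∈ R, v ≠ w →
        ((R.filter (fun u => u ∈ Submodule.span ℝ {v, w})).card : ℝ) ≤ δ * R.card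
    · refine ⟨R, ∅, Subset.refl _, fun _ => rfl, ?_, ?_, ?_, hgood⟩
      · have h1 : 0 ≤ Real.log (R.card) := Real.log_natCast_nonneg _
        have h2 : 0 ≤ Real.log (R.card) / δ := div_nonneg h1 hδ.le
        simp only [card_empty, Nat.cast_zero]
        linarith only [h2]
      · intro S hS
        simp at hS
      · intro u hu hu'
        exact absurd hu hu'
    · push Not at hgood
      obtain ⟨v, hv, w, hw, hvw, hbig⟩ := hgood
      set S : Submodule ℝ V := Submodule.span ℝ {v, w} with hS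
      set R1 : Finset V := R.filter (fun u => u ∉ S) with hR1
      have hsum : (R.filter (fun u => u ∈ S)).card + R1.card = R.card := by
        rw [hR1]
        exact card_filter_add_card_filter_not (s := R) (fun u => u ∈ S)
      have hRpos : 0 < R.card := card_pos.2 ⟨v, hv⟩
      have hRposR : (0 : ℝ) < R.card := by exact_mod_cast hRpos
      have hsumR : ((R.filter (fun u => u ∈ S)).card : ℝ) + R1.card = R.card := by
        exact_mod_cast hsum
      have hR1lt : (R1.card : ℝ) < (1 - δ) * R.card := by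
        have : (1 - δ) * (R.card : ℝ) = R.card - δ * R.card := by ring
        rw [this]
        linarith only [hbig, hsumR]
      have hcardlt : R1.card < n := by
        have h1 : (R1.card : ℝ) < n := by
          rw [← hR]
          have : (1 - δ) * (R.card : ℝ) ≤ R.card := by
            have : 0 < δ * (R.card : ℝ) := mul_pos hδ hRposR
            linarith only [this]
          linarith only [hbig, hsumR, this]
        exact_mod_cast h1
      obtain ⟨R', A, hsub, hemp, hcard, hspan, hcov, hgood'⟩ := ih R1.card hcardlt R1 rfl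
      refine ⟨R', insert S A, hsub.trans (filter_subset _ _), ?_, ?_, ?_, ?_, hgood'⟩
      · intro h
        rw [h] at hv
        simp at hv
      · have hins : ((insert S A).card : ℝ) ≤ A.card + 1 := by
          exact_mod_cast card_insert_le S A
        by_cases hR1e : R1 = ∅
        · have hA : A = ∅ := hemp hR1e
          have h1 : 0 ≤ Real.log (R.card) := Real.log_natCast_nonneg _
          have h2 : 0 ≤ Real.log (R.card) / δ := div_nonneg h1 hδ.le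
          rw [hA] at hins ⊢
          simp only [card_empty, Nat.cast_zero] at hins
          linarith only [h2, hins]
        · have hR1pos : 0 < R1.card := card_pos.2 (nonempty_iff_ne_empty.2 hR1e)
          have hR1posR : (0 : ℝ) < R1.card := by exact_mod_cast hR1pos
          have h1δ : 0 < 1 - δ := by
            by_contra hcon
            push Not at hcon
            have : (1 - δ) * (R.card : ℝ) ≤ 0 := mul_nonpos_of_nonpos_of_nonneg hcon hRposR.le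
            linarith only [hbig, hsumR, hR1posR, this]
          have hlog1 : Real.log (R1.card) ≤ Real.log ((1 - δ) * R.card) :=
            Real.log_le_log hR1posR hR1lt.le
          have hlog2 : Real.log ((1 - δ) * R.card) = Real.log (1 - δ) + Real.log R.card :=
            Real.log_mul h1δ.ne' hRposR.ne'
          have hlog3 : Real.log (1 - δ) ≤ -δ := by
            have := Real.log_le_sub_one_of_pos h1δ
            linarith only [this]
          have hlog : Real.log (R1.card) ≤ Real.log R.card - δ := by linarith only [hlog1, hlog2, hlog3]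
          have hdiv : Real.log (R1.card) / δ ≤ Real.log R.card / δ - 1 := by
            rw [div_le_iff₀ hδ, sub_mul, div_mul_cancel₀ _ hδ.ne']
            linarith only [hlog1, hlog2, hlog3]
          linarith only [hcard, hins, hdiv]
      · intro T hT
        rw [mem_insert] at hT
        rcases hT with hT | hT
        · exact ⟨v, hv, w, hw, hvw, hT⟩
        · obtain ⟨a, ha, b, hb, hab, hT'⟩ := hspan T hT
          exact ⟨a, (mem_filter.1 ha).1, b, (mem_filter.1 hb).1, hab, hT'⟩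
      · intro u hu hu'
        by_cases huS : u ∈ S
        · exact ⟨S, mem_insert_self _ _, huS⟩
        · obtain ⟨T, hT, huT⟩ := hcov u (mem_filter.2 ⟨hu, huS⟩) hu'
          exact ⟨T, mem_insert_of_mem hT, huT⟩

open scoped Classical in
/-- greedy removal of rich two-dimensional spans -/
theorem greedy_pencils {V : Type} [AddCommGroup V] [Module ℝ V] (R : Finset V) (δ : ℝ)
    (hδ : 0 < δ) (hδ1 : δ ≤ 1) :
    ∃ (R' : Finset V) (A : Finset (Submodule ℝ V)), R' ⊆ R ∧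
      (A.card : ℝ) ≤ (Real.log (R.card + 1) + 1) / δ ∧
      (∀ S ∈ A, ∃ v ∈ R, ∃ w ∈ R, v ≠ w ∧ S = Submodule.span ℝ {v, w}) ∧
      (∀ u ∈ R, u ∉ R' → ∃ S ∈ A, u ∈ S) ∧
      (∀ v ∈ R', ∀ w ∈ R', v ≠ w →
        ((R'.filter (fun u => u ∈ Submodule.span ℝ {v, w})).card : ℝ) ≤ δ * R'.card) := by
  obtain ⟨R', A, hsub, hemp, hcard, hspan, hcov, hgood⟩ :=
    greedy_pencils_aux (V := V) δ hδ hδ1 R.card R rfl
  refine ⟨R', A, hsub, ?_, hspan, hcov, hgood⟩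
  by_cases hR : R = ∅
  · rw [hemp hR, hR]
    simp only [card_empty, Nat.cast_zero]
    have : (0:ℝ) ≤ Real.log (0 + 1) + 1 := by simp only [zero_add, Real.log_one, zero_le_one]
    positivity
  · have hRpos : 0 < R.card := card_pos.2 (nonempty_iff_ne_empty.2 hR)
    have hRposR : (0 : ℝ) < R.card := by exact_mod_cast hRpos
    have h1 : Real.log (R.card) ≤ Real.log (R.card + 1) :=
      Real.log_le_log hRposR (by linarith only [])
    have h2 : Real.log (R.card) / δ ≤ Real.log (R.card + 1) / δ :=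
      div_le_div_of_nonneg_right h1 hδ.le
    have h3 : (1 : ℝ) ≤ 1 / δ := by
      rw [le_div_iff₀ hδ]
      linarith only [hδ1]
    rw [add_div]
    linarith only [hcard, h2, h3]

end Vale.Agent.P054K
end

section

set_option autoImplicit false

open Finset

namespace Vale.Agent.P054K

/-- representatives of the lines spanned by the vectors of a finite set -/
theorem exists_line_reps {V : Type} [AddCommGroup V] [Module ℝ V] (S : Finset V)
    (h0 : ∀ v ∈ S, v ≠ 0) :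
    ∃ R : Finset V, R ⊆ S ∧ (∀ v ∈ R, ∀ w ∈ R, w ∈ Submodule.span ℝ {v} → w = v) ∧
      (∀ v ∈ S, ∃ w ∈ R, v ∈ Submodule.span ℝ {w}) := by
  classical
  induction S using Finset.induction_on with
  | empty => exact ⟨∅, Subset.refl _, by simp, by simp⟩
  | insert a S _ ih =>
    obtain ⟨R, hRS, hR1, hR2⟩ := ih (fun v hv => h0 v (mem_insert_of_mem hv))
    have ha0 : a ≠ 0 := h0 a (mem_insert_self _ _)
    by_cases ha : ∃ w ∈ R, a ∈ Submodule.span ℝ {w}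
    · refine ⟨R, hRS.trans (subset_insert _ _), hR1, ?_⟩
      intro v hv
      rw [mem_insert] at hv
      rcases hv with rfl | hv
      · exact ha
      · exact hR2 v hv
    · push Not at ha
      refine ⟨insert a R, insert_subset_insert _ hRS, ?_, ?_⟩
      · intro v hv w hw hwv
        rw [mem_insert] at hv hw
        rcases hv with rfl | hv
        · rcases hw with rfl | hw
          · rfl
          · exfalso
            apply ha w hw
            have hw0 : w ≠ 0 := h0 w (mem_insert_of_mem (hRS hw))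
            rw [Submodule.mem_span_singleton] at hwv ⊢
            obtain ⟨c, hc⟩ := hwv
            have hc0 : c ≠ 0 := by
              rintro rfl
              rw [zero_smul] at hc
              exact hw0 hc.symm
            refine ⟨c⁻¹, ?_⟩
            rw [← hc, smul_smul, inv_mul_cancel₀ hc0, one_smul]
        · rcases hw with rfl | hw
          · exact absurd hwv (ha v hv)
          · exact hR1 v hv w hw hwv
      · intro v hv
        rw [mem_insert] at hv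
        rcases hv with rfl | hv
        · exact ⟨v, mem_insert_self _ _, Submodule.mem_span_singleton_self _⟩
        · obtain ⟨w, hw, hvw⟩ := hR2 v hv
          exact ⟨w, mem_insert_of_mem hw, hvw⟩

theorem offDiag_card_le_sq (X : Finset E3) : (X.offDiag.card : ℝ) ≤ (X.card : ℝ) ^ 2 := by
  have h1 : X.offDiag.card ≤ X.card * X.card := by
    rw [offDiag_card]
    exact Nat.sub_le _ _
  have h2 : (X.offDiag.card : ℝ) ≤ (X.card : ℝ) * (X.card : ℝ) := by exact_mod_cast h1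
  rw [sq]
  exact h2

theorem muLog_pow_le (X : Finset E3) (π : E3 × E3) (h : π ∈ X.offDiag) :
    2 ^ (muLog X π) ≤ (SS X (dualVec π)).card ∧
      (SS X (dualVec π)).card ≤ 2 * 2 ^ (muLog X π) := by
  have h1 := mu_pos X π h
  unfold muLog
  refine ⟨Nat.pow_log_le_self 2 (by omega), ?_⟩
  have h2 := Nat.lt_pow_succ_log_self (b := 2) (by norm_num) (SS X (dualVec π)).card
  rw [pow_succ] at h2
  omega

theorem muLog_lt (X : Finset E3) (π : E3 × E3) :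
    muLog X π < Nat.log 2 X.card + 1 := by
  unfold muLog
  exact Nat.lt_succ_of_le (Nat.log_mono_right (SS_card_le X _))

/-- splitting of one level of pairs -/
theorem level_split {κ K₀ : ℝ} {c₀ : ℕ} (hK₀ : 1 ≤ K₀)
    (hLB : ∀ (C : Finset E3) (R : Finset (E3 × ℝ)) (ν : ℕ) (Λ : ℝ),
      (∀ v ∈ R, v.1 ≠ 0) → (∀ v ∈ R, ∀ w ∈ R, w ∈ Submodule.span ℝ {v} → w = v) → 1 ≤ ν →
      (∀ v ∈ R, ν ≤ (SS C v).card ∧ (SS C v).card ≤ 2 * ν) →
      20 * (Real.log ((R.card : ℝ) + 3) + 1) ≤ Λ → (C.card : ℝ) ^ κ ≤ ν →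
      (∀ v ∈ R, ∀ w ∈ R, v ≠ w → (pen R v w : ℝ) * (K₀ * Λ ^ c₀ * C.card) ≤ ν * R.card) →
      (R.card : ℝ) * (ν : ℝ) ^ 2 ≤ K₀ * Λ ^ c₀ * (C.card : ℝ) ^ (2 + κ))
    (X : Finset E3) (Λ : ℝ) (hX : 1 ≤ X.card)
    (hΛ : 20 * (Real.log ((X.card : ℝ) ^ 2 + 3) + 1) ≤ Λ) (i : ℕ)
    (hi : (X.card : ℝ) ^ κ ≤ 2 ^ i) :
    ∃ (R R' : Finset (E3 × ℝ)) (A : Finset (Submodule ℝ (E3 × ℝ))),
      (∀ S ∈ A, Module.finrank ℝ S = 2) ∧
      (∀ v ∈ R, v.1 ≠ 0 ∧ (SS X v).card ≤ 2 * 2 ^ i) ∧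
      (∀ v ∈ R, ∀ w ∈ R, w ∈ Submodule.span ℝ {v} → w = v) ∧
      (∀ π ∈ X.offDiag, muLog X π = i → ∃ u ∈ R, dualVec π ∈ Submodule.span ℝ {u}) ∧
      (∀ u ∈ R, u ∉ R' → ∃ S ∈ A, u ∈ S) ∧ R' ⊆ R ∧
      (A.card : ℝ) * 2 ^ i ≤ Λ * (K₀ * Λ ^ c₀ * X.card) ∧
      (R'.card : ℝ) * ((2:ℝ) ^ i) ^ 2 ≤ K₀ * Λ ^ c₀ * (X.card : ℝ) ^ (2 + κ) := by
  classical
  have hx1 : (1:ℝ) ≤ X.card := by exact_mod_cast hX
  have hlog0 : 0 ≤ Real.log ((X.card : ℝ) ^ 2 + 3) := Real.log_nonneg (by nlinarith only [])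
  have hΛ1 : 1 ≤ Λ := by linarith only [hΛ, hlog0]
  have hL1 : 1 ≤ K₀ * Λ ^ c₀ := by
    have := one_le_pow₀ hΛ1 (n := c₀)
    nlinarith only [hK₀, this]
  have hL0 : 0 < K₀ * Λ ^ c₀ * X.card := by (clear * - hK₀ hX hΛ1; positivity)
  by_cases hbig : (2:ℝ) ^ i ≤ X.card
  · set V : Finset (E3 × ℝ) := (X.offDiag.filter (fun π => muLog X π = i)).image dualVec with hV
    have hVm : ∀ v ∈ V, ∃ π ∈ X.offDiag, muLog X π = i ∧ dualVec π = v := by
      intro v hv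
      rw [hV, mem_image] at hv
      obtain ⟨π, hπ, hπv⟩ := hv
      rw [mem_filter] at hπ
      exact ⟨π, hπ.1, hπ.2, hπv⟩
    have hV0 : ∀ v ∈ V, v.1 ≠ 0 := by
      intro v hv
      obtain ⟨π, hπ, _, rfl⟩ := hVm v hv
      exact dualVec_fst_ne π (mem_offDiag.mp hπ).2.2
    obtain ⟨R, hRV, hR1, hR2⟩ := exists_line_reps V (by
      intro v hv h0
      apply hV0 v hv
      rw [h0]; rfl)
    have hRcard : (R.card : ℝ) ≤ (X.card : ℝ) ^ 2 := by
      refine le_trans ?_ (offDiag_card_le_sq X)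
      have h1 : R.card ≤ X.offDiag.card :=
        (card_le_card hRV).trans (card_image_le.trans (card_filter_le _ _))
      exact_mod_cast h1
    set δ : ℝ := 2 ^ i / (K₀ * Λ ^ c₀ * X.card) with hδ
    have hδ0 : 0 < δ := by (clear * - hK₀ hX hΛ1; positivity)
    have hδ1 : δ ≤ 1 := by
      rw [hδ, div_le_one hL0]
      nlinarith only [hbig, hL1]
    obtain ⟨R', A, hR'R, hAcard, hAspan, hAcov, hpen⟩ := greedy_pencils R δ hδ0 hδ1
    have hlev : ∀ v ∈ R, 2 ^ i ≤ (SS X v).card ∧ (SS X v).card ≤ 2 * 2 ^ i := by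
      intro v hv
      obtain ⟨π, hπ, hπi, rfl⟩ := hVm v (hRV hv)
      have := muLog_pow_le X π hπ
      rw [hπi] at this
      exact this
    refine ⟨R, R', A, ?_, ?_, hR1, ?_, hAcov, hR'R, ?_, ?_⟩
    · intro S hS
      obtain ⟨v, hv, w, hw, hvw, rfl⟩ := hAspan S hS
      apply finrank_pair
      · intro h0
        apply hV0 v (hRV hv)
        rw [h0]; rfl
      · intro hwv
        exact hvw (hR1 v hv w hw hwv).symm
    · intro v hv
      exact ⟨hV0 v (hRV hv), (hlev v hv).2⟩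
    · intro π hπ hπi
      exact hR2 (dualVec π) (by
        rw [hV, mem_image]
        exact ⟨π, mem_filter.mpr ⟨hπ, hπi⟩, rfl⟩)
    · have h1 : Real.log ((R.card : ℝ) + 1) + 1 ≤ Λ := by
        have h2 : Real.log ((R.card : ℝ) + 1) ≤ Real.log ((X.card : ℝ) ^ 2 + 3) :=
          Real.log_le_log (by (clear * -; positivity)) (by linarith only [hRcard])
        linarith only [hΛ, hlog0, h2]
      have h3 : (A.card : ℝ) ≤ Λ / δ :=
        hAcard.trans (div_le_div_of_nonneg_right h1 hδ0.le)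
      have h4 : Λ / δ * 2 ^ i = Λ * (K₀ * Λ ^ c₀ * X.card) := by
        rw [hδ]
        (clear * - hK₀ hX hΛ1; field_simp)
      calc (A.card : ℝ) * 2 ^ i ≤ Λ / δ * 2 ^ i := mul_le_mul_of_nonneg_right h3 (by positivity)
        _ = Λ * (K₀ * Λ ^ c₀ * X.card) := h4
    · have h := hLB X R' (2 ^ i) Λ (fun v hv => hV0 v (hRV (hR'R hv)))
        (fun v hv w hw => hR1 v (hR'R hv) w (hR'R hw)) Nat.one_le_two_pow
        (fun v hv => hlev v (hR'R hv)) (by
          have h1 : (R'.card : ℝ) ≤ R.card := by exact_mod_cast card_le_card hR'R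
          have h2 : Real.log ((R'.card : ℝ) + 3) ≤ Real.log ((X.card : ℝ) ^ 2 + 3) :=
            Real.log_le_log (by (clear * -; positivity)) (by linarith only [hRcard, h1])
          linarith only [hΛ, h2])
        (by push_cast; exact hi) (by
          intro v hv w hw hvw
          have h1 := hpen v hv w hw hvw
          have h2 : (pen R' v w : ℝ) ≤ δ * R'.card := by
            unfold pen
            exact h1
          have h3 : (pen R' v w : ℝ) * (K₀ * Λ ^ c₀ * X.card)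
              ≤ δ * R'.card * (K₀ * Λ ^ c₀ * X.card) := mul_le_mul_of_nonneg_right h2 hL0.le
          refine h3.trans (le_of_eq ?_)
          rw [hδ]
          push_cast
          (clear * - hK₀ hX hΛ1; field_simp))
      push_cast at h
      exact h
  · refine ⟨∅, ∅, ∅, by simp, by simp only [notMem_empty, ne_eq, IsEmpty.forall_iff, implies_true], by simp, ?_, by simp, Subset.refl _, ?_, ?_⟩
    · intro π hπ hπi
      exfalso
      apply hbig
      have h1 := (muLog_pow_le X π hπ).1.trans (SS_card_le X _)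
      rw [hπi] at h1
      exact_mod_cast h1
    · simp only [card_empty, Nat.cast_zero, zero_mul]
      positivity
    · simp only [card_empty, Nat.cast_zero, zero_mul]
      (clear * - hK₀ hX hΛ1; positivity)

open scoped Classical in
/-- number of good pairs of one level -/
theorem good_level_le (X : Finset E3) (R' : Finset (E3 × ℝ)) (i : ℕ)
    (hR : ∀ v ∈ R', v.1 ≠ 0 ∧ (SS X v).card ≤ 2 * 2 ^ i) (T : Finset (E3 × E3))
    (hT : T ⊆ X.offDiag) (hTR : ∀ π ∈ T, ∃ u ∈ R', dualVec π ∈ Submodule.span ℝ {u}) :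
    (T.card : ℝ) ≤ R'.card * (2 * 2 ^ i) := by
  have h1 : T ⊆ R'.biUnion
      (fun u => X.offDiag.filter (fun π => dualVec π ∈ Submodule.span ℝ {u})) := by
    intro π hπ
    obtain ⟨u, hu, hπu⟩ := hTR π hπ
    rw [mem_biUnion]
    exact ⟨u, hu, mem_filter.mpr ⟨hT hπ, hπu⟩⟩
  have h2 : T.card ≤ R'.card * (2 * 2 ^ i) := by
    refine (card_le_card h1).trans (card_biUnion_le.trans ?_)
    refine (sum_le_card_nsmul _ _ (2 * 2 ^ i) ?_).trans (le_of_eq (smul_eq_mul _ _))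
    intro u hu
    exact (line_mass_le X u (hR u hu).1).trans (hR u hu).2
  exact_mod_cast h2

open scoped Classical in
/-- the removed representatives in a plane without the removed pencils -/
theorem removed_reps_le (R R' : Finset (E3 × ℝ)) (A : Finset (Submodule ℝ (E3 × ℝ)))
    (hR0 : ∀ v ∈ R, v.1 ≠ 0) (hA2 : ∀ S ∈ A, Module.finrank ℝ S = 2)
    (hR1 : ∀ v ∈ R, ∀ w ∈ R, w ∈ Submodule.span ℝ {v} → w = v)
    (hcov : ∀ u ∈ R, u ∉ R' → ∃ S ∈ A, u ∈ S) (p : E3) (hp : ∀ S ∈ A, ¬ S ≤ hyp p) :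
    (R.filter (fun u => u ∉ R' ∧ u ∈ hyp p)).card ≤ A.card := by
  have hch : ∀ u : E3 × ℝ, ∃ S : Submodule ℝ (E3 × ℝ),
      u ∈ R.filter (fun u => u ∉ R' ∧ u ∈ hyp p) → S ∈ A ∧ u ∈ S := by
    intro u
    by_cases hu : u ∈ R.filter (fun u => u ∉ R' ∧ u ∈ hyp p)
    · rw [mem_filter] at hu
      obtain ⟨S, hS, huS⟩ := hcov u hu.1 hu.2.1
      exact ⟨S, fun _ => ⟨hS, huS⟩⟩
    · exact ⟨⊥, fun h => absurd h hu⟩
  choose f hf using hch
  apply Finset.card_le_card_of_injOn f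
  · intro u hu
    exact (hf u hu).1
  · intro u hu u' hu' he
    by_contra hne
    rw [mem_coe] at hu hu'
    have h1 := hf u hu
    have h2 := hf u' hu'
    rw [mem_filter] at hu hu'
    rw [← he] at h2
    have hu0 : u ≠ 0 := by
      intro h0
      apply hR0 u hu.1
      rw [h0]; rfl
    have hfr : Module.finrank ℝ (Submodule.span ℝ {u, u'}) = 2 :=
      finrank_pair u u' hu0 (fun hs => hne (hR1 u hu.1 u' hu'.1 hs).symm)
    have hle : Submodule.span ℝ {u, u'} ≤ f u := by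
      rw [Submodule.span_le]
      intro z hz
      rcases hz with rfl | hz
      · exact h1.2
      · rw [Set.mem_singleton_iff] at hz
        subst hz
        exact h2.2
    have heq : Submodule.span ℝ {u, u'} = f u :=
      Submodule.eq_of_le_of_finrank_eq hle (by rw [hfr, hA2 _ h1.1])
    apply hp (f u) h1.1
    rw [← heq, Submodule.span_le]
    intro z hz
    rcases hz with rfl | hz
    · exact hu.2.2
    · rw [Set.mem_singleton_iff] at hz
      subst hz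
      exact hu'.2.2

open scoped Classical in
/-- the local bound implies the splitting of classes -/
theorem classProp_of_localBound (κ : ℝ) (hκ0 : 0 ≤ κ) (hκ1 : κ ≤ 1) (h : LocalBound κ) :
    ClassProp κ := by
  obtain ⟨K₀, c₀, hK₀, hLB⟩ := h
  refine ⟨2 * K₀, c₀ + 2, by linarith only [hK₀], ?_⟩
  intro X Λ hX hΛ
  have hx1 : (1:ℝ) ≤ X.card := by exact_mod_cast hX
  have hx0 : (0:ℝ) < X.card := by linarith only [hx1]
  have hlog0 : 0 ≤ Real.log ((X.card : ℝ) ^ 2 + 3) := Real.log_nonneg (by nlinarith only [])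
  have hΛ1 : 1 ≤ Λ := by linarith only [hΛ, hlog0]
  have hΛ0 : 0 < Λ := by linarith only [hΛ, hlog0]
  set L : ℝ := K₀ * Λ ^ c₀ with hL
  have hL1 : 1 ≤ L := by
    have := one_le_pow₀ hΛ1 (n := c₀)
    nlinarith only [hK₀, this]
  have hL0 : 0 < L := by linarith only [hL1]
  set x : ℝ := (X.card : ℝ) with hxdef
  set ν₀ : ℝ := x ^ κ with hν₀
  have hν0 : 0 < ν₀ := Real.rpow_pos_of_pos hx0 κ
  have hB : 2 * K₀ * Λ ^ (c₀ + 2) = 2 * (Λ ^ 2 * L) := by
    rw [hL, pow_add]; ring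
  set J : ℕ := Nat.log 2 X.card + 1 with hJ
  have hJΛ : (J : ℝ) ≤ Λ := by
    apply natlog_le X.card hX Λ
    have h1 : Real.log ((X.card : ℝ) + 3) ≤ Real.log ((X.card : ℝ) ^ 2 + 3) :=
      Real.log_le_log (by (clear * - hX; positivity)) (by nlinarith only [hx1])
    linarith only [hΛ, h1]
  have hdata : ∀ i : ℕ, ∃ (R R' : Finset (E3 × ℝ)) (A : Finset (Submodule ℝ (E3 × ℝ))),
      (∀ S ∈ A, Module.finrank ℝ S = 2) ∧
      (∀ v ∈ R, v.1 ≠ 0 ∧ (SS X v).card ≤ 2 * 2 ^ i) ∧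
      (∀ v ∈ R, ∀ w ∈ R, w ∈ Submodule.span ℝ {v} → w = v) ∧
      (ν₀ ≤ 2 ^ i → ∀ π ∈ X.offDiag, muLog X π = i → ∃ u ∈ R, dualVec π ∈ Submodule.span ℝ {u}) ∧
      (∀ u ∈ R, u ∉ R' → ∃ S ∈ A, u ∈ S) ∧ R' ⊆ R ∧
      (A.card : ℝ) * 2 ^ i ≤ Λ * (L * x) ∧ (A.card : ℝ) ≤ Λ * (L * x) / ν₀ ∧
      (R'.card : ℝ) * ((2:ℝ) ^ i) ^ 2 ≤ L * x ^ (2 + κ) := by
    intro i
    by_cases hi : ν₀ ≤ 2 ^ i
    · obtain ⟨R, R', A, h1, h2, h3, h4, h5, h6, h7, h8⟩ := level_split hK₀ hLB X Λ hX hΛ i hi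
      refine ⟨R, R', A, h1, h2, h3, fun _ => h4, h5, h6, h7, ?_, h8⟩
      rw [le_div_iff₀ hν0]
      exact (mul_le_mul_of_nonneg_left hi (by (clear * -; positivity))).trans h7
    · refine ⟨∅, ∅, ∅, by simp, by simp, by simp, fun h => absurd h hi, by simp,
        Subset.refl _, ?_, ?_, ?_⟩
      · simp only [card_empty, Nat.cast_zero, zero_mul]
        (clear * - hK₀ hX hΛ1; positivity)
      · simp only [card_empty, Nat.cast_zero]
        (clear * - hK₀ hX hΛ1; positivity)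
      · simp only [card_empty, Nat.cast_zero, zero_mul]
        (clear * - hK₀ hX hΛ1; positivity)
  choose R R' A hA2 hR0 hR1 hRcov hAcov hR'R hAc1 hAc2 hR'c using hdata
  set Good : Finset (E3 × E3) := X.offDiag.filter (fun π => (2:ℝ) ^ (muLog X π) < ν₀ ∨
    ∃ u ∈ R' (muLog X π), dualVec π ∈ Submodule.span ℝ {u}) with hGood
  set AA : Finset (Submodule ℝ (E3 × ℝ)) := (range J).biUnion A with hAA
  refine ⟨Good, AA, filter_subset _ _, ?_, ?_, ?_, ?_⟩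
  · intro S hS
    rw [hAA, mem_biUnion] at hS
    obtain ⟨i, _, hSi⟩ := hS
    exact hA2 i S hSi
  · -- number of pencils
    have h1 : (AA.card : ℝ) ≤ ∑ i ∈ range J, ((A i).card : ℝ) := by
      have : AA.card ≤ ∑ i ∈ range J, (A i).card := card_biUnion_le
      exact_mod_cast this
    have h2 : ∑ i ∈ range J, ((A i).card : ℝ) ≤ J * (Λ * (L * x) / ν₀) := by
      refine (sum_le_card_nsmul _ _ _ (fun i _ => hAc2 i)).trans (le_of_eq ?_)
      rw [card_range, nsmul_eq_mul]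
    have h3 : (J:ℝ) * (Λ * (L * x) / ν₀) ≤ Λ * (Λ * (L * x) / ν₀) :=
      mul_le_mul_of_nonneg_right hJΛ (by (clear * - hK₀ hX hΛ1; positivity))
    have h4 : Λ * (Λ * (L * x) / ν₀) ≤ 2 * K₀ * Λ ^ (c₀ + 2) * x / ν₀ := by
      rw [hB]
      have h5 : 0 ≤ Λ ^ 2 * L * x / ν₀ := by (clear * - hK₀ hX hΛ1; positivity)
      calc Λ * (Λ * (L * x) / ν₀) = Λ ^ 2 * L * x / ν₀ := by ring
        _ ≤ 2 * (Λ ^ 2 * L * x / ν₀) := by linarith only [h5]
        _ = 2 * (Λ ^ 2 * L) * x / ν₀ := by ring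
    linarith only [h1, h2, h3, h4]
  · -- the levels
    intro i
    rw [hB]
    have hx2 : x ^ (2 + κ) = x ^ 2 * ν₀ := by
      rw [Real.rpow_add hx0, hν₀]
      norm_num
    have hΛL : L ≤ Λ ^ 2 * L := by
      have := one_le_pow₀ hΛ1 (n := 2)
      nlinarith only [hL1, this]
    have hpos : 0 ≤ x ^ 2 * ν₀ := by (clear * - hX; positivity)
    by_cases hi : (2:ℝ) ^ i < ν₀
    · have h1 : ((Good.filter (fun π => muLog X π = i)).card : ℝ) ≤ x ^ 2 := by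
        refine le_trans ?_ (offDiag_card_le_sq X)
        have : (Good.filter (fun π => muLog X π = i)).card ≤ X.offDiag.card :=
          card_le_card ((filter_subset _ _).trans (filter_subset _ _))
        exact_mod_cast this
      calc ((Good.filter (fun π => muLog X π = i)).card : ℝ) * 2 ^ i ≤ x ^ 2 * ν₀ :=
            mul_le_mul h1 hi.le (by positivity) (by (clear * - hX; positivity))
        _ ≤ 2 * (Λ ^ 2 * L) * (x ^ 2 * ν₀) := by nlinarith only [hpos, hL1, hΛL]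
        _ = 2 * (Λ ^ 2 * L) * x ^ 2 * ν₀ := by ring
    · have h1 := good_level_le X (R' i) i (fun v hv => hR0 i v (hR'R i hv))
        (Good.filter (fun π => muLog X π = i)) ((filter_subset _ _).trans (filter_subset _ _)) (by
          intro π hπ
          rw [mem_filter, hGood, mem_filter] at hπ
          obtain ⟨⟨_, h2⟩, h3⟩ := hπ
          rw [h3] at h2
          rcases h2 with h2 | h2
          · exact absurd h2 hi
          · exact h2)
      have h2 := hR'c i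
      rw [hx2] at h2
      calc ((Good.filter (fun π => muLog X π = i)).card : ℝ) * 2 ^ i
          ≤ (R' i).card * (2 * 2 ^ i) * 2 ^ i := mul_le_mul_of_nonneg_right h1 (by positivity)
        _ = 2 * ((R' i).card * ((2:ℝ) ^ i) ^ 2) := by ring
        _ ≤ 2 * (L * (x ^ 2 * ν₀)) := by linarith only [h2]
        _ ≤ 2 * (Λ ^ 2 * L * (x ^ 2 * ν₀)) := by nlinarith only [hΛL, hpos]
        _ = 2 * (Λ ^ 2 * L) * x ^ 2 * ν₀ := by ring
  · -- the removed pairs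
    intro p hp
    have hpA : ∀ i ∈ range J, ∀ S ∈ A i, ¬ S ≤ hyp p := by
      intro i hi S hS
      exact hp S (by rw [hAA, mem_biUnion]; exact ⟨i, hi, hS⟩)
    set T := (X.offDiag \ Good).filter (fun π => dualVec π ∈ hyp p) with hT
    have hTi : ∀ i ∈ range J, ((T.filter (fun π => muLog X π = i)).card : ℝ) ≤
        2 * (Λ * (L * x)) := by
      intro i hi
      have hsub : T.filter (fun π => muLog X π = i) ⊆ X.offDiag :=
        (filter_subset _ _).trans ((filter_subset _ _).trans sdiff_subset)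
      have h1 := good_level_le X ((R i).filter (fun u => u ∉ R' i ∧ u ∈ hyp p)) i
        (fun v hv => hR0 i v (mem_filter.mp hv).1)
        (T.filter (fun π => muLog X π = i)) hsub (by
          intro π hπ
          rw [mem_filter, hT, mem_filter, mem_sdiff] at hπ
          obtain ⟨⟨⟨hπo, hπg⟩, hπp⟩, hπi⟩ := hπ
          have hng : ¬ ((2:ℝ) ^ (muLog X π) < ν₀ ∨
              ∃ u ∈ R' (muLog X π), dualVec π ∈ Submodule.span ℝ {u}) := by
            intro hcon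
            exact hπg (mem_filter.mpr ⟨hπo, hcon⟩)
          rw [hπi] at hng
          push Not at hng
          obtain ⟨u, hu, hπu⟩ := hRcov i hng.1 π hπo hπi
          refine ⟨u, ?_, hπu⟩
          rw [mem_filter]
          refine ⟨hu, fun hu' => hng.2 u hu' hπu, ?_⟩
          have hd0 : dualVec π ≠ 0 := dualVec_ne_zero π (mem_offDiag.mp hπo).2.2
          rw [Submodule.mem_span_singleton] at hπu
          obtain ⟨c, hc⟩ := hπu
          have hc0 : c ≠ 0 := by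
            rintro rfl
            rw [zero_smul] at hc
            exact hd0 hc.symm
          have hue : u = c⁻¹ • dualVec π := by
            rw [← hc, smul_smul, inv_mul_cancel₀ hc0, one_smul]
          rw [hue]
          exact Submodule.smul_mem _ _ hπp)
      have h2 : (((R i).filter (fun u => u ∉ R' i ∧ u ∈ hyp p)).card : ℝ) ≤ (A i).card := by
        exact_mod_cast removed_reps_le (R i) (R' i) (A i) (fun v hv => (hR0 i v hv).1) (hA2 i)
          (hR1 i) (hAcov i) p (hpA i hi)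
      calc ((T.filter (fun π => muLog X π = i)).card : ℝ)
          ≤ ((R i).filter (fun u => u ∉ R' i ∧ u ∈ hyp p)).card * (2 * 2 ^ i) := h1
        _ ≤ (A i).card * (2 * 2 ^ i) := mul_le_mul_of_nonneg_right h2 (by (clear * -; positivity))
        _ = 2 * ((A i).card * 2 ^ i) := by ring
        _ ≤ 2 * (Λ * (L * x)) := by linarith only [hAc1 i]
    have hsum : (T.card : ℝ) = ∑ i ∈ range J, ((T.filter (fun π => muLog X π = i)).card : ℝ) := by
      have : T.card = ∑ i ∈ range J, (T.filter (fun π => muLog X π = i)).card :=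
        card_eq_sum_card_fiberwise (fun π _ => by
          rw [mem_coe, mem_range]
          exact muLog_lt X π)
      exact_mod_cast this
    rw [hB, hsum]
    calc ∑ i ∈ range J, ((T.filter (fun π => muLog X π = i)).card : ℝ)
        ≤ (range J).card • (2 * (Λ * (L * x))) := sum_le_card_nsmul _ _ _ hTi
      _ = J * (2 * (Λ * (L * x))) := by rw [card_range, nsmul_eq_mul]
      _ ≤ Λ * (2 * (Λ * (L * x))) := mul_le_mul_of_nonneg_right hJΛ (by (clear * - hK₀ hX hΛ1; positivity))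
      _ = 2 * (Λ ^ 2 * L) * x := by ring

end Vale.Agent.P054K
end

section

set_option autoImplicit false

open Finset

namespace Vale.Agent.P054K

section
variable {E : Type} [NormedAddCommGroup E] [InnerProductSpace ℝ E]

open scoped Classical in
/-- total mass from below -/
theorem mass_lower (C : Finset E) (R : Finset (E × ℝ)) (ν : ℕ)
    (hν : ∀ v ∈ R, ν ≤ (SS C v).card) :
    (R.card * ν) ^ 2 ≤ C.card * ∑ π ∈ R ×ˢ R, (SS C π.1 ∩ SS C π.2).card := by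
  have h1 : ∑ π ∈ R ×ˢ R, (SS C π.1 ∩ SS C π.2).card =
      ∑ q ∈ C, (R.filter (fun v => q ∈ SS C v)).card ^ 2 := by
    have h2 : ∀ π ∈ R ×ˢ R, (SS C π.1 ∩ SS C π.2).card =
        ∑ q ∈ C, if (q ∈ SS C π.1 ∧ q ∈ SS C π.2) then 1 else 0 := by
      intro π _
      rw [← Finset.card_filter]
      congr 1
      ext q
      rw [mem_inter, mem_filter]
      constructor
      · intro h; exact ⟨(mem_SS.mp h.1).1, h⟩
      · exact fun h => h.2
    rw [Finset.sum_congr rfl h2, Finset.sum_comm]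
    apply Finset.sum_congr rfl
    intro q _
    rw [← Finset.card_filter, sq, ← card_product]
    congr 1
    ext π
    simp only [mem_filter, mem_product]
    tauto
  rw [h1]
  have h3 : R.card * ν ≤ ∑ q ∈ C, (R.filter (fun v => q ∈ SS C v)).card := by
    have h4 : ∑ q ∈ C, (R.filter (fun v => q ∈ SS C v)).card = ∑ v ∈ R, (SS C v).card := by
      simp only [Finset.card_filter]
      rw [Finset.sum_comm]
      apply Finset.sum_congr rfl
      intro v _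
      rw [← Finset.card_filter]
      congr 1
      ext q
      rw [mem_filter]
      constructor
      · exact fun h => h.2
      · intro h; exact ⟨(mem_SS.mp h).1, h⟩
    rw [h4, ← smul_eq_mul, ← Finset.sum_const]
    exact Finset.sum_le_sum hν
  calc (R.card * ν) ^ 2 ≤ (∑ q ∈ C, (R.filter (fun v => q ∈ SS C v)).card) ^ 2 :=
        Nat.pow_le_pow_left h3 2
    _ ≤ C.card * ∑ q ∈ C, (R.filter (fun v => q ∈ SS C v)).card ^ 2 :=
        sq_sum_le_card_mul_sum_sq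

open scoped Classical in
/-- trivial bound for the number of rich bisectors -/
theorem rich_trivial (C : Finset E) (R : Finset (E × ℝ)) (hR1 : ∀ v ∈ R, v.1 ≠ 0)
    (hR2 : ∀ v ∈ R, ∀ w ∈ R, w ∈ Submodule.span ℝ {v} → w = v) (ν : ℕ)
    (hν : ∀ v ∈ R, ν ≤ (SS C v).card) : R.card * ν ≤ C.card ^ 2 := by
  have h4 : ∑ q ∈ C, (R.filter (fun v => q ∈ SS C v)).card = ∑ v ∈ R, (SS C v).card := by
    simp only [Finset.card_filter]
    rw [Finset.sum_comm]
    apply Finset.sum_congr rfl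
    intro v _
    rw [← Finset.card_filter]
    congr 1
    ext q
    rw [mem_filter]
    constructor
    · exact fun h => h.2
    · intro h; exact ⟨(mem_SS.mp h).1, h⟩
  calc R.card * ν = ∑ _v ∈ R, ν := by rw [Finset.sum_const, smul_eq_mul]
    _ ≤ ∑ v ∈ R, (SS C v).card := Finset.sum_le_sum hν
    _ = ∑ q ∈ C, (R.filter (fun v => q ∈ SS C v)).card := h4.symm
    _ ≤ ∑ _q ∈ C, C.card := by
        apply Finset.sum_le_sum
        intro q _
        apply Finset.card_le_card_of_injOn (fun v => rf v q)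
        · intro v hv
          exact (mem_SS.mp (mem_filter.mp hv).2).2.1
        · intro v hv w hw hvw
          have h1 := mem_filter.mp hv
          have h2 := mem_filter.mp hw
          exact (hR2 v h1.1 w h2.1 (prop_of_rf_eq v w (hR1 _ h1.1) (hR1 _ h2.1) q hvw
            (mem_SS.mp h1.2).2.2)).symm
    _ = C.card ^ 2 := by rw [Finset.sum_const, smul_eq_mul]; ring

open scoped Classical in
/-- a largest class of constant ratio -/
theorem exists_ratio_class (C : Finset E) (v w : E × ℝ) (hv : v.1 ≠ 0) :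
    ∃ T : Finset E, T ⊆ SS C v ∩ SS C w ∧
      (∀ q ∈ T, ∀ q' ∈ T, sg w q * sg v q' = sg w q' * sg v q) ∧
      (∀ q ∈ SS C v ∩ SS C w, ((SS C v ∩ SS C w).filter
        (fun q' => sg w q * sg v q' = sg w q' * sg v q)).card ≤ T.card) := by
  rcases (SS C v ∩ SS C w).eq_empty_or_nonempty with h | h
  · exact ⟨∅, by simp, by simp only [notMem_empty, IsEmpty.forall_iff, implies_true], by rw [h]; simp only [notMem_empty, filter_empty, card_empty,
                                             Std.le_refl, implies_true]⟩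
  · obtain ⟨q₀, hq₀, hmax⟩ := Finset.exists_max_image (SS C v ∩ SS C w)
      (fun q => ((SS C v ∩ SS C w).filter
        (fun q' => sg w q * sg v q' = sg w q' * sg v q)).card) h
    refine ⟨(SS C v ∩ SS C w).filter (fun q' => sg w q₀ * sg v q' = sg w q' * sg v q₀),
      filter_subset _ _, ?_, hmax⟩
    intro q hq q' hq'
    rw [mem_filter] at hq hq'
    have n0 : sg v q₀ ≠ 0 := sg_ne_zero hv (mem_inter.mp hq₀).1
    have e1 := hq.2
    have e2 := hq'.2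
    have e3 : sg v q₀ * (sg w q * sg v q') = sg v q₀ * (sg w q' * sg v q) := by
      linear_combination sg v q * e2 - sg v q' * e1
    exact mul_left_cancel₀ n0 e3

open scoped Classical in
/-- many nondegenerate pairs when no ratio class dominates -/
theorem nondeg_lower (C : Finset E) (v w : E × ℝ) (T : Finset E)
    (hT : ∀ q ∈ SS C v ∩ SS C w, ((SS C v ∩ SS C w).filter
        (fun q' => sg w q * sg v q' = sg w q' * sg v q)).card ≤ T.card)
    (h2 : 2 * T.card ≤ (SS C v ∩ SS C w).card) :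
    (SS C v ∩ SS C w).card ^ 2 ≤ 2 * (((SS C v ∩ SS C w) ×ˢ (SS C v ∩ SS C w)).filter
      (fun q => sg w q.1 * sg v q.2 ≠ sg w q.2 * sg v q.1)).card := by
  set A := SS C v ∩ SS C w with hA
  have h3 : ((A ×ˢ A).filter (fun q => sg w q.1 * sg v q.2 ≠ sg w q.2 * sg v q.1)).card =
      ∑ q ∈ A, (A.filter (fun q' => ¬ (sg w q * sg v q' = sg w q' * sg v q))).card := by
    rw [Finset.card_filter, Finset.sum_product]
    apply Finset.sum_congr rfl
    intro q _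
    rw [Finset.card_filter]
  rw [h3, Finset.mul_sum, sq]
  calc A.card * A.card = ∑ _q ∈ A, A.card := by rw [Finset.sum_const, smul_eq_mul]
    _ ≤ _ := by
        apply Finset.sum_le_sum
        intro q hq
        have h4 := Finset.card_filter_add_card_filter_not (s := A)
          (fun q' => sg w q * sg v q' = sg w q' * sg v q)
        have h5 := hT q hq
        omega

end

end Vale.Agent.P054K
end

section

set_option autoImplicit false

open Finset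

namespace Vale.Agent.P054K

section
variable {E : Type} [NormedAddCommGroup E] [InnerProductSpace ℝ E]

/-- the algebra of two reflections with the same action on a pair of collinear points -/
theorem col_key (v w w' : E × ℝ) (hv : v.1 ≠ 0) (hw : w.1 ≠ 0) (hw' : w'.1 ≠ 0)
    (q₁ q₂ p₁ p₁' p₂ p₂' : E) (hq : q₁ ≠ q₂)
    (s₁ s₂ s₁' s₂' : ℝ) (h1 : p₁ = q₁ + s₁ • (q₂ - q₁)) (h2 : p₂ = q₁ + s₂ • (q₂ - q₁))
    (h1' : p₁' = q₁ + s₁' • (q₂ - q₁)) (h2' : p₂' = q₁ + s₂' • (q₂ - q₁))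
    (hp : p₁ ≠ p₂)
    (e1 : rf w p₁ = rf w' p₁') (e2 : rf w p₂ = rf w' p₂')
    (hsign : 0 < s₁ - s₂ ↔ 0 < s₁' - s₂')
    (r1 : sg w q₁ * sg v q₂ = sg w q₂ * sg v q₁)
    (r2 : sg w' q₁ * sg v q₂ = sg w' q₂ * sg v q₁)
    (n1 : sg v q₁ ≠ 0) (n2 : sg v q₂ ≠ 0) (n3 : rf w p₁ ≠ p₁) :
    w' ∈ Submodule.span ℝ {w} := by
  set e := q₂ - q₁ with he
  have he0 : e ≠ 0 := sub_ne_zero.mpr (Ne.symm hq)
  have hen : 0 < ‖e‖ := norm_pos_iff.mpr he0
  have hwn : 0 < ‖w.1‖ := norm_pos_iff.mpr hw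
  have hwn' : 0 < ‖w'.1‖ := norm_pos_iff.mpr hw'
  have hvn : 0 < ‖v.1‖ := norm_pos_iff.mpr hv
  have hd : p₁ - p₂ = (s₁ - s₂) • e := by rw [h1, h2]; module
  have hd' : p₁' - p₂' = (s₁' - s₂') • e := by rw [h1', h2']; module
  have hτ0 : s₁ - s₂ ≠ 0 := by
    intro h
    rw [h, zero_smul] at hd
    exact hp (sub_eq_zero.mp hd)
  -- equality of the parameters
  have hnorm : |s₁ - s₂| * ‖e‖ = |s₁' - s₂'| * ‖e‖ := by
    have k1 := norm_rf_sub w hw p₁ p₂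
    have k2 := norm_rf_sub w' hw' p₁' p₂'
    rw [hd, norm_smul, Real.norm_eq_abs] at k1
    rw [hd', norm_smul, Real.norm_eq_abs] at k2
    rw [← k1, ← k2, e1, e2]
  have habs : |s₁ - s₂| = |s₁' - s₂'| := mul_right_cancel₀ hen.ne' hnorm
  have hττ : s₁ - s₂ = s₁' - s₂' := by
    rcases abs_eq_abs.mp habs with h | h
    · exact h
    · exfalso
      rcases lt_or_gt_of_ne hτ0 with h3 | h3
      · have : 0 < s₁' - s₂' := by linarith only [h, h3]
        have := hsign.mpr this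
        linarith only [h3, this]
      · have := hsign.mp h3
        linarith only [h, h3, this]
  -- equality of the linear parts
  have hlin : (2 * inner ℝ w.1 e / ‖w.1‖ ^ 2) • w.1 = (2 * inner ℝ w'.1 e / ‖w'.1‖ ^ 2) • w'.1 := by
    have k1 := rf_sub w p₁ p₂
    have k2 := rf_sub w' p₁' p₂'
    rw [e1, e2, k2, hd, hd', ← hττ, inner_smul_right, inner_smul_right] at k1
    have k3 : (2 * ((s₁ - s₂) * inner ℝ w'.1 e) / ‖w'.1‖ ^ 2) • w'.1
        = (s₁ - s₂) • ((2 * inner ℝ w'.1 e / ‖w'.1‖ ^ 2) • w'.1) := by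
      rw [smul_smul]; congr 1; ring
    have k4 : (2 * ((s₁ - s₂) * inner ℝ w.1 e) / ‖w.1‖ ^ 2) • w.1
        = (s₁ - s₂) • ((2 * inner ℝ w.1 e / ‖w.1‖ ^ 2) • w.1) := by
      rw [smul_smul]; congr 1; ring
    rw [k3, k4] at k1
    have k5 := sub_right_injective k1
    exact (smul_right_injective E hτ0 k5).symm
  by_cases ha : inner ℝ w.1 e = 0
  · -- both planes are parallel to the line
    rw [ha] at hlin
    simp only [mul_zero, zero_div, zero_smul] at hlin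
    have ha' : inner ℝ w'.1 e = 0 := by
      rcases smul_eq_zero.mp hlin.symm with h | h
      · have h3 : 2 * inner ℝ w'.1 e = 0 := by
          rcases div_eq_zero_iff.mp h with h4 | h4
          · exact h4
          · exact absurd h4 (by positivity)
        linarith only [h3]
      · exact absurd h hw'
    -- the two base points coincide
    have k1 : p₁ - rf w p₁ = sg w p₁ • w.1 := by unfold rf; abel
    have k2 : p₁' - rf w' p₁' = sg w' p₁' • w'.1 := by unfold rf; abel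
    have k3 : inner ℝ e (p₁ - p₁') = 0 := by
      have k4 : p₁ - p₁' = sg w p₁ • w.1 - sg w' p₁' • w'.1 := by
        rw [← k1, ← k2, e1]; abel
      rw [k4, inner_sub_right, inner_smul_right, inner_smul_right, real_inner_comm, ha,
        real_inner_comm, ha']
      ring
    have k5 : p₁ - p₁' = (s₁ - s₁') • e := by rw [h1, h1']; module
    rw [k5, inner_smul_right, real_inner_self_eq_norm_sq] at k3
    have k6 : s₁ - s₁' = 0 := by
      rcases mul_eq_zero.mp k3 with h | h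
      · exact h
      · exact absurd h (by positivity)
    have k7 : p₁ = p₁' := by
      rw [k6, zero_smul] at k5
      exact sub_eq_zero.mp k5
    rw [← k7] at e1
    exact prop_of_rf_eq w w' hw hw' p₁ e1 n3
  · -- transversal case
    set a := inner ℝ w.1 e with hadef
    set a' := inner ℝ w'.1 e with hadef'
    have ha' : a' ≠ 0 := by
      intro h
      rw [h] at hlin
      simp only [mul_zero, zero_div, zero_smul] at hlin
      rcases smul_eq_zero.mp hlin with h3 | h3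
      · rcases div_eq_zero_iff.mp h3 with h4 | h4
        · exact ha (by linarith only [h4])
        · exact absurd h4 (by positivity)
      · exact hw h3
    set κ : ℝ := (2 * a / ‖w.1‖ ^ 2) / (2 * a' / ‖w'.1‖ ^ 2) with hκ
    have hden : 2 * a' / ‖w'.1‖ ^ 2 ≠ 0 := by
      apply div_ne_zero
      · intro h; exact ha' (by linarith only [h])
      · positivity
    have hw1 : w'.1 = κ • w.1 := by
      rw [hκ, div_eq_mul_inv, mul_comm, mul_smul, hlin, smul_smul, inv_mul_cancel₀ hden, one_smul]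
    have haa : a' = κ * a := by
      rw [hadef', hw1, inner_smul_left]
      simp [hadef]
    -- values at the base points
    have f1 : ∀ (u : E × ℝ) (hu : 0 < ‖u.1‖) (z : E), 2 * inner ℝ u.1 z - u.2 = sg u z * ‖u.1‖ ^ 2 := by
      intro u hu z
      unfold sg
      rw [div_mul_cancel₀ _ (by (clear * - hu; positivity))]
    set X₁ := 2 * inner ℝ w.1 q₁ - w.2 with hX₁
    set X₂ := 2 * inner ℝ w.1 q₂ - w.2 with hX₂
    set Y₁ := 2 * inner ℝ w'.1 q₁ - w'.2 with hY₁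
    set Y₂ := 2 * inner ℝ w'.1 q₂ - w'.2 with hY₂
    have hX : X₂ - X₁ = 2 * a := by
      rw [hX₁, hX₂, hadef, he, inner_sub_right]; ring
    have hY : Y₂ - Y₁ = 2 * a' := by
      rw [hY₁, hY₂, hadef', he, inner_sub_right]; ring
    have g1 : X₁ * sg v q₂ = X₂ * sg v q₁ := by
      rw [hX₁, hX₂, f1 w hwn q₁, f1 w hwn q₂]
      linear_combination ‖w.1‖ ^ 2 * r1
    have g2 : Y₁ * sg v q₂ = Y₂ * sg v q₁ := by
      rw [hY₁, hY₂, f1 w' hwn' q₁, f1 w' hwn' q₂]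
      linear_combination ‖w'.1‖ ^ 2 * r2
    have g3 : (Y₁ - κ * X₁) * (sg v q₂ - sg v q₁) = 0 := by
      have g4 : Y₂ - κ * X₂ = Y₁ - κ * X₁ := by
        have : Y₂ - Y₁ = κ * (X₂ - X₁) := by rw [hX, hY, haa]; ring
        linarith only [this]
      have g5 : (Y₁ - κ * X₁) * sg v q₂ = (Y₂ - κ * X₂) * sg v q₁ := by
        linear_combination g2 - κ * g1
      rw [g4] at g5
      linarith only [g5]
    have g6 : Y₁ = κ * X₁ := by
      rcases mul_eq_zero.mp g3 with h | h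
      · linarith only [h]
      · exfalso
        have h3 : sg v q₂ = sg v q₁ := by linarith only [h]
        rw [h3] at g1
        have h4 : X₁ = X₂ := mul_right_cancel₀ n1 g1
        exact ha (by linarith only [hX, h4])
    have g7 : w'.2 = κ * w.2 := by
      rw [hY₁, hX₁, hw1, inner_smul_left] at g6
      simp only [conj_trivial] at g6
      linarith only [g6]
    rw [Submodule.mem_span_singleton]
    refine ⟨κ, ?_⟩
    apply Prod.ext
    · rw [Prod.smul_fst]; exact hw1.symm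
    · rw [Prod.smul_snd, smul_eq_mul]; exact g7.symm

end

end Vale.Agent.P054K
end

section

set_option autoImplicit false

open Finset

namespace Vale.Agent.P054K

section
variable {E : Type} [NormedAddCommGroup E] [InnerProductSpace ℝ E] [FiniteDimensional ℝ E]

theorem perp_pair_one_dim (hE : Module.finrank ℝ E = 3) (e₁ e₂ a b : E) (he : e₁ ≠ 0)
    (h2 : ¬ ∃ τ : ℝ, e₂ = τ • e₁) (ha : a ≠ 0) (a1 : inner ℝ a e₁ = 0) (a2 : inner ℝ a e₂ = 0)
    (b1 : inner ℝ b e₁ = 0) (b2 : inner ℝ b e₂ = 0) : ∃ l : ℝ, b = l • a := by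
  have hli : LinearIndependent ℝ ![e₁, e₂] := by
    rw [LinearIndependent.pair_iff' he]
    intro c hc
    exact h2 ⟨c, hc.symm⟩
  set S := Submodule.span ℝ (Set.range ![e₁, e₂]) with hS
  have hf : Module.finrank ℝ S = 2 := by
    rw [hS, finrank_span_eq_card hli, Fintype.card_fin]
  have hfo : Module.finrank ℝ Sᗮ = 1 := by
    have h := Submodule.finrank_add_finrank_orthogonal S
    rw [hf, hE] at h
    omega
  have hmem : ∀ x : E, inner ℝ x e₁ = 0 → inner ℝ x e₂ = 0 → x ∈ Sᗮ := by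
    intro x x1 x2
    rw [Submodule.mem_orthogonal]
    intro u hu
    rw [hS] at hu
    refine Submodule.span_induction ?_ ?_ ?_ ?_ hu
    · rintro y ⟨i, rfl⟩
      fin_cases i
      · show inner ℝ e₁ x = 0
        rw [real_inner_comm]; exact x1
      · show inner ℝ e₂ x = 0
        rw [real_inner_comm]; exact x2
    · simp
    · intro y z _ _ hy hz
      rw [inner_add_left, hy, hz]; ring
    · intro c y _ hy
      rw [inner_smul_left, hy]; simp
  have h3 := (finrank_eq_one_iff_of_nonzero' (⟨a, hmem a a1 a2⟩ : Sᗮ) (by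
    intro h; exact ha (congrArg Subtype.val h))).mp hfo
  obtain ⟨c, hc⟩ := h3 ⟨b, hmem b b1 b2⟩
  exact ⟨c, (congrArg Subtype.val hc).symm⟩

/-- three noncollinear points determine the pencil -/
theorem plane_key (hE : Module.finrank ℝ E = 3) (v w w' : E × ℝ) (hv : v.1 ≠ 0) (hw : w.1 ≠ 0)
    (hw' : w'.1 ≠ 0) (hvw : w ∉ Submodule.span ℝ {v}) (q₁ q₂ q₃ : E)
    (h12 : q₁ ≠ q₂) (h3 : ¬ ∃ τ : ℝ, q₃ = q₁ + τ • (q₂ - q₁)) (n1 : sg v q₁ ≠ 0)
    (r2 : sg w q₁ * sg v q₂ = sg w q₂ * sg v q₁) (r3 : sg w q₁ * sg v q₃ = sg w q₃ * sg v q₁)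
    (r2' : sg w' q₁ * sg v q₂ = sg w' q₂ * sg v q₁)
    (r3' : sg w' q₁ * sg v q₃ = sg w' q₃ * sg v q₁) :
    w' ∈ Submodule.span ℝ {v, w} := by
  have hvn : 0 < ‖v.1‖ := norm_pos_iff.mpr hv
  -- the plane vector attached to `u`
  set k : E × ℝ → E × ℝ := fun u =>
    (1 / ‖u.1‖ ^ 2) • u - ((sg u q₁ / sg v q₁) / ‖v.1‖ ^ 2) • v with hk
  have hkz : ∀ u : E × ℝ, u.1 ≠ 0 → ∀ z,
      sg u q₁ * sg v z = sg u z * sg v q₁ → 2 * inner ℝ (k u).1 z = (k u).2 := by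
    intro u hu z hz
    have hun : 0 < ‖u.1‖ := norm_pos_iff.mpr hu
    have e1 : 2 * inner ℝ (k u).1 z - (k u).2 = sg u z - (sg u q₁ / sg v q₁) * sg v z := by
      simp only [hk, Prod.fst_sub, Prod.smul_fst, Prod.snd_sub, Prod.smul_snd, smul_eq_mul]
      rw [inner_sub_left, inner_smul_left, inner_smul_left]
      simp only [conj_trivial]
      unfold sg
      ring
    have e2 : sg u z - (sg u q₁ / sg v q₁) * sg v z = 0 := by
      rw [div_mul_eq_mul_div, hz, mul_div_assoc, div_self n1, mul_one, sub_self]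
    linarith only [e1, e2]
  have hkw0 : k w ≠ 0 := by
    intro h
    apply hvw
    rw [Submodule.mem_span_singleton]
    have hwn : 0 < ‖w.1‖ := norm_pos_iff.mpr hw
    refine ⟨‖w.1‖ ^ 2 * ((sg w q₁ / sg v q₁) / ‖v.1‖ ^ 2), ?_⟩
    have h1 : (1 / ‖w.1‖ ^ 2) • w = ((sg w q₁ / sg v q₁) / ‖v.1‖ ^ 2) • v := sub_eq_zero.mp h
    rw [mul_smul, ← h1, smul_smul, mul_one_div, div_self (by positivity), one_smul]
  have hkw1 : (k w).1 ≠ 0 := by
    intro h
    apply hkw0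
    apply Prod.ext
    · exact h
    · have := hkz w hw q₁ rfl
      rw [h, inner_zero_left, mul_zero] at this
      exact this.symm
  have horth : ∀ u : E × ℝ, u.1 ≠ 0 → ∀ z,
      sg u q₁ * sg v z = sg u z * sg v q₁ → inner ℝ (k u).1 (z - q₁) = 0 := by
    intro u hu z hz
    have e1 := hkz u hu z hz
    have e2 := hkz u hu q₁ rfl
    rw [inner_sub_right]
    linarith only [e1, e2]
  obtain ⟨l, hl⟩ := perp_pair_one_dim hE (q₂ - q₁) (q₃ - q₁) (k w).1 (k w').1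
    (sub_ne_zero.mpr (Ne.symm h12)) (by
      rintro ⟨τ, hτ⟩
      exact h3 ⟨τ, by rw [← hτ]; abel⟩) hkw1
    (horth w hw q₂ r2) (horth w hw q₃ r3) (horth w' hw' q₂ r2') (horth w' hw' q₃ r3')
  have hl2 : k w' = l • k w := by
    apply Prod.ext
    · rw [Prod.smul_fst]; exact hl
    · rw [Prod.smul_snd, smul_eq_mul, ← hkz w' hw' q₁ rfl, ← hkz w hw q₁ rfl, hl, inner_smul_left]
      simp only [conj_trivial]
      ring
  have hwn' : 0 < ‖w'.1‖ := norm_pos_iff.mpr hw'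
  have e1 : w' = ‖w'.1‖ ^ 2 • (k w' + ((sg w' q₁ / sg v q₁) / ‖v.1‖ ^ 2) • v) := by
    simp only [hk]
    rw [sub_add_cancel, smul_smul, mul_one_div, div_self (by positivity), one_smul]
  have hkmem : k w ∈ Submodule.span ℝ {v, w} := by
    rw [Submodule.mem_span_pair]
    exact ⟨-((sg w q₁ / sg v q₁) / ‖v.1‖ ^ 2), 1 / ‖w.1‖ ^ 2, by simp only [hk]; module⟩
  have hvmem : v ∈ Submodule.span ℝ {v, w} := Submodule.subset_span (by simp)
  rw [e1, hl2]
  exact Submodule.smul_mem _ _ (Submodule.add_mem _ (Submodule.smul_mem _ _ hkmem)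
    (Submodule.smul_mem _ _ hvmem))

open scoped Classical in
/-- total number of noncollinear triples on planar configurations -/
theorem plane_count (hE : Module.finrank ℝ E = 3) (C : Finset E)
    (R : Finset (E × ℝ)) (hR1 : ∀ v ∈ R, v.1 ≠ 0)
    (hR2 : ∀ v ∈ R, ∀ w ∈ R, w ∈ Submodule.span ℝ {v} → w = v)
    (v : E × ℝ) (hvR : v ∈ R) (W : Finset (E × ℝ))
    (hW : W ⊆ R) (hWv : ∀ w ∈ W, w ≠ v)
    (T : E × ℝ → Finset E)
    (hT : ∀ w ∈ W, T w ⊆ SS C v ∩ SS C w) (m : ℕ) (hm : ∀ w ∈ W, pen R v w ≤ m)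
    (hratio : ∀ w ∈ W, ∀ q ∈ T w, ∀ q' ∈ T w, sg w q * sg v q' = sg w q' * sg v q)
    (hnc : ∀ w ∈ W, ∀ q₁ ∈ T w, ∀ q₂ ∈ T w, q₁ ≠ q₂ →
      2 * ((T w).filter (fun q => ∃ τ : ℝ, q = q₁ + τ • (q₂ - q₁))).card ≤ (T w).card) :
    ∑ w ∈ W, (T w).offDiag.card * (T w).card ≤ 2 * (m * (SS C v).card ^ 3) := by
  have hv := hR1 v hvR
  set Y : E × ℝ →
      Finset ((E × E) × E) :=
    fun w => ((T w).offDiag ×ˢ T w).filter
      (fun q => ¬ ∃ τ : ℝ, q.2 = q.1.1 + τ • (q.1.2 - q.1.1)) with hY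
  have hYc : ∀ w ∈ W, (T w).offDiag.card * (T w).card ≤ 2 * (Y w).card := by
    intro w hw
    have h1 : (Y w).card = ∑ q ∈ (T w).offDiag, ((T w).filter
        (fun z => ¬ ∃ τ : ℝ, z = q.1 + τ • (q.2 - q.1))).card := by
      simp only [hY]
      rw [Finset.card_filter, Finset.sum_product]
      apply Finset.sum_congr rfl
      intro q _
      rw [Finset.card_filter]
    rw [h1, Finset.mul_sum, ← smul_eq_mul, ← Finset.sum_const]
    apply Finset.sum_le_sum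
    intro q hq
    rw [mem_offDiag] at hq
    have h2 := hnc w hw q.1 hq.1 q.2 hq.2.1 hq.2.2
    have h3 := Finset.card_filter_add_card_filter_not (s := T w)
      (fun z => ∃ τ : ℝ, z = q.1 + τ • (q.2 - q.1))
    omega
  have hsum : ∑ w ∈ W, (T w).offDiag.card * (T w).card ≤ 2 * (W.sigma Y).card := by
    rw [Finset.card_sigma, Finset.mul_sum]
    exact Finset.sum_le_sum hYc
  refine hsum.trans (Nat.mul_le_mul_left 2 ?_)
  have hYm : ∀ z ∈ W.sigma Y, z.1 ∈ W ∧ z.2.1.1 ∈ T z.1 ∧ z.2.1.2 ∈ T z.1 ∧ z.2.1.1 ≠ z.2.1.2 ∧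
      z.2.2 ∈ T z.1 ∧ ¬ ∃ τ : ℝ, z.2.2 = z.2.1.1 + τ • (z.2.1.2 - z.2.1.1) := by
    intro z hz
    rw [mem_sigma] at hz
    obtain ⟨h1, h2⟩ := hz
    simp only [hY] at h2
    rw [mem_filter, mem_product, mem_offDiag] at h2
    exact ⟨h1, h2.1.1.1, h2.1.1.2.1, h2.1.1.2.2, h2.1.2, h2.2⟩
  have hcard : ((SS C v ×ˢ SS C v) ×ˢ SS C v).card = (SS C v).card ^ 3 := by
    rw [card_product, card_product]; ring
  rw [← hcard]
  apply Finset.card_le_mul_card_image_of_maps_to (f := fun z => z.2)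
  · intro z hz
    obtain ⟨h1, h2, h3, h4, h5, h6⟩ := hYm z hz
    rw [mem_product, mem_product]
    exact ⟨⟨(mem_inter.mp (hT _ h1 h2)).1, (mem_inter.mp (hT _ h1 h3)).1⟩,
      (mem_inter.mp (hT _ h1 h5)).1⟩
  · intro b _
    rcases ((W.sigma Y).filter (fun z => z.2 = b)).eq_empty_or_nonempty with he | ⟨z₀, hz₀⟩
    · rw [he]; simp
    obtain ⟨g0, gb⟩ := mem_filter.mp hz₀
    obtain ⟨g1, g2, g3, g4, g5, g6⟩ := hYm z₀ g0
    refine le_trans ?_ (hm z₀.1 g1)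
    unfold pen
    apply Finset.card_le_card_of_injOn (fun z => z.1)
    · intro z hz
      obtain ⟨hz0, hzb⟩ := mem_filter.mp hz
      obtain ⟨h1, h2, h3, h4, h5, h6⟩ := hYm z hz0
      rw [mem_coe, mem_filter]
      refine ⟨hW h1, ?_⟩
      have hzz : z.2 = z₀.2 := hzb.trans gb.symm
      have a1 : z.2.1.1 = z₀.2.1.1 := congrArg (fun y => y.1.1) hzz
      have a2 : z.2.1.2 = z₀.2.1.2 := congrArg (fun y => y.1.2) hzz
      have a3 : z.2.2 = z₀.2.2 := congrArg (fun y => y.2) hzz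
      rw [a1] at h2; rw [a2] at h3; rw [a3] at h5
      apply plane_key hE v z₀.1 z.1 hv (hR1 _ (hW g1)) (hR1 _ (hW h1)) _ z₀.2.1.1 z₀.2.1.2 z₀.2.2 g4 g6
        (sg_ne_zero hv (mem_inter.mp (hT _ g1 g2)).1)
        (hratio _ g1 _ g2 _ g3) (hratio _ g1 _ g2 _ g5)
        (hratio _ h1 _ h2 _ h3) (hratio _ h1 _ h2 _ h5)
      intro hmem
      exact hWv _ g1 (hR2 v hvR z₀.1 (hW g1) hmem)
    · intro z hz z' hz' hzz
      obtain ⟨_, hzb⟩ := mem_filter.mp hz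
      obtain ⟨_, hzb'⟩ := mem_filter.mp hz'
      have hfst : z.1 = z'.1 := hzz
      have hsnd : z.2 = z'.2 := hzb.trans hzb'.symm
      obtain ⟨a, b'⟩ := z
      obtain ⟨a', b''⟩ := z'
      simp only at hfst hsnd
      subst hfst; subst hsnd
      rfl

end

end Vale.Agent.P054K
end

section

set_option autoImplicit false

open Finset

namespace Vale.Agent.P054K

theorem pencil_finrank {V : Type} [AddCommGroup V] [Module ℝ V] {v w : V} (hv : v ≠ 0)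
    (hw : w ∉ Submodule.span ℝ {v}) : Module.finrank ℝ (Submodule.span ℝ {v, w}) = 2 := by
  have hli : LinearIndependent ℝ ![v, w] := by
    rw [LinearIndependent.pair_iff]
    intro s t hst
    by_cases ht : t = 0
    · subst ht
      simp only [zero_smul, add_zero, smul_eq_zero] at hst
      exact ⟨hst.resolve_right hv, rfl⟩
    · exfalso
      apply hw
      rw [Submodule.mem_span_singleton]
      refine ⟨-(t⁻¹ * s), ?_⟩
      have h1 : t • w = -(s • v) := by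
        rw [eq_neg_iff_add_eq_zero, add_comm]
        exact hst
      calc (-(t⁻¹ * s)) • v = t⁻¹ • (-(s • v)) := by
            rw [neg_smul, smul_neg, smul_smul]
        _ = t⁻¹ • (t • w) := by rw [h1]
        _ = w := by rw [smul_smul, inv_mul_cancel₀ ht, one_smul]
  have h2 := finrank_span_eq_card hli
  have h3 : Set.range ![v, w] = {v, w} := by
    simp [Matrix.range_cons, Matrix.range_empty]
    ext x
    simp [or_comm]
  rw [h3] at h2
  simpa only [Nat.succ_eq_add_one, zero_add, Nat.reduceAdd, Fintype.card_fin] using h2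

open scoped Classical in
/-- number of ordered pairs of vectors spanning a plane of richness about `ρ` -/
theorem pencil_pairs : ∃ K : ℝ, 1 ≤ K ∧ ∀ {V : Type} [AddCommGroup V] [Module ℝ V]
    (R : Finset V) (ρ Λ : ℝ), (∀ v ∈ R, v ≠ 0) →
    (∀ v ∈ R, ∀ w ∈ R, w ∈ Submodule.span ℝ {v} → w = v) → 1 ≤ ρ →
    12 * Real.log (R.card + 1) + 1 ≤ Λ →
    (((R ×ˢ R).filter (fun π => π.1 ≠ π.2 ∧
      ρ ≤ ((R.filter (fun u => u ∈ Submodule.span ℝ {π.1, π.2})).card : ℝ) ∧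
      ((R.filter (fun u => u ∈ Submodule.span ℝ {π.1, π.2})).card : ℝ) < 2 * ρ)).card : ℝ)
      ≤ K * Λ ^ 2 * ((R.card : ℝ) ^ 2 / ρ + R.card * ρ) := by
  refine ⟨2 ^ 14, by norm_num, ?_⟩
  intro V _ _ R ρ Λ h0 hpar hρ hΛ
  have hlog : 0 ≤ Real.log ((R.card : ℝ) + 1) := Real.log_nonneg (by
    have : (0:ℝ) ≤ R.card := by positivity
    linarith only [])
  have hΛ1 : 1 ≤ Λ := by linarith only [hΛ, hlog]
  have hρ0 : 0 < ρ := by linarith
  set N : ℝ := (R.card : ℝ) with hN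
  have hN0 : 0 ≤ N := Nat.cast_nonneg _
  set P := (R ×ˢ R).filter (fun π => π.1 ≠ π.2 ∧
      ρ ≤ ((R.filter (fun u => u ∈ Submodule.span ℝ {π.1, π.2})).card : ℝ) ∧
      ((R.filter (fun u => u ∈ Submodule.span ℝ {π.1, π.2})).card : ℝ) < 2 * ρ) with hP
  have hΛ2 : Λ ≤ Λ ^ 2 := by nlinarith only [hΛ1]
  by_cases hcase : ρ < 64 * Λ
  · have h1 : (P.card : ℝ) ≤ N ^ 2 := by
      have h2 : P.card ≤ (R ×ˢ R).card := card_le_card (filter_subset _ _)
      rw [card_product] at h2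
      rw [sq, hN]
      exact_mod_cast h2
    have h2 : N ^ 2 ≤ 64 * Λ * (N ^ 2 / ρ) := by
      rw [mul_div_assoc', le_div_iff₀ hρ0]
      nlinarith only [hcase]
    have h3 : 0 ≤ N ^ 2 / ρ := by (clear * - hρ; positivity)
    have h4 : 0 ≤ N * ρ := by (clear * - hρ; positivity)
    calc (P.card : ℝ) ≤ 64 * Λ * (N ^ 2 / ρ) := h1.trans h2
      _ ≤ 2 ^ 14 * Λ ^ 2 * (N ^ 2 / ρ) := by
          apply mul_le_mul_of_nonneg_right _ h3
          linarith only [hΛ1, hΛ2]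
      _ ≤ 2 ^ 14 * Λ ^ 2 * (N ^ 2 / ρ + N * ρ) := by
          apply mul_le_mul_of_nonneg_left _ (by positivity)
          linarith only [h4]
  · push Not at hcase
    set Z : Finset (Submodule ℝ V) := P.image (fun π => Submodule.span ℝ {π.1, π.2}) with hZ
    have hmass : ∀ A : Submodule ℝ V, mass R id A = ((R.filter (fun u => u ∈ A)).card : ℝ) :=
      fun A => rfl
    have hZprop : ∀ A ∈ Z, (Module.finrank ℝ A = 2 ∧ ρ ≤ mass R id A) ∧
        mass R id A < 2 * ρ := by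
      intro A hA
      rw [hZ, mem_image] at hA
      obtain ⟨π, hπ, rfl⟩ := hA
      rw [hP, mem_filter, mem_product] at hπ
      obtain ⟨⟨h1, h2⟩, h3, h4, h5⟩ := hπ
      refine ⟨⟨pencil_finrank (h0 _ h1) (fun h => h3 (hpar _ h1 _ h2 h).symm), ?_⟩, ?_⟩
      · rw [hmass]; exact h4
      · rw [hmass]; exact h5
    have hlines : ∀ i ∈ R, mass R id (Submodule.span ℝ {id i}) ≤ 1 := by
      intro i hi
      rw [hmass]
      have h1 : (R.filter (fun u => u ∈ Submodule.span ℝ {id i})) ⊆ {i} := by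
        intro u hu
        rw [mem_filter] at hu
        rw [mem_singleton]
        exact hpar i hi u hu.1 hu.2
      have h2 := card_le_card h1
      rw [card_singleton] at h2
      exact_mod_cast h2
    have hST := linearST R id 1 ρ Λ h0 hlines one_pos Z (fun A hA => (hZprop A hA).1) hΛ
      (by linarith only [hcase])
    have hfib : (P.card : ℝ) ≤ Z.card * (4 * ρ ^ 2) := by
      have h1 : P.card = ∑ A ∈ Z, (P.filter (fun π => Submodule.span ℝ {π.1, π.2} = A)).card :=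
        card_eq_sum_card_image _ _
      rw [h1]
      push_cast
      calc ∑ A ∈ Z, ((P.filter (fun π => Submodule.span ℝ {π.1, π.2} = A)).card : ℝ)
          ≤ ∑ A ∈ Z, (4 * ρ ^ 2) := by
            apply Finset.sum_le_sum
            intro A hA
            have h2 : P.filter (fun π => Submodule.span ℝ {π.1, π.2} = A) ⊆
                (R.filter (fun u => u ∈ A)) ×ˢ (R.filter (fun u => u ∈ A)) := by
              intro π hπ
              rw [mem_filter, hP, mem_filter, mem_product] at hπ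
              obtain ⟨⟨⟨h3, h4⟩, -⟩, h5⟩ := hπ
              rw [mem_product, mem_filter, mem_filter]
              refine ⟨⟨h3, ?_⟩, ⟨h4, ?_⟩⟩
              · rw [← h5]
                exact Submodule.subset_span (by simp)
              · rw [← h5]
                exact Submodule.subset_span (by simp)
            have h3 := card_le_card h2
            rw [card_product] at h3
            have h4 : ((P.filter (fun π => Submodule.span ℝ {π.1, π.2} = A)).card : ℝ) ≤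
                mass R id A * mass R id A := by
              rw [hmass]
              exact_mod_cast h3
            have h5 := (hZprop A hA).2
            have h6 : 0 ≤ mass R id A := by rw [hmass]; (clear * -; positivity)
            nlinarith only [h4, h5, h6]
        _ = Z.card * (4 * ρ ^ 2) := by rw [sum_const, nsmul_eq_mul]
    have h1 : (Z.card : ℝ) * (4 * ρ ^ 2) ≤
        (2 ^ 12 * Λ ^ 2 * (1 * N ^ 2 / ρ ^ 3) + 2 * (N / ρ)) * (4 * ρ ^ 2) :=
      mul_le_mul_of_nonneg_right hST (by positivity)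
    have h2 : (2 ^ 12 * Λ ^ 2 * (1 * N ^ 2 / ρ ^ 3) + 2 * (N / ρ)) * (4 * ρ ^ 2) =
        2 ^ 14 * Λ ^ 2 * (N ^ 2 / ρ) + 8 * (N * ρ) := by
      field_simp
      ring
    have h3 : 8 * (N * ρ) ≤ 2 ^ 14 * Λ ^ 2 * (N * ρ) := by
      apply mul_le_mul_of_nonneg_right _ (by (clear * - hρ; positivity))
      linarith only [hΛ1, hΛ2]
    calc (P.card : ℝ) ≤ 2 ^ 14 * Λ ^ 2 * (N ^ 2 / ρ) + 8 * (N * ρ) := by
          rw [← h2]; exact hfib.trans h1
      _ ≤ 2 ^ 14 * Λ ^ 2 * (N ^ 2 / ρ + N * ρ) := by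
          rw [mul_add]
          linarith only [h3]

end Vale.Agent.P054K
end

section

set_option autoImplicit false

open Finset

namespace Vale.Agent.P054K

section
variable {E : Type} [NormedAddCommGroup E] [InnerProductSpace ℝ E] [FiniteDimensional ℝ E]

open scoped Classical in
theorem sum_fiber_pairs {V : Type} (R : Finset V) (B : Finset (V × V)) (hB : B ⊆ R ×ˢ R)
    (f : V × V → ℝ) :
    ∑ π ∈ B, f π = ∑ v ∈ R, ∑ w ∈ R.filter (fun w => (v, w) ∈ B), f (v, w) := by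
  have h1 : ∑ π ∈ B, f π = ∑ π ∈ R ×ˢ R, if π ∈ B then f π else 0 := by
    rw [← Finset.sum_filter]
    apply Finset.sum_congr _ (fun _ _ => rfl)
    ext π
    rw [mem_filter]
    constructor
    · intro h; exact ⟨hB h, h⟩
    · exact fun h => h.2
  rw [h1, Finset.sum_product]
  apply Finset.sum_congr rfl
  intro v _
  rw [Finset.sum_filter]

theorem offDiag_ge (α : Type) [DecidableEq α] (T : Finset α) (h : 2 ≤ T.card) :
    ((T.card : ℝ)) ^ 2 ≤ 2 * (T.offDiag.card : ℝ) := by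
  rw [offDiag_card]
  have h1 : T.card ≤ T.card * T.card := by nlinarith only []
  rw [Nat.cast_sub h1]
  push_cast
  have h2 : (2:ℝ) ≤ T.card := by exact_mod_cast h
  nlinarith only [h2]

open scoped Classical in
/-- planar part, one fixed bisector -/
theorem plane_part (hE : Module.finrank ℝ E = 3) (C : Finset E)
    (R : Finset (E × ℝ)) (hR1 : ∀ v ∈ R, v.1 ≠ 0)
    (hR2 : ∀ v ∈ R, ∀ w ∈ R, w ∈ Submodule.span ℝ {v} → w = v)
    (v : E × ℝ) (hvR : v ∈ R) (W : Finset (E × ℝ))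
    (hW : W ⊆ R) (hWv : ∀ w ∈ W, w ≠ v)
    (T : E × ℝ → Finset E)
    (lam n ρ : ℝ) (hlam : 2 ≤ lam) (hn : ((SS C v).card : ℝ) ≤ 2 * n)
    (m : ℕ) (hmρ : (m : ℝ) ≤ 2 * ρ) (hρ : 0 ≤ ρ)
    (hm : ∀ w ∈ W, pen R v w ≤ m)
    (hT : ∀ w ∈ W, T w ⊆ SS C v ∩ SS C w) (hTc : ∀ w ∈ W, 2 * lam ≤ ((T w).card : ℝ))
    (hratio : ∀ w ∈ W, ∀ q ∈ T w, ∀ q' ∈ T w, sg w q * sg v q' = sg w q' * sg v q)
    (hnc : ∀ w ∈ W, ∀ q₁ ∈ T w, ∀ q₂ ∈ T w, q₁ ≠ q₂ →
      2 * ((T w).filter (fun q => ∃ τ : ℝ, q = q₁ + τ • (q₂ - q₁))).card ≤ (T w).card) :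
    ∑ w ∈ W, ((T w).card : ℝ) ≤ 16 * ρ * n ^ 3 / lam ^ 2 := by
  have hlam0 : 0 < lam := by linarith only [hlam]
  have h1 := plane_count hE C R hR1 hR2 v hvR W hW hWv T hT m hm hratio hnc
  have h2 : ∑ w ∈ W, ((T w).offDiag.card : ℝ) * (T w).card ≤
      2 * (m * ((SS C v).card : ℝ) ^ 3) := by exact_mod_cast h1
  have h3 : 2 * ((m:ℝ) * ((SS C v).card : ℝ) ^ 3) ≤ 32 * ρ * n ^ 3 := by
    have h4 : ((SS C v).card : ℝ) ^ 3 ≤ (2 * n) ^ 3 := pow_le_pow_left₀ (by (clear * -; positivity)) hn 3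
    have h5 : (m:ℝ) * ((SS C v).card : ℝ) ^ 3 ≤ (2 * ρ) * (2 * n) ^ 3 :=
      mul_le_mul hmρ h4 (by (clear * -; positivity)) (by (clear * - hρ; positivity))
    calc 2 * ((m:ℝ) * ((SS C v).card : ℝ) ^ 3) ≤ 2 * ((2 * ρ) * (2 * n) ^ 3) := by linarith only [h5]
      _ = 32 * ρ * n ^ 3 := by ring
  have h6 : 2 * lam ^ 2 * ∑ w ∈ W, ((T w).card : ℝ) ≤
      ∑ w ∈ W, ((T w).offDiag.card : ℝ) * (T w).card := by
    rw [Finset.mul_sum]
    apply Finset.sum_le_sum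
    intro w hw
    have h7 := hTc w hw
    have h8 : ((T w).card : ℝ) ^ 2 ≤ 2 * ((T w).offDiag.card : ℝ) := by
      apply offDiag_ge
      have : (2:ℝ) ≤ (T w).card := by linarith only [hlam, h7]
      exact_mod_cast this
    have h9 : 4 * lam ^ 2 ≤ ((T w).card : ℝ) ^ 2 := by nlinarith only [h7, hlam]
    have h10 : (0:ℝ) ≤ (T w).card := by (clear * -; positivity)
    nlinarith only [h8, h9]
  rw [le_div_iff₀ (by positivity)]
  linarith only [h2, h3, h6]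

end

end Vale.Agent.P054K
end

section

set_option autoImplicit false
set_option linter.unusedSectionVars false

open Finset

namespace Vale.Agent.P054K

section
variable {E : Type} [NormedAddCommGroup E] [InnerProductSpace ℝ E] [FiniteDimensional ℝ E]

open scoped Classical in
/-- number of common symmetric points of a pair of bisectors -/
noncomputable def rr (C : Finset E) (π : (E × ℝ) × (E × ℝ)) : ℝ :=
  ((SS C π.1 ∩ SS C π.2).card : ℝ)

theorem rr_nonneg (C : Finset E) (π : (E × ℝ) × (E × ℝ)) : 0 ≤ rr C π := by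
  unfold rr; positivity

theorem rr_le (C : Finset E) (R : Finset (E × ℝ)) (ν : ℕ) (hν : ∀ v ∈ R, (SS C v).card ≤ 2 * ν)
    (π : (E × ℝ) × (E × ℝ)) (h1 : π.1 ∈ R) : rr C π ≤ 2 * (ν : ℝ) := by
  classical
  have h2 : (SS C π.1 ∩ SS C π.2).card ≤ 2 * ν :=
    (card_le_card inter_subset_left).trans (hν _ h1)
  unfold rr
  exact_mod_cast h2

open scoped Classical in
/-- total off-diagonal mass -/
theorem off_mass (C : Finset E) (R : Finset (E × ℝ)) (ν : ℕ)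
    (hν : ∀ v ∈ R, ν ≤ (SS C v).card ∧ (SS C v).card ≤ 2 * ν)
    (hNn : 8 * (C.card : ℝ) ≤ (R.card : ℝ) * ν) :
    3 / 4 * ((R.card : ℝ) * ν) ^ 2 ≤ (C.card : ℝ) * ∑ π ∈ R.offDiag, rr C π := by
  set N : ℝ := (R.card : ℝ) with hN
  set x : ℝ := (C.card : ℝ) with hx
  set n : ℝ := (ν : ℝ) with hn
  have hx0 : 0 ≤ x := by rw [hx]; (clear * -; positivity)
  have hN0 : 0 ≤ N := by rw [hN]; (clear * -; positivity)
  have hn0 : 0 ≤ n := by rw [hn]; positivity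
  have h1 : (N * n) ^ 2 ≤ x * ∑ π ∈ R ×ˢ R, rr C π := by
    have := mass_lower C R ν (fun v hv => (hν v hv).1)
    rw [hN, hn, hx]
    simp only [rr]
    exact_mod_cast this
  have h2 : ∑ π ∈ R ×ˢ R, rr C π = ∑ π ∈ R.diag, rr C π + ∑ π ∈ R.offDiag, rr C π := by
    rw [← Finset.sum_union (Finset.disjoint_diag_offDiag R), Finset.diag_union_offDiag]
  have h3 : ∑ π ∈ R.diag, rr C π ≤ N * (2 * n) := by
    calc ∑ π ∈ R.diag, rr C π ≤ ∑ _π ∈ R.diag, 2 * n := by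
          apply Finset.sum_le_sum
          intro π hπ
          rw [mem_diag] at hπ
          exact rr_le C R ν (fun v hv => (hν v hv).2) π hπ.1
      _ = N * (2 * n) := by rw [Finset.sum_const, diag_card, nsmul_eq_mul]
  have h4 : x * (N * (2 * n)) ≤ 1 / 4 * (N * n) ^ 2 := by
    have : 8 * x * (N * n) ≤ N * n * (N * n) := mul_le_mul_of_nonneg_right hNn (by (clear * -; positivity))
    linarith only [this]
  have h5 : x * ∑ π ∈ R.diag, rr C π ≤ x * (N * (2 * n)) := mul_le_mul_of_nonneg_left h3 hx0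
  rw [h2, mul_add] at h1
  linarith only [h1, h4, h5]

open scoped Classical in
/-- the pairs on a level -/
noncomputable def lvl (R : Finset (E × ℝ)) (j : ℕ) : Finset ((E × ℝ) × (E × ℝ)) :=
  R.offDiag.filter (fun π => Nat.log 2 (pen R π.1 π.2) = j)

theorem lvl_mem (R : Finset (E × ℝ)) (j : ℕ) :
    ∀ π ∈ lvl R j, π.1 ∈ R ∧ π.2 ∈ R ∧ π.1 ≠ π.2 := by
  classical
  intro π hπ
  unfold lvl at hπ
  exact mem_offDiag.mp (mem_filter.mp hπ).1

theorem pen_pos (R : Finset (E × ℝ)) (π : (E × ℝ) × (E × ℝ)) (h : π.1 ∈ R) :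
    1 ≤ pen R π.1 π.2 := by
  classical
  unfold pen
  rw [Nat.one_le_iff_ne_zero, ← Nat.pos_iff_ne_zero, Finset.card_pos]
  exact ⟨π.1, mem_filter.mpr ⟨h, Submodule.subset_span (by simp)⟩⟩

theorem pen_le (R : Finset (E × ℝ)) (π : (E × ℝ) × (E × ℝ)) : pen R π.1 π.2 ≤ R.card := by
  classical
  unfold pen; exact card_filter_le _ _

theorem lvl_pen (R : Finset (E × ℝ)) (j : ℕ) :
    ∀ π ∈ lvl R j, (2:ℝ) ^ j ≤ (pen R π.1 π.2 : ℝ) ∧ pen R π.1 π.2 < 2 * 2 ^ j := by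
  classical
  intro π hπ
  have h0 := (lvl_mem R j π hπ).1
  unfold lvl at hπ
  obtain ⟨h1, h2⟩ := mem_filter.mp hπ
  have h3 := pen_pos R π h0
  constructor
  · rw [← h2]
    exact_mod_cast Nat.pow_log_le_self 2 (by omega)
  · rw [← h2, ← pow_succ']
    exact Nat.lt_pow_succ_log_self (by norm_num) _

open scoped Classical in
/-- the dominating level -/
theorem level_select (C : Finset E) (R : Finset (E × ℝ)) (hR : 1 ≤ R.card) (Λ A : ℝ)
    (hΛ : 20 * (Real.log ((R.card : ℝ) + 3) + 1) ≤ Λ)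
    (hM : A ≤ (C.card : ℝ) * ∑ π ∈ R.offDiag, rr C π) :
    ∃ j, A ≤ (C.card : ℝ) * Λ * ∑ π ∈ lvl R j, rr C π := by
  obtain ⟨j, hj⟩ := level_pigeonhole R.offDiag (rr C) (fun π => Nat.log 2 (pen R π.1 π.2))
    (Nat.log 2 R.card + 1) (by
      intro π _
      exact Nat.lt_succ_of_le (Nat.log_mono_right (pen_le R π))) (by omega)
  refine ⟨j, ?_⟩
  have h1 : ((Nat.log 2 R.card + 1 : ℕ) : ℝ) ≤ Λ := natlog_le R.card hR Λ hΛ
  have hx0 : (0:ℝ) ≤ C.card := by (clear * -; positivity)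
  have hMj0 : 0 ≤ ∑ π ∈ lvl R j, rr C π := Finset.sum_nonneg (fun π _ => rr_nonneg C π)
  calc A ≤ (C.card : ℝ) * ∑ π ∈ R.offDiag, rr C π := hM
    _ ≤ (C.card : ℝ) * (((Nat.log 2 R.card + 1 : ℕ) : ℝ) * ∑ π ∈ lvl R j, rr C π) :=
        mul_le_mul_of_nonneg_left hj hx0
    _ ≤ (C.card : ℝ) * (Λ * ∑ π ∈ lvl R j, rr C π) := by
        apply mul_le_mul_of_nonneg_left _ hx0
        exact mul_le_mul_of_nonneg_right h1 hMj0
    _ = (C.card : ℝ) * Λ * ∑ π ∈ lvl R j, rr C π := by ring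

/-- number of pairs on a level -/
theorem lvl_card : ∃ K1 : ℝ, 1 ≤ K1 ∧ ∀ (R : Finset (E × ℝ)), (∀ v ∈ R, v.1 ≠ 0) →
    (∀ v ∈ R, ∀ w ∈ R, w ∈ Submodule.span ℝ {v} → w = v) →
    ∀ (Λ : ℝ), 20 * (Real.log ((R.card : ℝ) + 3) + 1) ≤ Λ → ∀ (j : ℕ),
    ((lvl R j).card : ℝ) ≤ K1 * Λ ^ 2 * ((R.card : ℝ) ^ 2 / 2 ^ j + R.card * 2 ^ j) := by
  classical
  obtain ⟨K1, hK1, hpp⟩ := pencil_pairs
  refine ⟨K1, hK1, ?_⟩
  intro R hR1 hR2 Λ hΛ j
  have hN0 : (0:ℝ) ≤ R.card := by (clear * -; positivity)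
  have hlog : 0 ≤ Real.log ((R.card : ℝ) + 3) := Real.log_nonneg (by linarith only [])
  refine le_trans ?_ (hpp R (2 ^ j) Λ (fun v hv h0 => hR1 v hv (by rw [h0]; rfl)) hR2
    (one_le_pow₀ (by norm_num)) (by
    have h1 : Real.log ((R.card : ℝ) + 1) ≤ Real.log ((R.card : ℝ) + 3) :=
      Real.log_le_log (by linarith) (by linarith)
    linarith only [hΛ, hlog, h1]))
  rw [Nat.cast_le]
  apply card_le_card
  intro π hπ
  obtain ⟨m1, m2, m3⟩ := lvl_mem R j π hπ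
  obtain ⟨p1, p2⟩ := lvl_pen R j π hπ
  refine (@Finset.mem_filter _ _ (_) _ _).mpr ⟨mem_product.mpr ⟨m1, m2⟩, m3, ?_, ?_⟩
  · unfold pen at p1
    convert p1
  · have p3 : (pen R π.1 π.2 : ℝ) < 2 * 2 ^ j := by exact_mod_cast p2
    unfold pen at p3
    convert p3

end

end Vale.Agent.P054K
end
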