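import Vale.Agent.P054.MathlibUsed
import Vale.Agent.P054.Bdl.B9
import Vale.Agent.P054.Bdl.B7

set_option linter.all false

section

set_option autoImplicit false
set_option linter.unusedSectionVars false

open Finset

namespace Vale.Agent.P054K

section
variable {E : Type} [NormedAddCommGroup E] [InnerProductSpace ℝ E] [FiniteDimensional ℝ E]

/-- summing over pairs, one fibre at a time -/
theorem sum_pairs_le {V : Type} (R : Finset V) (B : Finset (V × V))
    (hB : ∀ π ∈ B, π.1 ∈ R ∧ π.2 ∈ R) (f : V × V → ℝ) (b : ℝ)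
    (h : ∀ v ∈ R, ∀ W : Finset V, W ⊆ R → (∀ w ∈ W, (v, w) ∈ B) → ∑ w ∈ W, f (v, w) ≤ b) :
    ∑ π ∈ B, f π ≤ R.card * b := by
  classical
  have hB' : B ⊆ R ×ˢ R := fun π hπ => mem_product.mpr (hB π hπ)
  rw [sum_fiber_pairs R B hB' f, ← nsmul_eq_mul]
  apply Finset.sum_le_card_nsmul
  intro v hv
  apply h v hv
  · exact filter_subset _ _
  · intro w hw
    exact (mem_filter.mp hw).2

/-- points on one line determine the line -/
theorem line_three {V : Type} [AddCommGroup V] [Module ℝ V] (q₁ q₂ a b c : V)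
    (ha : ∃ τ : ℝ, a = q₁ + τ • (q₂ - q₁)) (hb : ∃ τ : ℝ, b = q₁ + τ • (q₂ - q₁))
    (hc : ∃ τ : ℝ, c = q₁ + τ • (q₂ - q₁)) (hab : a ≠ b) :
    ∃ τ : ℝ, c = a + τ • (b - a) := by
  obtain ⟨s1, hs1⟩ := ha
  obtain ⟨s2, hs2⟩ := hb
  obtain ⟨s3, hs3⟩ := hc
  have hs12 : s2 - s1 ≠ 0 := by
    intro h0
    apply hab
    rw [hs1, hs2, show s2 = s1 by linarith only [h0]]
  refine ⟨(s3 - s1) / (s2 - s1), ?_⟩
  have e1 : b - a = (s2 - s1) • (q₂ - q₁) := by rw [hs1, hs2]; module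
  rw [e1, smul_smul, div_mul_cancel₀ _ hs12, hs1, hs3]
  module

open scoped Classical in
theorem case_plane (hE : Module.finrank ℝ E = 3) (C : Finset E) (R : Finset (E × ℝ))
    (hR1 : ∀ v ∈ R, v.1 ≠ 0) (hR2 : ∀ v ∈ R, ∀ w ∈ R, w ∈ Submodule.span ℝ {v} → w = v)
    (n lam : ℝ) (hlam2 : 2 ≤ lam) (hSSn : ∀ v ∈ R, ((SS C v).card : ℝ) ≤ 2 * n)
    (j : ℕ) (T : (E × ℝ) × (E × ℝ) → Finset E)
    (Bp : Finset ((E × ℝ) × (E × ℝ))) (hBR : Bp ⊆ lvl R j)
    (hTB : ∀ π ∈ Bp, rr C π ≤ 2 * ((T π).card : ℝ) ∧ 4 * lam ≤ rr C π)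
    (hT : ∀ π ∈ Bp, T π ⊆ SS C π.1 ∩ SS C π.2 ∧
      (∀ q ∈ T π, ∀ q' ∈ T π, sg π.2 q * sg π.1 q' = sg π.2 q' * sg π.1 q))
    (hcol : ∀ π ∈ Bp, ∀ q₁ ∈ T π, ∀ q₂ ∈ T π, q₁ ≠ q₂ →
      2 * ((T π).filter (fun q => ∃ τ : ℝ, q = q₁ + τ • (q₂ - q₁))).card ≤ (T π).card) :
    ∑ π ∈ Bp, rr C π ≤ (R.card : ℝ) * (2 * (16 * (2:ℝ) ^ j * n ^ 3 / lam ^ 2)) := by
  apply sum_pairs_le R Bp (fun π hπ => by
    obtain ⟨h1, h2, _⟩ := lvl_mem R j π (hBR hπ)
    exact ⟨h1, h2⟩)
  intro v hv W hWR hmemW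
  calc ∑ w ∈ W, rr C (v, w)
      ≤ ∑ w ∈ W, 2 * ((T (v, w)).card : ℝ) := by
        apply Finset.sum_le_sum
        intro w hw
        exact (hTB _ (hmemW w hw)).1
    _ = 2 * ∑ w ∈ W, ((T (v, w)).card : ℝ) := by
        rw [Finset.mul_sum]
    _ ≤ 2 * (16 * (2:ℝ) ^ j * n ^ 3 / lam ^ 2) := by
        apply mul_le_mul_of_nonneg_left _ (by norm_num)
        apply plane_part hE C R hR1 hR2 v hv W hWR
          (fun w hw => fun h => (lvl_mem R j _ (hBR (hmemW w hw))).2.2 h.symm)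
          (fun w => T (v, w)) lam n ((2:ℝ) ^ j) hlam2 (hSSn v hv) (2 * 2 ^ j)
          (by push_cast; exact le_rfl) (by positivity)
        · intro w hw
          exact (lvl_pen R j _ (hBR (hmemW w hw))).2.le
        · intro w hw
          exact (hT (v, w) (hmemW w hw)).1
        · intro w hw
          obtain ⟨h3, h4⟩ := hTB _ (hmemW w hw)
          linarith only [h3, h4]
        · intro w hw
          exact (hT (v, w) (hmemW w hw)).2
        · intro w hw q₁ hq₁ q₂ hq₂ h12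
          exact hcol (v, w) (hmemW w hw) q₁ hq₁ q₂ hq₂ h12

end

end Vale.Agent.P054K
end

section

set_option autoImplicit false
set_option linter.unusedSectionVars false

open Finset

namespace Vale.Agent.P054K

section
variable {E : Type} [NormedAddCommGroup E] [InnerProductSpace ℝ E] [FiniteDimensional ℝ E]

open scoped Classical in
/-- large pairs carry most of the mass of a level -/
theorem big_pairs (C : Finset E) (R : Finset (E × ℝ)) (Pr : Finset ((E × ℝ) × (E × ℝ)))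
    (hPiN : (Pr.card : ℝ) ≤ (R.card : ℝ) ^ 2) (n Λ t₀ : ℝ) (ht0 : 0 ≤ t₀) (hΛ0 : 0 ≤ Λ)
    (ht₀e : t₀ * (4 * (C.card : ℝ) * Λ) = n ^ 2)
    (hMj : 3 / 4 * ((R.card : ℝ) * n) ^ 2 ≤ (C.card : ℝ) * Λ * ∑ π ∈ Pr, rr C π) :
    1 / 2 * ((R.card : ℝ) * n) ^ 2 ≤
      (C.card : ℝ) * Λ * ∑ π ∈ Pr.filter (fun π => t₀ < rr C π), rr C π := by
  set N : ℝ := (R.card : ℝ) with hN
  set x : ℝ := (C.card : ℝ) with hx
  have hx0 : 0 ≤ x := by rw [hx]; (clear * -; positivity)
  have h1 : ∑ π ∈ Pr, rr C π = ∑ π ∈ Pr.filter (fun π => t₀ < rr C π), rr C π +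
      ∑ π ∈ Pr.filter (fun π => ¬ t₀ < rr C π), rr C π :=
    (Finset.sum_filter_add_sum_filter_not _ _ _).symm
  have h2 : ∑ π ∈ Pr.filter (fun π => ¬ t₀ < rr C π), rr C π ≤ N ^ 2 * t₀ := by
    calc ∑ π ∈ Pr.filter (fun π => ¬ t₀ < rr C π), rr C π
        ≤ (Pr.filter (fun π => ¬ t₀ < rr C π)).card • t₀ := by
          apply Finset.sum_le_card_nsmul
          intro π hπ
          exact not_lt.mp (mem_filter.mp hπ).2
      _ ≤ N ^ 2 * t₀ := by
          rw [nsmul_eq_mul]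
          apply mul_le_mul_of_nonneg_right _ ht0
          refine le_trans ?_ hPiN
          exact_mod_cast card_filter_le _ _
  have h3 : x * Λ * (N ^ 2 * t₀) = 1 / 4 * (N * n) ^ 2 := by
    have : x * Λ * (N ^ 2 * t₀) = N ^ 2 / 4 * (t₀ * (4 * x * Λ)) := by ring
    rw [this, ht₀e]; ring
  rw [h1, mul_add] at hMj
  have h4 : x * Λ * ∑ π ∈ Pr.filter (fun π => ¬ t₀ < rr C π), rr C π ≤ x * Λ * (N ^ 2 * t₀) :=
    mul_le_mul_of_nonneg_left h2 (by (clear * - hΛ0; positivity))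
  linarith only [hMj, h3, h4]

end

end Vale.Agent.P054K
end

section

set_option autoImplicit false

open Finset

namespace Vale.Agent.P054K

end Vale.Agent.P054K
end

section

set_option autoImplicit false

open Finset

namespace Vale.Agent.P054K

end Vale.Agent.P054K
end

section

set_option autoImplicit false

open Finset

namespace Vale.Agent.P054K

theorem distances_pos (P : Finset E3) (hP : 2 ≤ P.card) : 1 ≤ (distances P).card := by
  classical
  obtain ⟨a, ha, b, hb, hab⟩ := Finset.one_lt_card.mp (by omega : 1 < P.card)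
  rw [Nat.one_le_iff_ne_zero, ← Nat.pos_iff_ne_zero, Finset.card_pos]
  refine ⟨dist a b, ?_⟩
  unfold distances
  rw [mem_image]
  exact ⟨(a, b), mem_offDiag.mpr ⟨ha, hb, hab⟩, rfl⟩

/-- from an upper bound for the number of points to a lower bound for the number of distances -/
theorem invert_bound (α : ℝ) (hα : 1 ≤ α)
    (h : ∀ ε : ℝ, 0 < ε → ∃ C : ℝ, 1 ≤ C ∧ ∀ (P : Finset E3) (t : ℕ), 1 ≤ t →
      (distances P).card ≤ t → (P.card : ℝ) ≤ C * (t:ℝ) ^ (α + ε)) :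
    ∀ ε : ℝ, 0 < ε → ∃ c : ℝ, 0 < c ∧ ∀ P : Finset E3, 2 ≤ P.card →
      c * (P.card : ℝ) ^ (1 / α - ε) ≤ ((distances P).card : ℝ) := by
  intro ε hε
  obtain ⟨C, hC, h⟩ := h ε hε
  have hβ : 0 < α + ε := by linarith only [hα, hε]
  refine ⟨C⁻¹, by positivity, ?_⟩
  intro P hP
  have ht := distances_pos P hP
  set t := (distances P).card with htdef
  have ht' : (1:ℝ) ≤ t := by exact_mod_cast ht
  have hn : (1:ℝ) ≤ P.card := by exact_mod_cast (by omega : 1 ≤ P.card)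
  have h1 := h P t ht le_rfl
  have hCinv : C⁻¹ ≤ 1 := inv_le_one_of_one_le₀ hC
  -- exponent comparison
  have hexp : 1 / α - ε ≤ 1 / (α + ε) := by
    rw [div_sub' (by linarith only [hα]), div_le_div_iff₀ (by linarith only [hα]) hβ]
    have e : (1 - α * ε) * (α + ε) = α - ε * ((α ^ 2 - 1) + α * ε) := by ring
    rw [e]
    have h3 : 0 ≤ α ^ 2 - 1 := by nlinarith only [hα]
    have h4 : 0 ≤ ε * ((α ^ 2 - 1) + α * ε) := by (clear * - hα hε h3; positivity)
    linarith only [h4]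
  have h2 : (P.card : ℝ) ^ (1 / (α + ε)) ≤ C * t := by
    calc (P.card : ℝ) ^ (1 / (α + ε)) ≤ (C * (t:ℝ) ^ (α + ε)) ^ (1 / (α + ε)) :=
          Real.rpow_le_rpow (by (clear * - hP; positivity)) h1 (by positivity)
      _ = C ^ (1 / (α + ε)) * t := by
          rw [Real.mul_rpow (by linarith only [hC]) (by (clear * - ht; positivity)), ← Real.rpow_mul (by linarith only [ht']),
            mul_one_div_cancel hβ.ne', Real.rpow_one]
      _ ≤ C * t := by
          apply mul_le_mul_of_nonneg_right _ (by linarith only [])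
          calc C ^ (1 / (α + ε)) ≤ C ^ (1:ℝ) := by
                apply Real.rpow_le_rpow_of_exponent_le hC
                rw [div_le_one hβ]; linarith only [hα, hε]
            _ = C := Real.rpow_one C
  calc C⁻¹ * (P.card : ℝ) ^ (1 / α - ε) ≤ C⁻¹ * (P.card : ℝ) ^ (1 / (α + ε)) := by
        apply mul_le_mul_of_nonneg_left _ (by positivity)
        exact Real.rpow_le_rpow_of_exponent_le hn hexp
    _ ≤ C⁻¹ * (C * t) := mul_le_mul_of_nonneg_left h2 (by positivity)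
    _ = t := by field_simp

end Vale.Agent.P054K
end
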