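import Vale.Agent.P054.MathlibUsed
import Vale.Agent.P054.Bdl.B1
import Vale.Agent.P054.Bdl.B5
import Vale.Agent.P054.Bdl.B7
import Vale.Agent.P054.Bdl.B8
import Vale.Agent.P054.Bdl.B9
import Vale.Agent.P054.Bdl.B10

set_option autoImplicit false
set_option linter.all false

open Finset

namespace Vale.Agent.P054K

section
variable {E : Type} [NormedAddCommGroup E] [InnerProductSpace ℝ E]

open scoped Classical in
/-- upper bound for nondegenerate configurations in terms of quadruples -/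
theorem nondeg_countQ (C : Finset E) (R : Finset (E × ℝ)) (hR1 : ∀ v ∈ R, v.1 ≠ 0)
    (hR2 : ∀ v ∈ R, ∀ w ∈ R, w ∈ Submodule.span ℝ {v} → w = v)
    (Pr : Finset ((E × ℝ) × (E × ℝ))) (hPr : ∀ π ∈ Pr, π.1 ∈ R ∧ π.2 ∈ R ∧ π.1 ≠ π.2) (m : ℕ)
    (hm : ∀ π ∈ Pr, pen R π.1 π.2 ≤ m) :
    (Pr.sigma (fun π => ((SS C π.1 ∩ SS C π.2) ×ˢ (SS C π.1 ∩ SS C π.2)).filter
      (fun q => sg π.2 q.1 * sg π.1 q.2 ≠ sg π.2 q.2 * sg π.1 q.1))).card
      ≤ m * (((C ×ˢ C) ×ˢ (C ×ˢ C)).filter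
      (fun z => z.1.1 ≠ z.1.2 ∧ dist z.2.1 z.2.2 = dist z.1.1 z.1.2)).card := by
  set Q := ((C ×ˢ C) ×ˢ (C ×ˢ C)).filter
      (fun z => z.1.1 ≠ z.1.2 ∧ dist z.2.1 z.2.2 = dist z.1.1 z.1.2) with hQ
  set W := Pr.sigma (fun π => ((SS C π.1 ∩ SS C π.2) ×ˢ (SS C π.1 ∩ SS C π.2)).filter
      (fun q => sg π.2 q.1 * sg π.1 q.2 ≠ sg π.2 q.2 * sg π.1 q.1)) with hW
  set f : ((_ : (E × ℝ) × (E × ℝ)) × (E × E)) → (E × E) × (E × E) :=
    fun z => ((rf z.1.1 z.2.1, rf z.1.1 z.2.2), (rf z.1.2 z.2.1, rf z.1.2 z.2.2)) with hf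
  have hWmem : ∀ z ∈ W, z.1 ∈ Pr ∧ z.2.1 ∈ SS C z.1.1 ∧ z.2.1 ∈ SS C z.1.2 ∧
      z.2.2 ∈ SS C z.1.1 ∧ z.2.2 ∈ SS C z.1.2 ∧
      sg z.1.2 z.2.1 * sg z.1.1 z.2.2 ≠ sg z.1.2 z.2.2 * sg z.1.1 z.2.1 := by
    intro z hz
    rw [hW, mem_sigma, mem_filter, mem_product, mem_inter, mem_inter] at hz
    exact ⟨hz.1, hz.2.1.1.1, hz.2.1.1.2, hz.2.1.2.1, hz.2.1.2.2, hz.2.2⟩
  have hmaps : ∀ z ∈ W, f z ∈ Q := by
    intro z hz
    obtain ⟨h1, h2, h3, h4, h5, h6⟩ := hWmem z hz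
    obtain ⟨hv, hw, _⟩ := hPr _ h1
    rw [hQ, mem_filter, mem_product, mem_product, mem_product]
    refine ⟨⟨⟨(mem_SS.mp h2).2.1, (mem_SS.mp h4).2.1⟩, ⟨(mem_SS.mp h3).2.1, (mem_SS.mp h5).2.1⟩⟩,
      ?_, ?_⟩
    · intro h7
      have h8 : rf z.1.1 z.2.1 = rf z.1.1 z.2.2 := h7
      have h9 : z.2.1 = z.2.2 := by
        rw [← rf_rf z.1.1 (hR1 _ hv) z.2.1, h8, rf_rf z.1.1 (hR1 _ hv)]
      rw [h9] at h6
      exact h6 rfl
    · show dist (rf z.1.2 z.2.1) (rf z.1.2 z.2.2) = dist (rf z.1.1 z.2.1) (rf z.1.1 z.2.2)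
      rw [dist_rf _ (hR1 _ hw), dist_rf _ (hR1 _ hv)]
  have hfib : ∀ b ∈ Q, (W.filter (fun z => f z = b)).card ≤ m := by
    intro b _
    rcases (W.filter (fun z => f z = b)).eq_empty_or_nonempty with he | ⟨z₀, hz₀⟩
    · rw [he]; simp
    have hz₀' := mem_filter.mp hz₀
    obtain ⟨g1, g2, g3, g4, g5, g6⟩ := hWmem z₀ hz₀'.1
    refine le_trans ?_ (hm z₀.1 g1)
    unfold pen
    -- description of the spans
    have hspan : ∀ z ∈ W.filter (fun z => f z = b),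
        dv b.1.1 b.2.1 ∈ Submodule.span ℝ {z.1.1, z.1.2} ∧
        dv b.1.2 b.2.2 ∈ Submodule.span ℝ {z.1.1, z.1.2} ∧
        z.1.1 ∈ Submodule.span ℝ {dv b.1.1 b.2.1, dv b.1.2 b.2.2} := by
      intro z hz
      obtain ⟨hzW, hzb⟩ := mem_filter.mp hz
      obtain ⟨h1, h2, h3, h4, h5, h6⟩ := hWmem z hzW
      obtain ⟨hv, hw, _⟩ := hPr _ h1
      have e1 : dv b.1.1 b.2.1 = sg z.1.2 z.2.1 • z.1.2 - sg z.1.1 z.2.1 • z.1.1 := by
        rw [← hzb]; exact dv_rf_rf z.1.1 z.1.2 (hR1 _ hv) (hR1 _ hw) z.2.1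
      have e2 : dv b.1.2 b.2.2 = sg z.1.2 z.2.2 • z.1.2 - sg z.1.1 z.2.2 • z.1.1 := by
        rw [← hzb]; exact dv_rf_rf z.1.1 z.1.2 (hR1 _ hv) (hR1 _ hw) z.2.2
      refine ⟨?_, ?_, ?_⟩
      · rw [e1, Submodule.mem_span_pair]
        exact ⟨-sg z.1.1 z.2.1, sg z.1.2 z.2.1, by module⟩
      · rw [e2, Submodule.mem_span_pair]
        exact ⟨-sg z.1.1 z.2.2, sg z.1.2 z.2.2, by module⟩
      · exact (mem_span_of_det z.1.1 z.1.2 _ _ _ _ _ _ e1 e2 h6).1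
    apply Finset.card_le_card_of_injOn (fun z => z.1.1)
    · intro z hz
      obtain ⟨hzW, hzb⟩ := mem_filter.mp hz
      obtain ⟨h1, _⟩ := hWmem z hzW
      rw [mem_coe, mem_filter]
      refine ⟨(hPr _ h1).1, ?_⟩
      have h7 := (hspan z hz).2.2
      obtain ⟨h8, h9, _⟩ := hspan z₀ hz₀
      have h10 : Submodule.span ℝ {dv b.1.1 b.2.1, dv b.1.2 b.2.2} ≤
          Submodule.span ℝ {z₀.1.1, z₀.1.2} := by
        rw [Submodule.span_le]
        intro y hy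
        rcases hy with rfl | hy
        · exact h8
        · rw [Set.mem_singleton_iff] at hy
          rw [hy]; exact h9
      exact h10 h7
    · intro z hz z' hz' hzz
      obtain ⟨hzW, hzb⟩ := mem_filter.mp hz
      obtain ⟨hzW', hzb'⟩ := mem_filter.mp hz'
      obtain ⟨h1, h2, h3, h4, h5, h6⟩ := hWmem z hzW
      obtain ⟨h1', h2', h3', h4', h5', h6'⟩ := hWmem z' hzW'
      obtain ⟨hv, hw, _⟩ := hPr _ h1
      obtain ⟨hv', hw', _⟩ := hPr _ h1'
      have hvv : z.1.1 = z'.1.1 := hzz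
      have hff : f z = f z' := hzb.trans hzb'.symm
      have k1 : rf z.1.1 z.2.1 = rf z'.1.1 z'.2.1 := congrArg (fun y => y.1.1) hff
      have k2 : rf z.1.1 z.2.2 = rf z'.1.1 z'.2.2 := congrArg (fun y => y.1.2) hff
      have k3 : rf z.1.2 z.2.1 = rf z'.1.2 z'.2.1 := congrArg (fun y => y.2.1) hff
      have q1 : z.2.1 = z'.2.1 := by
        rw [← rf_rf z.1.1 (hR1 _ hv) z.2.1, k1, hvv, rf_rf z'.1.1 (hR1 _ hv')]
      have q2 : z.2.2 = z'.2.2 := by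
        rw [← rf_rf z.1.1 (hR1 _ hv) z.2.2, k2, hvv, rf_rf z'.1.1 (hR1 _ hv')]
      have hww : z.1.2 = z'.1.2 := by
        have h7 : rf z.1.2 z.2.1 = rf z'.1.2 z.2.1 := by rw [k3, q1]
        have h8 := prop_of_rf_eq z.1.2 z'.1.2 (hR1 _ hw) (hR1 _ hw') z.2.1 h7 (mem_SS.mp h3).2.2
        exact (hR2 _ hw _ hw' h8).symm
      have hfst : z.1 = z'.1 := Prod.ext hvv hww
      have hsnd : z.2 = z'.2 := Prod.ext q1 q2
      obtain ⟨a, b'⟩ := z
      obtain ⟨a', b''⟩ := z'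
      simp only at hfst hsnd
      subst hfst; subst hsnd
      rfl
  exact Finset.card_le_mul_card_image_of_maps_to hmaps m hfib

end

end Vale.Agent.P054K

open Finset

namespace Vale.Agent.P054K

section
variable {E : Type} [NormedAddCommGroup E] [InnerProductSpace ℝ E]

/-- the line through two points, as a plane in the lifted space -/
def lineSub (A B : E) : Submodule ℝ (E × ℝ) := Submodule.span ℝ {(A, (1:ℝ)), (B, (1:ℝ))}

theorem mem_lineSub (A B p : E) :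
    ((p, (1:ℝ)) : E × ℝ) ∈ lineSub A B ↔ ∃ τ : ℝ, p = A + τ • (B - A) := by
  unfold lineSub
  rw [Submodule.mem_span_pair]
  constructor
  · rintro ⟨s, t, h⟩
    have h1 : s • A + t • B = p := congrArg Prod.fst h
    have h2 : s + t = 1 := by
      have := congrArg Prod.snd h
      simpa using this
    refine ⟨t, ?_⟩
    rw [← h1, show s = 1 - t by linarith only [h2]]
    module
  · rintro ⟨τ, h⟩
    refine ⟨1 - τ, τ, ?_⟩
    apply Prod.ext
    · simp only [Prod.smul_mk, Prod.mk_add_mk]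
      rw [h]; module
    · simp

theorem lift_not_mem (A B : E) (h : A ≠ B) :
    ((B, (1:ℝ)) : E × ℝ) ∉ Submodule.span ℝ {((A, (1:ℝ)) : E × ℝ)} := by
  rw [Submodule.mem_span_singleton]
  rintro ⟨c, hc⟩
  have h1 : c • A = B := congrArg Prod.fst hc
  have h2 : c = 1 := by
    have := congrArg Prod.snd hc
    simpa using this
  apply h
  rw [← h1, h2, one_smul]

theorem lift_ne_zero (A : E) : ((A, (1:ℝ)) : E × ℝ) ≠ 0 := by
  intro h
  have := congrArg Prod.snd h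
  simp at this

theorem finrank_lineSub (A B : E) (h : A ≠ B) : Module.finrank ℝ (lineSub A B) = 2 :=
  pencil_finrank (lift_ne_zero A) (lift_not_mem A B h)

theorem rf_line (w : E × ℝ) (A B : E) (τ : ℝ) :
    rf w (A + τ • (B - A)) = rf w A + τ • (rf w B - rf w A) := by
  have h1 := rf_sub w (A + τ • (B - A)) A
  have h2 := rf_sub w B A
  rw [h2]
  have h3 : A + τ • (B - A) - A = τ • (B - A) := by abel
  rw [h3, inner_smul_right] at h1
  rw [sub_eq_iff_eq_add.mp h1]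
  have h4 : (2 * (τ * inner ℝ w.1 (B - A)) / ‖w.1‖ ^ 2) • w.1 =
      τ • ((2 * inner ℝ w.1 (B - A) / ‖w.1‖ ^ 2) • w.1) := by
    rw [smul_smul]; congr 1; ring
  rw [h4]
  module

/-- the ratio condition at two points extends to the line through them -/
theorem ratio_line (v w : E × ℝ) (A B : E) (h : sg w A * sg v B = sg w B * sg v A) (s t : ℝ) :
    sg w (A + s • (B - A)) * sg v (A + t • (B - A)) =
      sg w (A + t • (B - A)) * sg v (A + s • (B - A)) := by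
  have h1 : ∀ (u : E × ℝ) (r : ℝ), sg u (A + r • (B - A)) = sg u A + r * (sg u B - sg u A) := by
    intro u r
    unfold sg
    rw [inner_add_right, inner_smul_right, inner_sub_right]
    ring
  rw [h1, h1, h1, h1]
  linear_combination (t - s) * h

/-- two reflections with the same pair of lines and the same orientation are proportional -/
theorem colST_pair (v w w' : E × ℝ) (hv : v.1 ≠ 0) (hw : w.1 ≠ 0) (hw' : w'.1 ≠ 0)
    (A B A' B' : E) (hAB : A ≠ B) (hAB' : A' ≠ B')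
    (hL : lineSub A B = lineSub A' B')
    (hL' : lineSub (rf w A) (rf w B) = lineSub (rf w' A') (rf w' B'))
    (r1 : sg w A * sg v B = sg w B * sg v A) (r1' : sg w' A' * sg v B' = sg w' B' * sg v A')
    (nA : sg v A ≠ 0) (nB : sg v B ≠ 0) (n3 : rf w A ≠ A)
    (f f' : E) (hf : f ≠ 0) (hf' : f' ≠ 0) (s u s' u' : ℝ)
    (h1 : B - A = s • f) (h2 : rf w B - rf w A = u • f')
    (h3 : B' - A' = s' • f) (h4 : rf w' B' - rf w' A' = u' • f')
    (hsgn : 0 < s * u ↔ 0 < s' * u') : w' ∈ Submodule.span ℝ {w} := by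
  have hfn : 0 < ‖f‖ := norm_pos_iff.mpr hf
  have hfn' : 0 < ‖f'‖ := norm_pos_iff.mpr hf'
  have hs0 : s ≠ 0 := by
    rintro rfl
    rw [zero_smul] at h1
    exact hAB (sub_eq_zero.mp h1).symm
  have hs0' : s' ≠ 0 := by
    rintro rfl
    rw [zero_smul] at h3
    exact hAB' (sub_eq_zero.mp h3).symm
  have k1 : |s| * ‖f‖ = |u| * ‖f'‖ := by
    have := norm_rf_sub w hw B A
    rw [h1, h2, norm_smul, norm_smul, Real.norm_eq_abs, Real.norm_eq_abs] at this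
    exact this.symm
  have k1' : |s'| * ‖f‖ = |u'| * ‖f'‖ := by
    have := norm_rf_sub w' hw' B' A'
    rw [h3, h4, norm_smul, norm_smul, Real.norm_eq_abs, Real.norm_eq_abs] at this
    exact this.symm
  have hu0 : u ≠ 0 := by
    rintro rfl
    rw [abs_zero, zero_mul] at k1
    have : 0 < |s| * ‖f‖ := by (clear * - hf hs0; positivity)
    linarith only [k1, this]
  have hu0' : u' ≠ 0 := by
    rintro rfl
    rw [abs_zero, zero_mul] at k1'
    have : 0 < |s'| * ‖f‖ := by (clear * - hf hs0'; positivity)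
    linarith only [k1', this]
  -- cross ratio
  have k2 : u * s' = u' * s := by
    have hab : |u * s'| = |u' * s| := by
      rw [abs_mul, abs_mul]
      have : (|u| * |s'|) * (‖f‖ * ‖f'‖) = (|u'| * |s|) * (‖f‖ * ‖f'‖) := by
        calc (|u| * |s'|) * (‖f‖ * ‖f'‖) = (|u| * ‖f'‖) * (|s'| * ‖f‖) := by ring
          _ = (|s| * ‖f‖) * (|u'| * ‖f'‖) := by rw [← k1, k1']
          _ = _ := by ring
      exact mul_right_cancel₀ (by positivity) this
    rcases abs_eq_abs.mp hab with h | h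
    · exact h
    · exfalso
      have hprod : (u * s') * (u' * s) < 0 := by
        rw [h]
        have : 0 < (u' * s) ^ 2 := by (clear * - hs0 hu0'; positivity)
        nlinarith only [this]
      have hprod' : (s * u) * (s' * u') < 0 := by nlinarith only [hprod]
      have hsu : s * u ≠ 0 := mul_ne_zero hs0 hu0
      rcases lt_or_gt_of_ne hsu with h5 | h5
      · have h6 : ¬ 0 < s' * u' := fun h7 => absurd (hsgn.mpr h7) (not_lt.mpr h5.le)
        have h8 : s' * u' ≤ 0 := not_lt.mp h6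
        nlinarith only [mul_nonneg_of_nonpos_of_nonpos h5.le h8, hprod, h5, h8]
      · have h6 := hsgn.mp h5
        nlinarith only [mul_pos h5 h6, hprod, h5, h6]
  -- points
  have m1 : ((rf w A, (1:ℝ)) : E × ℝ) ∈ lineSub (rf w' A') (rf w' B') := by
    rw [← hL', mem_lineSub]; exact ⟨0, by simp⟩
  have m2 : ((rf w B, (1:ℝ)) : E × ℝ) ∈ lineSub (rf w' A') (rf w' B') := by
    rw [← hL', mem_lineSub]; exact ⟨1, by simp only [one_smul, add_sub_cancel]⟩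
  rw [mem_lineSub] at m1 m2
  obtain ⟨t1, ht1⟩ := m1
  obtain ⟨t2, ht2⟩ := m2
  rw [← rf_line] at ht1 ht2
  have n1 : ((A' + t1 • (B' - A'), (1:ℝ)) : E × ℝ) ∈ lineSub A B := by
    rw [hL, mem_lineSub]; exact ⟨t1, rfl⟩
  have n2 : ((A' + t2 • (B' - A'), (1:ℝ)) : E × ℝ) ∈ lineSub A B := by
    rw [hL, mem_lineSub]; exact ⟨t2, rfl⟩
  rw [mem_lineSub] at n1 n2
  obtain ⟨s1, hs1⟩ := n1
  obtain ⟨s2, hs2⟩ := n2
  -- A and B on the second line
  have a1 : ((A, (1:ℝ)) : E × ℝ) ∈ lineSub A' B' := by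
    rw [← hL, mem_lineSub]; exact ⟨0, by simp only [zero_smul, add_zero]⟩
  have a2 : ((B, (1:ℝ)) : E × ℝ) ∈ lineSub A' B' := by
    rw [← hL, mem_lineSub]; exact ⟨1, by simp only [one_smul, add_sub_cancel]⟩
  rw [mem_lineSub] at a1 a2
  obtain ⟨y1, hy1⟩ := a1
  obtain ⟨y2, hy2⟩ := a2
  have hr2 : sg w' A * sg v B = sg w' B * sg v A := by
    rw [hy1, hy2]
    exact ratio_line v w' A' B' r1' y1 y2
  -- the difference of parameters is one
  have hd : s2 - s1 = 1 := by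
    have e1 : (t2 - t1) • (B' - A') = (s2 - s1) • (B - A) := by
      have : (A' + t2 • (B' - A')) - (A' + t1 • (B' - A')) = (A + s2 • (B - A)) - (A + s1 • (B - A)) := by
        rw [hs1, hs2]
      have e2 : (A' + t2 • (B' - A')) - (A' + t1 • (B' - A')) = (t2 - t1) • (B' - A') := by module
      have e3 : (A + s2 • (B - A)) - (A + s1 • (B - A)) = (s2 - s1) • (B - A) := by module
      rw [e2, e3] at this
      exact this
    have e4 : (t2 - t1) * s' = (s2 - s1) * s := by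
      rw [h1, h3, smul_smul, smul_smul] at e1
      exact smul_left_injective ℝ hf e1
    have e5 : u • f' = (t2 - t1) • (u' • f') := by
      rw [← h2, ht1, ht2, rf_line, rf_line, ← h4]
      module
    have e6 : u = (t2 - t1) * u' := by
      rw [smul_smul] at e5
      exact smul_left_injective ℝ hf' e5
    have e7 : (s2 - s1) * (s * u') = 1 * (s * u') := by
      calc (s2 - s1) * (s * u') = ((s2 - s1) * s) * u' := by ring
        _ = ((t2 - t1) * s') * u' := by rw [e4]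
        _ = ((t2 - t1) * u') * s' := by ring
        _ = u * s' := by rw [← e6]
        _ = 1 * (s * u') := by rw [k2]; ring
    exact mul_right_cancel₀ (mul_ne_zero hs0 hu0') e7
  refine col_key v w w' hv hw hw' A B A (A' + t1 • (B' - A')) B (A' + t2 • (B' - A')) hAB
    0 1 s1 s2 (by simp) (by simp) hs1 hs2 hAB ht1 ht2 ?_ r1 hr2 nA nB n3
  constructor
  · intro h; exfalso; linarith only [h]
  · intro h; exfalso; linarith only [hd, h]

open scoped Classical in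
/-- a direction vector of a lifted line -/
noncomputable def dirOf (S : Submodule ℝ (E × ℝ)) : E :=
  if h : ∃ f : E, f ≠ 0 ∧ ((f, (0:ℝ)) : E × ℝ) ∈ S then Classical.choose h else 0

theorem dirOf_spec (A B : E) (h : A ≠ B) :
    dirOf (lineSub A B) ≠ 0 ∧ ∃ s : ℝ, B - A = s • dirOf (lineSub A B) := by
  have hex : ∃ f : E, f ≠ 0 ∧ ((f, (0:ℝ)) : E × ℝ) ∈ lineSub A B := by
    refine ⟨B - A, sub_ne_zero.mpr (Ne.symm h), ?_⟩
    unfold lineSub
    rw [Submodule.mem_span_pair]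
    refine ⟨-1, 1, ?_⟩
    apply Prod.ext
    · simp only [Prod.smul_mk, Prod.mk_add_mk]; module
    · simp
  have hd : dirOf (lineSub A B) = Classical.choose hex := by
    unfold dirOf; rw [dif_pos hex]
  obtain ⟨h1, h2⟩ := Classical.choose_spec hex
  rw [← hd] at h1 h2
  refine ⟨h1, ?_⟩
  unfold lineSub at h2
  rw [Submodule.mem_span_pair] at h2
  obtain ⟨s, t, hst⟩ := h2
  have e1 : s • A + t • B = dirOf (lineSub A B) := congrArg Prod.fst hst
  have e2 : s + t = 0 := by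
    have := congrArg Prod.snd hst
    simpa only [Prod.smul_mk, smul_eq_mul, mul_one, Prod.mk_add_mk] using this
  have e3 : dirOf (lineSub A B) = t • (B - A) := by
    rw [← e1, show s = -t by linarith only [e2]]; module
  have ht : t ≠ 0 := by
    rintro rfl
    rw [zero_smul] at e3
    exact h1 e3
  exact ⟨t⁻¹, by rw [e3, smul_smul, inv_mul_cancel₀ ht, one_smul]⟩

theorem mass_point_le (I : Finset E) (q : E) :
    mass I (fun p => ((p, (1:ℝ)) : E × ℝ)) (Submodule.span ℝ {((q, (1:ℝ)) : E × ℝ)}) ≤ 1 := by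
  classical
  unfold mass
  have h1 : (I.filter (fun p => ((p, (1:ℝ)) : E × ℝ) ∈
      Submodule.span ℝ {((q, (1:ℝ)) : E × ℝ)})).card ≤ ({q} : Finset E).card := by
    apply card_le_card
    intro p hp
    rw [mem_filter] at hp
    rw [mem_singleton]
    by_contra hne
    exact lift_not_mem q p (fun h => hne h.symm) hp.2
  rw [card_singleton] at h1
  exact_mod_cast (by convert h1 :
    (I.filter (fun p => ((p, (1:ℝ)) : E × ℝ) ∈
      Submodule.span ℝ {((q, (1:ℝ)) : E × ℝ)})).card ≤ 1)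

end

end Vale.Agent.P054K

open Finset

namespace Vale.Agent.P054K

section
variable {E : Type} [NormedAddCommGroup E] [InnerProductSpace ℝ E]

open scoped Classical in
/-- number of bisectors with a long collinear part -/
theorem colST_count (C : Finset E) (R : Finset (E × ℝ)) (hR1 : ∀ v ∈ R, v.1 ≠ 0)
    (hR2 : ∀ v ∈ R, ∀ w ∈ R, w ∈ Submodule.span ℝ {v} → w = v)
    (v : E × ℝ) (hv : v.1 ≠ 0) (W : Finset (E × ℝ)) (hW : W ⊆ R) (T : E × ℝ → Finset E)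
    (τ Λ : ℝ) (hτ2 : 2 ≤ τ)
    (hT : ∀ w ∈ W, T w ⊆ SS C v ∩ SS C w) (hTc : ∀ w ∈ W, τ ≤ ((T w).card : ℝ))
    (hratio : ∀ w ∈ W, ∀ q ∈ T w, ∀ q' ∈ T w, sg w q * sg v q' = sg w q' * sg v q)
    (hcol : ∀ w ∈ W, ∀ q₁ ∈ T w, ∀ q₂ ∈ T w, q₁ ≠ q₂ → ∀ q₃ ∈ T w,
      ∃ τ : ℝ, q₃ = q₁ + τ • (q₂ - q₁))
    (hΛ : 12 * Real.log ((C.card : ℝ) + 1) + 1 ≤ Λ) (hτ : 64 * Λ ≤ τ) :
    (W.card : ℝ) ≤ 2 * ((2 ^ 12 * Λ ^ 2 * (((SS C v).card : ℝ) ^ 2 / τ ^ 3) +
        2 * (((SS C v).card : ℝ) / τ)) *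
      (2 ^ 12 * Λ ^ 2 * ((C.card : ℝ) ^ 2 / τ ^ 3) + 2 * ((C.card : ℝ) / τ))) := by
  have hex : ∀ w : E × ℝ, ∃ p : E × E, w ∈ W → p.1 ∈ T w ∧ p.2 ∈ T w ∧ p.1 ≠ p.2 := by
    intro w
    by_cases hw : w ∈ W
    · have h1 : 1 < (T w).card := by
        have h2 : (2:ℝ) ≤ (T w).card := hτ2.trans (hTc w hw)
        have : 2 ≤ (T w).card := by exact_mod_cast h2
        (clear * - this; omega)
      obtain ⟨a, ha, b, hb, hab⟩ := Finset.one_lt_card.mp h1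
      exact ⟨(a, b), fun _ => ⟨ha, hb, hab⟩⟩
    · exact ⟨(0, 0), fun h => absurd h hw⟩
  choose p hp using hex
  have hrfne : ∀ w ∈ W, rf w (p w).1 ≠ rf w (p w).2 := by
    intro w hw h
    apply (hp w hw).2.2
    rw [← rf_rf w (hR1 _ (hW hw)) (p w).1, h, rf_rf w (hR1 _ (hW hw))]
  set L1 : E × ℝ → Submodule ℝ (E × ℝ) := fun w => lineSub (p w).1 (p w).2 with hL1
  set L2 : E × ℝ → Submodule ℝ (E × ℝ) := fun w => lineSub (rf w (p w).1) (rf w (p w).2) with hL2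
  set sgn : E × ℝ → Bool := fun w => decide (0 < inner ℝ (dirOf (L1 w)) ((p w).2 - (p w).1) *
    inner ℝ (dirOf (L2 w)) (rf w (p w).2 - rf w (p w).1)) with hsgn
  -- injectivity
  have hinj : Set.InjOn (fun w => ((L1 w, L2 w), sgn w)) (W : Set (E × ℝ)) := by
    intro w hw w' hw' hww
    rw [mem_coe] at hw hw'
    have e1 : L1 w = L1 w' := congrArg (fun y => y.1.1) hww
    have e2 : L2 w = L2 w' := congrArg (fun y => y.1.2) hww
    have e3 : sgn w = sgn w' := congrArg (fun y => y.2) hww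
    obtain ⟨pa, pb, pab⟩ := hp w hw
    obtain ⟨pa', pb', pab'⟩ := hp w' hw'
    obtain ⟨f0, s, hs⟩ := dirOf_spec (p w).1 (p w).2 pab
    obtain ⟨_, s', hs'⟩ := dirOf_spec (p w').1 (p w').2 pab'
    obtain ⟨g0, u, hu⟩ := dirOf_spec (rf w (p w).1) (rf w (p w).2) (hrfne w hw)
    obtain ⟨_, u', hu'⟩ := dirOf_spec (rf w' (p w').1) (rf w' (p w').2) (hrfne w' hw')
    change dirOf (L1 w) ≠ 0 at f0
    change dirOf (L2 w) ≠ 0 at g0
    change (p w).2 - (p w).1 = s • dirOf (L1 w) at hs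
    change (p w').2 - (p w').1 = s' • dirOf (L1 w') at hs'
    change rf w (p w).2 - rf w (p w).1 = u • dirOf (L2 w) at hu
    change rf w' (p w').2 - rf w' (p w').1 = u' • dirOf (L2 w') at hu'
    have hfn : 0 < ‖dirOf (L1 w)‖ := norm_pos_iff.mpr f0
    have hgn : 0 < ‖dirOf (L2 w)‖ := norm_pos_iff.mpr g0
    have hsg : ∀ x y : ℝ, (0 < inner ℝ (dirOf (L1 w)) (x • dirOf (L1 w)) *
        inner ℝ (dirOf (L2 w)) (y • dirOf (L2 w))) ↔ 0 < x * y := by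
      intro x y
      rw [inner_smul_right, inner_smul_right, real_inner_self_eq_norm_sq, real_inner_self_eq_norm_sq]
      rw [show x * ‖dirOf (L1 w)‖ ^ 2 * (y * ‖dirOf (L2 w)‖ ^ 2) =
        (x * y) * (‖dirOf (L1 w)‖ ^ 2 * ‖dirOf (L2 w)‖ ^ 2) by ring]
      exact mul_pos_iff_of_pos_right (by positivity)
    have hq : 0 < s * u ↔ 0 < s' * u' := by
      have h1 : sgn w = decide (0 < s * u) := by
        rw [hsgn]
        simp only
        rw [hs, hu]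
        simp only [hsg]
      have h2 : sgn w' = decide (0 < s' * u') := by
        rw [hsgn]
        simp only
        rw [hs', hu', ← e1, ← e2]
        simp only [hsg]
      rw [h1, h2] at e3
      exact decide_eq_decide.mp e3
    rw [← e1] at hs'
    rw [← e2] at hu'
    have mw : ∀ q ∈ T w, q ∈ SS C v ∧ q ∈ SS C w := fun q hq => mem_inter.mp (hT w hw hq)
    have hmem := colST_pair v w w' hv (hR1 _ (hW hw)) (hR1 _ (hW hw')) (p w).1 (p w).2 (p w').1 (p w').2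
      pab pab' e1 e2 (hratio w hw _ pa _ pb) (hratio w' hw' _ pa' _ pb')
      (sg_ne_zero hv (mw _ pa).1) (sg_ne_zero hv (mw _ pb).1) (mem_SS.mp (mw _ pa).2).2.2
      (dirOf (L1 w)) (dirOf (L2 w)) f0 g0 s u s' u' hs hu hs' hu' hq
    exact (hR2 _ (hW hw) _ (hW hw') hmem).symm
  have hcard : W.card ≤ ((W.image L1 ×ˢ W.image L2) ×ˢ (Finset.univ : Finset Bool)).card := by
    apply Finset.card_le_card_of_injOn _ _ hinj
    intro w hw
    rw [mem_coe] at hw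
    rw [mem_coe, mem_product, mem_product]
    exact ⟨⟨mem_image_of_mem _ hw, mem_image_of_mem _ hw⟩, mem_univ _⟩
  rw [card_product, card_product, Finset.card_univ, Fintype.card_bool] at hcard
  have hxC : (0:ℝ) ≤ C.card := by (clear * -; positivity)
  have hlogm : ∀ I : Finset E, I ⊆ C → 12 * Real.log ((I.card : ℝ) + 1) + 1 ≤ Λ := by
    intro I hI
    have h1 : (I.card : ℝ) ≤ C.card := by exact_mod_cast card_le_card hI
    have h2 : Real.log ((I.card : ℝ) + 1) ≤ Real.log ((C.card : ℝ) + 1) :=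
      Real.log_le_log (by (clear * -; positivity)) (by linarith only [h1])
    linarith only [hΛ, h2]
  have hb1 : ((W.image L1).card : ℝ) ≤ 2 ^ 12 * Λ ^ 2 * (((SS C v).card : ℝ) ^ 2 / τ ^ 3) +
        2 * (((SS C v).card : ℝ) / τ) := by
    have h := linearST (SS C v) (fun q => ((q, (1:ℝ)) : E × ℝ)) 1 τ Λ
      (fun q _ => lift_ne_zero q) (fun q _ => mass_point_le _ q) one_pos (W.image L1) ?_
      (hlogm _ (fun q hq => (mem_SS.mp hq).1)) (by linarith only [hτ])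
    · rw [one_mul] at h; exact h
    · intro A hA
      obtain ⟨w, hw, rfl⟩ := mem_image.mp hA
      obtain ⟨pa, pb, pab⟩ := hp w hw
      refine ⟨finrank_lineSub _ _ pab, (hTc w hw).trans ?_⟩
      unfold mass
      rw [Nat.cast_le]
      apply card_le_card
      intro q hq
      rw [mem_filter]
      refine ⟨(mem_inter.mp (hT w hw hq)).1, ?_⟩
      exact (mem_lineSub _ _ _).mpr (hcol w hw _ pa _ pb pab q hq)
  have hb2 : ((W.image L2).card : ℝ) ≤ 2 ^ 12 * Λ ^ 2 * ((C.card : ℝ) ^ 2 / τ ^ 3) +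
        2 * ((C.card : ℝ) / τ) := by
    have h := linearST C (fun q => ((q, (1:ℝ)) : E × ℝ)) 1 τ Λ
      (fun q _ => lift_ne_zero q) (fun q _ => mass_point_le _ q) one_pos (W.image L2) ?_
      hΛ (by linarith only [hτ])
    · rw [one_mul] at h; exact h
    · intro A hA
      obtain ⟨w, hw, rfl⟩ := mem_image.mp hA
      obtain ⟨pa, pb, pab⟩ := hp w hw
      refine ⟨finrank_lineSub _ _ (hrfne w hw), (hTc w hw).trans ?_⟩
      unfold mass
      rw [Nat.cast_le]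
      apply Finset.card_le_card_of_injOn (fun q => rf w q)
      · intro q hq
        rw [mem_coe] at hq
        rw [mem_coe, mem_filter]
        refine ⟨(mem_SS.mp (mem_inter.mp (hT w hw hq)).2).2.1, ?_⟩
        obtain ⟨t, ht⟩ := hcol w hw _ pa _ pb pab q hq
        refine (mem_lineSub _ _ _).mpr ⟨t, ?_⟩
        show rf w q = _
        rw [ht, rf_line]
      · intro q _ q' _ h
        have h' : rf w q = rf w q' := h
        rw [← rf_rf w (hR1 _ (hW hw)) q, h', rf_rf w (hR1 _ (hW hw))]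
  have hc : (W.card : ℝ) ≤ ((W.image L1).card : ℝ) * ((W.image L2).card : ℝ) * 2 := by
    exact_mod_cast hcard
  have h0 : (0:ℝ) ≤ ((W.image L1).card : ℝ) := by (clear * -; positivity)
  have h0' : (0:ℝ) ≤ ((W.image L2).card : ℝ) := by (clear * -; positivity)
  have hmul := mul_le_mul hb1 hb2 h0' (h0.trans hb1)
  linarith only [hc, hmul]

/-- numerics of one level -/
theorem colST_numeric (S n x τ Λ Wc : ℝ) (hS0 : 0 ≤ S) (hS : S ≤ 2 * n) (hn0 : 0 < n) (hnx : n ≤ x)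
    (hτ0 : 0 < τ) (hxτ : x ≤ τ ^ 2) (hΛ1 : 1 ≤ Λ)
    (h : Wc ≤ 2 * ((2 ^ 12 * Λ ^ 2 * (S ^ 2 / τ ^ 3) + 2 * (S / τ)) *
      (2 ^ 12 * Λ ^ 2 * (x ^ 2 / τ ^ 3) + 2 * (x / τ)))) :
    Wc ≤ 2 ^ 29 * Λ ^ 4 * (n * x / τ ^ 2) := by
  have hx0 : 0 < x := by linarith only [hn0, hnx]
  have hΛ2 : 1 ≤ Λ ^ 2 := one_le_pow₀ hΛ1
  have e1 : x ^ 2 / τ ^ 3 ≤ x / τ := by
    rw [div_le_div_iff₀ (by positivity) hτ0]
    have : x * (x * τ) ≤ τ ^ 2 * (x * τ) := mul_le_mul_of_nonneg_right hxτ (by positivity)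
    nlinarith only [this]
  have e2 : S ^ 2 / τ ^ 3 ≤ 4 * (n / τ) := by
    have h1 : S ^ 2 ≤ 4 * (n * x) := by nlinarith only [hS0, hS, hnx]
    calc S ^ 2 / τ ^ 3 ≤ 4 * (n * x) / τ ^ 3 := by
          apply div_le_div_of_nonneg_right h1 (by positivity)
      _ ≤ 4 * (n / τ) := by
          rw [show 4 * (n / τ) = 4 * n / τ by ring, div_le_div_iff₀ (by positivity) hτ0]
          have : (n * τ) * x ≤ (n * τ) * τ ^ 2 := mul_le_mul_of_nonneg_left hxτ (by positivity)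
          nlinarith only [this]
  have e3 : S / τ ≤ 2 * (n / τ) := by
    rw [show 2 * (n / τ) = (2 * n) / τ by ring]
    exact div_le_div_of_nonneg_right hS hτ0.le
  have f1 : 0 ≤ n / τ := by positivity
  have f2 : 0 ≤ x / τ := by positivity
  have g1 : 2 ^ 12 * Λ ^ 2 * (S ^ 2 / τ ^ 3) + 2 * (S / τ) ≤ 2 ^ 15 * Λ ^ 2 * (n / τ) := by
    have h1 : 2 ^ 12 * Λ ^ 2 * (S ^ 2 / τ ^ 3) ≤ 2 ^ 12 * Λ ^ 2 * (4 * (n / τ)) :=
      mul_le_mul_of_nonneg_left e2 (by positivity)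
    have h2 : n / τ ≤ Λ ^ 2 * (n / τ) := by
      calc n / τ = 1 * (n / τ) := by ring
        _ ≤ Λ ^ 2 * (n / τ) := mul_le_mul_of_nonneg_right hΛ2 f1
    nlinarith only [e3, f1, h1, h2]
  have g2 : 2 ^ 12 * Λ ^ 2 * (x ^ 2 / τ ^ 3) + 2 * (x / τ) ≤ 2 ^ 13 * Λ ^ 2 * (x / τ) := by
    have h1 : 2 ^ 12 * Λ ^ 2 * (x ^ 2 / τ ^ 3) ≤ 2 ^ 12 * Λ ^ 2 * (x / τ) :=
      mul_le_mul_of_nonneg_left e1 (by positivity)
    have h2 : x / τ ≤ Λ ^ 2 * (x / τ) := by
      calc x / τ = 1 * (x / τ) := by ring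
        _ ≤ Λ ^ 2 * (x / τ) := mul_le_mul_of_nonneg_right hΛ2 f2
    nlinarith only [f2, h1, h2]
  calc Wc ≤ _ := h
    _ ≤ 2 * ((2 ^ 15 * Λ ^ 2 * (n / τ)) * (2 ^ 13 * Λ ^ 2 * (x / τ))) := by
        apply mul_le_mul_of_nonneg_left _ (by norm_num)
        apply mul_le_mul g1 g2 (by positivity) (by positivity)
    _ = 2 ^ 29 * Λ ^ 4 * (n * x / τ ^ 2) := by
        field_simp

open scoped Classical in
/-- collinear part, one fixed bisector, with the incidence bound for lines -/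
theorem col_partST (C : Finset E)
    (R : Finset (E × ℝ)) (hR1 : ∀ v ∈ R, v.1 ≠ 0)
    (hR2 : ∀ v ∈ R, ∀ w ∈ R, w ∈ Submodule.span ℝ {v} → w = v)
    (v : E × ℝ) (hvR : v ∈ R) (W : Finset (E × ℝ))
    (hW : W ⊆ R) (T : E × ℝ → Finset E)
    (lam n Λ : ℝ) (hn : ((SS C v).card : ℝ) ≤ 2 * n) (hn0 : 0 < n)
    (hnx : n ≤ C.card) (hΛ : 20 * (Real.log ((C.card : ℝ) + 3) + 1) ≤ Λ)
    (hlam : 128 * Λ ≤ lam) (hlam2 : 4 * (C.card : ℝ) ≤ lam ^ 2)
    (hT : ∀ w ∈ W, T w ⊆ SS C v ∩ SS C w) (hTc : ∀ w ∈ W, lam ≤ ((T w).card : ℝ))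
    (hratio : ∀ w ∈ W, ∀ q ∈ T w, ∀ q' ∈ T w, sg w q * sg v q' = sg w q' * sg v q)
    (hcol : ∀ w ∈ W, ∀ q₁ ∈ T w, ∀ q₂ ∈ T w, q₁ ≠ q₂ → ∀ q₃ ∈ T w,
      ∃ τ : ℝ, q₃ = q₁ + τ • (q₂ - q₁)) :
    ∑ w ∈ W, ((T w).card : ℝ) ≤ 2 ^ 31 * Λ ^ 5 * (n * C.card / lam) := by
  have hx0 : (0:ℝ) < C.card := by linarith only [hn0, hnx]
  have hx1 : 1 ≤ C.card := by
    have : 0 < C.card := by exact_mod_cast hx0
    omega
  have hlog : 0 ≤ Real.log ((C.card : ℝ) + 3) := Real.log_nonneg (by linarith only [hn0, hnx])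
  have hΛ1 : 1 ≤ Λ := by linarith only [hΛ, hlog]
  have hlam0 : 0 < lam := by linarith only [hΛ, hlam, hlog]
  have hlogle : Real.log ((C.card : ℝ) + 1) ≤ Real.log ((C.card : ℝ) + 3) :=
    Real.log_le_log (by linarith only [hn0, hnx]) (by linarith only [])
  obtain ⟨j, hj⟩ := level_pigeonhole W (fun w => ((T w).card : ℝ)) (fun w => Nat.log 2 (T w).card)
    (Nat.log 2 C.card + 1) (by
      intro w hw
      apply Nat.lt_succ_of_le
      apply Nat.log_mono_right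
      apply card_le_card
      intro q hq
      exact (mem_SS.mp (mem_inter.mp (hT w hw hq)).1).1) (by omega)
  have hJ : ((Nat.log 2 C.card + 1 : ℕ) : ℝ) ≤ Λ := natlog_le C.card hx1 Λ hΛ
  set Wj := W.filter (fun w => Nat.log 2 (T w).card = j) with hWj
  have hgoal : ∑ w ∈ Wj, ((T w).card : ℝ) ≤ 2 ^ 31 * Λ ^ 4 * (n * C.card / lam) := by
    rcases Wj.eq_empty_or_nonempty with he | ⟨w₀, hw₀⟩
    · rw [he, Finset.sum_empty]; (clear * - hn0 hx1 hΛ1 hlam0; positivity)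
    have hlev : ∀ w ∈ Wj, (2:ℝ) ^ j ≤ ((T w).card : ℝ) ∧ ((T w).card : ℝ) ≤ 2 * 2 ^ j := by
      intro w hw
      obtain ⟨h1, h2⟩ := mem_filter.mp hw
      have h3 : (T w).card ≠ 0 := by
        intro h0
        have := hTc w h1
        rw [h0] at this
        simp only [CharP.cast_eq_zero] at this
        linarith only [hΛ, hlam, hlog, this]
      constructor
      · rw [← h2]
        exact_mod_cast Nat.pow_log_le_self 2 h3
      · rw [← pow_succ', ← h2]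
        exact_mod_cast (Nat.lt_pow_succ_log_self (by norm_num) _).le
    have hτlam : lam ≤ 2 * 2 ^ j := (hTc w₀ (mem_filter.mp hw₀).1).trans (hlev w₀ hw₀).2
    set τ : ℝ := 2 ^ j with hτ
    have hτ0 : 0 < τ := by positivity
    have hxτ : (C.card : ℝ) ≤ τ ^ 2 := by
      have h1 : lam ^ 2 ≤ (2 * τ) ^ 2 := pow_le_pow_left₀ hlam0.le hτlam 2
      nlinarith only [hlam2, h1]
    have hsub : Wj ⊆ W := filter_subset _ _
    have hc := colST_count C R hR1 hR2 v (hR1 v hvR) Wj (hsub.trans hW) T τ Λ (by linarith only [hΛ,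
                                                                                    hlam, hlog,
                                                                                    hτlam])
      (fun w hw => hT w (hsub hw)) (fun w hw => (hlev w hw).1) (fun w hw => hratio w (hsub hw))
      (fun w hw => hcol w (hsub hw)) (by linarith only [hΛ, hlog, hlogle]) (by linarith only [hlam, hτlam])
    have hc2 := colST_numeric _ n C.card τ Λ _ (by (clear * -; positivity)) hn hn0 hnx hτ0 hxτ hΛ1 hc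
    calc ∑ w ∈ Wj, ((T w).card : ℝ) ≤ Wj.card • (2 * τ) :=
          Finset.sum_le_card_nsmul _ _ _ (fun w hw => (hlev w hw).2)
      _ = (Wj.card : ℝ) * (2 * τ) := by rw [nsmul_eq_mul]
      _ ≤ (2 ^ 29 * Λ ^ 4 * (n * C.card / τ ^ 2)) * (2 * τ) :=
          mul_le_mul_of_nonneg_right hc2 (by positivity)
      _ = 2 ^ 30 * Λ ^ 4 * (n * C.card / τ) := by
          (clear * - hn0 hx1 hΛ1 hτ0; field_simp)
      _ ≤ 2 ^ 30 * Λ ^ 4 * (2 * (n * C.card / lam)) := by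
          apply mul_le_mul_of_nonneg_left _ (by positivity)
          rw [show 2 * (n * (C.card : ℝ) / lam) = (n * C.card) * 2 / lam by ring,
            div_le_div_iff₀ hτ0 hlam0]
          have : (n * (C.card : ℝ)) * lam ≤ (n * C.card) * (2 * τ) :=
            mul_le_mul_of_nonneg_left hτlam (by (clear * - hn0 hx1; positivity))
          linarith only [this]
      _ = _ := by ring
  have hs0 : 0 ≤ ∑ w ∈ Wj, ((T w).card : ℝ) := Finset.sum_nonneg (fun _ _ => by (clear * -; positivity))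
  calc ∑ w ∈ W, ((T w).card : ℝ)
      ≤ ((Nat.log 2 C.card + 1 : ℕ) : ℝ) * ∑ w ∈ Wj, ((T w).card : ℝ) := hj
    _ ≤ Λ * (2 ^ 31 * Λ ^ 4 * (n * C.card / lam)) := mul_le_mul hJ hgoal hs0 (by linarith only [hΛ,
                                                                                   hlog])
    _ = _ := by ring

end

end Vale.Agent.P054K

open Finset

namespace Vale.Agent.P054K

section
variable {E : Type} [NormedAddCommGroup E] [InnerProductSpace ℝ E] [FiniteDimensional ℝ E]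

open scoped Classical in
/-- number of pairs of equal nonzero distances -/
noncomputable def qn (C : Finset E) : ℕ := (((C ×ˢ C) ×ˢ (C ×ˢ C)).filter
      (fun z => z.1.1 ≠ z.1.2 ∧ dist z.2.1 z.2.2 = dist z.1.1 z.1.2)).card

open scoped Classical in
theorem case_nondegQ (C : Finset E) (R : Finset (E × ℝ))
    (hR1 : ∀ v ∈ R, v.1 ≠ 0) (hR2 : ∀ v ∈ R, ∀ w ∈ R, w ∈ Submodule.span ℝ {v} → w = v)
    (j : ℕ) (T : (E × ℝ) × (E × ℝ) → Finset E)
    (Bn : Finset ((E × ℝ) × (E × ℝ))) (hBn : Bn ⊆ lvl R j)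
    (hBn2 : ∀ π ∈ Bn, 2 * (T π).card ≤ (SS C π.1 ∩ SS C π.2).card)
    (hT : ∀ π ∈ Bn, ∀ q ∈ SS C π.1 ∩ SS C π.2, ((SS C π.1 ∩ SS C π.2).filter
        (fun q' => sg π.2 q * sg π.1 q' = sg π.2 q' * sg π.1 q)).card ≤ (T π).card) :
    (∑ π ∈ Bn, rr C π) ^ 2 ≤ (lvl R j).card * ∑ π ∈ Bn, rr C π ^ 2 ∧
    ∑ π ∈ Bn, rr C π ^ 2 ≤ 2 * (2 * (2:ℝ) ^ j * (qn C : ℝ)) := by
  set Z := ((lvl R j).sigma (fun π => ((SS C π.1 ∩ SS C π.2) ×ˢ (SS C π.1 ∩ SS C π.2)).filter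
      (fun q => sg π.2 q.1 * sg π.1 q.2 ≠ sg π.2 q.2 * sg π.1 q.1))).card with hZ
  have h1 : Z ≤ (2 * 2 ^ j) * qn C :=
    nondeg_countQ C R hR1 hR2 (lvl R j) (lvl_mem R j) (2 * 2 ^ j)
      (fun π hπ => (lvl_pen R j π hπ).2.le)
  have h2 : ∑ π ∈ Bn, (SS C π.1 ∩ SS C π.2).card ^ 2 ≤ 2 * Z := by
    rw [hZ, Finset.card_sigma, Finset.mul_sum]
    calc ∑ π ∈ Bn, (SS C π.1 ∩ SS C π.2).card ^ 2
        ≤ ∑ π ∈ Bn, 2 * (((SS C π.1 ∩ SS C π.2) ×ˢ (SS C π.1 ∩ SS C π.2)).filter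
          (fun q => sg π.2 q.1 * sg π.1 q.2 ≠ sg π.2 q.2 * sg π.1 q.1)).card := by
          apply Finset.sum_le_sum
          intro π hπ
          exact nondeg_lower C π.1 π.2 (T π) (hT π hπ) (hBn2 π hπ)
      _ ≤ _ := by
          apply Finset.sum_le_sum_of_subset
          exact hBn
  constructor
  · refine le_trans sq_sum_le_card_mul_sum_sq ?_
    apply mul_le_mul_of_nonneg_right _ (Finset.sum_nonneg (fun π _ => by positivity))
    exact_mod_cast card_le_card hBn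
  · have h5 : ∑ π ∈ Bn, rr C π ^ 2 ≤ 2 * (Z : ℝ) := by
      unfold rr
      exact_mod_cast h2
    have h6 : (Z : ℝ) ≤ 2 * (2:ℝ) ^ j * (qn C : ℝ) := by
      exact_mod_cast h1
    linarith only [h5, h6]

theorem num_caseAQ (K1 Λ x n N ρ Pi M S Q : ℝ) (hK1 : 1 ≤ K1) (hΛ1 : 1 ≤ Λ)
    (hn0 : 0 < n) (hx0 : 0 < x) (hN0 : 0 < N) (hρ0 : 0 < ρ) (hQ0 : 0 ≤ Q) (hS0 : 0 ≤ S)
    (hc : 1 / 4 * (N * n) ^ 2 ≤ x * Λ * M)
    (h3 : M ^ 2 ≤ Pi * S) (h4 : S ≤ 2 * (2 * ρ * Q))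
    (hPi2 : Pi ≤ 2 * K1 * Λ ^ 2 * (N ^ 2 / ρ)) :
    N ^ 2 * n ^ 4 ≤ 128 * K1 * Λ ^ 4 * x ^ 2 * Q := by
  have h := num_caseA K1 Λ x n N ρ Pi M S (Q / x ^ 2) hK1 hΛ1 hn0 hx0 hN0 hρ0 (by positivity) hS0 hc
    h3 (by
      have : x ^ 2 * (Q / x ^ 2) = Q := by field_simp
      rw [this]; exact h4) hPi2
  have e : 128 * K1 * Λ ^ 4 * x ^ 4 * (Q / x ^ 2) = 128 * K1 * Λ ^ 4 * x ^ 2 * Q := by
    field_simp
  rw [e] at h
  exact h

open scoped Classical in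
theorem case_colST (C : Finset E) (R : Finset (E × ℝ))
    (hR1 : ∀ v ∈ R, v.1 ≠ 0) (hR2 : ∀ v ∈ R, ∀ w ∈ R, w ∈ Submodule.span ℝ {v} → w = v)
    (n lam Λ : ℝ) (hn0 : 0 < n) (hSSn : ∀ v ∈ R, ((SS C v).card : ℝ) ≤ 2 * n)
    (hnx : n ≤ C.card) (hΛ : 20 * (Real.log ((C.card : ℝ) + 3) + 1) ≤ Λ)
    (hlam : 128 * Λ ≤ lam) (hlam2 : 4 * (C.card : ℝ) ≤ lam ^ 2)
    (T : (E × ℝ) × (E × ℝ) → Finset E)
    (Bc : Finset ((E × ℝ) × (E × ℝ))) (hBR : Bc ⊆ R ×ˢ R)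
    (hTB : ∀ π ∈ Bc, rr C π ≤ 2 * ((T π).card : ℝ) ∧ 4 * lam ≤ rr C π)
    (hT : ∀ π ∈ Bc, T π ⊆ SS C π.1 ∩ SS C π.2 ∧
      (∀ q ∈ T π, ∀ q' ∈ T π, sg π.2 q * sg π.1 q' = sg π.2 q' * sg π.1 q))
    (hcol : ∀ π ∈ Bc, ∃ q₁ ∈ T π, ∃ q₂ ∈ T π, q₁ ≠ q₂ ∧
      (T π).card < 2 * ((T π).filter (fun q => ∃ τ : ℝ, q = q₁ + τ • (q₂ - q₁))).card) :
    ∑ π ∈ Bc, rr C π ≤ (R.card : ℝ) * (4 * (2 ^ 31 * Λ ^ 5 * (n * C.card / lam))) := by
  have hTc : ∀ π : (E × ℝ) × (E × ℝ), ∃ T' : Finset E, π ∈ Bc → (T' ⊆ T π ∧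
      (T π).card < 2 * T'.card ∧
      ∀ q₁ ∈ T', ∀ q₂ ∈ T', q₁ ≠ q₂ → ∀ q₃ ∈ T', ∃ τ : ℝ, q₃ = q₁ + τ • (q₂ - q₁)) := by
    intro π
    by_cases h : π ∈ Bc
    · obtain ⟨q₁, _, q₂, _, h12, hlt⟩ := hcol π h
      refine ⟨(T π).filter (fun q => ∃ τ : ℝ, q = q₁ + τ • (q₂ - q₁)), fun _ =>
        ⟨filter_subset _ _, hlt, ?_⟩⟩
      intro a ha b hb hab c hc
      exact line_three q₁ q₂ a b c (mem_filter.mp ha).2 (mem_filter.mp hb).2 (mem_filter.mp hc).2 hab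
    · exact ⟨∅, fun h' => absurd h' h⟩
  choose T' hT' using hTc
  apply sum_pairs_le R Bc (fun π hπ => mem_product.mp (hBR hπ))
  intro v hv W hWR hmemW
  calc ∑ w ∈ W, rr C (v, w)
      ≤ ∑ w ∈ W, 4 * ((T' (v, w)).card : ℝ) := by
        apply Finset.sum_le_sum
        intro w hw
        have h2 := hmemW w hw
        have h3 := (hTB _ h2).1
        have h4 : ((T (v, w)).card : ℝ) < 2 * ((T' (v, w)).card : ℝ) := by
          exact_mod_cast (hT' (v, w) h2).2.1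
        linarith only [h3, h4]
    _ = 4 * ∑ w ∈ W, ((T' (v, w)).card : ℝ) := by
        rw [Finset.mul_sum]
    _ ≤ 4 * (2 ^ 31 * Λ ^ 5 * (n * C.card / lam)) := by
        apply mul_le_mul_of_nonneg_left _ (by norm_num)
        apply col_partST C R hR1 hR2 v hv W hWR
          (fun w => T' (v, w)) lam n Λ (hSSn v hv) hn0 hnx hΛ hlam hlam2
        · intro w hw
          have h2 := hmemW w hw
          exact (hT' (v, w) h2).1.trans (hT (v, w) h2).1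
        · intro w hw
          have h2 := hmemW w hw
          obtain ⟨h3, h4⟩ := hTB _ h2
          have h5 : ((T (v, w)).card : ℝ) < 2 * ((T' (v, w)).card : ℝ) := by
            exact_mod_cast (hT' (v, w) h2).2.1
          linarith
        · intro w hw q hq q' hq'
          have h2 := hmemW w hw
          exact (hT (v, w) h2).2 q ((hT' (v, w) h2).1 hq) q' ((hT' (v, w) h2).1 hq')
        · intro w hw
          exact (hT' (v, w) (hmemW w hw)).2.2

theorem num_colST (Λ x n N lam M : ℝ) (hΛ1 : 1 ≤ Λ) (hn0 : 0 < n)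
    (hx0 : 0 < x) (hN0 : 0 < N) (hlam0 : 0 < lam) (hlame : lam * (16 * x * Λ) = n ^ 2)
    (hc : 1 / 8 * (N * n) ^ 2 ≤ x * Λ * M)
    (h1 : M ≤ N * (4 * (2 ^ 31 * Λ ^ 5 * (n * x / lam)))) :
    N * n ^ 3 ≤ 2 ^ 40 * Λ ^ 7 * x ^ 3 := by
  have hΛ0 : 0 < Λ := by linarith only [hΛ1]
  have h2 : 1 / 8 * (N * n) ^ 2 ≤ x * Λ * (N * (4 * (2 ^ 31 * Λ ^ 5 * (n * x / lam)))) :=
    hc.trans (mul_le_mul_of_nonneg_left h1 (by positivity))
  have h4 : x * Λ * (N * (4 * (2 ^ 31 * Λ ^ 5 * (n * x / lam)))) =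
      (2 ^ 33 * N * Λ ^ 6 * n * x ^ 2) / lam := by field_simp; ring
  rw [h4, le_div_iff₀ hlam0] at h2
  have h5 : (N * n) * (N * n ^ 3) ≤ (N * n) * (2 ^ 40 * Λ ^ 7 * x ^ 3) := by
    calc (N * n) * (N * n ^ 3) = 8 * (1 / 8 * (N * n) ^ 2) * n ^ 2 := by ring
      _ = 8 * (1 / 8 * (N * n) ^ 2 * lam) * (16 * x * Λ) := by rw [← hlame]; ring
      _ ≤ 8 * (2 ^ 33 * N * Λ ^ 6 * n * x ^ 2) * (16 * x * Λ) := by
          apply mul_le_mul_of_nonneg_right _ (by positivity)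
          exact mul_le_mul_of_nonneg_left h2 (by norm_num)
      _ = _ := by ring
  exact le_of_mul_le_mul_left h5 (by positivity)

theorem num_planeST (K1 Λ x n N lam ρ M : ℝ) (hK1 : 1 ≤ K1) (hΛ1 : 1 ≤ Λ)
    (hn0 : 0 < n) (hx0 : 0 < x) (hN0 : 0 < N) (hlam0 : 0 < lam) (hρ0 : 0 < ρ)
    (hlame : lam * (16 * x * Λ) = n ^ 2) (hα : ρ * n ≤ 4 * K1 * Λ ^ 3 * x)
    (hc : 1 / 8 * (N * n) ^ 2 ≤ x * Λ * M) (h1 : M ≤ N * (2 * (16 * ρ * n ^ 3 / lam ^ 2))) :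
    N * n ^ 4 ≤ 2 ^ 18 * K1 * Λ ^ 6 * x ^ 4 := by
  have hK10 : 0 < K1 := by linarith only [hK1]
  have hΛ0 : 0 < Λ := by linarith only [hΛ1]
  have h2 : 1 / 8 * (N * n) ^ 2 ≤ x * Λ * (N * (2 * (16 * ρ * n ^ 3 / lam ^ 2))) :=
    hc.trans (mul_le_mul_of_nonneg_left h1 (by positivity))
  have h3 : N * n ^ 2 * lam ^ 2 ≤ 256 * (x * Λ) * (ρ * n) * n ^ 2 := by
    have h4 : x * Λ * (N * (2 * (16 * ρ * n ^ 3 / lam ^ 2))) =
        (32 * N * (x * Λ) * (ρ * n) * n ^ 2) / lam ^ 2 := by field_simp; ring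
    rw [h4, le_div_iff₀ (by positivity)] at h2
    have h5 : N * (N * n ^ 2 * lam ^ 2) ≤ N * (256 * (x * Λ) * (ρ * n) * n ^ 2) := by
      calc N * (N * n ^ 2 * lam ^ 2) = 8 * (1 / 8 * (N * n) ^ 2 * lam ^ 2) := by ring
        _ ≤ 8 * (32 * N * (x * Λ) * (ρ * n) * n ^ 2) := mul_le_mul_of_nonneg_left h2 (by norm_num)
        _ = _ := by ring
    exact le_of_mul_le_mul_left h5 hN0
  have h4 : N * lam ^ 2 ≤ 256 * (x * Λ) * (4 * K1 * Λ ^ 3 * x) := by
    have h5 : n ^ 2 * (N * lam ^ 2) ≤ n ^ 2 * (256 * (x * Λ) * (ρ * n)) := by linarith only [h3]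
    have h6 := le_of_mul_le_mul_left h5 (by positivity)
    exact h6.trans (mul_le_mul_of_nonneg_left hα (by positivity))
  have h6 : n ^ 4 = lam ^ 2 * (16 * x * Λ) ^ 2 := by
    rw [← mul_pow, hlame]; ring
  rw [h6]
  calc N * (lam ^ 2 * (16 * x * Λ) ^ 2) = (N * lam ^ 2) * (16 * x * Λ) ^ 2 := by ring
    _ ≤ (256 * (x * Λ) * (4 * K1 * Λ ^ 3 * x)) * (16 * x * Λ) ^ 2 :=
        mul_le_mul_of_nonneg_right h4 (by positivity)
    _ = _ := by ring

open scoped Classical in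
/-- the degenerate pairs -/
theorem degenerate34 (hE : Module.finrank ℝ E = 3) (K1 : ℝ) (hK1 : 1 ≤ K1)
    (C : Finset E) (R : Finset (E × ℝ)) (n Λ : ℝ)
    (hR1 : ∀ v ∈ R, v.1 ≠ 0) (hR2 : ∀ v ∈ R, ∀ w ∈ R, w ∈ Submodule.span ℝ {v} → w = v)
    (hSSn : ∀ v ∈ R, ((SS C v).card : ℝ) ≤ 2 * n) (hΛ1 : 1 ≤ Λ) (hN0 : 0 < (R.card : ℝ))
    (hn0 : 0 < n) (hnx : n ≤ C.card) (j : ℕ)
    (hΛ : 20 * (Real.log ((C.card : ℝ) + 3) + 1) ≤ Λ)
    (hα : (2:ℝ) ^ j * n ≤ 4 * K1 * Λ ^ 3 * (C.card : ℝ))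
    (lam : ℝ) (hlam2 : 2 ≤ lam) (hlame : lam * (16 * (C.card : ℝ) * Λ) = n ^ 2)
    (hlam : 128 * Λ ≤ lam) (hlam4 : 4 * (C.card : ℝ) ≤ lam ^ 2)
    (T : (E × ℝ) × (E × ℝ) → Finset E)
    (Bd : Finset ((E × ℝ) × (E × ℝ))) (hdB : Bd ⊆ lvl R j)
    (hBdT : ∀ π ∈ Bd, rr C π ≤ 2 * ((T π).card : ℝ) ∧ 4 * lam ≤ rr C π)
    (hT : ∀ π ∈ Bd, T π ⊆ SS C π.1 ∩ SS C π.2 ∧
      (∀ q ∈ T π, ∀ q' ∈ T π, sg π.2 q * sg π.1 q' = sg π.2 q' * sg π.1 q))
    (hBdm : 1 / 4 * ((R.card : ℝ) * n) ^ 2 ≤ (C.card : ℝ) * Λ * ∑ π ∈ Bd, rr C π) :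
    (R.card : ℝ) * n ^ 3 ≤ 2 ^ 40 * Λ ^ 7 * (C.card : ℝ) ^ 3 ∨
      (R.card : ℝ) * n ^ 4 ≤ 2 ^ 18 * K1 * Λ ^ 6 * (C.card : ℝ) ^ 4 := by
  have hx0 : 0 < (C.card : ℝ) := by linarith only [hn0, hnx]
  have hlam0 : 0 < lam := by linarith only [hΛ1, hlam]
  have hPrsub : lvl R j ⊆ R ×ˢ R := by
    intro π hπ
    obtain ⟨h1, h2, _⟩ := lvl_mem R j π hπ
    exact mem_product.mpr ⟨h1, h2⟩
  set col : (E × ℝ) × (E × ℝ) → Prop := fun π => ∃ q₁ ∈ T π, ∃ q₂ ∈ T π, q₁ ≠ q₂ ∧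
    (T π).card < 2 * ((T π).filter (fun q => ∃ τ : ℝ, q = q₁ + τ • (q₂ - q₁))).card with hcoldef
  set Bc := Bd.filter col with hBc
  set Bp := Bd.filter (fun π => ¬ col π) with hBp
  have hsplit2 : ∑ π ∈ Bd, rr C π = ∑ π ∈ Bc, rr C π + ∑ π ∈ Bp, rr C π :=
    (Finset.sum_filter_add_sum_filter_not _ _ _).symm
  have hcB : Bc ⊆ Bd := filter_subset _ _
  have hpB : Bp ⊆ Bd := filter_subset _ _
  have hcol := case_colST C R hR1 hR2 n lam Λ hn0 hSSn hnx hΛ hlam hlam4 T Bc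
    ((hcB.trans hdB).trans hPrsub)
    (fun π hπ => hBdT π (hcB hπ)) (fun π hπ => hT π (hcB hπ))
    (fun π hπ => (mem_filter.mp hπ).2)
  have hpl := case_plane hE C R hR1 hR2 n lam hlam2 hSSn j T Bp (hpB.trans hdB)
    (fun π hπ => hBdT π (hpB hπ)) (fun π hπ => hT π (hpB hπ))
    (fun π hπ q₁ hq₁ q₂ hq₂ h12 => by
      have h2 := (mem_filter.mp hπ).2
      by_contra h3
      exact h2 ⟨q₁, hq₁, q₂, hq₂, h12, not_le.mp h3⟩)
  rw [hsplit2, mul_add] at hBdm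
  rcases le_or_gt (1 / 8 * ((R.card : ℝ) * n) ^ 2) ((C.card : ℝ) * Λ * ∑ π ∈ Bc, rr C π) with hc | hc
  · left
    exact num_colST Λ C.card n R.card lam _ hΛ1 hn0 hx0 hN0 hlam0 hlame hc hcol
  · right
    exact num_planeST K1 Λ C.card n R.card lam (2 ^ j) _ hK1 hΛ1 hn0 hx0 hN0 hlam0
      (by positivity) hlame hα (by linarith only [hBdm, hc]) hpl

/-- the three alternatives -/
def Alt34 (K1 N n x Q Λ : ℝ) : Prop :=
  N ^ 2 * n ^ 4 ≤ 128 * K1 * Λ ^ 4 * x ^ 2 * Q ∨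
    N * n ^ 3 ≤ 2 ^ 40 * Λ ^ 7 * x ^ 3 ∨ N * n ^ 4 ≤ 2 ^ 18 * K1 * Λ ^ 6 * x ^ 4

open scoped Classical in
/-- big pairs of a level give one of the alternatives -/
theorem big34 (hE : Module.finrank ℝ E = 3) (K1 : ℝ) (hK1 : 1 ≤ K1)
    (C : Finset E) (R : Finset (E × ℝ)) (ν : ℕ) (Λ : ℝ)
    (hR1 : ∀ v ∈ R, v.1 ≠ 0) (hR2 : ∀ v ∈ R, ∀ w ∈ R, w ∈ Submodule.span ℝ {v} → w = v)
    (hν1 : 1 ≤ ν) (hν : ∀ v ∈ R, (SS C v).card ≤ 2 * ν) (hΛ1 : 1 ≤ Λ)
    (hRpos : 1 ≤ R.card) (hnx : (ν : ℝ) ≤ C.card) (j : ℕ)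
    (hΛ : 20 * (Real.log ((C.card : ℝ) + 3) + 1) ≤ Λ)
    (hα : (2:ℝ) ^ j * ν ≤ 4 * K1 * Λ ^ 3 * (C.card : ℝ))
    (hPi2 : ((lvl R j).card : ℝ) ≤ 2 * K1 * Λ ^ 2 * ((R.card : ℝ) ^ 2 / 2 ^ j))
    (lam : ℝ) (hlam2 : 2 ≤ lam) (hlame : lam * (16 * (C.card : ℝ) * Λ) = (ν : ℝ) ^ 2)
    (hlam : 128 * Λ ≤ lam) (hlam4 : 4 * (C.card : ℝ) ≤ lam ^ 2)
    (B : Finset ((E × ℝ) × (E × ℝ))) (hBPr : B ⊆ lvl R j)
    (hB4 : ∀ π ∈ B, 4 * lam ≤ rr C π)
    (hMB : 1 / 2 * ((R.card : ℝ) * ν) ^ 2 ≤ (C.card : ℝ) * Λ * ∑ π ∈ B, rr C π) :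
    Alt34 K1 R.card ν C.card (qn C) Λ := by
  have hN1 : (1:ℝ) ≤ R.card := by exact_mod_cast hRpos
  have hn1 : (1:ℝ) ≤ ν := by exact_mod_cast hν1
  have hx0 : 0 < (C.card : ℝ) := by linarith only [hnx, hn1]
  have hn0 : 0 < (ν : ℝ) := by linarith only [hn1]
  have hN0 : 0 < (R.card : ℝ) := by linarith only [hN1]
  have hTex : ∀ π : (E × ℝ) × (E × ℝ), ∃ T : Finset E, π.1 ∈ R → (T ⊆ SS C π.1 ∩ SS C π.2 ∧
      (∀ q ∈ T, ∀ q' ∈ T, sg π.2 q * sg π.1 q' = sg π.2 q' * sg π.1 q) ∧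
      (∀ q ∈ SS C π.1 ∩ SS C π.2, ((SS C π.1 ∩ SS C π.2).filter
        (fun q' => sg π.2 q * sg π.1 q' = sg π.2 q' * sg π.1 q)).card ≤ T.card)) := by
    intro π
    by_cases h : π.1 ∈ R
    · obtain ⟨T, hT⟩ := exists_ratio_class C π.1 π.2 (hR1 _ h)
      exact ⟨T, fun _ => hT⟩
    · exact ⟨∅, fun h' => absurd h' h⟩
  choose T hT using hTex
  set Bn := B.filter (fun π => 2 * (T π).card ≤ (SS C π.1 ∩ SS C π.2).card) with hBn
  set Bd := B.filter (fun π => ¬ 2 * (T π).card ≤ (SS C π.1 ∩ SS C π.2).card) with hBd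
  have hsplit : ∑ π ∈ B, rr C π = ∑ π ∈ Bn, rr C π + ∑ π ∈ Bd, rr C π :=
    (Finset.sum_filter_add_sum_filter_not _ _ _).symm
  have hR' : ∀ π ∈ B, π.1 ∈ R := fun π hπ => (lvl_mem R j π (hBPr hπ)).1
  rcases le_or_gt (1 / 4 * ((R.card : ℝ) * ν) ^ 2) ((C.card : ℝ) * Λ * ∑ π ∈ Bn, rr C π) with
    hcA | hcA
  · left
    obtain ⟨h3, h4⟩ := case_nondegQ C R hR1 hR2 j T Bn ((filter_subset _ _).trans hBPr)
      (fun π hπ => (mem_filter.mp hπ).2)
      (fun π hπ => (hT π (hR' π (mem_filter.mp hπ).1)).2.2)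
    exact num_caseAQ K1 Λ C.card ν R.card (2 ^ j) ((lvl R j).card : ℝ) (∑ π ∈ Bn, rr C π)
      (∑ π ∈ Bn, rr C π ^ 2) (qn C) hK1 hΛ1 hn0 hx0 hN0 (by positivity) (by (clear * -; positivity))
      (Finset.sum_nonneg (fun π _ => by (clear * -; positivity))) hcA h3 h4 hPi2
  · right
    have hBdm : 1 / 4 * ((R.card : ℝ) * ν) ^ 2 ≤ (C.card : ℝ) * Λ * ∑ π ∈ Bd, rr C π := by
      rw [hsplit, mul_add] at hMB
      linarith only [hMB, hcA]
    have hdB' : Bd ⊆ B := filter_subset _ _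
    have hBdT : ∀ π ∈ Bd, rr C π ≤ 2 * ((T π).card : ℝ) ∧ 4 * lam ≤ rr C π := by
      intro π hπ
      obtain ⟨h1, h2⟩ := mem_filter.mp hπ
      refine ⟨?_, hB4 π h1⟩
      have h3 := (not_le.mp h2).le
      unfold rr
      exact_mod_cast h3
    have hSSn : ∀ v ∈ R, ((SS C v).card : ℝ) ≤ 2 * (ν : ℝ) := by
      intro v hv
      exact_mod_cast (hν v hv)
    exact degenerate34 hE K1 hK1 C R ν Λ hR1 hR2 hSSn hΛ1 hN0 hn0 hnx j hΛ hα lam
      hlam2 hlame hlam hlam4 T Bd (hdB'.trans hBPr) hBdT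
      (fun π hπ => ⟨(hT π (hR' π (hdB' hπ))).1, (hT π (hR' π (hdB' hπ))).2.1⟩) hBdm

open scoped Classical in
/-- a level carrying most of the mass gives one of the alternatives -/
theorem level34 (hE : Module.finrank ℝ E = 3) (K K1 : ℝ) (hK1 : 1 ≤ K1)
    (hKK1 : 2 ^ 24 * K1 ≤ K) (hKK2 : 16 * K1 ^ 2 ≤ K)
    (C : Finset E) (R : Finset (E × ℝ)) (ν : ℕ) (Λ : ℝ)
    (hR1 : ∀ v ∈ R, v.1 ≠ 0) (hR2 : ∀ v ∈ R, ∀ w ∈ R, w ∈ Submodule.span ℝ {v} → w = v)
    (hν1 : 1 ≤ ν) (hν : ∀ v ∈ R, (SS C v).card ≤ 2 * ν) (hΛ1 : 1 ≤ Λ)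
    (hpen : ∀ v ∈ R, ∀ w ∈ R, v ≠ w → (pen R v w : ℝ) * (K * Λ ^ 4 * C.card) ≤ ν * R.card)
    (hRpos : 1 ≤ R.card) (hnx : (ν : ℝ) ≤ C.card)
    (hΛ : 20 * (Real.log ((C.card : ℝ) + 3) + 1) ≤ Λ)
    (hn2 : 2 ^ 11 * (C.card : ℝ) * Λ ^ 2 ≤ (ν : ℝ) ^ 2)
    (hn4 : 2 ^ 10 * (C.card : ℝ) ^ 3 * Λ ^ 2 ≤ (ν : ℝ) ^ 4)
    (hNbig : K * Λ ^ 6 * (C.card : ℝ) ^ 2 ≤ (R.card : ℝ) * (ν : ℝ) ^ 2)
    (j : ℕ)
    (hMj : 3 / 4 * ((R.card : ℝ) * ν) ^ 2 ≤ (C.card : ℝ) * Λ * ∑ π ∈ lvl R j, rr C π)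
    (hPi : ((lvl R j).card : ℝ) ≤ K1 * Λ ^ 2 * ((R.card : ℝ) ^ 2 / 2 ^ j + R.card * 2 ^ j)) :
    Alt34 K1 R.card ν C.card (qn C) Λ := by
  have hN1 : (1:ℝ) ≤ R.card := by exact_mod_cast hRpos
  have hn1 : (1:ℝ) ≤ ν := by exact_mod_cast hν1
  have hΛ0 : 0 < Λ := by linarith only [hΛ1]
  have hn0 : 0 < (ν : ℝ) := by linarith only [hn1]
  have hx0 : 0 < (C.card : ℝ) := by linarith only [hnx, hn1]
  have hN0 : 0 < (R.card : ℝ) := by linarith only [hN1]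
  have hρ0 : (0:ℝ) < 2 ^ j := by positivity
  have hK24 : (2:ℝ) ^ 24 ≤ K := by nlinarith only [hK1, hKK1]
  have hK0 : 0 < K := by linarith only [hK1, hKK1]
  have hPrne : (lvl R j).Nonempty := by
    by_contra h
    rw [Finset.not_nonempty_iff_eq_empty] at h
    rw [h, Finset.sum_empty, mul_zero] at hMj
    have : 0 < ((R.card : ℝ) * ν) ^ 2 := by (clear * - hν1 hRpos; positivity)
    linarith only [hMj, this]
  obtain ⟨π₀, hπ₀⟩ := hPrne
  have hmass2 : ∑ π ∈ lvl R j, rr C π ≤ (lvl R j).card * (2 * (ν : ℝ)) := by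
    rw [← nsmul_eq_mul]
    exact Finset.sum_le_card_nsmul _ _ _ (fun π hπ => rr_le C R ν hν π (lvl_mem R j π hπ).1)
  have hρN : (2:ℝ) ^ j * (K * Λ ^ 4 * C.card) ≤ ν * R.card := by
    obtain ⟨h1, h2, h3⟩ := lvl_mem R j π₀ hπ₀
    exact le_trans (mul_le_mul_of_nonneg_right (lvl_pen R j π₀ hπ₀).1 (by (clear * - hΛ1 hx0 hK24; positivity)))
      (hpen _ h1 _ h2 h3)
  have hα : (2:ℝ) ^ j * ν ≤ 4 * K1 * Λ ^ 3 * C.card :=
    num_alpha K K1 Λ C.card ν R.card (2 ^ j) ((lvl R j).card : ℝ) (∑ π ∈ lvl R j, rr C π) hK1 hKK1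
      hΛ1 hn0 hx0 hN0 hρ0 hMj hmass2 hPi hρN
  have hρ2 : ((2:ℝ) ^ j) ^ 2 ≤ R.card := by
    have h1 : (ν : ℝ) ^ 2 * ((2:ℝ) ^ j) ^ 2 ≤ (ν : ℝ) ^ 2 * R.card := by
      calc (ν : ℝ) ^ 2 * ((2:ℝ) ^ j) ^ 2 = ((2:ℝ) ^ j * ν) ^ 2 := by ring
        _ ≤ (4 * K1 * Λ ^ 3 * C.card) ^ 2 := pow_le_pow_left₀ (by positivity) hα 2
        _ = 16 * K1 ^ 2 * Λ ^ 6 * (C.card : ℝ) ^ 2 := by ring
        _ ≤ K * Λ ^ 6 * (C.card : ℝ) ^ 2 := by
            apply mul_le_mul_of_nonneg_right _ (by (clear * - hx0; positivity))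
            apply mul_le_mul_of_nonneg_right _ (by positivity)
            exact hKK2
        _ ≤ R.card * (ν : ℝ) ^ 2 := hNbig
        _ = (ν : ℝ) ^ 2 * R.card := by ring
    exact le_of_mul_le_mul_left h1 (by positivity)
  have hPi2 : ((lvl R j).card : ℝ) ≤ 2 * K1 * Λ ^ 2 * ((R.card : ℝ) ^ 2 / 2 ^ j) := by
    have h1 : (R.card : ℝ) * 2 ^ j ≤ (R.card : ℝ) ^ 2 / 2 ^ j := by
      rw [le_div_iff₀ hρ0]
      nlinarith only [hρ2]
    calc ((lvl R j).card : ℝ) ≤ K1 * Λ ^ 2 * ((R.card : ℝ) ^ 2 / 2 ^ j + R.card * 2 ^ j) := hPi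
      _ ≤ K1 * Λ ^ 2 * ((R.card : ℝ) ^ 2 / 2 ^ j + (R.card : ℝ) ^ 2 / 2 ^ j) := by
          apply mul_le_mul_of_nonneg_left _ (by positivity)
          linarith only [h1]
      _ = _ := by ring
  have hPiN : ((lvl R j).card : ℝ) ≤ (R.card : ℝ) ^ 2 := by
    have h1 : (lvl R j).card ≤ (R ×ˢ R).card := by
      apply card_le_card
      intro π hπ
      obtain ⟨h1, h2, _⟩ := lvl_mem R j π hπ
      exact mem_product.mpr ⟨h1, h2⟩
    rw [card_product] at h1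
    rw [sq]
    exact_mod_cast h1
  set lam : ℝ := (ν : ℝ) ^ 2 / (16 * C.card * Λ) with hlam
  have hlame : lam * (16 * (C.card : ℝ) * Λ) = (ν : ℝ) ^ 2 := by
    rw [hlam]; (clear * - hν1 hΛ1 hx0; field_simp)
  have hlam128 : 128 * Λ ≤ lam := by
    rw [hlam, le_div_iff₀ (by (clear * - hΛ1 hx0; positivity))]
    calc 128 * Λ * (16 * (C.card : ℝ) * Λ) = 2 ^ 11 * (C.card : ℝ) * Λ ^ 2 := by ring
      _ ≤ _ := hn2
  have hlam4 : 4 * (C.card : ℝ) ≤ lam ^ 2 := by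
    rw [hlam, div_pow, le_div_iff₀ (by (clear * - hΛ1 hx0; positivity))]
    calc 4 * (C.card : ℝ) * (16 * (C.card : ℝ) * Λ) ^ 2 = 2 ^ 10 * (C.card : ℝ) ^ 3 * Λ ^ 2 := by ring
      _ ≤ (ν : ℝ) ^ 4 := hn4
      _ = ((ν : ℝ) ^ 2) ^ 2 := by ring
  have hMB := big_pairs C R (lvl R j) hPiN ν Λ (4 * lam) (by linarith only [hΛ1, hlam128]) hΛ0.le
    (by rw [← hlame]; ring) hMj
  exact big34 hE K1 hK1 C R ν Λ hR1 hR2 hν1 hν hΛ1 hRpos hnx j hΛ hα hPi2
    lam (by linarith only [hΛ1, hlam128]) hlame hlam128 hlam4 _ (filter_subset _ _)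
    (fun π hπ => (mem_filter.mp hπ).2.le) hMB

end

end Vale.Agent.P054K

open Finset

namespace Vale.Agent.P054K

open scoped Classical in
/-- Cauchy-Schwarz over the first coordinate -/
theorem energy_cs {α β γ : Type} (F : Finset (α × β)) (C : Finset α) (hF : ∀ p ∈ F, p.1 ∈ C)
    (f : α × β → γ) :
    ((F ×ˢ F).filter (fun p => f p.1 = f p.2)).card ≤
      C.card * ((F ×ˢ F).filter (fun p => f p.1 = f p.2 ∧ p.1.1 = p.2.1)).card := by
  set n : γ → α → ℕ := fun δ a => (F.filter (fun p => f p = δ ∧ p.1 = a)).card with hn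
  have h1 : ((F ×ˢ F).filter (fun p => f p.1 = f p.2)).card =
      ∑ δ ∈ F.image f, (∑ a ∈ C, n δ a) ^ 2 := by
    rw [Finset.card_filter, Finset.sum_product]
    rw [← Finset.sum_fiberwise_of_maps_to (s := F) (t := F.image f) (g := f)
      (fun p hp => mem_image_of_mem _ hp)]
    apply Finset.sum_congr rfl
    intro δ _
    have h2 : ∀ p ∈ F.filter (fun p => f p = δ), (∑ q ∈ F, if f (p, q).1 = f (p, q).2 then 1 else 0)
        = ∑ a ∈ C, n δ a := by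
      intro p hp
      rw [← Finset.card_filter]
      have h3 : F.filter (fun q => f p = f q) = F.filter (fun q => f q = δ) := by
        apply Finset.filter_congr
        intro q _
        rw [(mem_filter.mp hp).2]
        exact eq_comm
      rw [h3, Finset.card_eq_sum_card_fiberwise (f := fun q => q.1) (t := C)
        (fun q hq => hF q (mem_filter.mp hq).1)]
      apply Finset.sum_congr rfl
      intro a _
      rw [Finset.filter_filter]
    rw [Finset.sum_congr rfl h2, Finset.sum_const, smul_eq_mul, sq]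
    congr 1
    rw [Finset.card_eq_sum_card_fiberwise (f := fun q => q.1) (t := C)
        (fun q hq => hF q (mem_filter.mp hq).1)]
    apply Finset.sum_congr rfl
    intro a _
    rw [Finset.filter_filter]
  have h2 : ((F ×ˢ F).filter (fun p => f p.1 = f p.2 ∧ p.1.1 = p.2.1)).card =
      ∑ δ ∈ F.image f, ∑ a ∈ C, n δ a ^ 2 := by
    rw [Finset.card_filter, Finset.sum_product]
    rw [← Finset.sum_fiberwise_of_maps_to (s := F) (t := F.image f ×ˢ C) (g := fun p => (f p, p.1))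
      (fun p hp => mem_product.mpr ⟨mem_image_of_mem _ hp, hF p hp⟩)]
    rw [Finset.sum_product]
    apply Finset.sum_congr rfl
    intro δ _
    apply Finset.sum_congr rfl
    intro a _
    have h3 : ∀ p ∈ F.filter (fun p => (f p, p.1) = (δ, a)),
        (∑ q ∈ F, if f (p, q).1 = f (p, q).2 ∧ (p, q).1.1 = (p, q).2.1 then 1 else 0) = n δ a := by
      intro p hp
      rw [← Finset.card_filter]
      have hp2 := (mem_filter.mp hp).2
      rw [Prod.mk.injEq] at hp2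
      simp only [hn]
      congr 1
      apply Finset.filter_congr
      intro q _
      rw [hp2.1, hp2.2]
      constructor
      · rintro ⟨h4, h5⟩; exact ⟨h4.symm, h5.symm⟩
      · rintro ⟨h4, h5⟩; exact ⟨h4.symm, h5.symm⟩
    rw [Finset.sum_congr rfl h3, Finset.sum_const, smul_eq_mul, sq]
    congr 1
    simp only [hn]
    congr 1
    apply Finset.filter_congr
    intro q _
    rw [Prod.mk.injEq]
  rw [h1, h2, Finset.mul_sum]
  apply Finset.sum_le_sum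
  intro δ _
  exact sq_sum_le_card_mul_sum_sq

open scoped Classical in
/-- energy of a union -/
theorem energy_split {α γ : Type} (F : Finset α) (g : α → Prop) (f : α → γ) :
    ((F ×ˢ F).filter (fun p => f p.1 = f p.2)).card ≤
      2 * (((F.filter g) ×ˢ (F.filter g)).filter (fun p => f p.1 = f p.2)).card +
      2 * (((F.filter (fun a => ¬ g a)) ×ˢ (F.filter (fun a => ¬ g a))).filter
        (fun p => f p.1 = f p.2)).card := by
  have key : ∀ G : Finset α, G ⊆ F → ((G ×ˢ G).filter (fun p => f p.1 = f p.2)).card =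
      ∑ δ ∈ F.image f, (G.filter (fun a => f a = δ)).card ^ 2 := by
    intro G hG
    rw [Finset.card_filter, Finset.sum_product]
    rw [← Finset.sum_fiberwise_of_maps_to (s := G) (t := F.image f) (g := f)
      (fun p hp => mem_image_of_mem _ (hG hp))]
    apply Finset.sum_congr rfl
    intro δ _
    have h2 : ∀ p ∈ G.filter (fun p => f p = δ), (∑ q ∈ G, if f (p, q).1 = f (p, q).2 then 1 else 0)
        = (G.filter (fun a => f a = δ)).card := by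
      intro p hp
      rw [← Finset.card_filter]
      congr 1
      apply Finset.filter_congr
      intro q _
      rw [(mem_filter.mp hp).2]
      exact eq_comm
    rw [Finset.sum_congr rfl h2, Finset.sum_const, smul_eq_mul, sq]
  rw [key F (Finset.Subset.refl _), key _ (filter_subset _ _), key _ (filter_subset _ _),
    Finset.mul_sum, Finset.mul_sum, ← Finset.sum_add_distrib]
  apply Finset.sum_le_sum
  intro δ _
  have h1 : (F.filter (fun a => f a = δ)).card =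
      ((F.filter g).filter (fun a => f a = δ)).card +
      ((F.filter (fun a => ¬ g a)).filter (fun a => f a = δ)).card := by
    rw [Finset.filter_filter, Finset.filter_filter,
      ← Finset.card_filter_add_card_filter_not (s := F.filter (fun a => f a = δ)) (fun a => g a),
      Finset.filter_filter, Finset.filter_filter]
    congr 2
    · ext a; simp only [mem_filter]; (clear * -; tauto)
    · ext a; simp only [mem_filter]; (clear * -; tauto)
  rw [h1]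
  set u := ((F.filter g).filter (fun a => f a = δ)).card
  set w := ((F.filter (fun a => ¬ g a)).filter (fun a => f a = δ)).card
  have : (u + w) ^ 2 ≤ 2 * u ^ 2 + 2 * w ^ 2 := by
    zify
    nlinarith only [sq_nonneg ((u:ℤ) - w)]
  exact this

/-- multiplicity of a bisector -/
theorem mult_le (C : Finset E3) (π₀ : E3 × E3) (h : π₀ ∈ C.offDiag) :
    mass C.offDiag dualVec (Submodule.span ℝ {dualVec π₀}) ≤ C.card := by
  classical
  have h1 := line_mass_le C (dualVec π₀) (dualVec_fst_ne π₀ (mem_offDiag.mp h).2.2)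
  have h2 : (SS C (dualVec π₀)).card ≤ C.card := card_le_card (fun _ hq => (mem_SS.mp hq).1)
  unfold mass
  exact_mod_cast h1.trans h2

open scoped Classical in
/-- pencils of bisectors with many pairs -/
noncomputable def heavyPen (C : Finset E3) (w0 : ℝ) : Finset (Submodule ℝ (E3 × ℝ)) :=
  ((C.offDiag ×ˢ C.offDiag).image (fun p => Submodule.span ℝ {dualVec p.1, dualVec p.2})).filter
    (fun B => Module.finrank ℝ B = 2 ∧ w0 ≤ mass C.offDiag dualVec B)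

theorem heavyPen_card (C : Finset E3) (w0 Λ : ℝ) (hC : 1 ≤ C.card)
    (hΛ : 20 * (Real.log ((C.card : ℝ) ^ 2 + 3) + 1) ≤ Λ) (hw : 64 * (C.card : ℝ) * Λ ≤ w0) :
    ((heavyPen C w0).card : ℝ) ≤ 2 ^ 12 * Λ ^ 2 * ((C.card : ℝ) * ((C.card : ℝ) ^ 2) ^ 2 / w0 ^ 3) +
      2 * ((C.card : ℝ) ^ 2 / w0) := by
  classical
  have hx1 : (1:ℝ) ≤ C.card := by exact_mod_cast hC
  have hx0 : (0:ℝ) < C.card := by linarith only [hx1]
  have hI : ((C.offDiag.card : ℕ) : ℝ) ≤ (C.card : ℝ) ^ 2 := by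
    have h1 : C.offDiag.card ≤ C.card ^ 2 := by
      rw [offDiag_card, sq]; exact Nat.sub_le _ _
    exact_mod_cast h1
  have hI0 : (0:ℝ) ≤ C.offDiag.card := by positivity
  have hlog : 0 ≤ Real.log ((C.card : ℝ) ^ 2 + 3) := Real.log_nonneg (by nlinarith only [])
  have hlog1 : Real.log ((C.offDiag.card : ℝ) + 1) ≤ Real.log ((C.card : ℝ) ^ 2 + 3) :=
    Real.log_le_log (by (clear * -; positivity)) (by linarith only [hI])
  have hΛ1 : 1 ≤ Λ := by linarith only [hΛ, hlog]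
  have hw0 : 0 < w0 := lt_of_lt_of_le (by positivity) hw
  have h := linearST C.offDiag dualVec (C.card : ℝ) w0 Λ
    (fun π hπ => dualVec_ne_zero π (mem_offDiag.mp hπ).2.2)
    (fun π hπ => mult_le C π hπ) hx0 (heavyPen C w0)
    (fun B hB => by
      unfold heavyPen at hB
      exact (mem_filter.mp hB).2) (by linarith only [hΛ, hlog, hlog1]) hw
  refine h.trans ?_
  apply add_le_add
  · apply mul_le_mul_of_nonneg_left _ (by positivity)
    apply div_le_div_of_nonneg_right _ (by positivity)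
    apply mul_le_mul_of_nonneg_left _ hx0.le
    exact pow_le_pow_left₀ hI0 hI 2
  · apply mul_le_mul_of_nonneg_left _ (by norm_num)
    exact div_le_div_of_nonneg_right hI hw0.le

open scoped Classical in
/-- pairs whose bisector is on no heavy pencil -/
noncomputable def lightPairs (C : Finset E3) (w0 : ℝ) : Finset (E3 × E3) :=
  C.offDiag.filter (fun π => ∀ B ∈ heavyPen C w0, dualVec π ∉ B)

theorem light_sub_mass (C : Finset E3) (w0 : ℝ) (hw : (C.card : ℝ) ≤ w0)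
    (B : Submodule ℝ (E3 × ℝ)) (hB : Module.finrank ℝ B ≤ 2) :
    mass (lightPairs C w0) dualVec B ≤ w0 := by
  classical
  have hsub : lightPairs C w0 ⊆ C.offDiag := filter_subset _ _
  by_cases h : ∃ π₁ ∈ lightPairs C w0, ∃ π₂ ∈ lightPairs C w0, dualVec π₁ ∈ B ∧ dualVec π₂ ∈ B ∧
      dualVec π₂ ∉ Submodule.span ℝ {dualVec π₁}
  · obtain ⟨π₁, h1, π₂, h2, hB1, hB2, hne⟩ := h
    have hf : Module.finrank ℝ (Submodule.span ℝ {dualVec π₁, dualVec π₂}) = 2 :=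
      pencil_finrank (dualVec_ne_zero π₁ (mem_offDiag.mp (hsub h1)).2.2) hne
    have hle : Submodule.span ℝ {dualVec π₁, dualVec π₂} ≤ B := by
      rw [Submodule.span_le]
      intro y hy
      simp only [Set.mem_insert_iff, Set.mem_singleton_iff] at hy
      rcases hy with rfl | rfl
      · exact hB1
      · exact hB2
    have heq : Submodule.span ℝ {dualVec π₁, dualVec π₂} = B :=
      Submodule.eq_of_le_of_finrank_le hle (by rw [hf]; exact hB)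
    by_contra hcon
    push Not at hcon
    have hmem : B ∈ heavyPen C w0 := by
      unfold heavyPen
      rw [mem_filter, mem_image]
      refine ⟨⟨(π₁, π₂), mem_product.mpr ⟨hsub h1, hsub h2⟩, heq⟩, by rw [← heq]; exact hf, ?_⟩
      exact hcon.le.trans (mass_mono hsub dualVec le_rfl)
    exact (mem_filter.mp h1).2 B hmem hB1
  · push Not at h
    by_cases he : ∃ π₀ ∈ lightPairs C w0, dualVec π₀ ∈ B
    · obtain ⟨π₀, h0, hB0⟩ := he
      refine le_trans ?_ ((mult_le C π₀ (hsub h0)).trans hw)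
      unfold mass
      have : ((lightPairs C w0).filter (fun i => dualVec i ∈ B)).card ≤
          (C.offDiag.filter (fun i => dualVec i ∈ Submodule.span ℝ {dualVec π₀})).card := by
        apply card_le_card
        intro π hπ
        rw [mem_filter] at hπ ⊢
        exact ⟨hsub hπ.1, h π₀ h0 π hπ.1 hB0 hπ.2⟩
      exact_mod_cast this
    · push Not at he
      have : (lightPairs C w0).filter (fun i => dualVec i ∈ B) = ∅ := by
        rw [Finset.filter_eq_empty_iff]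
        exact fun π hπ => he π hπ
      unfold mass
      rw [this]
      simp only [card_empty, Nat.cast_zero]
      exact le_trans (by (clear * -; positivity)) hw

theorem hyp_inj3 {a b : E3} (h : hyp a = hyp b) : a = b := by
  have h1 : ∀ u : E3, (u, 2 * inner ℝ a u) ∈ hyp b := by
    intro u
    rw [← h, mem_hyp]
  have h2 : ∀ u : E3, inner ℝ (a - b) u = 0 := by
    intro u
    have h3 := (mem_hyp b u _).mp (h1 u)
    rw [inner_sub_left]
    linarith only [h3]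
  have h3 := h2 (a - b)
  rw [inner_self_eq_zero] at h3
  exact sub_eq_zero.mp h3

open scoped Classical in
/-- number of centres of many light isosceles triangles -/
theorem rich_centres (K : ℝ) (c : ℕ) (hK : 1 ≤ K) (hET : ETProp 3 K c) (C : Finset E3)
    (w0 Λ ρ : ℝ) (hC : 1 ≤ C.card) (hΛ : 20 * (Real.log ((C.card : ℝ) ^ 2 + 3) + 1) ≤ Λ)
    (hw : (C.card : ℝ) ≤ w0) (hw3 : (C.card : ℝ) ^ 3 ≤ w0 ^ 2) (hρ : K * Λ ^ c * w0 ≤ ρ) :
    ((C.filter (fun a => ρ ≤ mass (lightPairs C w0) dualVec (hyp a))).card : ℝ) ≤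
      2 * K * Λ ^ c * ((C.card : ℝ) ^ 4 / ρ ^ 2) := by
  have hx1 : (1:ℝ) ≤ C.card := by exact_mod_cast hC
  have hx0 : (0:ℝ) < C.card := by linarith only [hx1]
  have hlog : 0 ≤ Real.log ((C.card : ℝ) ^ 2 + 3) := Real.log_nonneg (by nlinarith only [])
  have hΛ1 : 1 ≤ Λ := by linarith only [hΛ, hlog]
  have hL1 : 1 ≤ K * Λ ^ c := by
    have h1 : 1 ≤ Λ ^ c := one_le_pow₀ hΛ1
    nlinarith only [hK, h1]
  have hw0 : 0 < w0 := by linarith only [hw, hx1]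
  have hρw : w0 ≤ ρ := by nlinarith only [hw, hρ, hL1]
  have hρ0 : 0 < ρ := by linarith only [hw, hx1, hρw]
  have hsub : lightPairs C w0 ⊆ C.offDiag := filter_subset _ _
  have hI : (((lightPairs C w0).card : ℕ) : ℝ) ≤ (C.card : ℝ) ^ 2 := by
    have h1 : (lightPairs C w0).card ≤ C.card ^ 2 := by
      refine (card_le_card hsub).trans ?_
      rw [offDiag_card, sq]; exact Nat.sub_le _ _
    exact_mod_cast h1
  set G := C.filter (fun a => ρ ≤ mass (lightPairs C w0) dualVec (hyp a)) with hG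
  have hcard : (G.image hyp).card = G.card :=
    Finset.card_image_of_injective _ (fun a b h => hyp_inj3 h)
  have h := hET (E3 × ℝ) (E3 × E3) (lightPairs C w0) dualVec (C.card : ℝ) ((C.card : ℝ) ^ 2) ρ Λ
    (G.image hyp)
    (fun π hπ => dualVec_ne_zero π (mem_offDiag.mp (hsub hπ)).2.2)
    (fun π hπ => (mass_mono hsub dualVec le_rfl).trans (mult_le C π (hsub hπ))) hx0 hI hΛ
    (by
      refine le_trans ?_ hρ
      exact mul_le_mul_of_nonneg_left hw (by positivity))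
    (by
      intro A hA
      rw [mem_image] at hA
      obtain ⟨a, ha, rfl⟩ := hA
      refine ⟨finrank_hyp a, (mem_filter.mp ha).2, ?_⟩
      intro B hB
      have hf : Module.finrank ℝ B ≤ 2 := by
        have h1 := Submodule.finrank_lt_finrank_of_lt hB
        rw [finrank_hyp] at h1
        omega
      calc K * Λ ^ c * mass (lightPairs C w0) dualVec B ≤ K * Λ ^ c * w0 :=
            mul_le_mul_of_nonneg_left (light_sub_mass C w0 hw B hf) (by positivity)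
        _ ≤ ρ := hρ
        _ ≤ _ := (mem_filter.mp ha).2)
  rw [hcard] at h
  refine h.trans ?_
  have h1 : ((C.card : ℝ) ^ 2) ^ 3 * C.card / ρ ^ (3 + 1) ≤ (C.card : ℝ) ^ 4 / ρ ^ 2 := by
    rw [div_le_div_iff₀ (by positivity) (by positivity)]
    have h2 : (C.card : ℝ) ^ 3 ≤ ρ ^ 2 := hw3.trans (pow_le_pow_left₀ hw0.le hρw 2)
    calc ((C.card : ℝ) ^ 2) ^ 3 * C.card * ρ ^ 2 = (C.card : ℝ) ^ 4 * ρ ^ 2 * (C.card : ℝ) ^ 3 := by
          ring
      _ ≤ (C.card : ℝ) ^ 4 * ρ ^ 2 * ρ ^ 2 := mul_le_mul_of_nonneg_left h2 (by (clear * - hC hρ0; positivity))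
      _ = _ := by ring
  have h2 : ((C.card : ℝ) ^ 2) ^ (3 - 1) / ρ ^ (3 - 1) = (C.card : ℝ) ^ 4 / ρ ^ 2 := by
    norm_num
    rw [← pow_mul]
  rw [h2]
  calc K * Λ ^ c * (((C.card : ℝ) ^ 2) ^ 3 * C.card / ρ ^ (3 + 1) + (C.card : ℝ) ^ 4 / ρ ^ 2)
      ≤ K * Λ ^ c * ((C.card : ℝ) ^ 4 / ρ ^ 2 + (C.card : ℝ) ^ 4 / ρ ^ 2) := by
        apply mul_le_mul_of_nonneg_left _ (by positivity)
        linarith only [h1]
    _ = _ := by ring

open scoped Classical in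
/-- total number of light isosceles triangles -/
theorem sum_light (K : ℝ) (c : ℕ) (hK : 1 ≤ K) (hET : ETProp 3 K c) (C : Finset E3)
    (w0 Λ : ℝ) (hC : 1 ≤ C.card) (hΛ : 20 * (Real.log ((C.card : ℝ) ^ 2 + 3) + 1) ≤ Λ)
    (hw : (C.card : ℝ) ≤ w0) (hw3 : (C.card : ℝ) ^ 3 ≤ w0 ^ 2) :
    ∑ a ∈ C, mass (lightPairs C w0) dualVec (hyp a) ≤
      C.card * (K * Λ ^ c * w0) + Λ * (4 * ((C.card : ℝ) ^ 4 / w0)) := by
  have hx1 : (1:ℝ) ≤ C.card := by exact_mod_cast hC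
  have hx0 : (0:ℝ) < C.card := by linarith only [hx1]
  have hlog : 0 ≤ Real.log ((C.card : ℝ) ^ 2 + 3) := Real.log_nonneg (by nlinarith only [])
  have hΛ1 : 1 ≤ Λ := by linarith only [hΛ, hlog]
  have hL1 : 1 ≤ K * Λ ^ c := by
    have h1 : 1 ≤ Λ ^ c := one_le_pow₀ hΛ1
    nlinarith only [hK, h1]
  have hw0 : 0 < w0 := by linarith only [hw, hx1]
  obtain ⟨ρ0, hρ0⟩ : ∃ ρ0 : ℝ, ρ0 = K * Λ ^ c * w0 := ⟨_, rfl⟩
  have hρ0p : 0 < ρ0 := by rw [hρ0]; positivity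
  have hsub : lightPairs C w0 ⊆ C.offDiag := filter_subset _ _
  set TN : E3 → ℕ := fun a => ((lightPairs C w0).filter (fun π => dualVec π ∈ hyp a)).card with hTN
  have hT : ∀ a, mass (lightPairs C w0) dualVec (hyp a) = (TN a : ℝ) := fun a => rfl
  have hTle : ∀ a, TN a ≤ C.card ^ 2 := by
    intro a
    refine (card_filter_le _ _).trans ((card_le_card hsub).trans ?_)
    rw [offDiag_card, sq]; exact Nat.sub_le _ _
  simp only [hT]
  rw [← Finset.sum_filter_add_sum_filter_not C (fun a => ρ0 ≤ (TN a : ℝ))]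
  rw [← hρ0, add_comm]
  apply add_le_add
  · calc ∑ a ∈ C with ¬ ρ0 ≤ (TN a : ℝ), (TN a : ℝ)
        ≤ (C.filter (fun a => ¬ ρ0 ≤ (TN a : ℝ))).card • ρ0 := by
          apply Finset.sum_le_card_nsmul
          intro a ha
          exact (not_le.mp (mem_filter.mp ha).2).le
      _ ≤ (C.card : ℝ) * ρ0 := by
          rw [nsmul_eq_mul]
          apply mul_le_mul_of_nonneg_right _ hρ0p.le
          exact_mod_cast card_filter_le _ _
  · set G := C.filter (fun a => ρ0 ≤ (TN a : ℝ)) with hG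
    set J := Nat.log 2 (C.card ^ 2) + 1 with hJ
    have hJΛ : (J : ℝ) ≤ Λ := by
      have h1 : 1 ≤ C.card ^ 2 := Nat.one_le_pow _ _ hC
      have := natlog_le (C.card ^ 2) h1 Λ (by push_cast; exact hΛ)
      exact this
    have hpos : ∀ a ∈ G, 1 ≤ TN a := by
      intro a ha
      have h1 := (mem_filter.mp ha).2
      have h2 : (0:ℝ) < TN a := by linarith only [hρ0p, h1]
      exact_mod_cast h2
    have hlev : ∀ a ∈ G, Nat.log 2 (TN a) ∈ range J := by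
      intro a ha
      rw [mem_range, hJ]
      exact Nat.lt_succ_of_le (Nat.log_mono_right (hTle a))
    rw [← Finset.sum_fiberwise_of_maps_to hlev]
    calc ∑ j ∈ range J, ∑ a ∈ G with Nat.log 2 (TN a) = j, (TN a : ℝ)
        ≤ ∑ _j ∈ range J, 4 * ((C.card : ℝ) ^ 4 / w0) := by
          apply Finset.sum_le_sum
          intro j _
          obtain ⟨ρ, hρ⟩ : ∃ ρ : ℝ, ρ = max ((2:ℝ) ^ j) ρ0 := ⟨_, rfl⟩
          have hρ1 : ρ0 ≤ ρ := by rw [hρ]; exact le_max_right _ _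
          have hρ2 : (2:ℝ) ^ j ≤ ρ := by rw [hρ]; exact le_max_left _ _
          have hρp : 0 < ρ := by linarith only [hρ0p, hρ1]
          have hc := rich_centres K c hK hET C w0 Λ ρ hC hΛ hw hw3 (by rw [← hρ0]; exact hρ1)
          have hsub2 : G.filter (fun a => Nat.log 2 (TN a) = j) ⊆
              C.filter (fun a => ρ ≤ mass (lightPairs C w0) dualVec (hyp a)) := by
            intro a ha
            rw [mem_filter] at ha
            have ha1 := mem_filter.mp ha.1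
            rw [mem_filter]
            refine ⟨ha1.1, ?_⟩
            rw [hT, hρ]
            apply max_le _ ha1.2
            have h1 := Nat.pow_log_le_self 2 (show TN a ≠ 0 by have := hpos a ha.1; omega)
            rw [ha.2] at h1
            exact_mod_cast h1
          have hb : ∀ a ∈ G.filter (fun a => Nat.log 2 (TN a) = j), (TN a : ℝ) ≤ 2 * ρ := by
            intro a ha
            rw [mem_filter] at ha
            have h1 := Nat.lt_pow_succ_log_self (b := 2) (by norm_num) (TN a)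
            rw [ha.2] at h1
            have h2 : (TN a : ℝ) < 2 ^ (j + 1) := by exact_mod_cast h1
            rw [pow_succ] at h2
            linarith only [hρ2, h2]
          calc ∑ a ∈ G with Nat.log 2 (TN a) = j, (TN a : ℝ)
              ≤ (G.filter (fun a => Nat.log 2 (TN a) = j)).card • (2 * ρ) :=
                Finset.sum_le_card_nsmul _ _ _ hb
            _ ≤ (2 * K * Λ ^ c * ((C.card : ℝ) ^ 4 / ρ ^ 2)) * (2 * ρ) := by
                rw [nsmul_eq_mul]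
                apply mul_le_mul_of_nonneg_right _ (by (clear * - hρp; positivity))
                refine le_trans ?_ hc
                exact_mod_cast card_le_card hsub2
            _ = 4 * (K * Λ ^ c * (C.card : ℝ) ^ 4 / ρ) := by field_simp; ring
            _ ≤ 4 * (K * Λ ^ c * (C.card : ℝ) ^ 4 / ρ0) := by
                apply mul_le_mul_of_nonneg_left _ (by norm_num)
                exact div_le_div_of_nonneg_left (by (clear * - hK hC hΛ1; positivity)) hρ0p hρ1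
            _ = 4 * ((C.card : ℝ) ^ 4 / w0) := by
                rw [hρ0]
                have hL : K * Λ ^ c ≠ 0 := by positivity
                congr 1
                rw [mul_div_mul_left _ _ hL]
      _ = (J : ℝ) * (4 * ((C.card : ℝ) ^ 4 / w0)) := by
          rw [Finset.sum_const, card_range, nsmul_eq_mul]
      _ ≤ Λ * (4 * ((C.card : ℝ) ^ 4 / w0)) :=
          mul_le_mul_of_nonneg_right hJΛ (by (clear * - hC hw0; positivity))

/-- `a` is on the axis of a heavy pencil and `z` is not -/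
def Ex (C : Finset E3) (w0 : ℝ) (a z : E3) : Prop :=
  ∃ B ∈ heavyPen C w0, B ≤ hyp a ∧ ¬ B ≤ hyp z

open scoped Classical in
/-- pairs with the bisector in a pencil and through a point outside the axis -/
theorem off_axis (C : Finset E3) (B : Submodule ℝ (E3 × ℝ)) (hB : Module.finrank ℝ B = 2) (a : E3)
    (ha : ¬ B ≤ hyp a) :
    (C.offDiag.filter (fun π => dualVec π ∈ B ∧ dualVec π ∈ hyp a)).card ≤ C.card := by
  rcases (C.offDiag.filter (fun π => dualVec π ∈ B ∧ dualVec π ∈ hyp a)).eq_empty_or_nonempty with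
    h | ⟨π₀, h0⟩
  · rw [h]; simp
  rw [mem_filter] at h0
  have h1 : B ⊓ hyp a < B := by
    refine lt_of_le_of_ne inf_le_left ?_
    intro h
    exact ha (inf_eq_left.mp h)
  have h2 := Submodule.finrank_lt_finrank_of_lt h1
  rw [hB] at h2
  have hne : dualVec π₀ ≠ 0 := dualVec_ne_zero π₀ (mem_offDiag.mp h0.1).2.2
  have hle : Submodule.span ℝ {dualVec π₀} ≤ B ⊓ hyp a := by
    rw [Submodule.span_singleton_le_iff_mem]
    exact ⟨h0.2.1, h0.2.2⟩
  have heq : Submodule.span ℝ {dualVec π₀} = B ⊓ hyp a :=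
    Submodule.eq_of_le_of_finrank_le hle (by rw [finrank_span_singleton hne]; exact Nat.le_of_lt_succ h2)
  have h3 := mult_le C π₀ h0.1
  unfold mass at h3
  have h4 : (C.offDiag.filter (fun π => dualVec π ∈ B ∧ dualVec π ∈ hyp a)).card ≤
      (C.offDiag.filter (fun i => dualVec i ∈ Submodule.span ℝ {dualVec π₀})).card := by
    apply card_le_card
    intro π hπ
    rw [mem_filter] at hπ ⊢
    refine ⟨hπ.1, ?_⟩
    rw [heq]
    exact ⟨hπ.2.1, hπ.2.2⟩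
  have h5 : (C.offDiag.filter (fun i => dualVec i ∈ Submodule.span ℝ {dualVec π₀})).card ≤ C.card := by
    exact_mod_cast h3
  exact h4.trans h5

open scoped Classical in
theorem iso_at (C : Finset E3) (w0 : ℝ) (a : E3) :
    (C.offDiag.filter (fun π => dualVec π ∈ hyp a ∧ ¬ Ex C w0 a π.1 ∧ ¬ Ex C w0 a π.2)).card ≤
      ((lightPairs C w0).filter (fun π => dualVec π ∈ hyp a)).card +
        (heavyPen C w0).card * C.card := by
  have hsub : C.offDiag.filter (fun π => dualVec π ∈ hyp a ∧ ¬ Ex C w0 a π.1 ∧ ¬ Ex C w0 a π.2) ⊆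
      (lightPairs C w0).filter (fun π => dualVec π ∈ hyp a) ∪
      ((heavyPen C w0).filter (fun B => ¬ B ≤ hyp a)).biUnion
        (fun B => C.offDiag.filter (fun π => dualVec π ∈ B ∧ dualVec π ∈ hyp a)) := by
    intro π hπ
    rw [mem_filter] at hπ
    obtain ⟨h1, h2, h3, h4⟩ := hπ
    rw [mem_union]
    by_cases hl : π ∈ lightPairs C w0
    · left
      exact mem_filter.mpr ⟨hl, h2⟩
    · right
      have hex : ∃ B ∈ heavyPen C w0, dualVec π ∈ B := by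
        by_contra hcon
        push Not at hcon
        exact hl (mem_filter.mpr ⟨h1, hcon⟩)
      obtain ⟨B, hB, hπB⟩ := hex
      rw [mem_biUnion]
      refine ⟨B, mem_filter.mpr ⟨hB, ?_⟩, mem_filter.mpr ⟨h1, hπB, h2⟩⟩
      intro hBa
      have h5 : B ≤ hyp π.1 := by
        by_contra hcon
        exact h3 ⟨B, hB, hBa, hcon⟩
      have h6 := h5 hπB
      rw [dualVec_mem_hyp, dist_self] at h6
      exact (mem_offDiag.mp h1).2.2 (dist_eq_zero.mp h6.symm)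
  refine (card_le_card hsub).trans ((card_union_le _ _).trans ?_)
  apply Nat.add_le_add_left
  refine card_biUnion_le.trans ?_
  calc ∑ B ∈ (heavyPen C w0).filter (fun B => ¬ B ≤ hyp a),
        (C.offDiag.filter (fun π => dualVec π ∈ B ∧ dualVec π ∈ hyp a)).card
      ≤ ∑ _B ∈ (heavyPen C w0).filter (fun B => ¬ B ≤ hyp a), C.card := by
        apply Finset.sum_le_sum
        intro B hB
        rw [mem_filter] at hB
        exact off_axis C B (mem_filter.mp hB.1).2.1 a hB.2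
    _ = ((heavyPen C w0).filter (fun B => ¬ B ≤ hyp a)).card * C.card := by
        rw [Finset.sum_const, smul_eq_mul]
    _ ≤ (heavyPen C w0).card * C.card :=
        Nat.mul_le_mul_right _ (card_filter_le _ _)

open scoped Classical in
/-- isosceles triangles without exceptional pairs -/
theorem iso_count (C : Finset E3) (w0 : ℝ) :
    ((((C ×ˢ C).filter (fun p => ¬ Ex C w0 p.1 p.2) ×ˢ (C ×ˢ C).filter (fun p => ¬ Ex C w0 p.1 p.2)).filter
      (fun p => dist p.1.1 p.1.2 = dist p.2.1 p.2.2 ∧ p.1.1 = p.2.1)).card : ℕ) ≤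
      C.card ^ 2 + (∑ a ∈ C, ((lightPairs C w0).filter (fun π => dualVec π ∈ hyp a)).card +
        (heavyPen C w0).card * C.card ^ 2) := by
  set NE := (C ×ˢ C).filter (fun p => ¬ Ex C w0 p.1 p.2) with hNE
  set Q := (NE ×ˢ NE).filter (fun p => dist p.1.1 p.1.2 = dist p.2.1 p.2.2 ∧ p.1.1 = p.2.1) with hQ
  rw [← Finset.card_filter_add_card_filter_not (s := Q) (fun p => p.1.2 = p.2.2)]
  apply Nat.add_le_add
  · rw [sq, ← card_product]
    apply Finset.card_le_card_of_injOn (fun p => p.1)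
    · intro p hp
      rw [mem_coe, mem_filter, hQ, mem_filter, mem_product, hNE, mem_filter] at hp
      exact hp.1.1.1.1
    · intro p hp p' hp' he
      rw [mem_coe, mem_filter, hQ, mem_filter] at hp hp'
      have h1 : p.2 = p.1 := Prod.ext hp.1.2.2.symm hp.2.symm
      have h2 : p'.2 = p'.1 := Prod.ext hp'.1.2.2.symm hp'.2.symm
      apply Prod.ext he
      rw [h1, h2]
      exact he
  · set W := (C ×ˢ C.offDiag).filter (fun w => dualVec w.2 ∈ hyp w.1 ∧ ¬ Ex C w0 w.1 w.2.1 ∧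
      ¬ Ex C w0 w.1 w.2.2) with hW
    have h1 : (Q.filter (fun p => ¬ p.1.2 = p.2.2)).card ≤ W.card := by
      apply Finset.card_le_card_of_injOn (fun p => (p.1.1, (p.1.2, p.2.2)))
      · intro p hp
        rw [mem_coe, mem_filter, hQ, mem_filter, mem_product, hNE, mem_filter, mem_filter,
          mem_product, mem_product] at hp
        obtain ⟨⟨⟨⟨⟨a1, a2⟩, a3⟩, ⟨a4, a5⟩, a6⟩, a7, a8⟩, a9⟩ := hp
        rw [mem_coe, hW, mem_filter, mem_product, mem_offDiag]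
        refine ⟨⟨a1, a2, a5, a9⟩, ?_, a3, ?_⟩
        · rw [dualVec_mem_hyp, a7, a8]
        · simp only
          rw [a8]
          exact a6
      · intro p hp p' hp' he
        rw [mem_coe, mem_filter, hQ, mem_filter] at hp hp'
        simp only [Prod.mk.injEq] at he
        obtain ⟨e1, e2, e3⟩ := he
        apply Prod.ext
        · exact Prod.ext e1 e2
        · exact Prod.ext (by rw [← hp.1.2.2, ← hp'.1.2.2]; exact e1) e3
    refine h1.trans ?_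
    rw [hW, Finset.card_filter, Finset.sum_product]
    have h2 : ∀ a ∈ C, (∑ π ∈ C.offDiag, if dualVec (a, π).2 ∈ hyp (a, π).1 ∧
        ¬ Ex C w0 (a, π).1 (a, π).2.1 ∧ ¬ Ex C w0 (a, π).1 (a, π).2.2 then 1 else 0) ≤
        ((lightPairs C w0).filter (fun π => dualVec π ∈ hyp a)).card +
        (heavyPen C w0).card * C.card := by
      intro a _
      rw [← Finset.card_filter]
      exact iso_at C w0 a
    refine (Finset.sum_le_sum h2).trans ?_
    rw [Finset.sum_add_distrib, Finset.sum_const, smul_eq_mul]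
    apply Nat.add_le_add_left
    apply le_of_eq
    ring

theorem axis_three (B : Submodule ℝ (E3 × ℝ)) (hB : Module.finrank ℝ B = 2) (a₁ a₂ a₃ z : E3)
    (h1 : B ≤ hyp a₁) (h2 : B ≤ hyp a₂) (h3 : B ≤ hyp a₃) (h12 : a₁ ≠ a₂)
    (e2 : dist a₂ z = dist a₁ z) (e3 : dist a₃ z = dist a₁ z) : a₃ = a₁ ∨ a₃ = a₂ := by
  -- two vectors of the pencil with independent directions
  have hex : ∃ b₁ ∈ B, ∃ b₂ ∈ B, b₁.1 ≠ 0 ∧ ¬ ∃ τ : ℝ, b₂.1 = τ • b₁.1 := by
    by_contra hcon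
    push Not at hcon
    have hz : ∀ b ∈ B, b.1 = 0 → b = 0 := by
      intro b hb hb1
      have h4 : (b.1, b.2) ∈ hyp a₁ := h1 hb
      rw [mem_hyp, hb1, inner_zero_right, mul_zero] at h4
      exact Prod.ext hb1 h4.symm
    have hne : ∃ b₁ ∈ B, b₁ ≠ 0 := by
      by_contra hcon2
      push Not at hcon2
      have h4 : B = ⊥ := by
        rw [Submodule.eq_bot_iff]
        exact hcon2
      rw [h4, finrank_bot] at hB
      omega
    obtain ⟨b₁, hb1, hb0⟩ := hne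
    have hb10 : b₁.1 ≠ 0 := fun h => hb0 (hz b₁ hb1 h)
    have hle : B ≤ Submodule.span ℝ {b₁} := by
      intro b hb
      obtain ⟨τ, hτ⟩ := hcon b₁ hb1 b hb hb10
      rw [Submodule.mem_span_singleton]
      refine ⟨τ, ?_⟩
      have h4 : b - τ • b₁ ∈ B := B.sub_mem hb (B.smul_mem _ hb1)
      have h5 := hz _ h4 (by rw [Prod.fst_sub, Prod.smul_fst, hτ, sub_self])
      exact (sub_eq_zero.mp h5).symm
    have h4 := Submodule.finrank_mono hle
    rw [hB, finrank_span_singleton hb0] at h4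
    omega
  obtain ⟨b₁, hb1, b₂, hb2, hn1, hn2⟩ := hex
  have hperp : ∀ b ∈ B, ∀ a a' : E3, B ≤ hyp a → B ≤ hyp a' → inner ℝ (a - a') b.1 = 0 := by
    intro b hb a a' ha ha'
    have h4 : (b.1, b.2) ∈ hyp a := ha hb
    have h5 : (b.1, b.2) ∈ hyp a' := ha' hb
    rw [mem_hyp] at h4 h5
    rw [inner_sub_left]
    linarith only [h4, h5]
  obtain ⟨l, hl⟩ := perp_pair_one_dim (E := E3) (by simp) b₁.1 b₂.1 (a₂ - a₁) (a₃ - a₁) hn1 hn2
    (sub_ne_zero.mpr h12.symm) (hperp b₁ hb1 _ _ h2 h1) (hperp b₂ hb2 _ _ h2 h1)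
    (hperp b₁ hb1 _ _ h3 h1) (hperp b₂ hb2 _ _ h3 h1)
  have he : 0 < ‖a₂ - a₁‖ := norm_pos_iff.mpr (sub_ne_zero.mpr h12.symm)
  have key : ∀ τ : ℝ, ‖a₁ + τ • (a₂ - a₁) - z‖ ^ 2 = ‖a₁ - z‖ ^ 2 +
      2 * τ * inner ℝ (a₁ - z) (a₂ - a₁) + τ ^ 2 * ‖a₂ - a₁‖ ^ 2 := by
    intro τ
    have h4 : a₁ + τ • (a₂ - a₁) - z = (a₁ - z) + τ • (a₂ - a₁) := by abel
    rw [h4, norm_add_sq_real, inner_smul_right, norm_smul, mul_pow, Real.norm_eq_abs, sq_abs]
    ring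
  have k2 : ‖a₂ - z‖ ^ 2 = ‖a₁ - z‖ ^ 2 := by
    rw [← dist_eq_norm, ← dist_eq_norm, e2]
  have k3 : ‖a₃ - z‖ ^ 2 = ‖a₁ - z‖ ^ 2 := by
    rw [← dist_eq_norm, ← dist_eq_norm, e3]
  have m2 := key 1
  have m3 := key l
  have r2 : a₁ + (1:ℝ) • (a₂ - a₁) - z = a₂ - z := by rw [one_smul]; abel
  have r3 : a₁ + l • (a₂ - a₁) - z = a₃ - z := by rw [← hl]; abel
  rw [r2, k2] at m2
  rw [r3, k3] at m3
  have h5 : l * (l - 1) * ‖a₂ - a₁‖ ^ 2 = 0 := by linear_combination (-1) * m3 + l * m2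
  have h6 : l * (l - 1) = 0 := by
    rcases mul_eq_zero.mp h5 with h | h
    · exact h
    · exact absurd h (by (clear * - he; positivity))
  rcases mul_eq_zero.mp h6 with h | h
  · left
    rw [h, zero_smul] at hl
    exact sub_eq_zero.mp hl
  · right
    have : l = 1 := by linarith only [h]
    rw [this, one_smul] at hl
    have := congrArg (fun t => t + a₁) hl
    simpa using this

open scoped Classical in
theorem axis_two (C : Finset E3) (B : Submodule ℝ (E3 × ℝ)) (hB : Module.finrank ℝ B = 2)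
    (z : E3) (δ : ℝ) : (C.filter (fun a => B ≤ hyp a ∧ dist a z = δ)).card ≤ 2 := by
  by_contra hcon
  push Not at hcon
  obtain ⟨a₁, h1, a₂, h2, a₃, h3, h12, h13, h23⟩ := Finset.two_lt_card.mp hcon
  rw [mem_filter] at h1 h2 h3
  rcases axis_three B hB a₁ a₂ a₃ z h1.2.1 h2.2.1 h3.2.1 h12 (by rw [h2.2.2, h1.2.2])
    (by rw [h3.2.2, h1.2.2]) with h | h
  · exact h13 h.symm
  · exact h23 h.symm

open scoped Classical in
/-- exceptional pairs at a fixed distance -/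
theorem ex_count (C : Finset E3) (w0 : ℝ) (δ : ℝ) :
    ((C ×ˢ C).filter (fun p => Ex C w0 p.1 p.2 ∧ dist p.1 p.2 = δ)).card ≤
      2 * C.card * (heavyPen C w0).card := by
  have hsub : (C ×ˢ C).filter (fun p => Ex C w0 p.1 p.2 ∧ dist p.1 p.2 = δ) ⊆
      (heavyPen C w0).biUnion (fun B => (C ×ˢ C).filter (fun p => B ≤ hyp p.1 ∧ dist p.1 p.2 = δ)) := by
    intro p hp
    rw [mem_filter] at hp
    obtain ⟨h1, ⟨B, hB, hB1, _⟩, h3⟩ := hp
    rw [mem_biUnion]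
    exact ⟨B, hB, mem_filter.mpr ⟨h1, hB1, h3⟩⟩
  refine (card_le_card hsub).trans (card_biUnion_le.trans ?_)
  calc ∑ B ∈ heavyPen C w0, ((C ×ˢ C).filter (fun p => B ≤ hyp p.1 ∧ dist p.1 p.2 = δ)).card
      ≤ ∑ _B ∈ heavyPen C w0, 2 * C.card := by
        apply Finset.sum_le_sum
        intro B hB
        have hf := (mem_filter.mp hB).2.1
        rw [Finset.card_filter, Finset.sum_product_right]
        calc ∑ z ∈ C, ∑ a ∈ C, (if B ≤ hyp (a, z).1 ∧ dist (a, z).1 (a, z).2 = δ then 1 else 0)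
            ≤ ∑ _z ∈ C, 2 := by
              apply Finset.sum_le_sum
              intro z _
              rw [← Finset.card_filter]
              exact axis_two C B hf z δ
          _ = 2 * C.card := by rw [Finset.sum_const, smul_eq_mul, mul_comm]
    _ = 2 * C.card * (heavyPen C w0).card := by rw [Finset.sum_const, smul_eq_mul, mul_comm]

open scoped Classical in
theorem ex_energy (C : Finset E3) (w0 : ℝ) :
    ((((C ×ˢ C).filter (fun p => Ex C w0 p.1 p.2)) ×ˢ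
      ((C ×ˢ C).filter (fun p => Ex C w0 p.1 p.2))).filter
      (fun p => dist p.1.1 p.1.2 = dist p.2.1 p.2.2)).card ≤
      C.card ^ 2 * (2 * C.card * (heavyPen C w0).card) := by
  rw [Finset.card_filter, Finset.sum_product]
  have h1 : ∀ p ∈ (C ×ˢ C).filter (fun p => Ex C w0 p.1 p.2),
      (∑ q ∈ (C ×ˢ C).filter (fun p => Ex C w0 p.1 p.2),
        if dist (p, q).1.1 (p, q).1.2 = dist (p, q).2.1 (p, q).2.2 then 1 else 0) ≤
      2 * C.card * (heavyPen C w0).card := by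
    intro p _
    rw [← Finset.card_filter, Finset.filter_filter]
    refine le_trans (card_le_card ?_) (ex_count C w0 (dist p.1 p.2))
    intro q hq
    rw [mem_filter] at hq ⊢
    exact ⟨hq.1, hq.2.1, hq.2.2.symm⟩
  refine (Finset.sum_le_card_nsmul _ _ _ h1).trans ?_
  rw [smul_eq_mul]
  apply Nat.mul_le_mul_right
  refine (card_filter_le _ _).trans ?_
  rw [card_product, sq]

open scoped Classical in
/-- the number of quadruples with equal distances -/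
theorem quad_energy : ∃ (K : ℝ) (c : ℕ), 1 ≤ K ∧ ∀ (C : Finset E3) (Λ s : ℝ), 1 ≤ C.card → 0 < s →
    s ^ 2 = C.card → 20 * (Real.log ((C.card : ℝ) ^ 2 + 3) + 1) ≤ Λ →
    ((((C ×ˢ C) ×ˢ (C ×ˢ C)).filter (fun p => dist p.1.1 p.1.2 = dist p.2.1 p.2.2)).card : ℝ) ≤
      K * Λ ^ c * s ^ 7 := by
  obtain ⟨K0, c0, hK0, hET⟩ := et_uniform 3
  have hET3 := hET 3 (by norm_num) le_rfl
  refine ⟨2 ^ 16 + 2 * K0, c0 + 2, by linarith only [hK0], ?_⟩
  intro C Λ s hC hs hsC hΛ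
  have hx1 : (1:ℝ) ≤ C.card := by exact_mod_cast hC
  have hlog : 0 ≤ Real.log ((C.card : ℝ) ^ 2 + 3) := Real.log_nonneg (by nlinarith only [])
  have hΛ1 : 1 ≤ Λ := by linarith only [hΛ, hlog]
  have hs1 : 1 ≤ s := by
    by_contra hcon
    push Not at hcon
    have : s ^ 2 < 1 := by nlinarith only [hs, hsC, hx1, hcon]
    rw [hsC] at this
    linarith only [hx1, this]
  have hΛc0 : 1 ≤ Λ ^ c0 := one_le_pow₀ hΛ1
  have hΛc : Λ ^ c0 ≤ Λ ^ (c0 + 2) := pow_le_pow_right₀ hΛ1 (by omega)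
  have hΛ2 : Λ ^ 2 ≤ Λ ^ (c0 + 2) := pow_le_pow_right₀ hΛ1 (by omega)
  have hΛΛ : Λ ≤ Λ ^ 2 := by nlinarith only [hΛ, hlog]
  have hs7 : 0 ≤ s ^ 7 := by positivity
  rcases lt_or_ge s (64 * Λ) with hsm | hbig
  · have h1 : (((C ×ˢ C) ×ˢ (C ×ˢ C)).filter
        (fun p => dist p.1.1 p.1.2 = dist p.2.1 p.2.2)).card ≤ C.card ^ 4 := by
      refine (card_filter_le _ _).trans ?_
      rw [card_product, card_product]
      apply le_of_eq; ring
    have h2 : ((((C ×ˢ C) ×ˢ (C ×ˢ C)).filter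
        (fun p => dist p.1.1 p.1.2 = dist p.2.1 p.2.2)).card : ℝ) ≤ (C.card : ℝ) ^ 4 := by
      exact_mod_cast h1
    calc _ ≤ (C.card : ℝ) ^ 4 := h2
      _ = s * s ^ 7 := by rw [← hsC]; ring
      _ ≤ (64 * Λ) * s ^ 7 := mul_le_mul_of_nonneg_right hsm.le hs7
      _ ≤ ((2 ^ 16 + 2 * K0) * Λ ^ (c0 + 2)) * s ^ 7 := by
          apply mul_le_mul_of_nonneg_right _ hs7
          apply mul_le_mul _ (by linarith only [hΛ2, hΛΛ]) (by linarith) (by linarith only [hK0])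
          linarith only [hK0]
  have hw : (C.card : ℝ) ≤ s ^ 3 := by rw [← hsC]; exact pow_le_pow_right₀ hs1 (by norm_num)
  have hw3 : (C.card : ℝ) ^ 3 ≤ (s ^ 3) ^ 2 := by rw [← hsC]; apply le_of_eq; ring
  have hpen := heavyPen_card C (s ^ 3) Λ hC hΛ (by
    rw [← hsC]
    calc 64 * s ^ 2 * Λ = s ^ 2 * (64 * Λ) := by ring
      _ ≤ s ^ 2 * s := mul_le_mul_of_nonneg_left hbig (by positivity)
      _ = s ^ 3 := by ring)
  have hsum := sum_light K0 c0 hK0 hET3 C (s ^ 3) Λ hC hΛ hw hw3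
  obtain ⟨b, hb⟩ : ∃ b : ℝ, b = ((heavyPen C (s ^ 3)).card : ℝ) := ⟨_, rfl⟩
  have hb0 : 0 ≤ b := by rw [hb]; (clear * -; positivity)
  have hb1 : b ≤ 2 ^ 13 * Λ ^ 2 * s := by
    rw [hb]
    refine hpen.trans ?_
    rw [← hsC]
    have e1 : s ^ 2 * ((s ^ 2) ^ 2) ^ 2 / (s ^ 3) ^ 3 = s := by field_simp
    have e2 : (s ^ 2) ^ 2 / s ^ 3 = s := by field_simp
    rw [e1, e2]
    nlinarith only [hs, hΛ, hlog, hΛΛ, hbig]
  have hsum2 : (∑ a ∈ C, (((lightPairs C (s ^ 3)).filter (fun π => dualVec π ∈ hyp a)).card : ℝ)) ≤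
      K0 * Λ ^ c0 * s ^ 5 + 4 * Λ * s ^ 5 := by
    refine le_trans hsum ?_
    rw [← hsC]
    have e1 : (s ^ 2) ^ 4 / s ^ 3 = s ^ 5 := by field_simp
    rw [e1]
    apply le_of_eq; ring
  have hiso := iso_count C (s ^ 3)
  have hcs := energy_cs ((C ×ˢ C).filter (fun p => ¬ Ex C (s ^ 3) p.1 p.2)) C
    (fun p hp => (mem_product.mp (mem_filter.mp hp).1).1) (fun p => dist p.1 p.2)
  have hex := ex_energy C (s ^ 3)
  have hsp := energy_split (C ×ˢ C) (fun p => Ex C (s ^ 3) p.1 p.2) (fun p => dist p.1 p.2)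
  have h1 : ((((C ×ˢ C) ×ˢ (C ×ˢ C)).filter
      (fun p => dist p.1.1 p.1.2 = dist p.2.1 p.2.2)).card) ≤
      2 * (C.card ^ 2 * (2 * C.card * (heavyPen C (s ^ 3)).card)) +
      2 * (C.card * (C.card ^ 2 +
        (∑ a ∈ C, ((lightPairs C (s ^ 3)).filter (fun π => dualVec π ∈ hyp a)).card +
        (heavyPen C (s ^ 3)).card * C.card ^ 2))) := by
    refine hsp.trans (Nat.add_le_add (Nat.mul_le_mul_left _ hex) (Nat.mul_le_mul_left _ ?_))
    refine hcs.trans (Nat.mul_le_mul_left _ ?_)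
    convert hiso
  have h2 : ((((C ×ˢ C) ×ˢ (C ×ˢ C)).filter
      (fun p => dist p.1.1 p.1.2 = dist p.2.1 p.2.2)).card : ℝ) ≤
      2 * ((C.card : ℝ) ^ 2 * (2 * C.card * b)) +
      2 * (C.card * ((C.card : ℝ) ^ 2 +
        (∑ a ∈ C, (((lightPairs C (s ^ 3)).filter (fun π => dualVec π ∈ hyp a)).card : ℝ) +
        b * (C.card : ℝ) ^ 2))) := by
    rw [hb]
    exact_mod_cast h1
  refine h2.trans ?_
  rw [← hsC]
  have hs5 : s ^ 4 ≤ s ^ 5 := pow_le_pow_right₀ hs1 (by norm_num)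
  have hbs : b * s ^ 4 ≤ 2 ^ 13 * Λ ^ 2 * s ^ 5 := by
    calc b * s ^ 4 ≤ (2 ^ 13 * Λ ^ 2 * s) * s ^ 4 := mul_le_mul_of_nonneg_right hb1 (by positivity)
      _ = _ := by ring
  calc 2 * ((s ^ 2) ^ 2 * (2 * s ^ 2 * b)) + 2 * (s ^ 2 * ((s ^ 2) ^ 2 +
        (∑ a ∈ C, (((lightPairs C (s ^ 3)).filter (fun π => dualVec π ∈ hyp a)).card : ℝ) +
        b * (s ^ 2) ^ 2)))
      = 4 * s ^ 2 * (b * s ^ 4) + 2 * s ^ 2 * (s ^ 4 +
        ∑ a ∈ C, (((lightPairs C (s ^ 3)).filter (fun π => dualVec π ∈ hyp a)).card : ℝ) +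
        b * s ^ 4) := by ring
    _ ≤ 4 * s ^ 2 * (2 ^ 13 * Λ ^ 2 * s ^ 5) + 2 * s ^ 2 * (s ^ 5 +
        (K0 * Λ ^ c0 * s ^ 5 + 4 * Λ * s ^ 5) + 2 ^ 13 * Λ ^ 2 * s ^ 5) := by
        apply add_le_add
        · exact mul_le_mul_of_nonneg_left hbs (by positivity)
        · apply mul_le_mul_of_nonneg_left _ (by positivity)
          linarith only [hsum2, hs5, hbs]
    _ = (2 ^ 15 * Λ ^ 2 + (2 + 2 * (K0 * Λ ^ c0) + 8 * Λ + 2 ^ 14 * Λ ^ 2)) * s ^ 7 := by ring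
    _ ≤ ((2 ^ 16 + 2 * K0) * Λ ^ (c0 + 2)) * s ^ 7 := by
        apply mul_le_mul_of_nonneg_right _ hs7
        have e1 : K0 * Λ ^ c0 ≤ K0 * Λ ^ (c0 + 2) := mul_le_mul_of_nonneg_left hΛc (by linarith only [hK0])
        have e2 : (1:ℝ) ≤ Λ ^ (c0 + 2) := one_le_pow₀ hΛ1
        nlinarith only [hΛ, hlog, hΛ2, hΛΛ, e1]

end Vale.Agent.P054K

open Finset

namespace Vale.Agent.P054K

theorem alt34_false (K1 K2 G Λ A N n x y s Q : ℝ) (hK1 : 1 ≤ K1) (hK2 : 1 ≤ K2) (hG : 1 ≤ G)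
    (hΛ : 1 ≤ Λ) (hA : A = 2 ^ 60 * K1 ^ 2 * K2 * Λ ^ 8 * G) (hx : 1 ≤ x) (hs : 0 < s)
    (hsx : s ^ 2 = x) (hy : y ^ 2 = s ^ 3) (hy0 : 0 < y) (hN0 : 0 < N) (hn0 : 0 < n)
    (h1 : A * (x ^ 2 * y) < N * n ^ 2) (h2 : A * y < n)
    (hQ : Q ≤ K2 * G * s ^ 7) (h : Alt34 K1 N n x Q (4 * Λ)) : False := by
  have hK10 : 0 < K1 := by linarith only [hK1]
  have hK20 : 0 < K2 := by linarith only [hK2]
  have hG0 : 0 < G := by linarith only [hG]
  have hΛ0 : 0 < Λ := by linarith only [hΛ]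
  have hx0 : 0 < x := by linarith only [hx]
  have hK1sq : K1 ≤ K1 ^ 2 := by nlinarith only [hK1]
  have hK1sq1 : 1 ≤ K1 ^ 2 := by nlinarith only [hK1, hK1sq]
  have hA0 : 0 < A := by rw [hA]; positivity
  have hΛ8 : 1 ≤ Λ ^ 8 := one_le_pow₀ hΛ
  have hA1 : 1 ≤ A := by
    rw [hA]
    have e1 : 1 ≤ 2 ^ 60 * K1 ^ 2 := by nlinarith only [hK1, hK1sq]
    have e2 : 1 ≤ 2 ^ 60 * K1 ^ 2 * K2 := one_le_mul_of_one_le_of_one_le e1 hK2
    have e3 : 1 ≤ 2 ^ 60 * K1 ^ 2 * K2 * Λ ^ 8 := one_le_mul_of_one_le_of_one_le e2 hΛ8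
    exact one_le_mul_of_one_le_of_one_le e3 hG
  have hs1 : 1 ≤ s := by
    by_contra hc
    push Not at hc
    nlinarith only [hx, hs, hsx, hy, hc]
  have hyx : x ≤ y ^ 2 := by
    rw [hy, ← hsx]
    exact pow_le_pow_right₀ hs1 (by norm_num)
  have hAsq : A ≤ A ^ 2 := by nlinarith only [hA0, hA1]
  have hAcu : A ≤ A ^ 3 := by
    calc A = A * 1 := by ring
      _ ≤ A * A ^ 2 := mul_le_mul_of_nonneg_left (by nlinarith only [hA1, hAsq]) hA0.le
      _ = A ^ 3 := by ring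
  rcases h with h | h | h
  · have e1 : x ^ 2 * s ^ 7 = (x ^ 2 * y) ^ 2 := by
      calc x ^ 2 * s ^ 7 = (x ^ 2) * (s ^ 2) ^ 2 * s ^ 3 := by ring
        _ = (x ^ 2) * x ^ 2 * y ^ 2 := by rw [hsx, hy]
        _ = _ := by ring
    have e2 : N ^ 2 * n ^ 4 ≤ (128 * K1 * (4 * Λ) ^ 4 * K2 * G) * (x ^ 2 * y) ^ 2 := by
      calc N ^ 2 * n ^ 4 ≤ 128 * K1 * (4 * Λ) ^ 4 * x ^ 2 * Q := h
        _ ≤ 128 * K1 * (4 * Λ) ^ 4 * x ^ 2 * (K2 * G * s ^ 7) :=
            mul_le_mul_of_nonneg_left hQ (by positivity)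
        _ = (128 * K1 * (4 * Λ) ^ 4 * K2 * G) * (x ^ 2 * s ^ 7) := by ring
        _ = _ := by rw [e1]
    have e3 : (A * (x ^ 2 * y)) ^ 2 < (N * n ^ 2) ^ 2 :=
      pow_lt_pow_left₀ h1 (by (clear * - hx hy0 hA0; positivity)) (by norm_num)
    have e4 : 128 * K1 * (4 * Λ) ^ 4 * K2 * G ≤ A ^ 2 := by
      refine le_trans ?_ hAsq
      rw [hA]
      have f1 : Λ ^ 4 ≤ Λ ^ 8 := pow_le_pow_right₀ hΛ (by norm_num)
      calc 128 * K1 * (4 * Λ) ^ 4 * K2 * G = (2 ^ 15 * K1 * K2 * G) * Λ ^ 4 := by ring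
        _ ≤ (2 ^ 15 * K1 * K2 * G) * Λ ^ 8 := mul_le_mul_of_nonneg_left f1 (by positivity)
        _ = (2 ^ 15 * K2 * G * Λ ^ 8) * K1 := by ring
        _ ≤ (2 ^ 15 * K2 * G * Λ ^ 8) * K1 ^ 2 := mul_le_mul_of_nonneg_left hK1sq (by positivity)
        _ ≤ (2 ^ 60 * K2 * G * Λ ^ 8) * K1 ^ 2 := by
            apply mul_le_mul_of_nonneg_right _ (by positivity)
            apply mul_le_mul_of_nonneg_right _ (by positivity)
            apply mul_le_mul_of_nonneg_right _ (by positivity)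
            apply mul_le_mul_of_nonneg_right _ (by positivity)
            norm_num
        _ = _ := by ring
    have e5 : (128 * K1 * (4 * Λ) ^ 4 * K2 * G) * (x ^ 2 * y) ^ 2 ≤ A ^ 2 * (x ^ 2 * y) ^ 2 :=
      mul_le_mul_of_nonneg_right e4 (by positivity)
    have e6 : (N * n ^ 2) ^ 2 = N ^ 2 * n ^ 4 := by ring
    have e7 : (A * (x ^ 2 * y)) ^ 2 = A ^ 2 * (x ^ 2 * y) ^ 2 := by ring
    linarith only [e2, e3, e5]
  · have e1 : A * (x ^ 2 * y) * (A * y) < N * n ^ 2 * n :=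
      mul_lt_mul'' h1 h2 (by positivity) (by positivity)
    have e2 : A ^ 2 * x ^ 3 ≤ A * (x ^ 2 * y) * (A * y) := by
      calc A ^ 2 * x ^ 3 = (A ^ 2 * x ^ 2) * x := by ring
        _ ≤ (A ^ 2 * x ^ 2) * y ^ 2 := mul_le_mul_of_nonneg_left hyx (by positivity)
        _ = _ := by ring
    have e3 : 2 ^ 40 * (4 * Λ) ^ 7 ≤ A ^ 2 := by
      refine le_trans ?_ hAsq
      rw [hA]
      have f1 : Λ ^ 7 ≤ Λ ^ 8 := pow_le_pow_right₀ hΛ (by norm_num)
      calc 2 ^ 40 * (4 * Λ) ^ 7 = 2 ^ 54 * Λ ^ 7 := by ring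
        _ ≤ 2 ^ 60 * Λ ^ 8 := by nlinarith only [hΛ8, f1]
        _ = 2 ^ 60 * 1 * 1 * Λ ^ 8 * 1 := by ring
        _ ≤ 2 ^ 60 * K1 ^ 2 * K2 * Λ ^ 8 * G := by
            apply mul_le_mul _ hG (by norm_num) (by positivity)
            apply mul_le_mul_of_nonneg_right _ (by positivity)
            apply mul_le_mul _ hK2 (by norm_num) (by positivity)
            exact mul_le_mul_of_nonneg_left hK1sq1 (by norm_num)
    have e4 : 2 ^ 40 * (4 * Λ) ^ 7 * x ^ 3 ≤ A ^ 2 * x ^ 3 :=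
      mul_le_mul_of_nonneg_right e3 (by positivity)
    have e5 : N * n ^ 2 * n = N * n ^ 3 := by ring
    linarith only [h, e1, e2, e4]
  · have e0 : (A * y) ^ 2 < n ^ 2 := pow_lt_pow_left₀ h2 (by (clear * - hy0 hA0; positivity)) (by norm_num)
    have e1 : A * (x ^ 2 * y) * (A * y) ^ 2 < N * n ^ 2 * n ^ 2 :=
      mul_lt_mul'' h1 e0 (by (clear * - hx hy0 hA0; positivity)) (by (clear * - hy0 hA0; positivity))
    have hy1 : 1 ≤ y := by
      by_contra hc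
      push Not at hc
      nlinarith only [hx, hy0, hyx, hc]
    have hy3 : x ^ 2 ≤ y ^ 3 := by
      have f1 : (x ^ 2) ^ 2 ≤ (y ^ 3) ^ 2 := by
        calc (x ^ 2) ^ 2 = s ^ 8 := by rw [← hsx]; ring
          _ ≤ s ^ 9 := pow_le_pow_right₀ hs1 (by norm_num)
          _ = (s ^ 3) ^ 3 := by ring
          _ = (y ^ 2) ^ 3 := by rw [hy]
          _ = _ := by ring
      exact (pow_le_pow_iff_left₀ (by positivity) (by positivity) (by norm_num)).mp f1
    have e2 : A ^ 3 * x ^ 4 ≤ A * (x ^ 2 * y) * (A * y) ^ 2 := by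
      calc A ^ 3 * x ^ 4 = (A ^ 3 * x ^ 2) * x ^ 2 := by ring
        _ ≤ (A ^ 3 * x ^ 2) * y ^ 3 := mul_le_mul_of_nonneg_left hy3 (by (clear * - hx hA0; positivity))
        _ = _ := by ring
    have e3 : 2 ^ 18 * K1 * (4 * Λ) ^ 6 ≤ A ^ 3 := by
      refine le_trans ?_ hAcu
      rw [hA]
      have f1 : Λ ^ 6 ≤ Λ ^ 8 := pow_le_pow_right₀ hΛ (by norm_num)
      calc 2 ^ 18 * K1 * (4 * Λ) ^ 6 = (2 ^ 30 * K1) * Λ ^ 6 := by ring
        _ ≤ (2 ^ 60 * K1 ^ 2) * Λ ^ 8 := by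
            apply mul_le_mul _ f1 (by positivity) (by positivity)
            exact mul_le_mul (by norm_num) hK1sq hK10.le (by norm_num)
        _ = 2 ^ 60 * K1 ^ 2 * 1 * Λ ^ 8 * 1 := by ring
        _ ≤ 2 ^ 60 * K1 ^ 2 * K2 * Λ ^ 8 * G := by
            apply mul_le_mul _ hG (by norm_num) (by positivity)
            apply mul_le_mul_of_nonneg_right _ (by positivity)
            exact mul_le_mul_of_nonneg_left hK2 (by positivity)
    have e4 : 2 ^ 18 * K1 * (4 * Λ) ^ 6 * x ^ 4 ≤ A ^ 3 * x ^ 4 :=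
      mul_le_mul_of_nonneg_right e3 (by positivity)
    have e5 : N * n ^ 2 * n ^ 2 = N * n ^ 4 := by ring
    linarith only [h, e1, e2, e4]

/-- basic consequences of the failure of the bound -/
theorem basic34 (K1 A Λ N n x y s : ℝ) (hK1 : 1 ≤ K1) (hΛ1 : 1 ≤ Λ) (hx1 : 1 ≤ x) (hn0 : 0 < n)
    (hN0 : 0 < N) (hsx : s ^ 2 = x) (hys : y ^ 2 = s ^ 3) (hs1 : 1 ≤ s) (hy1 : 1 ≤ y)
    (hAK : ∀ k : ℕ, k ≤ 8 → 2 ^ 60 * K1 ^ 2 * Λ ^ k ≤ A)
    (hcon : A * (x ^ 2 * y) < N * n ^ 2) (hNnx : N * n ≤ x ^ 2) (hnx : n ≤ x) :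
    A * y < n ∧ y < N ∧ 2 ^ 24 * K1 ^ 2 * (4 * Λ) ^ 6 * x ^ 2 ≤ N * n ^ 2 ∧ 8 * x ≤ N * n ∧
    2 ^ 11 * x * (4 * Λ) ^ 2 ≤ n ^ 2 ∧ 2 ^ 10 * x ^ 3 * (4 * Λ) ^ 2 ≤ n ^ 4 := by
  have hx0 : 0 < x := by linarith only [hx1]
  have hy0 : 0 < y := by linarith
  have hΛ0 : 0 < Λ := by linarith only [hΛ1]
  have hK10 : 0 < K1 := by linarith
  have hK1sq1 : 1 ≤ K1 ^ 2 := one_le_pow₀ hK1
  have hA60 : 2 ^ 60 ≤ A := by
    refine le_trans ?_ (hAK 0 (by norm_num))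
    rw [pow_zero, mul_one]
    exact le_mul_of_one_le_right (by norm_num) hK1sq1
  have hA1 : 1 ≤ A := le_trans (by norm_num) hA60
  have hA0 : 0 < A := by linarith only [hA60]
  have hxy0 : 0 < x ^ 2 * y := by positivity
  have hbn : A * y < n := by
    have h1 : x ^ 2 * (A * y) < x ^ 2 * n := by
      calc x ^ 2 * (A * y) = A * (x ^ 2 * y) := by ring
        _ < N * n ^ 2 := hcon
        _ = (N * n) * n := by ring
        _ ≤ x ^ 2 * n := mul_le_mul_of_nonneg_right hNnx hn0.le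
    exact lt_of_mul_lt_mul_left h1 (by positivity)
  have hNy : y < N := by
    have h1 : x ^ 2 * y < x ^ 2 * N := by
      calc x ^ 2 * y ≤ A * (x ^ 2 * y) := le_mul_of_one_le_left hxy0.le hA1
        _ < N * n ^ 2 := hcon
        _ ≤ N * x ^ 2 := by
            apply mul_le_mul_of_nonneg_left _ hN0.le
            exact pow_le_pow_left₀ hn0.le hnx 2
        _ = x ^ 2 * N := by ring
    exact lt_of_mul_lt_mul_left h1 (by positivity)
  have hy2x : x ≤ y ^ 2 := by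
    rw [hys, ← hsx]; exact pow_le_pow_right₀ hs1 (by norm_num)
  have hNbig : 2 ^ 24 * K1 ^ 2 * (4 * Λ) ^ 6 * x ^ 2 ≤ N * n ^ 2 := by
    refine le_trans ?_ hcon.le
    have h1 : 2 ^ 24 * K1 ^ 2 * (4 * Λ) ^ 6 ≤ A := by
      refine le_trans ?_ (hAK 6 (by norm_num))
      calc 2 ^ 24 * K1 ^ 2 * (4 * Λ) ^ 6 = 2 ^ 36 * (K1 ^ 2 * Λ ^ 6) := by ring
        _ ≤ 2 ^ 60 * (K1 ^ 2 * Λ ^ 6) := mul_le_mul_of_nonneg_right (by norm_num) (by positivity)
        _ = _ := by ring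
    calc 2 ^ 24 * K1 ^ 2 * (4 * Λ) ^ 6 * x ^ 2 ≤ A * x ^ 2 :=
          mul_le_mul_of_nonneg_right h1 (by positivity)
      _ ≤ A * (x ^ 2 * y) := by
          apply mul_le_mul_of_nonneg_left _ hA0.le
          exact le_mul_of_one_le_right (by positivity) hy1
  have hNn : 8 * x ≤ N * n := by
    have h1 : n * (8 * x) ≤ n * (N * n) := by
      calc n * (8 * x) ≤ x * (8 * x) := mul_le_mul_of_nonneg_right hnx (by positivity)
        _ = 8 * (x ^ 2 * 1) := by ring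
        _ ≤ A * (x ^ 2 * y) := by
            apply mul_le_mul (le_trans (by norm_num) hA60) _ (by positivity) hA0.le
            exact mul_le_mul_of_nonneg_left hy1 (by positivity)
        _ ≤ N * n ^ 2 := hcon.le
        _ = n * (N * n) := by ring
    exact le_of_mul_le_mul_left h1 hn0
  have hAy2 : (A * y) ^ 2 ≤ n ^ 2 := pow_le_pow_left₀ (by positivity) hbn.le 2
  have hAΛ2 : 2 ^ 15 * Λ ^ 2 ≤ A := by
    refine le_trans ?_ (hAK 2 (by norm_num))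
    have : (2:ℝ) ^ 15 ≤ 2 ^ 60 * K1 ^ 2 := by
      calc (2:ℝ) ^ 15 ≤ 2 ^ 60 * 1 := by norm_num
        _ ≤ 2 ^ 60 * K1 ^ 2 := mul_le_mul_of_nonneg_left hK1sq1 (by norm_num)
    exact mul_le_mul_of_nonneg_right this (by positivity)
  have hn2 : 2 ^ 11 * x * (4 * Λ) ^ 2 ≤ n ^ 2 := by
    calc 2 ^ 11 * x * (4 * Λ) ^ 2 = (2 ^ 15 * Λ ^ 2) * x := by ring
      _ ≤ A * x := mul_le_mul_of_nonneg_right hAΛ2 hx0.le
      _ ≤ A ^ 2 * y ^ 2 := mul_le_mul (le_self_pow₀ hA1 (by norm_num)) hy2x hx0.le (by positivity)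
      _ = (A * y) ^ 2 := by ring
      _ ≤ n ^ 2 := hAy2
  have hy4 : y ^ 4 = x ^ 3 := by
    calc y ^ 4 = (y ^ 2) ^ 2 := by ring
      _ = (s ^ 3) ^ 2 := by rw [hys]
      _ = (s ^ 2) ^ 3 := by ring
      _ = x ^ 3 := by rw [hsx]
  have hn4 : 2 ^ 10 * x ^ 3 * (4 * Λ) ^ 2 ≤ n ^ 4 := by
    have hA4 : A ≤ A ^ 4 := le_self_pow₀ hA1 (by norm_num)
    calc 2 ^ 10 * x ^ 3 * (4 * Λ) ^ 2 = (2 ^ 14 * Λ ^ 2) * x ^ 3 := by ring
      _ ≤ (2 ^ 15 * Λ ^ 2) * x ^ 3 := by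
          apply mul_le_mul_of_nonneg_right _ (by positivity)
          exact mul_le_mul_of_nonneg_right (by norm_num) (by positivity)
      _ ≤ A * x ^ 3 := mul_le_mul_of_nonneg_right hAΛ2 (by positivity)
      _ ≤ A ^ 4 * y ^ 4 := by rw [hy4]; exact mul_le_mul_of_nonneg_right hA4 (by positivity)
      _ = ((A * y) ^ 2) ^ 2 := by ring
      _ ≤ (n ^ 2) ^ 2 := pow_le_pow_left₀ (by positivity) hAy2 2
      _ = n ^ 4 := by ring
  exact ⟨hbn, hNy, hNbig, hNn, hn2, hn4⟩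

theorem log34 (Λ N x y : ℝ) (hΛ : 20 * (Real.log (N + 3) + 1) ≤ Λ) (hx : 1 ≤ x) (hy0 : 0 < y)
    (hyx : x ≤ y ^ 2) (hNy : y < N) :
    20 * (Real.log (x ^ 2 + 3) + 1) ≤ 4 * Λ ∧ 20 * (Real.log (x + 3) + 1) ≤ 4 * Λ ∧
    20 * (Real.log (N + 3) + 1) ≤ 4 * Λ := by
  have hN0 : 0 < N := by linarith only [hy0, hNy]
  have hlog : 0 ≤ Real.log (N + 3) := Real.log_nonneg (by linarith only [hy0, hNy])
  have hΛ4 : 20 * (Real.log (x ^ 2 + 3) + 1) ≤ 4 * Λ := by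
    have h1 : x ^ 2 + 3 ≤ (N + 3) ^ 4 := by
      have h2 : x ^ 2 ≤ N ^ 4 := by
        calc x ^ 2 ≤ (y ^ 2) ^ 2 := pow_le_pow_left₀ (by linarith) hyx 2
          _ = y ^ 4 := by ring
          _ ≤ N ^ 4 := pow_le_pow_left₀ hy0.le hNy.le 4
      have h3 : N ^ 4 + 3 ≤ (N + 3) ^ 4 := by
        have e : (N + 3) ^ 4 = N ^ 4 + 12 * N ^ 3 + 54 * N ^ 2 + 108 * N + 81 := by ring
        have : 0 ≤ 12 * N ^ 3 + 54 * N ^ 2 + 108 * N := by positivity
        linarith only [this]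
      linarith
    have h2 : Real.log (x ^ 2 + 3) ≤ 4 * Real.log (N + 3) := by
      have h3 : Real.log ((N + 3) ^ 4) = 4 * Real.log (N + 3) := by
        rw [Real.log_pow]; norm_num
      rw [← h3]
      exact Real.log_le_log (by positivity) h1
    linarith
  refine ⟨hΛ4, ?_, by linarith⟩
  have h1 : x ≤ x ^ 2 := le_self_pow₀ hx (by norm_num)
  have h2 : Real.log (x + 3) ≤ Real.log (x ^ 2 + 3) :=
    Real.log_le_log (by linarith) (by linarith)
  linarith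

open scoped Classical in
theorem localBound34_aux (K1 K2 : ℝ) (c2 : ℕ) (hK1 : 1 ≤ K1) (hK2 : 1 ≤ K2)
    (hpp : ∀ (R : Finset (E3 × ℝ)), (∀ v ∈ R, v.1 ≠ 0) →
      (∀ v ∈ R, ∀ w ∈ R, w ∈ Submodule.span ℝ {v} → w = v) →
      ∀ (Λ : ℝ), 20 * (Real.log ((R.card : ℝ) + 3) + 1) ≤ Λ → ∀ (j : ℕ),
      ((lvl R j).card : ℝ) ≤ K1 * Λ ^ 2 * ((R.card : ℝ) ^ 2 / 2 ^ j + R.card * 2 ^ j))
    (C : Finset E3) (R : Finset (E3 × ℝ)) (ν : ℕ) (Λ A G s y : ℝ)
    (hR1 : ∀ v ∈ R, v.1 ≠ 0) (hR2 : ∀ v ∈ R, ∀ w ∈ R, w ∈ Submodule.span ℝ {v} → w = v)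
    (hν1 : 1 ≤ ν) (hν : ∀ v ∈ R, ν ≤ (SS C v).card ∧ (SS C v).card ≤ 2 * ν)
    (hΛ : 20 * (Real.log ((R.card : ℝ) + 3) + 1) ≤ Λ)
    (hpen : ∀ v ∈ R, ∀ w ∈ R, v ≠ w → (pen R v w : ℝ) * (A * C.card) ≤ ν * R.card)
    (hRpos : 1 ≤ R.card) (hnx : (ν : ℝ) ≤ C.card) (hG : 1 ≤ G)
    (hA : A = 2 ^ 60 * K1 ^ 2 * K2 * Λ ^ 8 * G)
    (hsx : s ^ 2 = C.card) (hys : y ^ 2 = s ^ 3) (hs1 : 1 ≤ s) (hy1 : 1 ≤ y)
    (hquad : 20 * (Real.log ((C.card : ℝ) ^ 2 + 3) + 1) ≤ 4 * Λ → ((qn C : ℕ) : ℝ) ≤ K2 * G * s ^ 7)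
    (hcon : A * ((C.card : ℝ) ^ 2 * y) < R.card * (ν : ℝ) ^ 2) : False := by
  have hn1 : (1:ℝ) ≤ ν := by exact_mod_cast hν1
  have hN1 : (1:ℝ) ≤ R.card := by exact_mod_cast hRpos
  have hx1 : (1:ℝ) ≤ C.card := hn1.trans hnx
  have hlog : 0 ≤ Real.log ((R.card : ℝ) + 3) := Real.log_nonneg (by linarith only [hN1])
  have hΛ1 : 1 ≤ Λ := by linarith only [hΛ, hlog]
  have hNnx : (R.card : ℝ) * ν ≤ (C.card : ℝ) ^ 2 := by
    have h1 := rich_trivial C R hR1 hR2 ν (fun v hv => (hν v hv).1)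
    exact_mod_cast h1
  have hK1sq1 : 1 ≤ K1 ^ 2 := one_le_pow₀ hK1
  have hAK : ∀ k : ℕ, k ≤ 8 → 2 ^ 60 * K1 ^ 2 * Λ ^ k ≤ A := by
    intro k hk
    rw [hA]
    have f1 : Λ ^ k ≤ Λ ^ 8 := pow_le_pow_right₀ hΛ1 hk
    calc 2 ^ 60 * K1 ^ 2 * Λ ^ k ≤ 2 ^ 60 * K1 ^ 2 * Λ ^ 8 :=
          mul_le_mul_of_nonneg_left f1 (by positivity)
      _ = 2 ^ 60 * K1 ^ 2 * 1 * Λ ^ 8 * 1 := by ring
      _ ≤ 2 ^ 60 * K1 ^ 2 * K2 * Λ ^ 8 * G := by
          apply mul_le_mul _ hG (by norm_num) (by positivity)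
          apply mul_le_mul_of_nonneg_right _ (by positivity)
          exact mul_le_mul_of_nonneg_left hK2 (by positivity)
  obtain ⟨hbn, hNy, hNbig, hNn, hn2, hn4⟩ := basic34 K1 A Λ R.card ν C.card y s hK1 hΛ1 hx1
    (by linarith only [hn1]) (by linarith only [hN1]) hsx hys hs1 hy1 hAK hcon hNnx hnx
  have hy2x : (C.card : ℝ) ≤ y ^ 2 := by
    rw [hys, ← hsx]; exact pow_le_pow_right₀ hs1 (by norm_num)
  obtain ⟨hΛ4, hΛx, hΛN⟩ := log34 Λ R.card C.card y hΛ hx1 (by linarith only [hy1]) hy2x hNy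
  have hM := off_mass C R ν hν hNn
  obtain ⟨j, hj⟩ := level_select C R hRpos (4 * Λ) _ hΛN hM
  have hpen' : ∀ v ∈ R, ∀ w ∈ R, v ≠ w →
      (pen R v w : ℝ) * (2 ^ 24 * K1 ^ 2 * (4 * Λ) ^ 4 * C.card) ≤ ν * R.card := by
    intro v hv w hw hvw
    refine le_trans ?_ (hpen v hv w hw hvw)
    apply mul_le_mul_of_nonneg_left _ (by (clear * -; positivity))
    apply mul_le_mul_of_nonneg_right _ (by (clear * - hx1; positivity))
    refine le_trans ?_ (hAK 4 (by norm_num))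
    calc 2 ^ 24 * K1 ^ 2 * (4 * Λ) ^ 4 = 2 ^ 32 * (K1 ^ 2 * Λ ^ 4) := by ring
      _ ≤ 2 ^ 60 * (K1 ^ 2 * Λ ^ 4) := mul_le_mul_of_nonneg_right (by norm_num) (by (clear * - hK1 hΛ1; positivity))
      _ = _ := by ring
  have halt := level34 (E := E3) (by simp) (2 ^ 24 * K1 ^ 2) K1 hK1
    (by
      have : K1 ≤ K1 ^ 2 := le_self_pow₀ hK1 (by norm_num)
      linarith only [this]) (by linarith only [hK1sq1])
    C R ν (4 * Λ) hR1 hR2 hν1 (fun v hv => (hν v hv).2) (by linarith only [hΛ, hlog]) hpen' hRpos hnx hΛx hn2 hn4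
    hNbig j hj (hpp R hR1 hR2 (4 * Λ) hΛN j)
  exact alt34_false K1 K2 G Λ A R.card ν C.card y s (qn C) hK1 hK2 hG hΛ1 hA hx1 (by linarith only [hs1]) hsx
    hys (by linarith only [hy1]) (by linarith only [hy1, hNy]) (by linarith only [hn1]) hcon hbn (hquad hΛ4) halt

open scoped Classical in
/-- the local bound with exponent `3/4` -/
theorem localBound_three_quarters : LocalBound (3 / 4) := by
  obtain ⟨K1, hK1, hpp⟩ := lvl_card (E := E3)
  obtain ⟨K2, c2, hK2, hquad⟩ := quad_energy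
  have hK1sq1 : 1 ≤ K1 ^ 2 := one_le_pow₀ hK1
  refine ⟨2 ^ 60 * K1 ^ 2 * K2 * 4 ^ c2, c2 + 8, ?_, ?_⟩
  · have e1 : 1 ≤ 2 ^ 60 * K1 ^ 2 := one_le_mul_of_one_le_of_one_le (by norm_num) hK1sq1
    have e2 : 1 ≤ 2 ^ 60 * K1 ^ 2 * K2 := one_le_mul_of_one_le_of_one_le e1 hK2
    exact one_le_mul_of_one_le_of_one_le e2 (one_le_pow₀ (by norm_num))
  intro C R ν Λ hR1 hR2 hν1 hν hΛ hνx hpen
  by_contra hcon
  push Not at hcon
  have hlog : 0 ≤ Real.log ((R.card : ℝ) + 3) := Real.log_nonneg (by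
    have : (0:ℝ) ≤ R.card := by (clear * -; positivity)
    linarith only [])
  have hΛ1 : 1 ≤ Λ := by linarith only [hΛ, hlog]
  have hxr : 0 ≤ (C.card : ℝ) ^ ((2:ℝ) + 3 / 4) := Real.rpow_nonneg (by (clear * -; positivity)) _
  have hK0 : 0 ≤ 2 ^ 60 * K1 ^ 2 * K2 * 4 ^ c2 * Λ ^ (c2 + 8) * (C.card : ℝ) ^ ((2:ℝ) + 3 / 4) := by
    (clear * - hK1 hK2 hΛ1; positivity)
  rcases R.eq_empty_or_nonempty with hRe | ⟨v₀, hv₀⟩
  · have h2 : (R.card : ℝ) = 0 := by rw [hRe]; simp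
    rw [h2, zero_mul] at hcon
    linarith only [hcon, hK0]
  have hRpos : 1 ≤ R.card := Finset.card_pos.mpr ⟨v₀, hv₀⟩
  have hn1 : (1:ℝ) ≤ ν := by exact_mod_cast hν1
  have hnx : (ν : ℝ) ≤ C.card := by
    have h1 : (SS C v₀).card ≤ C.card := card_le_card (fun _ hq => (mem_SS.mp hq).1)
    exact_mod_cast (hν v₀ hv₀).1.trans h1
  have hx1 : (1:ℝ) ≤ C.card := hn1.trans hnx
  have hx1' : 1 ≤ C.card := by exact_mod_cast hx1
  have hx0 : (0:ℝ) < C.card := by linarith only [hn1, hnx]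
  have hsx : ((C.card : ℝ) ^ ((1:ℝ) / 2)) ^ 2 = C.card := by
    rw [← Real.rpow_natCast, ← Real.rpow_mul hx0.le]; norm_num
  have hys : ((C.card : ℝ) ^ ((3:ℝ) / 4)) ^ 2 = ((C.card : ℝ) ^ ((1:ℝ) / 2)) ^ 3 := by
    rw [← Real.rpow_natCast, ← Real.rpow_mul hx0.le, ← Real.rpow_natCast, ← Real.rpow_mul hx0.le]
    norm_num
  have hexp : (C.card : ℝ) ^ ((2:ℝ) + 3 / 4) = (C.card : ℝ) ^ 2 * (C.card : ℝ) ^ ((3:ℝ) / 4) := by
    rw [Real.rpow_add hx0]; norm_num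
  have hAe : 2 ^ 60 * K1 ^ 2 * K2 * 4 ^ c2 * Λ ^ (c2 + 8) =
      2 ^ 60 * K1 ^ 2 * K2 * Λ ^ 8 * (4 * Λ) ^ c2 := by
    rw [mul_pow, pow_add]; ring
  rw [hexp] at hcon
  refine localBound34_aux K1 K2 c2 hK1 hK2 hpp C R ν Λ _ ((4 * Λ) ^ c2)
    ((C.card : ℝ) ^ ((1:ℝ) / 2)) ((C.card : ℝ) ^ ((3:ℝ) / 4)) hR1 hR2 hν1 hν hΛ hpen hRpos hnx
    (one_le_pow₀ (by linarith only [hΛ, hlog])) hAe hsx hys (Real.one_le_rpow hx1 (by norm_num))
    (Real.one_le_rpow hx1 (by norm_num)) ?_ hcon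
  intro hΛ4
  refine le_trans ?_ (hquad C (4 * Λ) _ hx1' (Real.rpow_pos_of_pos hx0 _) hsx hΛ4)
  rw [Nat.cast_le]
  unfold qn
  apply card_le_card
  intro z hz
  obtain ⟨h1, h2⟩ := (@Finset.mem_filter _ _ (_) _ _).mp hz
  exact (@Finset.mem_filter _ _ (_) _ _).mpr ⟨h1, h2.2.symm⟩

end Vale.Agent.P054K

open Finset

namespace Vale.Agent.P054K

/-- lower bound for the number of distinct distances in space, exponent `23/37` -/
theorem space_lower34 (ε : ℝ) (hε : 0 < ε) : ∃ c : ℝ, 0 < c ∧ ∀ P : Finset E3, 2 ≤ P.card →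
      c * (P.card : ℝ) ^ ((23:ℝ) / 37 - ε) ≤ ((distances P).card : ℝ) := by
  have hcl := classProp_of_localBound (3 / 4) (by norm_num) (by norm_num) localBound_three_quarters
  have h := invert_bound (37 / 23) (by norm_num) (fun ε hε => by
    obtain ⟨C, hC, h⟩ := space_exponent (3 / 4) (by norm_num) (by norm_num) hcl ε hε
    refine ⟨C, hC, ?_⟩
    intro P t ht hP
    have h1 := h P t ht hP
    have e : ((7:ℝ) + 3 * (3 / 4)) / (5 + 3 / 4) = 37 / 23 := by norm_num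
    rw [e] at h1
    exact h1) ε hε
  have e : (1:ℝ) / (37 / 23) = 23 / 37 := by norm_num
  rw [e] at h
  exact h

end Vale.Agent.P054K

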