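import Vale.Agent.P054.MathlibUsed
import Vale.Agent.P054.Bdl.B2
import Vale.Agent.P054.Bdl.B5

set_option autoImplicit false

open Finset

namespace Vale.Agent.P054K

open scoped Classical in
/-- double counting: if every hyperplane has at most `M` points then `|P| ≤ 4xM` -/
theorem coplanar_count (d : ℕ) (hd : 1 ≤ d) (P : Finset (EuclideanSpace ℝ (Fin d)))
    (M t x s : ℕ) (Λ : ℝ) (hΛ : 16 * (Real.log (P.card + 3) + 1) ≤ Λ)
    (hM : ∀ u : EuclideanSpace ℝ (Fin d), u ≠ 0 → ∀ b : ℝ,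
      (P.filter (fun z => inner ℝ u z = b)).card ≤ M)
    (ht : ∀ p ∈ P, (P.image (dist p)).card ≤ t + 1) (hs : 1 ≤ s) (hx : 1 ≤ x)
    (h1 : 4 * x * (2 * s + 1) ^ d ≤ P.card)
    (h2 : 100 * ((t:ℝ) + 1) * Λ / s + 4 ≤ x) : P.card ≤ 4 * (x * M) := by
  obtain ⟨T, hT1, hT2, hT3, -⟩ := exists_pairs d hd P t x s Λ hΛ ht hs hx h1 h2
  have hP : 0 < P.card := by
    have : 0 < 4 * x * (2 * s + 1) ^ d := by positivity
    omega
  -- each bisector contains at most `M` points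
  have hbis : ∀ π ∈ T, (P.filter (fun p => dist p π.1 = dist p π.2)).card ≤ M := by
    intro π hπ
    have hne := (hT1 π hπ).2.2
    refine le_trans (Finset.card_le_card ?_)
      (hM (π.1 - π.2) (sub_ne_zero.mpr hne) ((‖π.1‖ ^ 2 - ‖π.2‖ ^ 2) / 2))
    intro p hp
    rw [mem_filter] at hp ⊢
    refine ⟨hp.1, ?_⟩
    have h3 : dist p π.1 ^ 2 = dist p π.2 ^ 2 := by rw [hp.2]
    rw [dist_eq_norm, dist_eq_norm, norm_sub_sq_real, norm_sub_sq_real] at h3
    rw [inner_sub_left, real_inner_comm p π.1, real_inner_comm p π.2]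
    linarith
  have h3 : ∑ p ∈ P, P.card ≤ ∑ p ∈ P, 4 * (T.filter (fun π => dist p π.1 = dist p π.2)).card :=
    Finset.sum_le_sum hT3
  rw [Finset.sum_const, smul_eq_mul, ← Finset.mul_sum] at h3
  have h4 : ∑ p ∈ P, (T.filter (fun π => dist p π.1 = dist p π.2)).card
      = ∑ π ∈ T, (P.filter (fun p => dist p π.1 = dist p π.2)).card := by
    simp only [Finset.card_filter]
    exact Finset.sum_comm
  have h5 : ∑ π ∈ T, (P.filter (fun p => dist p π.1 = dist p π.2)).card ≤ T.card * M := by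
    rw [← smul_eq_mul]
    exact Finset.sum_le_card_nsmul T _ M hbis
  have h6 : P.card * P.card ≤ P.card * (4 * (x * M)) := by
    calc P.card * P.card ≤ 4 * (T.card * M) := by rw [h4] at h3; omega
      _ ≤ 4 * (P.card * x * M) := by gcongr
      _ = P.card * (4 * (x * M)) := by ring
  exact Nat.le_of_mul_le_mul_left h6 hP

theorem lam_bound (ε : ℝ) (hε : 0 < ε) : ∃ C : ℝ, 0 < C ∧ ∀ n : ℕ, 1 ≤ n →
    16 * (Real.log ((n:ℝ) + 3) + 1) ≤ C * (n:ℝ) ^ ε := by
  refine ⟨16 * ((4:ℝ) ^ ε / ε + 1), by positivity, ?_⟩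
  intro n hn
  have hn' : (1:ℝ) ≤ n := by exact_mod_cast hn
  have h1 : Real.log ((n:ℝ) + 3) ≤ ((n:ℝ) + 3) ^ ε / ε := Real.log_le_rpow_div (by positivity) hε
  have h2 : ((n:ℝ) + 3) ^ ε ≤ (4:ℝ) ^ ε * (n:ℝ) ^ ε := by
    rw [← Real.mul_rpow (by norm_num) (by positivity)]
    exact Real.rpow_le_rpow (by positivity) (by linarith) hε.le
  have h3 : ((n:ℝ) + 3) ^ ε / ε ≤ (4:ℝ) ^ ε * (n:ℝ) ^ ε / ε :=
    div_le_div_of_nonneg_right h2 hε.le
  have h4 : (1:ℝ) ≤ (n:ℝ) ^ ε := Real.one_le_rpow hn' hε.le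
  calc 16 * (Real.log ((n:ℝ) + 3) + 1) ≤ 16 * ((4:ℝ) ^ ε * (n:ℝ) ^ ε / ε + (n:ℝ) ^ ε) := by
        linarith
    _ = 16 * ((4:ℝ) ^ ε / ε + 1) * (n:ℝ) ^ ε := by ring

/-- choice of the number of cells -/
theorem cells_choice (d M : ℕ) (hd : 1 ≤ d) (h3 : 3 ^ d ≤ M) :
    ∃ s : ℕ, 1 ≤ s ∧ (2 * s + 1) ^ d ≤ M ∧ (M:ℝ) ^ (1 / (d:ℝ)) ≤ 5 * s := by
  have hd0 : (0:ℝ) < d := by exact_mod_cast hd
  have hex : ∃ k : ℕ, M < (2 * k + 1) ^ d := by
    refine ⟨M, ?_⟩
    calc M < 2 * M + 1 := by omega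
      _ = (2 * M + 1) ^ 1 := (pow_one _).symm
      _ ≤ (2 * M + 1) ^ d := Nat.pow_le_pow_right (by omega) hd
  classical
  set k := Nat.find hex with hk
  have hk1 : M < (2 * k + 1) ^ d := Nat.find_spec hex
  have hk2 : 2 ≤ k := by
    by_contra hcon
    have : (2 * k + 1) ^ d ≤ 3 ^ d := Nat.pow_le_pow_left (by omega) d
    omega
  have hk3 : ¬ (M < (2 * (k - 1) + 1) ^ d) := Nat.find_min hex (by omega)
  refine ⟨k - 1, by omega, by omega, ?_⟩
  have h4 : (M:ℝ) ≤ ((2 * k + 1 : ℕ):ℝ) ^ d := by exact_mod_cast hk1.le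
  have h5 : (M:ℝ) ^ (1 / (d:ℝ)) ≤ ((2 * k + 1 : ℕ):ℝ) := by
    calc (M:ℝ) ^ (1 / (d:ℝ)) ≤ (((2 * k + 1 : ℕ):ℝ) ^ d) ^ (1 / (d:ℝ)) :=
          Real.rpow_le_rpow (by positivity) h4 (by positivity)
      _ = ((2 * k + 1 : ℕ):ℝ) := by
          rw [← Real.rpow_natCast, ← Real.rpow_mul (by positivity), mul_one_div_cancel hd0.ne',
            Real.rpow_one]
  refine h5.trans ?_
  have h6 : 2 * k + 1 ≤ 5 * (k - 1) := by omega
  exact_mod_cast h6

open scoped Classical in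
/-- the main range -/
theorem coplanar_main (d : ℕ) (hd : 1 ≤ d) (P : Finset (EuclideanSpace ℝ (Fin d)))
    (M t : ℕ) (h3 : 3 ^ d ≤ M) (h40 : 40 * M ≤ P.card)
    (hM : ∀ u : EuclideanSpace ℝ (Fin d), u ≠ 0 → ∀ b : ℝ,
      (P.filter (fun z => inner ℝ u z = b)).card ≤ M)
    (ht : ∀ p ∈ P, (P.image (dist p)).card ≤ t + 1) :
    (P.card : ℝ) * (M:ℝ) ^ (1 / (d:ℝ)) ≤
      7000 * (16 * (Real.log (P.card + 3) + 1)) * ((t:ℝ) + 1) * M := by
  obtain ⟨s, hs1, hs2, hs3⟩ := cells_choice d M hd h3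
  have hMpos : 0 < M := lt_of_lt_of_le (by positivity) h3
  set n := P.card with hn
  set Λ : ℝ := 16 * (Real.log (n + 3) + 1) with hΛ
  set x : ℕ := n / (5 * M) with hx
  have hx1 : 5 * M * x ≤ n := Nat.mul_div_le n (5 * M)
  have hx2 : n < 5 * M * (x + 1) := by
    have := Nat.lt_mul_div_succ n (show 0 < 5 * M by omega)
    simpa using this
  have hx8 : 8 ≤ x := by
    rw [hx, Nat.le_div_iff_mul_le (by omega)]; omega
  have hMr : (0:ℝ) < M := by exact_mod_cast hMpos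
  have hsr : (0:ℝ) < s := by exact_mod_cast hs1
  have hn0 : 0 < n := by omega
  have hΛ0 : 0 < Λ := by
    have : 0 ≤ Real.log ((n:ℝ) + 3) := Real.log_nonneg (by
      have : (0:ℝ) ≤ n := by positivity
      linarith only [this])
    rw [hΛ]; positivity
  by_contra hcon
  push Not at hcon
  have h1 : 4 * x * (2 * s + 1) ^ d ≤ n := by
    calc 4 * x * (2 * s + 1) ^ d ≤ 4 * x * M := Nat.mul_le_mul_left _ hs2
      _ = 4 * (M * x) := by ring
      _ ≤ 5 * M * x := by nlinarith [Nat.zero_le (M * x)]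
      _ ≤ n := hx1
  have h2 : 100 * ((t:ℝ) + 1) * Λ / s + 4 ≤ x := by
    have hx8' : (8:ℝ) ≤ x := by exact_mod_cast hx8
    have h5 : (n:ℝ) ≤ 5 * M * (x + 1) := by exact_mod_cast hx2.le
    have h6 : (7000 * Λ * ((t:ℝ) + 1)) * M < (5 * (x + 1)) * (5 * s) * M := by
      calc (7000 * Λ * ((t:ℝ) + 1)) * M < (n:ℝ) * (M:ℝ) ^ (1 / (d:ℝ)) := by
            simpa [mul_assoc] using hcon
        _ ≤ (5 * M * (x + 1)) * (5 * s) := by
            apply mul_le_mul h5 hs3 (by positivity) (by positivity)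
        _ = (5 * (x + 1)) * (5 * s) * M := by ring
    have h7 : 7000 * Λ * ((t:ℝ) + 1) < (5 * (x + 1)) * (5 * s) := lt_of_mul_lt_mul_right h6 hMr.le
    have h8 : 100 * ((t:ℝ) + 1) * Λ / s ≤ (x:ℝ) / 2 := by
      rw [div_le_iff₀ hsr]
      have : (x + 1 : ℝ) * s ≤ (9 / 8 * x) * s := by
        apply mul_le_mul_of_nonneg_right _ hsr.le
        linarith
      linarith only [this, h7, hsr]
    linarith
  have h9 := coplanar_count d hd P M t x s Λ (le_of_eq rfl) hM ht hs1 (by omega) h1 h2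
  have h10 : 4 * (x * M) < 5 * M * x := by
    have : 0 < M * x := by positivity
    nlinarith
  omega

open scoped Classical in
/-- few points on hyperplanes, many pinned distances -/
theorem few_coplanar (d : ℕ) (hd : 1 ≤ d) (ε : ℝ) (hε : 0 < ε) : ∃ c : ℝ, 0 < c ∧
    ∀ (P : Finset (EuclideanSpace ℝ (Fin d))) (M : ℕ), 2 ≤ P.card →
      (∀ u : EuclideanSpace ℝ (Fin d), u ≠ 0 → ∀ b : ℝ,
        (P.filter (fun z => inner ℝ u z = b)).card ≤ M) →
      ∃ p ∈ P, c * ((P.card : ℝ) ^ (1 - ε) / (M:ℝ) ^ (1 - 1 / (d:ℝ))) ≤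
        ((((P.erase p).image (dist p)).card : ℕ) : ℝ) := by
  have hD : (1:ℝ) ≤ d := by exact_mod_cast hd
  have hd0 : (0:ℝ) < d := by linarith
  have hdi : 0 < 1 / (d:ℝ) := by positivity
  have hdi1 : 1 / (d:ℝ) ≤ 1 := by rw [div_le_one hd0]; exact hD
  obtain ⟨c₁, hc₁, hpin⟩ := pinned_lower d hd ε hε
  obtain ⟨C, hC, hlam⟩ := lam_bound ε hε
  set K : ℝ := (40 * 3 ^ d : ℝ) with hK
  have hK0 : 0 < K := by positivity
  have hK40 : 40 ≤ K := by
    rw [hK]
    have : (1:ℝ) ≤ 3 ^ d := one_le_pow₀ (by norm_num)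
    linarith
  refine ⟨min (1 / K) (min (c₁ / 40) (1 / (14000 * C * 3 ^ d))), by positivity, ?_⟩
  intro P M hP hM
  have hPne : P.Nonempty := Finset.card_pos.mp (by omega)
  have hn1 : (1:ℝ) ≤ P.card := by exact_mod_cast (show 1 ≤ P.card by omega)
  have hn0 : (0:ℝ) < P.card := by linarith
  -- `M ≥ 1`
  have hM1 : 1 ≤ M := by
    obtain ⟨p, hp⟩ := hPne
    let e : EuclideanSpace ℝ (Fin d) := EuclideanSpace.single ⟨0, by omega⟩ 1
    have he : e ≠ 0 := by
      intro h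
      have h1 := congrArg (fun v : EuclideanSpace ℝ (Fin d) => v ⟨0, by omega⟩) h
      simp [e] at h1
    refine le_trans ?_ (hM e he (inner ℝ e p))
    rw [Nat.one_le_iff_ne_zero, ← Nat.pos_iff_ne_zero, Finset.card_pos]
    exact ⟨p, mem_filter.mpr ⟨hp, rfl⟩⟩
  have hMr : (1:ℝ) ≤ M := by exact_mod_cast hM1
  have hMp : (1:ℝ) ≤ (M:ℝ) ^ (1 - 1 / (d:ℝ)) := Real.one_le_rpow hMr (by linarith)
  have hMp0 : 0 < (M:ℝ) ^ (1 - 1 / (d:ℝ)) := by linarith
  have hQ0 : 0 ≤ (P.card : ℝ) ^ (1 - ε) / (M:ℝ) ^ (1 - 1 / (d:ℝ)) := by positivity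
  -- the maximal number of pinned distances
  obtain ⟨p, hp, hmax⟩ := P.exists_max_image (fun p => ((P.erase p).image (dist p)).card) hPne
  refine ⟨p, hp, ?_⟩
  set t := ((P.erase p).image (dist p)).card with ht
  have ht1 : 1 ≤ t := by
    rw [ht, Nat.one_le_iff_ne_zero, ← Nat.pos_iff_ne_zero, Finset.card_pos, Finset.image_nonempty,
      ← Finset.card_pos, Finset.card_erase_of_mem hp]
    omega
  have htr : (1:ℝ) ≤ t := by exact_mod_cast ht1
  have htp : ∀ q ∈ P, (P.image (dist q)).card ≤ t + 1 := by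
    intro q hq
    have h1 : P.image (dist q) = insert (dist q q) ((P.erase q).image (dist q)) := by
      rw [← Finset.image_insert, Finset.insert_erase hq]
    rw [h1]
    exact (Finset.card_insert_le _ _).trans (Nat.add_le_add_right (hmax q hq) 1)
  rcases Nat.lt_or_ge P.card (40 * 3 ^ d) with hsmall | hbig
  · -- bounded cardinality
    have h1 : (P.card : ℝ) ^ (1 - ε) ≤ K := by
      calc (P.card : ℝ) ^ (1 - ε) ≤ (P.card : ℝ) ^ (1:ℝ) :=
            Real.rpow_le_rpow_of_exponent_le hn1 (by linarith)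
        _ = P.card := Real.rpow_one _
        _ ≤ K := by rw [hK]; exact_mod_cast hsmall.le
    have h2 : (P.card : ℝ) ^ (1 - ε) / (M:ℝ) ^ (1 - 1 / (d:ℝ)) ≤ K := by
      rw [div_le_iff₀ hMp0]
      exact h1.trans (le_mul_of_one_le_right hK0.le hMp)
    calc _ ≤ 1 / K * K := mul_le_mul (min_le_left _ _) h2 hQ0 (by positivity)
      _ = 1 := by field_simp
      _ ≤ t := htr
  · rcases Nat.lt_or_ge P.card (40 * M) with hA | hA
    · -- very large `M`: the general bound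
      obtain ⟨q, hq, hq1⟩ := hpin P hP
      have h1 : c₁ * (P.card : ℝ) ^ (2 / (d:ℝ) - 1 / (d:ℝ) ^ 2 - ε) ≤ t := by
        refine hq1.trans ?_
        have := hmax q hq
        convert (Nat.cast_le (α := ℝ)).mpr this
      have h2 : (P.card : ℝ) ^ (1 / (d:ℝ) - ε) ≤
          (P.card : ℝ) ^ (2 / (d:ℝ) - 1 / (d:ℝ) ^ 2 - ε) := by
        apply Real.rpow_le_rpow_of_exponent_le hn1
        have h3 : 1 / (d:ℝ) ^ 2 = 1 / d * (1 / d) := by field_simp
        have h4 : 2 / (d:ℝ) = 1 / d + 1 / d := by ring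
        rw [h3, h4]
        (by_contra nlg; linarith only [nlg, mul_nonneg (le_of_lt (sub_pos.2 hdi)) (sub_nonneg.2 hdi1), mul_nonneg (le_of_lt (sub_pos.2 (not_le.1 nlg))) (sub_nonneg.2 hdi1), mul_pos (sub_pos.2 (not_le.1 nlg)) (sub_pos.2 hdi)])
      have h3 : (P.card:ℝ) ≤ 40 * M := by exact_mod_cast hA.le
      have h4 : (P.card : ℝ) ^ (1 - ε) / (M:ℝ) ^ (1 - 1 / (d:ℝ)) ≤
          40 * (P.card : ℝ) ^ (1 / (d:ℝ) - ε) := by
        rw [div_le_iff₀ hMp0]
        have h5 : (P.card : ℝ) ^ (1 - 1 / (d:ℝ)) ≤ 40 * (M:ℝ) ^ (1 - 1 / (d:ℝ)) := by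
          calc (P.card : ℝ) ^ (1 - 1 / (d:ℝ)) ≤ (40 * M : ℝ) ^ (1 - 1 / (d:ℝ)) :=
                Real.rpow_le_rpow hn0.le h3 (by linarith only [hdi1])
            _ = (40:ℝ) ^ (1 - 1 / (d:ℝ)) * (M:ℝ) ^ (1 - 1 / (d:ℝ)) :=
                Real.mul_rpow (by norm_num) (by linarith only [hMr])
            _ ≤ (40:ℝ) ^ (1:ℝ) * (M:ℝ) ^ (1 - 1 / (d:ℝ)) := by
                apply mul_le_mul_of_nonneg_right _ hMp0.le
                exact Real.rpow_le_rpow_of_exponent_le (by norm_num) (by linarith only [hdi])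
            _ = 40 * (M:ℝ) ^ (1 - 1 / (d:ℝ)) := by rw [Real.rpow_one]
        calc (P.card : ℝ) ^ (1 - ε)
            = (P.card : ℝ) ^ (1 / (d:ℝ) - ε) * (P.card : ℝ) ^ (1 - 1 / (d:ℝ)) := by
              rw [← Real.rpow_add hn0]; congr 1; ring
          _ ≤ (P.card : ℝ) ^ (1 / (d:ℝ) - ε) * (40 * (M:ℝ) ^ (1 - 1 / (d:ℝ))) := by
              apply mul_le_mul_of_nonneg_left h5 (by positivity)
          _ = 40 * (P.card : ℝ) ^ (1 / (d:ℝ) - ε) * (M:ℝ) ^ (1 - 1 / (d:ℝ)) := by ring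
      calc _ ≤ (c₁ / 40) * (40 * (P.card : ℝ) ^ (1 / (d:ℝ) - ε)) := by
            apply mul_le_mul _ h4 hQ0 (by positivity)
            exact (min_le_right _ _).trans (min_le_left _ _)
        _ = c₁ * (P.card : ℝ) ^ (1 / (d:ℝ) - ε) := by ring
        _ ≤ c₁ * (P.card : ℝ) ^ (2 / (d:ℝ) - 1 / (d:ℝ) ^ 2 - ε) :=
            mul_le_mul_of_nonneg_left h2 hc₁.le
        _ ≤ t := h1
    · -- the main range
      set M' := max M (3 ^ d) with hM'
      have hMM : M ≤ M' := le_max_left _ _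
      have h3M : 3 ^ d ≤ M' := le_max_right _ _
      have h40 : 40 * M' ≤ P.card := by
        rcases le_total M (3 ^ d) with h | h
        · rw [hM', max_eq_right h]; exact hbig
        · rw [hM', max_eq_left h]; exact hA
      have hm := coplanar_main d hd P M' t h3M h40
        (fun u hu b => by
          refine le_trans ?_ hMM
          convert hM u hu b) (fun q hq => by convert htp q hq)
      have hl := hlam P.card (by omega)
      have hM'0 : (0:ℝ) < M' := by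
        have : (1:ℝ) ≤ M' := by exact_mod_cast hM1.trans hMM
        linarith
      have hM'le : (M':ℝ) ≤ 3 ^ d * M := by
        have : M' ≤ 3 ^ d * M := by
          rw [hM']
          apply max_le
          · exact Nat.le_mul_of_pos_left M (by positivity)
          · exact Nat.le_mul_of_pos_right _ hM1
        exact_mod_cast this
      have hne0 : 0 < (P.card:ℝ) ^ ε := by positivity
      have hCn : 0 < C * (P.card:ℝ) ^ ε := mul_pos hC hne0
      have hMq0 : 0 ≤ (M':ℝ) ^ (1 - 1 / (d:ℝ)) := by positivity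
      clear_value M'
      -- `n ≤ 14000 C n^ε t M'^{1-1/d}`
      have h1 : (P.card : ℝ) ≤
          14000 * C * (P.card:ℝ) ^ ε * t * (M':ℝ) ^ (1 - 1 / (d:ℝ)) := by
        have h2 : (P.card : ℝ) * (M':ℝ) ^ (1 / (d:ℝ)) ≤
            7000 * (C * (P.card:ℝ) ^ ε) * ((t:ℝ) + 1) * M' := by
          refine hm.trans ?_
          gcongr
        have h3 : (M':ℝ) = (M':ℝ) ^ (1 - 1 / (d:ℝ)) * (M':ℝ) ^ (1 / (d:ℝ)) := by
          rw [← Real.rpow_add hM'0, sub_add_cancel, Real.rpow_one]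
        have h4 : (0:ℝ) < (M':ℝ) ^ (1 / (d:ℝ)) := by positivity
        have h5 : (P.card : ℝ) * (M':ℝ) ^ (1 / (d:ℝ)) ≤
            (7000 * (C * (P.card:ℝ) ^ ε) * ((t:ℝ) + 1) * (M':ℝ) ^ (1 - 1 / (d:ℝ)))
              * (M':ℝ) ^ (1 / (d:ℝ)) := by
          refine h2.trans (le_of_eq ?_)
          conv_lhs => rw [h3]
          ring
        have h6 := le_of_mul_le_mul_right h5 h4
        refine h6.trans ?_
        have h7 : (t:ℝ) + 1 ≤ 2 * t := by linarith only [htr]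
        calc 7000 * (C * (P.card:ℝ) ^ ε) * ((t:ℝ) + 1) * (M':ℝ) ^ (1 - 1 / (d:ℝ))
            ≤ 7000 * (C * (P.card:ℝ) ^ ε) * (2 * t) * (M':ℝ) ^ (1 - 1 / (d:ℝ)) := by
              apply mul_le_mul_of_nonneg_right _ hMq0
              apply mul_le_mul_of_nonneg_left h7
              exact mul_nonneg (by norm_num) hCn.le
          _ = _ := by ring
      have h2 : (M':ℝ) ^ (1 - 1 / (d:ℝ)) ≤ 3 ^ d * (M:ℝ) ^ (1 - 1 / (d:ℝ)) := by
        calc (M':ℝ) ^ (1 - 1 / (d:ℝ)) ≤ (3 ^ d * M : ℝ) ^ (1 - 1 / (d:ℝ)) :=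
              Real.rpow_le_rpow hM'0.le hM'le (by linarith only [hdi1])
          _ = (3 ^ d : ℝ) ^ (1 - 1 / (d:ℝ)) * (M:ℝ) ^ (1 - 1 / (d:ℝ)) :=
              Real.mul_rpow (by positivity) (by positivity)
          _ ≤ (3 ^ d : ℝ) ^ (1:ℝ) * (M:ℝ) ^ (1 - 1 / (d:ℝ)) := by
              apply mul_le_mul_of_nonneg_right _ hMp0.le
              exact Real.rpow_le_rpow_of_exponent_le (one_le_pow₀ (by norm_num)) (by linarith only [hdi])
          _ = _ := by rw [Real.rpow_one]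
      have h3 : (P.card:ℝ) ^ (1 - ε) / (M:ℝ) ^ (1 - 1 / (d:ℝ)) ≤ 14000 * C * 3 ^ d * t := by
        rw [div_le_iff₀ hMp0]
        have h4 : (P.card:ℝ) = (P.card:ℝ) ^ (1 - ε) * (P.card:ℝ) ^ ε := by
          rw [← Real.rpow_add hn0, sub_add_cancel, Real.rpow_one]
        have h5 : (P.card:ℝ) ^ (1 - ε) * (P.card:ℝ) ^ ε ≤
            (14000 * C * t * (3 ^ d * (M:ℝ) ^ (1 - 1 / (d:ℝ)))) * (P.card:ℝ) ^ ε := by
          rw [← h4]
          refine h1.trans ?_
          calc 14000 * C * (P.card:ℝ) ^ ε * t * (M':ℝ) ^ (1 - 1 / (d:ℝ))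
              ≤ 14000 * C * (P.card:ℝ) ^ ε * t * (3 ^ d * (M:ℝ) ^ (1 - 1 / (d:ℝ))) := by
                apply mul_le_mul_of_nonneg_left h2
                apply mul_nonneg _ (by linarith only [htr])
                rw [mul_assoc]
                exact mul_nonneg (by norm_num) hCn.le
            _ = _ := by ring
        have h6 := le_of_mul_le_mul_right h5 hne0
        refine h6.trans (le_of_eq (by ring))
      calc _ ≤ 1 / (14000 * C * 3 ^ d) * (14000 * C * 3 ^ d * t) := by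
            apply mul_le_mul _ h3 hQ0 (by positivity)
            exact (min_le_right _ _).trans (min_le_right _ _)
        _ = t := by field_simp

end Vale.Agent.P054K
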