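import Vale.Agent.P054.MathlibUsed
import Vale.Agent.P054.Bdl.B5

set_option linter.all false

section

namespace Vale.Agent.P054K

open Finset Module
open scoped Pointwise Classical RealInnerProductSpace

variable {E : Type*} [NormedAddCommGroup E] [InnerProductSpace ℝ E] [FiniteDimensional ℝ E]

open Filt

/-- The general bound for families of rank `s`. -/
def Gen (E : Type*) [NormedAddCommGroup E] [InnerProductSpace ℝ E] [FiniteDimensional ℝ E]
    (C e s : ℕ) : Prop :=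
  ∀ (K k : ℕ) (X : ℕ → Finset E) (𝓕 : Finset E), Filt K X → Fam K k X 𝓕 →
    finrank ℝ (Submodule.span ℝ (𝓕 : Set E)) = s →
    𝓕.card * ((X 1).image (prj (Submodule.span ℝ (𝓕 : Set E)))).card ≤ C * K ^ e * k ^ s

/-- The bound for spanning families of rank `s`. -/
def Spn (E : Type*) [NormedAddCommGroup E] [InnerProductSpace ℝ E] [FiniteDimensional ℝ E]
    (C e s : ℕ) : Prop :=
  ∀ (K k : ℕ) (X : ℕ → Finset E) (𝓕 : Finset E), Filt K X → Fam K k X 𝓕 →
    finrank ℝ (Submodule.span ℝ (𝓕 : Set E)) = s →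
    (∀ j, ∀ x ∈ X j, x ∈ Submodule.span ℝ (𝓕 : Set E)) →
    𝓕.card * (X 1).card ≤ C * K ^ e * k ^ s

lemma gen_of_spn {C e s : ℕ} (hS : Spn E C e s) : Gen E C (3 * e) s := by
  intro K k X 𝓕 h hF hs
  have h1 := hS (K ^ 3) k _ 𝓕 (h.image (prj (Submodule.span ℝ (𝓕 : Set E))))
    (hF.project.weaken (Nat.le_self_pow (by norm_num) K)) hs ?_
  · rw [← pow_mul] at h1
    exact h1
  · intro j x hx
    obtain ⟨y, _, rfl⟩ := mem_image.1 hx
    exact prj_mem _ _

omit [FiniteDimensional ℝ E] in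
lemma mem_perp_span (𝓖 : Finset E) (x : E) :
    x ∈ (Submodule.span ℝ (𝓖 : Set E))ᗮ ↔ ∀ f ∈ 𝓖, ip f x = 0 := by
  constructor
  · intro hx f hf
    exact (Submodule.mem_orthogonal _ _).1 hx f (Submodule.subset_span hf)
  · intro hx
    rw [Submodule.mem_orthogonal]
    intro u hu
    induction hu using Submodule.span_induction with
    | mem f hf => exact hx f hf
    | zero => exact inner_zero_left _
    | add a b _ _ ha hb => rw [inner_add_left, ha, hb, add_zero]
    | smul c a _ ha => rw [real_inner_smul_left, ha, mul_zero]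

section step

variable {K k s C e ρ : ℕ} {X : ℕ → Finset E} {𝓕 𝓖 : Finset E}

lemma span_lt_of_perp (hG : 𝓖 ⊆ 𝓕) {x : E} (hx0 : x ≠ 0)
    (hxV : x ∈ Submodule.span ℝ (𝓕 : Set E)) (hGx : ∀ f ∈ 𝓖, ip f x = 0) :
    finrank ℝ (Submodule.span ℝ (𝓖 : Set E)) < finrank ℝ (Submodule.span ℝ (𝓕 : Set E)) := by
  apply Submodule.finrank_lt_finrank_of_lt
  refine lt_of_le_of_ne (Submodule.span_mono (by exact_mod_cast hG)) ?_
  intro heq
  have h1 : x ∈ (Submodule.span ℝ (𝓖 : Set E))ᗮ := (mem_perp_span _ _).2 hGx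
  have h2 : x ∈ Submodule.span ℝ (𝓖 : Set E) := by rw [heq]; exact hxV
  have h3 : x ∈ Submodule.span ℝ (𝓖 : Set E) ⊓ (Submodule.span ℝ (𝓖 : Set E))ᗮ := ⟨h2, h1⟩
  rw [Submodule.inf_orthogonal_eq_bot, Submodule.mem_bot] at h3
  exact hx0 h3

lemma drop (h : Filt K X) (hF : Fam K k X 𝓕) (hG : 𝓖 ⊆ 𝓕)
    (ih : Gen E C e (finrank ℝ (Submodule.span ℝ (𝓖 : Set E)))) :
    𝓖.card * (X 1).card ≤ C * K ^ e * k ^ (finrank ℝ (Submodule.span ℝ (𝓖 : Set E))) *
      cnt X 2 (Submodule.span ℝ (𝓖 : Set E))ᗮ := by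
  have h1 := ih K k X 𝓖 h (hF.subset hG) rfl
  have h2 := card_one_le_prj h (Submodule.span ℝ (𝓖 : Set E))
  calc 𝓖.card * (X 1).card ≤ 𝓖.card * (((X 1).image (prj (Submodule.span ℝ (𝓖 : Set E)))).card *
        cnt X 2 (Submodule.span ℝ (𝓖 : Set E))ᗮ) := Nat.mul_le_mul_left _ h2
    _ = (𝓖.card * ((X 1).image (prj (Submodule.span ℝ (𝓖 : Set E)))).card) *
        cnt X 2 (Submodule.span ℝ (𝓖 : Set E))ᗮ := by ring
    _ ≤ _ := Nat.mul_le_mul_right _ h1

/-- In codimension one the orthogonal slice is a line. -/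
lemma cnt_line (hX : ∀ x ∈ X 2, x ∈ Submodule.span ℝ (𝓕 : Set E)) (hG : 𝓖 ⊆ 𝓕) {x : E}
    (hx0 : x ≠ 0) (hxV : x ∈ Submodule.span ℝ (𝓕 : Set E)) (hGx : ∀ f ∈ 𝓖, ip f x = 0)
    (hfr : finrank ℝ (Submodule.span ℝ (𝓖 : Set E)) + 1 =
      finrank ℝ (Submodule.span ℝ (𝓕 : Set E))) :
    cnt X 2 (Submodule.span ℝ (𝓖 : Set E))ᗮ ≤ lineCard (X 2) x + 1 := by
  have hle : Submodule.span ℝ (𝓖 : Set E) ≤ Submodule.span ℝ (𝓕 : Set E) :=
    Submodule.span_mono (by exact_mod_cast hG)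
  have h1 : finrank ℝ ((Submodule.span ℝ (𝓖 : Set E))ᗮ ⊓ Submodule.span ℝ (𝓕 : Set E) :
      Submodule ℝ E) = 1 := Submodule.finrank_add_inf_finrank_orthogonal' hle hfr
  have h2 : Submodule.span ℝ {x} = (Submodule.span ℝ (𝓖 : Set E))ᗮ ⊓
      Submodule.span ℝ (𝓕 : Set E) := by
    apply Submodule.eq_of_le_of_finrank_eq
    · rw [Submodule.span_singleton_le_iff_mem]
      exact ⟨(mem_perp_span _ _).2 hGx, hxV⟩
    · rw [h1, finrank_span_singleton hx0]
  have h3 : (X 2).filter (fun y => y ∈ (Submodule.span ℝ (𝓖 : Set E))ᗮ) ⊆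
      insert 0 ((X 2).filter (fun y => y ≠ 0 ∧ y ∈ Submodule.span ℝ {x})) := by
    intro y hy
    obtain ⟨hy2, hyG⟩ := mem_filter.1 hy
    rw [mem_insert, mem_filter]
    by_cases hy0 : y = 0
    · exact Or.inl hy0
    · refine Or.inr ⟨hy2, hy0, ?_⟩
      rw [h2]
      exact ⟨hyG, hX y hy2⟩
  exact (card_le_card h3).trans (card_insert_le _ _)

/-- Context for the inductive step: `𝓔` is a subfamily of maximal rank with a large
orthogonal slice. -/
structure Ctx (K k s C e ρ : ℕ) (X : ℕ → Finset E) (𝓕 𝓔 : Finset E) : Prop where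
  h : Filt K X
  hF : Fam K k X 𝓕
  hX : ∀ x ∈ X 2, x ∈ Submodule.span ℝ (𝓕 : Set E)
  hk : 1 ≤ k
  hs : finrank ℝ (Submodule.span ℝ (𝓕 : Set E)) = s
  ih : ∀ s' < s, Gen E C e s'
  hE : 𝓔 ⊆ 𝓕
  hρ : finrank ℝ (Submodule.span ℝ (𝓔 : Set E)) = ρ
  hbig : 16 * K ^ 9 * k ≤ cnt X 2 (Submodule.span ℝ (𝓔 : Set E))ᗮ
  hmax : ∀ 𝓖 : Finset E, 𝓖 ⊆ 𝓕 → 16 * K ^ 9 * k ≤ cnt X 2 (Submodule.span ℝ (𝓖 : Set E))ᗮ →
    finrank ℝ (Submodule.span ℝ (𝓖 : Set E)) ≤ ρ

variable {𝓔 : Finset E}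

namespace Ctx

lemma rank_perp (c : Ctx K k s C e ρ X 𝓕 𝓔) {x f : E}
    (hxE : x ∈ (Submodule.span ℝ (𝓔 : Set E))ᗮ) (hf : f ∈ 𝓕)
    (hfE : f ∉ Submodule.span ℝ (𝓔 : Set E)) (hfx : ip f x = 0) :
    ρ < finrank ℝ (Submodule.span ℝ ((𝓕.filter (fun g => ip g x = 0) : Finset E) : Set E)) := by
  rw [← c.hρ]
  apply Submodule.finrank_lt_finrank_of_lt
  have h1 : 𝓔 ⊆ 𝓕.filter (fun g => ip g x = 0) := by
    intro g hg
    exact mem_filter.2 ⟨c.hE hg, (mem_perp_span _ _).1 hxE g hg⟩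
  refine lt_of_le_of_ne (Submodule.span_mono (by exact_mod_cast h1)) ?_
  intro heq
  apply hfE
  rw [heq]
  exact Submodule.subset_span (mem_coe.2 (mem_filter.2 ⟨hf, hfx⟩))

lemma good (c : Ctx K k s C e ρ X 𝓕 𝓔) {x f : E} (hx2 : x ∈ X 2)
    (hxE : x ∈ (Submodule.span ℝ (𝓔 : Set E))ᗮ) (hx0 : x ≠ 0) (hf : f ∈ 𝓕)
    (hfE : f ∉ Submodule.span ℝ (𝓔 : Set E)) (hfx : ip f x = 0)
    (hxl : lineCard (X 2) x + 1 ≤ 16 * K ^ 9) :
    (𝓕.filter (fun g => ip g x = 0)).card * (X 1).card ≤ 16 * C * K ^ (e + 9) * k ^ (s - 1) := by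
  set 𝓖 := 𝓕.filter (fun g => ip g x = 0) with hG
  have hGF : 𝓖 ⊆ 𝓕 := filter_subset _ _
  have hGx : ∀ g ∈ 𝓖, ip g x = 0 := fun g hg => (mem_filter.1 hg).2
  have hr1 := span_lt_of_perp hGF hx0 (c.hX x hx2) hGx
  have hr2 := c.rank_perp hxE hf hfE hfx
  rw [c.hs] at hr1
  have hd := drop c.h c.hF hGF (c.ih _ hr1)
  set r := finrank ℝ (Submodule.span ℝ (𝓖 : Set E)) with hr
  rcases Nat.lt_or_ge (r + 1) s with hlt | hge
  · have h1 : cnt X 2 (Submodule.span ℝ (𝓖 : Set E))ᗮ ≤ 16 * K ^ 9 * k := by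
      by_contra hcon
      have := c.hmax 𝓖 hGF (by omega)
      omega
    calc 𝓖.card * (X 1).card ≤ _ := hd
      _ ≤ C * K ^ e * k ^ r * (16 * K ^ 9 * k) := Nat.mul_le_mul_left _ h1
      _ = 16 * C * K ^ (e + 9) * k ^ (r + 1) := by ring
      _ ≤ 16 * C * K ^ (e + 9) * k ^ (s - 1) :=
        Nat.mul_le_mul_left _ (Nat.pow_le_pow_right c.hk (by omega))
  · have hrs : r + 1 = s := by omega
    have h1 := cnt_line c.hX hGF hx0 (c.hX x hx2) hGx (by rw [c.hs]; exact hrs)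
    have hrs' : s - 1 = r := by omega
    calc 𝓖.card * (X 1).card ≤ _ := hd
      _ ≤ C * K ^ e * k ^ r * (16 * K ^ 9) := Nat.mul_le_mul_left _ (h1.trans hxl)
      _ = 16 * C * K ^ (e + 9) * k ^ (s - 1) := by rw [hrs']; ring

lemma zero_part (c : Ctx K k s C e ρ X 𝓕 𝓔) (hρs : ρ < s) :
    (𝓕.filter (fun f => f ∈ Submodule.span ℝ (𝓔 : Set E))).card * (X 1).card ≤
      C * K ^ (e + 4 * s) * k ^ s := by
  set 𝓖 := 𝓕.filter (fun f => f ∈ Submodule.span ℝ (𝓔 : Set E)) with hG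
  have hGF : 𝓖 ⊆ 𝓕 := filter_subset _ _
  have hspan : Submodule.span ℝ (𝓖 : Set E) = Submodule.span ℝ (𝓔 : Set E) := by
    apply le_antisymm
    · rw [Submodule.span_le]
      intro f hf
      exact (mem_filter.1 (mem_coe.1 hf)).2
    · rw [Submodule.span_le]
      intro f hf
      exact Submodule.subset_span (mem_coe.2 (mem_filter.2 ⟨c.hE hf, Submodule.subset_span hf⟩))
  have hd := drop c.h c.hF hGF (c.ih _ (by rw [hspan, c.hρ]; exact hρs))
  rw [hspan, c.hρ] at hd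
  have hle : Submodule.span ℝ (𝓔 : Set E) ≤ Submodule.span ℝ (𝓕 : Set E) :=
    Submodule.span_mono (by exact_mod_cast c.hE)
  have hfib := fiber_le c.h c.hF c.hX (s - ρ) (Submodule.span ℝ (𝓔 : Set E)) hle
    (by rw [c.hs, c.hρ]; omega)
    ((X 2).filter (fun x => x ∈ (Submodule.span ℝ (𝓔 : Set E))ᗮ)) (filter_subset _ _)
    (fun x hx y hy => Submodule.sub_mem _ (mem_filter.1 hx).2 (mem_filter.1 hy).2)
  have hsρ : ρ + (s - ρ) = s := by omega
  calc 𝓖.card * (X 1).card ≤ _ := hd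
    _ ≤ C * K ^ e * k ^ ρ * (K ^ 4 * k) ^ (s - ρ) := Nat.mul_le_mul_left _ hfib
    _ = C * K ^ (e + 4 * (s - ρ)) * k ^ (ρ + (s - ρ)) := by
      rw [mul_pow, ← pow_mul, pow_add, pow_add]; ring
    _ = C * K ^ (e + 4 * (s - ρ)) * k ^ s := by rw [hsρ]
    _ ≤ C * K ^ (e + 4 * s) * k ^ s := by
      apply Nat.mul_le_mul_right
      apply Nat.mul_le_mul_left
      exact Nat.pow_le_pow_right c.h.K_pos (by (clear * - hsρ; omega))

end Ctx

/-- Points of the orthogonal slice on poor lines. -/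
noncomputable def goodPts (K : ℕ) (X : ℕ → Finset E) (𝓔 : Finset E) : Finset E :=
  (X 2).filter (fun x => x ∈ (Submodule.span ℝ (𝓔 : Set E))ᗮ ∧ x ≠ 0 ∧
    lineCard (X 2) x + 1 ≤ 16 * K ^ 5)

/-- Size of the slice orthogonal to `𝓔` and `f`. -/
noncomputable def yc (X : ℕ → Finset E) (𝓔 : Finset E) (f : E) : ℕ :=
  cnt X 2 ((Submodule.span ℝ (𝓔 : Set E))ᗮ ⊓ (Submodule.span ℝ {f})ᗮ)

omit [FiniteDimensional ℝ E] in
lemma mem_perp_singleton (f x : E) : x ∈ (Submodule.span ℝ {f})ᗮ ↔ ip f x = 0 :=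
  Submodule.mem_orthogonal_singleton_iff_inner_right

omit [FiniteDimensional ℝ E] in
lemma lineCard_slice (Y : Finset E) (A : Submodule ℝ E) {z : E} (hz : z ∈ A) :
    lineCard (Y.filter (fun x => x ∈ A)) z = lineCard Y z := by
  unfold lineCard
  congr 1
  ext w
  simp only [mem_filter]
  constructor
  · rintro ⟨⟨h1, _⟩, h2⟩
    exact ⟨h1, h2⟩
  · rintro ⟨h1, h2, h3⟩
    refine ⟨⟨h1, ?_⟩, h2, h3⟩
    exact (Submodule.span_singleton_le_iff_mem z A).2 hz h3

omit [FiniteDimensional ℝ E] in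
lemma slice_add_slice {K : ℕ} {X : ℕ → Finset E} (h : Filt K X) (A : Submodule ℝ E) :
    (((X 2).filter (fun x => x ∈ A)) + ((X 2).filter (fun x => x ∈ A))).card ≤
      K ^ 5 * cnt X 2 A := by
  refine le_trans (card_le_card ?_) (h.cnt_le 4 A)
  intro z hz
  obtain ⟨x, hx, y, hy, rfl⟩ := mem_add.1 hz
  obtain ⟨hx2, hxA⟩ := mem_filter.1 hx
  obtain ⟨hy2, hyA⟩ := mem_filter.1 hy
  exact mem_filter.2 ⟨h.add_mem 2 2 x hx2 y hy2, A.add_mem hxA hyA⟩

omit [FiniteDimensional ℝ E] in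
lemma slice_neg {K : ℕ} {X : ℕ → Finset E} (h : Filt K X) (A : Submodule ℝ E) :
    ∀ y ∈ (X 2).filter (fun x => x ∈ A), -y ∈ (X 2).filter (fun x => x ∈ A) := by
  intro y hy
  obtain ⟨hy2, hyA⟩ := mem_filter.1 hy
  exact mem_filter.2 ⟨h.neg_mem 2 y hy2, A.neg_mem hyA⟩

namespace Ctx

lemma yc_large (c : Ctx K k s C e ρ X 𝓕 𝓔) {f : E} (hf : f ∈ 𝓕) : 16 ≤ yc X 𝓔 f := by
  have h1 := slice_le c.h (c.hF.width f hf) (Submodule.span ℝ (𝓔 : Set E))ᗮ
  have h2 := c.hbig
  have h3 : 0 < K ^ 9 * k := Nat.mul_pos (pow_pos c.h.K_pos 9) c.hk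
  have h4 : K ^ 9 * k * 16 ≤ K ^ 9 * k * yc X 𝓔 f := by
    calc K ^ 9 * k * 16 = 16 * K ^ 9 * k := by ring
      _ ≤ _ := h2
      _ ≤ _ := h1
  exact Nat.le_of_mul_le_mul_left h4 h3

lemma part_a (c : Ctx K k s C e ρ X 𝓕 𝓔) (hs1 : 1 ≤ s) :
    (𝓕.filter (fun f => f ∉ Submodule.span ℝ (𝓔 : Set E) ∧
      yc X 𝓔 f ≤ 4 * ((goodPts K X 𝓔).filter (fun x => ip f x = 0)).card)).card * (X 1).card ≤
      64 * C * K ^ (e + 18) * k ^ s := by
  set 𝓐 := 𝓕.filter (fun f => f ∉ Submodule.span ℝ (𝓔 : Set E) ∧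
      yc X 𝓔 f ≤ 4 * ((goodPts K X 𝓔).filter (fun x => ip f x = 0)).card) with h𝓐
  set G := goodPts K X 𝓔 with hG
  set a := cnt X 2 (Submodule.span ℝ (𝓔 : Set E))ᗮ with ha
  have ha0 : 0 < a := c.h.cnt_pos 2 _
  have hK := c.h.K_pos
  have h1 : 𝓐.card * a ≤ 4 * K ^ 9 * k * ∑ f ∈ 𝓐, (G.filter (fun x => ip f x = 0)).card := by
    rw [mul_sum, ← smul_eq_mul]
    apply card_nsmul_le_sum
    intro f hf
    obtain ⟨hf𝓕, hfE, hfy⟩ := mem_filter.1 hf
    calc a ≤ K ^ 9 * k * yc X 𝓔 f := slice_le c.h (c.hF.width f hf𝓕) _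
      _ ≤ K ^ 9 * k * (4 * (G.filter (fun x => ip f x = 0)).card) := Nat.mul_le_mul_left _ hfy
      _ = _ := by ring
  have h2 : ∑ f ∈ 𝓐, (G.filter (fun x => ip f x = 0)).card =
      ∑ x ∈ G, (𝓐.filter (fun f => ip f x = 0)).card :=
    sum_card_bipartiteAbove_eq_sum_card_bipartiteBelow (fun f x => ip f x = 0)
  have h3 : ∀ x ∈ G, (𝓐.filter (fun f => ip f x = 0)).card * (X 1).card ≤
      16 * C * K ^ (e + 9) * k ^ (s - 1) := by
    intro x hx
    obtain ⟨hx2, hxE, hx0, hxl⟩ := mem_filter.1 hx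
    rcases (𝓐.filter (fun f => ip f x = 0)).eq_empty_or_nonempty with he | ⟨f, hf⟩
    · rw [he]; simp only [card_empty, zero_mul, zero_le]
    · obtain ⟨hf𝓐, hfx⟩ := mem_filter.1 hf
      obtain ⟨hf𝓕, hfE, hfy⟩ := mem_filter.1 hf𝓐
      have h4 := c.good hx2 hxE hx0 hf𝓕 hfE hfx (hxl.trans (Nat.mul_le_mul_left _
        (Nat.pow_le_pow_right hK (by norm_num))))
      refine le_trans (Nat.mul_le_mul_right _ (card_le_card ?_)) h4
      exact filter_subset_filter _ (filter_subset _ _)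
  have hGa : G.card ≤ a := by
    apply card_le_card
    intro x hx
    obtain ⟨hx2, hxE, _⟩ := mem_filter.1 hx
    exact mem_filter.2 ⟨hx2, hxE⟩
  have h5 : (∑ x ∈ G, (𝓐.filter (fun f => ip f x = 0)).card) * (X 1).card ≤
      a * (16 * C * K ^ (e + 9) * k ^ (s - 1)) := by
    rw [sum_mul]
    refine (sum_le_card_nsmul G _ _ h3).trans ?_
    rw [smul_eq_mul]
    exact Nat.mul_le_mul_right _ hGa
  have h6 : a * (𝓐.card * (X 1).card) ≤ a * (64 * C * K ^ (e + 18) * k ^ s) := by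
    have hks : k ^ s = k * k ^ (s - 1) := by
      rw [← pow_succ']
      congr 1
      (clear * - hs1; omega)
    calc a * (𝓐.card * (X 1).card) = (𝓐.card * a) * (X 1).card := by ring
      _ ≤ (4 * K ^ 9 * k * ∑ f ∈ 𝓐, (G.filter (fun x => ip f x = 0)).card) * (X 1).card :=
        Nat.mul_le_mul_right _ h1
      _ = 4 * K ^ 9 * k * ((∑ x ∈ G, (𝓐.filter (fun f => ip f x = 0)).card) * (X 1).card) := by
        rw [h2]; ring
      _ ≤ 4 * K ^ 9 * k * (a * (16 * C * K ^ (e + 9) * k ^ (s - 1))) := Nat.mul_le_mul_left _ h5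
      _ = _ := by rw [hks]; ring
  exact Nat.le_of_mul_le_mul_left h6 ha0

/-- A direction `f` with few good orthogonal points has a rich orthogonal line. -/
lemma rich_line (c : Ctx K k s C e ρ X 𝓕 𝓔) {f : E} (hf : f ∈ 𝓕)
    (hfy : 4 * ((goodPts K X 𝓔).filter (fun x => ip f x = 0)).card < yc X 𝓔 f) :
    ∃ y ∈ X 2, y ∈ (Submodule.span ℝ (𝓔 : Set E))ᗮ ∧ ip f y = 0 ∧ y ≠ 0 ∧
      yc X 𝓔 f ≤ 4 * lineCard (X 2) y := by
  set A : Submodule ℝ E := (Submodule.span ℝ (𝓔 : Set E))ᗮ ⊓ (Submodule.span ℝ {f})ᗮ with hA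
  set Y := (X 2).filter (fun x => x ∈ A) with hY
  have hyc : yc X 𝓔 f = Y.card := rfl
  have hlarge := c.yc_large hf
  have hK := c.h.K_pos
  obtain ⟨y₀, hy₀⟩ := sectors Y (slice_neg c.h A) (16 * K ^ 5)
  set S := Y.filter (fun y => y ≠ 0 ∧ y ∉ Submodule.span ℝ {y₀} ∧ 16 * K ^ 5 ≤ lineCard Y y)
    with hS
  have h1 : 4 * S.card ≤ Y.card := by
    have h2 := slice_add_slice c.h A
    have h3 : 4 * K ^ 5 * (4 * S.card) ≤ 4 * K ^ 5 * Y.card := by
      calc 4 * K ^ 5 * (4 * S.card) = 16 * K ^ 5 * S.card := by ring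
        _ ≤ 4 * (Y + Y).card := hy₀
        _ ≤ 4 * (K ^ 5 * Y.card) := Nat.mul_le_mul_left _ h2
        _ = _ := by ring
    exact Nat.le_of_mul_le_mul_left h3 (by (clear * - hK; positivity))
  have hsub : Y ⊆ (insert 0 ((goodPts K X 𝓔).filter (fun x => ip f x = 0)) ∪ S) ∪
      Y.filter (fun z => z ≠ 0 ∧ z ∈ Submodule.span ℝ {y₀}) := by
    intro z hz
    obtain ⟨hz2, hzA⟩ := mem_filter.1 hz
    rw [mem_union, mem_union, mem_insert]
    by_cases hz0 : z = 0
    · exact Or.inl (Or.inl (Or.inl hz0))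
    by_cases hzs : z ∈ Submodule.span ℝ {y₀}
    · exact Or.inr (mem_filter.2 ⟨hz, hz0, hzs⟩)
    by_cases hzR : 16 * K ^ 5 ≤ lineCard Y z
    · exact Or.inl (Or.inr (mem_filter.2 ⟨hz, hz0, hzs, hzR⟩))
    · refine Or.inl (Or.inl (Or.inr (mem_filter.2 ⟨mem_filter.2 ⟨hz2, hzA.1, hz0, ?_⟩, ?_⟩)))
      · rw [hY, lineCard_slice (X 2) A hzA] at hzR
        (clear * - hzR; omega)
      · exact (mem_perp_singleton f z).1 hzA.2
  have hcard : Y.card ≤ (((goodPts K X 𝓔).filter (fun x => ip f x = 0)).card + 1 + S.card) +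
      lineCard Y y₀ := by
    refine (card_le_card hsub).trans ((card_union_le _ _).trans ?_)
    apply Nat.add_le_add_right
    refine (card_union_le _ _).trans ?_
    apply Nat.add_le_add_right
    exact card_insert_le _ _
  rw [hyc] at hlarge hfy ⊢
  have hl : Y.card ≤ 4 * lineCard Y y₀ := by omega
  have hpos : 0 < lineCard Y y₀ := by omega
  obtain ⟨z, hz⟩ := Finset.card_pos.1 hpos
  obtain ⟨hzY, hz0, hzs⟩ := mem_filter.1 hz
  obtain ⟨hz2, hzA⟩ := mem_filter.1 hzY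
  refine ⟨z, hz2, hzA.1, (mem_perp_singleton f z).1 hzA.2, hz0, ?_⟩
  rw [← lineCard_slice (X 2) A hzA, lineCard_congr _ hzs hz0]
  exact hl

/-- The number of points on rich lines of the orthogonal slice. -/
lemma rich_pts (c : Ctx K k s C e ρ X 𝓕 𝓔) :
    ((X 2).filter (fun z => z ∈ (Submodule.span ℝ (𝓔 : Set E))ᗮ ∧ z ≠ 0 ∧
      cnt X 2 (Submodule.span ℝ (𝓔 : Set E))ᗮ ≤ 4 * K ^ 9 * k * lineCard (X 2) z)).card ≤
      17 * K ^ 14 * k := by
  set A : Submodule ℝ E := (Submodule.span ℝ (𝓔 : Set E))ᗮ with hA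
  set a := cnt X 2 A with ha
  set Q := (X 2).filter (fun z => z ∈ A ∧ z ≠ 0 ∧ a ≤ 4 * K ^ 9 * k * lineCard (X 2) z) with hQ
  have ha0 : 0 < a := c.h.cnt_pos 2 _
  have hK := c.h.K_pos
  have hk := c.hk
  have hex : ∃ R, a ≤ 4 * K ^ 9 * k * R := by
    refine ⟨a, ?_⟩
    have : 1 ≤ 4 * K ^ 9 * k := Nat.succ_le_of_lt (by (clear * - hK hk; positivity))
    calc a = 1 * a := (one_mul a).symm
      _ ≤ _ := Nat.mul_le_mul_right _ this
  set R := Nat.find hex with hR
  have hRspec : a ≤ 4 * K ^ 9 * k * R := Nat.find_spec hex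
  set Y := (X 2).filter (fun x => x ∈ A) with hY
  obtain ⟨y₀, hy₀⟩ := sectors Y (slice_neg c.h A) R
  set S := Y.filter (fun y => y ≠ 0 ∧ y ∉ Submodule.span ℝ {y₀} ∧ R ≤ lineCard Y y) with hS
  have h1 : S.card ≤ 16 * K ^ 14 * k := by
    have h2 := slice_add_slice c.h A
    have h3 : a * S.card ≤ a * (16 * K ^ 14 * k) := by
      calc a * S.card ≤ (4 * K ^ 9 * k * R) * S.card := Nat.mul_le_mul_right _ hRspec
        _ = 4 * K ^ 9 * k * (R * S.card) := by ring
        _ ≤ 4 * K ^ 9 * k * (4 * (K ^ 5 * a)) :=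
          Nat.mul_le_mul_left _ (hy₀.trans (Nat.mul_le_mul_left _ h2))
        _ = _ := by ring
    exact Nat.le_of_mul_le_mul_left h3 ha0
  have h2 : (Q.filter (fun z => z ∈ Submodule.span ℝ {y₀})).card ≤ K ^ 4 * k := by
    rcases (Q.filter (fun z => z ∈ Submodule.span ℝ {y₀})).eq_empty_or_nonempty with he | ⟨z, hz⟩
    · rw [he]; simp only [card_empty, zero_le]
    obtain ⟨hzQ, hzs⟩ := mem_filter.1 hz
    obtain ⟨hz2, hzA, hz0, _⟩ := mem_filter.1 hzQ
    obtain ⟨f, hf, hfz⟩ : ∃ f ∈ 𝓕, ip f z ≠ 0 := by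
      by_contra hcon
      push Not at hcon
      have h3 : z ∈ (Submodule.span ℝ (𝓕 : Set E))ᗮ := (mem_perp_span _ _).2 hcon
      have h4 : z ∈ Submodule.span ℝ (𝓕 : Set E) ⊓ (Submodule.span ℝ (𝓕 : Set E))ᗮ :=
        ⟨c.hX z hz2, h3⟩
      rw [Submodule.inf_orthogonal_eq_bot, Submodule.mem_bot] at h4
      exact hz0 h4
    have hfy : ip f y₀ ≠ 0 := by
      obtain ⟨t, rfl⟩ := Submodule.mem_span_singleton.1 hzs
      intro h0
      rw [map_smul, h0, smul_zero] at hfz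
      exact hfz rfl
    have hinj : Set.InjOn (ip f) (Q.filter (fun z => z ∈ Submodule.span ℝ {y₀}) : Finset E) := by
      intro u hu v hv huv
      obtain ⟨p, rfl⟩ := Submodule.mem_span_singleton.1 (mem_filter.1 (mem_coe.1 hu)).2
      obtain ⟨q, rfl⟩ := Submodule.mem_span_singleton.1 (mem_filter.1 (mem_coe.1 hv)).2
      rw [map_smul, map_smul, smul_eq_mul, smul_eq_mul] at huv
      rw [mul_right_cancel₀ hfy huv]
    rw [← card_image_of_injOn hinj]
    calc _ ≤ ((X 2).image (ip f)).card :=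
          card_le_card (image_subset_image ((filter_subset _ _).trans (filter_subset _ _)))
      _ ≤ K ^ 4 * ((X 1).image (ip f)).card := c.h.card_image_le (ip f) 2
      _ ≤ K ^ 4 * k := Nat.mul_le_mul_left _ (c.hF.width f hf)
  have hsub : Q ⊆ S ∪ Q.filter (fun z => z ∈ Submodule.span ℝ {y₀}) := by
    intro z hz
    obtain ⟨hz2, hzA, hz0, hzl⟩ := mem_filter.1 hz
    rw [mem_union]
    by_cases hzs : z ∈ Submodule.span ℝ {y₀}
    · exact Or.inr (mem_filter.2 ⟨hz, hzs⟩)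
    · refine Or.inl (mem_filter.2 ⟨mem_filter.2 ⟨hz2, hzA⟩, hz0, hzs, ?_⟩)
      rw [hY, lineCard_slice (X 2) A hzA]
      exact Nat.find_min' hex hzl
  have h3 : K ^ 4 * k ≤ K ^ 14 * k :=
    Nat.mul_le_mul_right _ (Nat.pow_le_pow_right hK (by norm_num))
  calc Q.card ≤ _ := card_le_card hsub
    _ ≤ _ := card_union_le _ _
    _ ≤ 16 * K ^ 14 * k + K ^ 4 * k := Nat.add_le_add h1 h2
    _ ≤ 16 * K ^ 14 * k + K ^ 14 * k := Nat.add_le_add_left h3 _
    _ = _ := by ring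

lemma part_b (c : Ctx K k s C e ρ X 𝓕 𝓔) (hs1 : 1 ≤ s) :
    (𝓕.filter (fun f => f ∉ Submodule.span ℝ (𝓔 : Set E) ∧
      4 * ((goodPts K X 𝓔).filter (fun x => ip f x = 0)).card < yc X 𝓔 f)).card * (X 1).card ≤
      68 * C * K ^ (e + 14) * k ^ s := by
  set 𝓑 := 𝓕.filter (fun f => f ∉ Submodule.span ℝ (𝓔 : Set E) ∧
      4 * ((goodPts K X 𝓔).filter (fun x => ip f x = 0)).card < yc X 𝓔 f) with h𝓑
  set A : Submodule ℝ E := (Submodule.span ℝ (𝓔 : Set E))ᗮ with hA
  set a := cnt X 2 A with ha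
  set Q := (X 2).filter (fun z => z ∈ A ∧ z ≠ 0 ∧ a ≤ 4 * K ^ 9 * k * lineCard (X 2) z) with hQ
  have hK := c.h.K_pos
  have hk := c.hk
  have hch : ∀ f : E, ∃ y : E, f ∈ 𝓑 → (y ∈ X 2 ∧ y ∈ A ∧ ip f y = 0 ∧ y ≠ 0 ∧
      yc X 𝓔 f ≤ 4 * lineCard (X 2) y) := by
    intro f
    by_cases hf : f ∈ 𝓑
    · obtain ⟨hf𝓕, _, hfy⟩ := mem_filter.1 hf
      obtain ⟨y, h1, h2, h3, h4, h5⟩ := c.rich_line hf𝓕 hfy
      exact ⟨y, fun _ => ⟨h1, h2, h3, h4, h5⟩⟩
    · exact ⟨0, fun h => absurd h hf⟩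
  choose yf hyf using hch
  set ln : E → Submodule ℝ E := fun z => Submodule.span ℝ {z} with hln
  set 𝓛 := 𝓑.image (fun f => ln (yf f)) with h𝓛
  set w : Submodule ℝ E → ℕ := fun L => ((X 2).filter (fun z => z ≠ 0 ∧ z ∈ L)).card with hw
  -- each line
  have hline : ∀ L ∈ 𝓛, (𝓑.filter (fun f => ln (yf f) = L)).card * (X 1).card ≤
      (4 * C * K ^ e * k ^ (s - 1)) * w L := by
    intro L hL
    obtain ⟨f₀, hf₀, rfl⟩ := mem_image.1 hL
    obtain ⟨h1, h2, h3, h4, h5⟩ := hyf f₀ hf₀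
    set y₀ := yf f₀ with hy₀
    set 𝓖 := 𝓕.filter (fun g => ip g y₀ = 0) with h𝓖
    have hGF : 𝓖 ⊆ 𝓕 := filter_subset _ _
    have hsub : 𝓑.filter (fun f => ln (yf f) = ln y₀) ⊆ 𝓖 := by
      intro f hf
      obtain ⟨hf𝓑, hfl⟩ := mem_filter.1 hf
      refine mem_filter.2 ⟨(mem_filter.1 hf𝓑).1, ?_⟩
      have h6 : y₀ ∈ Submodule.span ℝ {yf f} := by
        have : y₀ ∈ ln y₀ := Submodule.mem_span_singleton_self y₀
        rw [← hfl] at this
        exact this
      obtain ⟨t, ht⟩ := Submodule.mem_span_singleton.1 h6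
      rw [← ht, map_smul, (hyf f hf𝓑).2.2.1, smul_zero]
    have hr := span_lt_of_perp hGF h4 (c.hX y₀ h1) (fun g hg => (mem_filter.1 hg).2)
    rw [c.hs] at hr
    have hd := drop c.h c.hF hGF (c.ih _ hr)
    set r := finrank ℝ (Submodule.span ℝ (𝓖 : Set E)) with hrdef
    have hcnt : cnt X 2 (Submodule.span ℝ (𝓖 : Set E))ᗮ ≤ 4 * w (ln y₀) := by
      refine le_trans ?_ h5
      apply cnt_mono
      intro x hx
      rw [mem_perp_span] at hx
      refine ⟨?_, ?_⟩
      · change x ∈ (Submodule.span ℝ (𝓔 : Set E))ᗮ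
        rw [mem_perp_span]
        intro g hg
        exact hx g (mem_filter.2 ⟨c.hE hg, (mem_perp_span _ _).1 h2 g hg⟩)
      · change x ∈ (Submodule.span ℝ {f₀})ᗮ
        rw [mem_perp_singleton]
        exact hx f₀ (mem_filter.2 ⟨(mem_filter.1 hf₀).1, h3⟩)
    calc (𝓑.filter (fun f => ln (yf f) = ln y₀)).card * (X 1).card ≤ 𝓖.card * (X 1).card :=
          Nat.mul_le_mul_right _ (card_le_card hsub)
      _ ≤ _ := hd
      _ ≤ C * K ^ e * k ^ (s - 1) * (4 * w (ln y₀)) := by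
        apply Nat.mul_le_mul _ hcnt
        exact Nat.mul_le_mul_left _ (Nat.pow_le_pow_right hk (by omega))
      _ = _ := by ring
  -- total weight
  have hweight : ∑ L ∈ 𝓛, w L ≤ Q.card := by
    have h1 : ∀ L ∈ 𝓛, w L ≤ ((Q.filter (fun z => ln z ∈ 𝓛)).filter (fun z => ln z = L)).card := by
      intro L hL
      apply card_le_card
      intro z hz
      obtain ⟨hz2, hz0, hzL⟩ := mem_filter.1 hz
      obtain ⟨f₀, hf₀, rfl⟩ := mem_image.1 hL
      obtain ⟨h1, h2, h3, h4, h5⟩ := hyf f₀ hf₀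
      have hzL' : z ∈ Submodule.span ℝ {yf f₀} := hzL
      have hlz : ln z = ln (yf f₀) := by
        obtain ⟨t, rfl⟩ := Submodule.mem_span_singleton.1 hzL'
        have ht : t ≠ 0 := by
          rintro rfl
          simp at hz0
        exact Submodule.span_singleton_smul_eq (IsUnit.mk0 t ht) _
      refine mem_filter.2 ⟨mem_filter.2 ⟨mem_filter.2 ⟨hz2, ?_, hz0, ?_⟩, ?_⟩, hlz⟩
      · exact (Submodule.span_singleton_le_iff_mem _ A).2 h2 hzL'
      · rw [lineCard_congr (X 2) hzL' hz0]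
        calc a ≤ K ^ 9 * k * yc X 𝓔 f₀ := slice_le c.h (c.hF.width f₀ (mem_filter.1 hf₀).1) _
          _ ≤ K ^ 9 * k * (4 * lineCard (X 2) (yf f₀)) := Nat.mul_le_mul_left _ h5
          _ = _ := by ring
      · rw [hlz]; exact hL
    calc ∑ L ∈ 𝓛, w L ≤ ∑ L ∈ 𝓛, ((Q.filter (fun z => ln z ∈ 𝓛)).filter (fun z => ln z = L)).card :=
          sum_le_sum h1
      _ = (Q.filter (fun z => ln z ∈ 𝓛)).card := by
        rw [← card_eq_sum_card_fiberwise]
        intro z hz
        exact mem_coe.2 (mem_filter.1 (mem_coe.1 hz)).2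
      _ ≤ Q.card := card_le_card (filter_subset _ _)
  have hks : k ^ s = k * k ^ (s - 1) := by
    rw [← pow_succ']
    congr 1
    omega
  calc 𝓑.card * (X 1).card = (∑ L ∈ 𝓛, (𝓑.filter (fun f => ln (yf f) = L)).card) * (X 1).card := by
        rw [← card_eq_sum_card_image]
    _ = ∑ L ∈ 𝓛, (𝓑.filter (fun f => ln (yf f) = L)).card * (X 1).card := by rw [sum_mul]
    _ ≤ ∑ L ∈ 𝓛, (4 * C * K ^ e * k ^ (s - 1)) * w L := sum_le_sum hline
    _ = (4 * C * K ^ e * k ^ (s - 1)) * ∑ L ∈ 𝓛, w L := by rw [mul_sum]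
    _ ≤ (4 * C * K ^ e * k ^ (s - 1)) * (17 * K ^ 14 * k) :=
      Nat.mul_le_mul_left _ (hweight.trans c.rich_pts)
    _ = _ := by rw [hks]; ring

end Ctx

end step

lemma Gen.weaken {C e s C' e' : ℕ} (h : Gen E C e s) (hC : C ≤ C') (he : e ≤ e') :
    Gen E C' e' s := by
  intro K k X 𝓕 hX hF hs
  refine (h K k X 𝓕 hX hF hs).trans ?_
  apply Nat.mul_le_mul_right
  exact Nat.mul_le_mul hC (Nat.pow_le_pow_right hX.K_pos he)

lemma spn_zero : Spn E 0 0 0 := by
  intro K k X 𝓕 h hF hs hX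
  have h1 : Submodule.span ℝ (𝓕 : Set E) = ⊥ := Submodule.finrank_eq_zero.1 hs
  have h2 : 𝓕 = ∅ := by
    rw [eq_empty_iff_forall_notMem]
    intro f hf
    have : f ∈ Submodule.span ℝ (𝓕 : Set E) := Submodule.subset_span hf
    rw [h1, Submodule.mem_bot] at this
    exact hF.ne_zero f hf this
  rw [h2]
  simp

lemma spn_one : Spn E 1 0 1 := by
  intro K k X 𝓕 h hF hs hX
  rcases 𝓕.eq_empty_or_nonempty with he | ⟨f, hf⟩
  · rw [he]; simp
  have hf0 := hF.ne_zero f hf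
  have hspan : Submodule.span ℝ {f} = Submodule.span ℝ (𝓕 : Set E) := by
    apply Submodule.eq_of_le_of_finrank_eq
    · rw [Submodule.span_singleton_le_iff_mem]
      exact Submodule.subset_span hf
    · rw [hs, finrank_span_singleton hf0]
  have h1 : 𝓕.card ≤ 1 := by
    rw [card_le_one]
    intro a ha b hb
    have h2 : ∀ c ∈ 𝓕, c = f := by
      intro c hc
      apply hF.nonpar f hf c hc
      rw [hspan]
      exact Submodule.subset_span hc
    rw [h2 a ha, h2 b hb]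
  have h2 : (X 1).card ≤ k := by
    refine le_trans ?_ (hF.width f hf)
    rw [card_image_of_injOn]
    intro u hu v hv huv
    have hu' : u ∈ Submodule.span ℝ {f} := by rw [hspan]; exact hX 1 u (mem_coe.1 hu)
    have hv' : v ∈ Submodule.span ℝ {f} := by rw [hspan]; exact hX 1 v (mem_coe.1 hv)
    obtain ⟨p, rfl⟩ := Submodule.mem_span_singleton.1 hu'
    obtain ⟨q, rfl⟩ := Submodule.mem_span_singleton.1 hv'
    rw [map_smul, map_smul, smul_eq_mul, smul_eq_mul] at huv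
    have hff : ip f f ≠ 0 := by
      rw [ip_apply]
      exact inner_self_ne_zero.2 hf0
    rw [mul_right_cancel₀ hff huv]
  calc 𝓕.card * (X 1).card ≤ 1 * k := Nat.mul_le_mul h1 h2
    _ = _ := by ring

lemma spn_step {C e s : ℕ} (hs2 : 2 ≤ s) (ih : ∀ s' < s, Gen E C e s') :
    Spn E (133 * C + 256) (e + 4 * s + 19) s := by
  intro K k X 𝓕 h hF hs hX
  have hK := h.K_pos
  have hne : 𝓕.Nonempty := by
    rw [nonempty_iff_ne_empty]
    intro he
    rw [he, coe_empty, Submodule.span_empty, finrank_bot] at hs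
    omega
  obtain ⟨f₀, hf₀⟩ := hne
  have hk : 1 ≤ k := le_trans (h.image_pos (ip f₀) 1) (hF.width f₀ hf₀)
  set n := (X 1).card with hn
  rcases Nat.lt_or_ge n (16 * K ^ 9 * k) with hlt | hge
  · have h1 : 𝓕.card ≤ K * n := by
      have h2 := hF.dcond ⊤
      have h3 : 𝓕.filter (fun f => f ∈ (⊤ : Submodule ℝ E)) = 𝓕 :=
        filter_true_of_mem (fun _ _ => Submodule.mem_top)
      rw [h3] at h2
      exact h2.trans (Nat.mul_le_mul_left _ card_image_le)
    calc 𝓕.card * n ≤ (K * n) * n := Nat.mul_le_mul_right _ h1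
      _ ≤ (K * (16 * K ^ 9 * k)) * (16 * K ^ 9 * k) :=
        Nat.mul_le_mul (Nat.mul_le_mul_left _ hlt.le) hlt.le
      _ = 256 * K ^ 19 * k ^ 2 := by ring
      _ ≤ (133 * C + 256) * K ^ (e + 4 * s + 19) * k ^ s := by
        apply Nat.mul_le_mul
        · exact Nat.mul_le_mul (by (clear * -; omega)) (Nat.pow_le_pow_right hK (by omega))
        · exact Nat.pow_le_pow_right hk hs2
  · -- choose a subfamily of maximal rank
    set T := 𝓕.powerset.filter (fun 𝓖 : Finset E =>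
      16 * K ^ 9 * k ≤ cnt X 2 (Submodule.span ℝ (𝓖 : Set E))ᗮ) with hT
    have hTne : T.Nonempty := by
      refine ⟨∅, mem_filter.2 ⟨empty_mem_powerset _, ?_⟩⟩
      refine hge.trans ?_
      rw [coe_empty, Submodule.span_empty, Submodule.bot_orthogonal_eq_top]
      apply card_le_card
      intro x hx
      exact mem_filter.2 ⟨h.mono (by norm_num) hx, Submodule.mem_top⟩
    obtain ⟨𝓔, h𝓔T, h𝓔max⟩ := exists_max_image T
      (fun 𝓖 : Finset E => finrank ℝ (Submodule.span ℝ (𝓖 : Set E))) hTne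
    obtain ⟨h𝓔p, h𝓔big⟩ := mem_filter.1 h𝓔T
    have c : Ctx K k s C e (finrank ℝ (Submodule.span ℝ (𝓔 : Set E))) X 𝓕 𝓔 :=
      { h := h
        hF := hF
        hX := hX 2
        hk := hk
        hs := hs
        ih := ih
        hE := mem_powerset.1 h𝓔p
        hρ := rfl
        hbig := h𝓔big
        hmax := fun 𝓖 hG hb => h𝓔max 𝓖 (mem_filter.2 ⟨mem_powerset.2 hG, hb⟩) }
    have hρs : finrank ℝ (Submodule.span ℝ (𝓔 : Set E)) < s := by
      have hle : Submodule.span ℝ (𝓔 : Set E) ≤ Submodule.span ℝ (𝓕 : Set E) :=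
        Submodule.span_mono (by exact_mod_cast c.hE)
      rcases Nat.lt_or_ge (finrank ℝ (Submodule.span ℝ (𝓔 : Set E))) s with h1 | h1
      · exact h1
      exfalso
      have heq : Submodule.span ℝ (𝓔 : Set E) = Submodule.span ℝ (𝓕 : Set E) := by
        apply Submodule.eq_of_le_of_finrank_le hle
        rw [hs]; exact h1
      have h2 : cnt X 2 (Submodule.span ℝ (𝓔 : Set E))ᗮ ≤ 1 := by
        unfold cnt
        rw [card_le_one]
        have h3 : ∀ a ∈ (X 2).filter (fun x => x ∈ (Submodule.span ℝ (𝓔 : Set E))ᗮ), a = 0 := by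
          intro a ha
          obtain ⟨ha2, haE⟩ := mem_filter.1 ha
          have h4 : a ∈ Submodule.span ℝ (𝓔 : Set E) ⊓ (Submodule.span ℝ (𝓔 : Set E))ᗮ :=
            ⟨by rw [heq]; exact hX 2 a ha2, haE⟩
          rwa [Submodule.inf_orthogonal_eq_bot, Submodule.mem_bot] at h4
        intro a ha b hb
        rw [h3 a ha, h3 b hb]
      have h3 : 1 ≤ K ^ 9 * k := Nat.succ_le_of_lt (by positivity)
      have h4 : 16 * K ^ 9 * k = 16 * (K ^ 9 * k) := by ring
      (clear * - h𝓔big h2 h3 h4; omega)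
    have hz := c.zero_part hρs
    have hA := c.part_a (by omega)
    have hB := c.part_b (by omega)
    set F0 := 𝓕.filter (fun f => f ∈ Submodule.span ℝ (𝓔 : Set E)) with hF0
    set F1 := (𝓕.filter (fun f => f ∉ Submodule.span ℝ (𝓔 : Set E) ∧
      yc X 𝓔 f ≤ 4 * ((goodPts K X 𝓔).filter (fun x => ip f x = 0)).card)) with hF1
    set F2 := (𝓕.filter (fun f => f ∉ Submodule.span ℝ (𝓔 : Set E) ∧
      4 * ((goodPts K X 𝓔).filter (fun x => ip f x = 0)).card < yc X 𝓔 f)) with hF2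
    have hsub : 𝓕 ⊆ (F0 ∪ F1) ∪ F2 := by
      intro f hf
      rw [mem_union, mem_union]
      by_cases h1 : f ∈ Submodule.span ℝ (𝓔 : Set E)
      · exact Or.inl (Or.inl (mem_filter.2 ⟨hf, h1⟩))
      · rcases Nat.lt_or_ge (4 * ((goodPts K X 𝓔).filter (fun x => ip f x = 0)).card)
          (yc X 𝓔 f) with h2 | h2
        · exact Or.inr (mem_filter.2 ⟨hf, h1, h2⟩)
        · exact Or.inl (Or.inr (mem_filter.2 ⟨hf, h1, h2⟩))
    have hcard : 𝓕.card ≤ F0.card + F1.card + F2.card :=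
      (card_le_card hsub).trans ((card_union_le _ _).trans
        (Nat.add_le_add_right (card_union_le _ _) _))
    have e1 : C * K ^ (e + 4 * s) * k ^ s ≤ C * K ^ (e + 4 * s + 19) * k ^ s :=
      Nat.mul_le_mul_right _ (Nat.mul_le_mul_left _ (Nat.pow_le_pow_right hK (by (clear * -; omega))))
    have e2 : 64 * C * K ^ (e + 18) * k ^ s ≤ 64 * C * K ^ (e + 4 * s + 19) * k ^ s :=
      Nat.mul_le_mul_right _ (Nat.mul_le_mul_left _ (Nat.pow_le_pow_right hK (by omega)))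
    have e3 : 68 * C * K ^ (e + 14) * k ^ s ≤ 68 * C * K ^ (e + 4 * s + 19) * k ^ s :=
      Nat.mul_le_mul_right _ (Nat.mul_le_mul_left _ (Nat.pow_le_pow_right hK (by (clear * - hs2 hs; omega))))
    calc 𝓕.card * n ≤ (F0.card + F1.card + F2.card) * n := Nat.mul_le_mul_right _ hcard
      _ = F0.card * n + F1.card * n + F2.card * n := by ring
      _ ≤ C * K ^ (e + 4 * s + 19) * k ^ s + 64 * C * K ^ (e + 4 * s + 19) * k ^ s +
          68 * C * K ^ (e + 4 * s + 19) * k ^ s :=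
        Nat.add_le_add (Nat.add_le_add (hz.trans e1) (hA.trans e2)) (hB.trans e3)
      _ = 133 * C * K ^ (e + 4 * s + 19) * k ^ s := by ring
      _ ≤ (133 * C + 256) * K ^ (e + 4 * s + 19) * k ^ s :=
        Nat.mul_le_mul_right _ (Nat.mul_le_mul_right _ (Nat.le_add_right _ _))

/-- The Main Lemma, for all ranks up to `s`, with uniform constants. -/
theorem main_lemma (s : ℕ) : ∃ C e : ℕ, 1 ≤ C ∧ ∀ s' ≤ s, Gen E C e s' := by
  induction s with
  | zero =>
    refine ⟨1, 0, le_rfl, ?_⟩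
    intro s' hs'
    obtain rfl : s' = 0 := by omega
    exact (gen_of_spn spn_zero).weaken (by omega) (by omega)
  | succ s ih =>
    obtain ⟨C, e, hC, hG⟩ := ih
    have hnew : ∃ C' e' : ℕ, C ≤ C' ∧ e ≤ e' ∧ Gen E C' e' (s + 1) := by
      rcases Nat.eq_zero_or_pos s with rfl | hs
      · exact ⟨C, e, le_rfl, le_rfl, (gen_of_spn spn_one).weaken hC (by omega)⟩
      · refine ⟨133 * C + 256, 3 * (e + 4 * (s + 1) + 19), by omega, by omega, ?_⟩
        exact gen_of_spn (spn_step (by omega) (fun s' hs' => hG s' (by omega)))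
    obtain ⟨C', e', h1, h2, h3⟩ := hnew
    refine ⟨C', e', hC.trans h1, ?_⟩
    intro s' hs'
    rcases Nat.lt_or_ge s' (s + 1) with hlt | hge
    · exact (hG s' (by omega)).weaken h1 h2
    · obtain rfl : s' = s + 1 := by omega
      exact h3

end Vale.Agent.P054K
end

section

namespace Vale.Agent.P054K

open Finset Module
open scoped Pointwise Classical RealInnerProductSpace

variable {E : Type*} [NormedAddCommGroup E] [InnerProductSpace ℝ E] [FiniteDimensional ℝ E]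

open Filt

/-- The line through `u`. -/
noncomputable def ln (u : E) : Submodule ℝ E := Submodule.span ℝ {u}

omit [FiniteDimensional ℝ E] in
lemma ln_eq_of_mem {u v : E} (h : v ∈ ln u) (hv : v ≠ 0) : ln v = ln u := by
  obtain ⟨c, rfl⟩ := Submodule.mem_span_singleton.1 h
  have hc : c ≠ 0 := by
    rintro rfl
    simp only [zero_smul, ne_eq, not_true_eq_false] at hv
  exact Submodule.span_singleton_smul_eq (IsUnit.mk0 c hc) u

omit [FiniteDimensional ℝ E] in
/-- Representatives of the lines spanned by a finite set of nonzero vectors. -/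
lemma reps (N : Finset E) (h0 : ∀ u ∈ N, u ≠ 0) : ∃ 𝓕 : Finset E, 𝓕 ⊆ N ∧
    (∀ f ∈ 𝓕, ∀ g ∈ 𝓕, g ∈ Submodule.span ℝ {f} → g = f) ∧
    Submodule.span ℝ (𝓕 : Set E) = Submodule.span ℝ (N : Set E) ∧
    𝓕.card = (N.image ln).card := by
  have hch : ∀ L : Submodule ℝ E, ∃ u : E, L ∈ N.image ln → (u ∈ N ∧ ln u = L) := by
    intro L
    by_cases hL : L ∈ N.image ln
    · obtain ⟨u, hu, huL⟩ := mem_image.1 hL
      exact ⟨u, fun _ => ⟨hu, huL⟩⟩
    · exact ⟨0, fun h => absurd h hL⟩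
  choose g hg using hch
  refine ⟨(N.image ln).image g, ?_, ?_, ?_, ?_⟩
  · intro f hf
    obtain ⟨L, hL, rfl⟩ := mem_image.1 hf
    exact (hg L hL).1
  · intro f hf f' hf' hmem
    obtain ⟨L, hL, rfl⟩ := mem_image.1 hf
    obtain ⟨L', hL', rfl⟩ := mem_image.1 hf'
    have h1 := ln_eq_of_mem hmem (h0 _ (hg L' hL').1)
    rw [(hg L hL).2, (hg L' hL').2] at h1
    rw [h1]
  · apply le_antisymm
    · apply Submodule.span_mono
      intro f hf
      obtain ⟨L, hL, rfl⟩ := mem_image.1 (mem_coe.1 hf)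
      exact (hg L hL).1
    · rw [Submodule.span_le]
      intro u hu
      have hL : ln u ∈ N.image ln := mem_image_of_mem _ hu
      have h1 : g (ln u) ∈ Submodule.span ℝ (((N.image ln).image g : Finset E) : Set E) :=
        Submodule.subset_span (mem_coe.2 (mem_image_of_mem _ hL))
      have h2 : ln (g (ln u)) = ln u := (hg _ hL).2
      have h3 : u ∈ ln (g (ln u)) := by
        rw [h2]
        exact Submodule.mem_span_singleton_self u
      exact (Submodule.span_singleton_le_iff_mem _ _).2 h1 h3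
  · rw [card_image_of_injOn]
    intro L hL L' hL' h
    rw [← (hg L hL).2, ← (hg L' hL').2, h]

/-- Points of `X 2` with small width: outside one line there are few of them. -/
lemma near_le {C e K k d : ℕ} {X : ℕ → Finset E} (h : Filt K X) (hd : finrank ℝ E ≤ d)
    (hG : ∀ s ≤ d, Gen E C e s) (hk : 1 ≤ k) (N : Finset E) (hN2 : N ⊆ X 2)
    (hN0 : ∀ u ∈ N, u ≠ 0) (hNk : ∀ u ∈ N, ((X 1).image (ip u)).card ≤ k) :
    ∃ y₀ : E, (N.filter (fun u => u ∉ Submodule.span ℝ {y₀})).card ^ 2 ≤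
      40 * C * K ^ (4 * e + 6) * k ^ d := by
  rcases N.eq_empty_or_nonempty with hNe | hNne
  · refine ⟨0, ?_⟩
    rw [hNe]; simp only [Submodule.span_zero_singleton, Submodule.mem_bot, filter_empty,
                card_empty, ne_eq, OfNat.ofNat_ne_zero, not_false_eq_true, zero_pow, zero_le]
  obtain ⟨𝓕, hFN, hFpar, hFspan, hFcard⟩ := reps N hN0
  have hK := h.K_pos
  set U := Submodule.span ℝ (N : Set E) with hU
  set M := (N.image ln).card with hM
  have hM1 : 1 ≤ M := Finset.card_pos.2 (hNne.image _)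
  have hfix : ∀ Z : Submodule ℝ E, ∀ x ∈ Z, prj Z x = x := by
    intro Z x hx
    rw [prj_apply]
    exact Submodule.starProjection_eq_self_iff.2 hx
  have hcntZ : ∀ (Z : Submodule ℝ E) (j : ℕ), cnt X j Z ≤ K ^ (j + 2) * ((X 1).image (prj Z)).card := by
    intro Z j
    refine le_trans ?_ (h.card_image_le (prj Z) j)
    unfold cnt
    have : (X j).filter (fun x => x ∈ Z) ⊆ (X j).image (prj Z) := by
      intro x hx
      obtain ⟨hx1, hx2⟩ := mem_filter.1 hx
      exact mem_image.2 ⟨x, hx1, hfix Z x hx2⟩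
    exact card_le_card this
  have hFam : Fam (K ^ 4) k X 𝓕 :=
    { ne_zero := fun f hf => hN0 f (hFN hf)
      nonpar := hFpar
      width := fun f hf => hNk f (hFN hf)
      dcond := by
        intro Z
        refine le_trans (card_le_card ?_) (hcntZ Z 2)
        intro f hf
        obtain ⟨h1, h2⟩ := mem_filter.1 hf
        exact mem_filter.2 ⟨hN2 (hFN h1), h2⟩ }
  have hs : finrank ℝ (Submodule.span ℝ (𝓕 : Set E)) ≤ d := (Submodule.finrank_le _).trans hd
  have hmain := hG _ hs (K ^ 4) k X 𝓕 (h.weaken (Nat.le_self_pow (by norm_num) K)) hFam rfl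
  rw [hFspan, hFcard] at hmain
  have hmain' : M * ((X 1).image (prj U)).card ≤ C * K ^ (4 * e) * k ^ d := by
    refine hmain.trans ?_
    rw [← pow_mul]
    refine Nat.mul_le_mul_left _ (Nat.pow_le_pow_right hk ?_)
    rw [hFspan] at hs
    exact hs
  set Y := (X 2).filter (fun x => x ∈ U) with hY
  set B := (Y + Y).card with hB
  have hNY : N ⊆ Y := by
    intro u hu
    exact mem_filter.2 ⟨hN2 hu, Submodule.subset_span hu⟩
  have hYB : Y.card ≤ B := by
    have h0Y : (0 : E) ∈ Y := mem_filter.2 ⟨h.zero_mem 2, U.zero_mem⟩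
    apply card_le_card
    intro y hy
    have := add_mem_add hy h0Y
    rwa [add_zero] at this
  have hMB : M ≤ B := by
    calc M ≤ N.card := card_image_le
      _ ≤ Y.card := card_le_card hNY
      _ ≤ B := hYB
  have hB4 : B ≤ K ^ 6 * ((X 1).image (prj U)).card := by
    refine le_trans (card_le_card ?_) (hcntZ U 4)
    intro z hz
    obtain ⟨x, hx, y, hy, rfl⟩ := mem_add.1 hz
    obtain ⟨hx2, hxA⟩ := mem_filter.1 hx
    obtain ⟨hy2, hyA⟩ := mem_filter.1 hy
    exact mem_filter.2 ⟨h.add_mem 2 2 x hx2 y hy2, U.add_mem hxA hyA⟩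
  have hBM : B * M ≤ C * K ^ (4 * e + 6) * k ^ d := by
    calc B * M ≤ (K ^ 6 * ((X 1).image (prj U)).card) * M := Nat.mul_le_mul_right _ hB4
      _ = K ^ 6 * (M * ((X 1).image (prj U)).card) := by ring
      _ ≤ K ^ 6 * (C * K ^ (4 * e) * k ^ d) := Nat.mul_le_mul_left _ hmain'
      _ = _ := by ring
  have hex : ∃ R, B ≤ R ^ 2 * M := ⟨B, by nlinarith only [hM1, hMB]⟩
  set R := Nat.find hex with hR
  have hRspec : B ≤ R ^ 2 * M := Nat.find_spec hex
  have hR1 : 1 ≤ R := by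
    rcases Nat.eq_zero_or_pos R with h0 | h1
    · rw [h0] at hRspec
      omega
    · exact h1
  have hRmin : (R - 1) ^ 2 * M ≤ B := by
    by_contra hcon
    have := Nat.find_min' hex (m := R - 1) (by omega)
    omega
  obtain ⟨y₀, hy₀⟩ := sectors Y (slice_neg h U) R
  refine ⟨y₀, ?_⟩
  set T := Y.filter (fun y => y ≠ 0 ∧ y ∉ Submodule.span ℝ {y₀} ∧ R ≤ lineCard Y y) with hT
  set N' := N.filter (fun u => lineCard Y u < R) with hN'
  have h1 : N'.card ≤ R * M := by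
    calc N'.card ≤ R * (N'.image ln).card := by
          apply card_le_mul_card_image
          intro L hL
          obtain ⟨u, hu, rfl⟩ := mem_image.1 hL
          obtain ⟨huN, huR⟩ := mem_filter.1 hu
          refine le_trans (card_le_card ?_) huR.le
          intro v hv
          obtain ⟨hv', hvl⟩ := mem_filter.1 hv
          have hvN := (mem_filter.1 hv').1
          refine mem_filter.2 ⟨hNY hvN, hN0 v hvN, ?_⟩
          have : v ∈ ln v := Submodule.mem_span_singleton_self v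
          rw [hvl] at this
          exact this
      _ ≤ R * M := Nat.mul_le_mul_left _ (card_le_card (image_subset_image (filter_subset _ _)))
  have hsub : N.filter (fun u => u ∉ Submodule.span ℝ {y₀}) ⊆ N' ∪ T := by
    intro u hu
    obtain ⟨huN, hus⟩ := mem_filter.1 hu
    rw [mem_union]
    rcases Nat.lt_or_ge (lineCard Y u) R with hlt | hge
    · exact Or.inl (mem_filter.2 ⟨huN, hlt⟩)
    · exact Or.inr (mem_filter.2 ⟨hNY huN, hN0 u huN, hus, hge⟩)
  have h2 : (N.filter (fun u => u ∉ Submodule.span ℝ {y₀})).card ≤ R * M + T.card :=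
    (card_le_card hsub).trans ((card_union_le _ _).trans (Nat.add_le_add_right h1 _))
  have h3 : T.card ^ 2 ≤ 16 * (B * M) := by
    have h4 : R ^ 2 * T.card ^ 2 ≤ R ^ 2 * (16 * (B * M)) := by
      calc R ^ 2 * T.card ^ 2 = (R * T.card) ^ 2 := by ring
        _ ≤ (4 * B) ^ 2 := Nat.pow_le_pow_left hy₀ 2
        _ = 16 * B * B := by ring
        _ ≤ 16 * B * (R ^ 2 * M) := Nat.mul_le_mul_left _ hRspec
        _ = _ := by ring
    exact Nat.le_of_mul_le_mul_left h4 (by (clear * - hR1; positivity))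
  have h4 : (R * M) ^ 2 ≤ 4 * (B * M) := by
    obtain ⟨r, hr⟩ : ∃ r, R = r + 1 := ⟨R - 1, by omega⟩
    rw [hr] at hRmin ⊢
    simp only [Nat.add_sub_cancel] at hRmin
    have h5 : (r * M) ^ 2 ≤ B * M := by
      calc (r * M) ^ 2 = (r ^ 2 * M) * M := by ring
        _ ≤ B * M := Nat.mul_le_mul_right _ hRmin
    have h6 : M ^ 2 ≤ B * M := by
      calc M ^ 2 = M * M := by ring
        _ ≤ B * M := Nat.mul_le_mul_right _ hMB
    have h7 : ((r + 1) * M) ^ 2 ≤ 2 * (r * M) ^ 2 + 2 * M ^ 2 := by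
      zify
      linarith only [sq_nonneg ((r : ℤ) * M - M)]
    omega
  calc (N.filter (fun u => u ∉ Submodule.span ℝ {y₀})).card ^ 2 ≤ (R * M + T.card) ^ 2 :=
        Nat.pow_le_pow_left h2 2
    _ ≤ 2 * (R * M) ^ 2 + 2 * T.card ^ 2 := by
        zify
        linarith only [sq_nonneg ((R : ℤ) * M - T.card)]
    _ ≤ 2 * (4 * (B * M)) + 2 * (16 * (B * M)) :=
        Nat.add_le_add (Nat.mul_le_mul_left _ h4) (Nat.mul_le_mul_left _ h3)
    _ = 40 * (B * M) := by ring
    _ ≤ 40 * (C * K ^ (4 * e + 6) * k ^ d) := Nat.mul_le_mul_left _ hBM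
    _ = _ := by ring

/-- The number of points of `X 2` orthogonal to `u`. -/
noncomputable def orth (X : ℕ → Finset E) (u : E) : ℕ := ((X 2).filter (fun v => ip u v = 0)).card

omit [FiniteDimensional ℝ E] in
lemma orth_mul_width {K : ℕ} {X : ℕ → Finset E} (h : Filt K X) (u : E) :
    ((X 1).image (ip u)).card * orth X u ≤ K ^ 3 * (X 1).card :=
  (h.image_mul_le (ip u) 1 2).trans (h.card_le 3 (by norm_num))

omit [FiniteDimensional ℝ E] in
/-- The contribution of one line. -/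
lemma line_sum {K : ℕ} {X : ℕ → Finset E} (h : Filt K X) (N : Finset E) (hN2 : N ⊆ X 2)
    (hN0 : ∀ u ∈ N, u ≠ 0) (y₀ : E) :
    ∑ u ∈ N.filter (fun u => u ∈ Submodule.span ℝ {y₀}), orth X u ≤ K ^ 4 * (X 1).card := by
  set S := N.filter (fun u => u ∈ Submodule.span ℝ {y₀}) with hS
  rcases S.eq_empty_or_nonempty with he | ⟨u₀, hu₀⟩
  · rw [he]; simp
  obtain ⟨hu₀N, hu₀s⟩ := mem_filter.1 hu₀
  have hu₀0 := hN0 u₀ hu₀N
  have hmem : ∀ u ∈ S, ∃ t : ℝ, t ≠ 0 ∧ u = t • u₀ := by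
    intro u hu
    obtain ⟨huN, hus⟩ := mem_filter.1 hu
    have h1 : ln u₀ = ln y₀ := ln_eq_of_mem hu₀s hu₀0
    have h2 : u ∈ ln u₀ := by rw [h1]; exact hus
    obtain ⟨t, rfl⟩ := Submodule.mem_span_singleton.1 h2
    refine ⟨t, ?_, rfl⟩
    rintro rfl
    exact hN0 _ huN (by simp only [zero_smul])
  have horth : ∀ u ∈ S, orth X u = orth X u₀ := by
    intro u hu
    obtain ⟨t, ht, rfl⟩ := hmem u hu
    unfold orth
    congr 1
    apply filter_congr
    intro v _
    rw [ip_apply, ip_apply, real_inner_smul_left]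
    constructor
    · intro h1
      exact (mul_eq_zero.1 h1).resolve_left ht
    · intro h1
      rw [h1, mul_zero]
  rw [sum_congr rfl horth, sum_const, smul_eq_mul]
  have hff : ip u₀ u₀ ≠ 0 := by
    rw [ip_apply]
    exact inner_self_ne_zero.2 hu₀0
  have hinj : Set.InjOn (ip u₀) (S : Set E) := by
    intro u hu v hv huv
    obtain ⟨p, _, rfl⟩ := hmem u (mem_coe.1 hu)
    obtain ⟨q, _, rfl⟩ := hmem v (mem_coe.1 hv)
    rw [map_smul, map_smul, smul_eq_mul, smul_eq_mul] at huv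
    rw [mul_right_cancel₀ hff huv]
  have h1 : S.card = (S.image (ip u₀)).card := (card_image_of_injOn hinj).symm
  rw [h1]
  have h2 : (S.image (ip u₀)).card ≤ ((X 2).image (ip u₀)).card :=
    card_le_card (image_subset_image ((filter_subset _ _).trans hN2))
  calc (S.image (ip u₀)).card * orth X u₀ ≤ ((X 2).image (ip u₀)).card * orth X u₀ :=
        Nat.mul_le_mul_right _ h2
    _ ≤ (X 4).card := h.image_mul_le (ip u₀) 2 2
    _ ≤ K ^ 4 * (X 1).card := h.card_le 4 (by norm_num)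

end Vale.Agent.P054K
end

section

namespace Vale.Agent.P054K

open Finset Module
open scoped Pointwise Classical RealInnerProductSpace

variable {E : Type*} [NormedAddCommGroup E] [InnerProductSpace ℝ E] [FiniteDimensional ℝ E]

open Filt

lemma geom_bound (r : ℝ) (hr : 4 / 3 ≤ r) (I : ℕ) :
    ∑ i ∈ range I, r ^ i ≤ 3 * r ^ I := by
  induction I with
  | zero => simp
  | succ I ih =>
    rw [sum_range_succ, pow_succ]
    have h1 : 0 < r ^ I := pow_pos (by linarith only [hr]) I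
    nlinarith only [ih, hr, h1]

/-- The dyadic sum, before choosing the parameter `I`. -/
lemma perp_sum_le {C e K d : ℕ} {X : ℕ → Finset E} (h : Filt K X) (hd : finrank ℝ E ≤ d)
    (hd3 : 3 ≤ d) (hC : 1 ≤ C) (hG : ∀ s ≤ d, Gen E C e s) (I : ℕ) (r : ℝ)
    (hr0 : 0 ≤ r) (hr : r ^ 2 = 2 ^ (d - 2)) :
    ((∑ u ∈ X 2, orth X u : ℕ) : ℝ) ≤ (K : ℝ) ^ 2 * (X 1).card +
      (K : ℝ) ^ 5 * ((X 1).card : ℝ) ^ 2 / 2 ^ I +
      3 * (2 * (40 * C * K ^ (4 * e + 6)) * r * K ^ 3 + K ^ 4) * (X 1).card * r ^ I := by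
  have hK : (1 : ℝ) ≤ K := by exact_mod_cast h.K_pos
  have hC' : (1 : ℝ) ≤ C := by exact_mod_cast hC
  set n : ℝ := ((X 1).card : ℝ) with hn
  have hn1 : 1 ≤ n := by
    rw [hn]
    exact_mod_cast h.card_pos 1
  set κ : E → ℕ := fun u => ((X 1).image (ip u)).card with hκ
  have hκ1 : ∀ u, 1 ≤ κ u := fun u => h.image_pos (ip u) 1
  have hX2 : ((X 2).card : ℝ) ≤ (K : ℝ) ^ 2 * n := by
    rw [hn]
    exact_mod_cast h.card_le 2 (by norm_num)
  set A : ℝ := 40 * C * K ^ (4 * e + 6) with hA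
  have hA1 : 1 ≤ A := by
    have : (1 : ℝ) ≤ (K : ℝ) ^ (4 * e + 6) := one_le_pow₀ hK
    rw [hA]
    nlinarith only [hC', this]
  have hr1 : 4 / 3 ≤ r := by
    have h2 : (2 : ℝ) ≤ 2 ^ (d - 2) := by
      calc (2 : ℝ) = 2 ^ 1 := by norm_num
        _ ≤ 2 ^ (d - 2) := pow_le_pow_right₀ (by norm_num) (by omega)
    nlinarith only [hr, h2, hr0]
  have horth : ∀ u, (orth X u : ℝ) * κ u ≤ (K : ℝ) ^ 3 * n := by
    intro u
    rw [hn, mul_comm]
    exact_mod_cast orth_mul_width h u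
  -- zero vector
  have hz : ((∑ u ∈ (X 2).filter (fun u => u = 0), orth X u : ℕ) : ℝ) ≤ (K : ℝ) ^ 2 * n := by
    have h1 : (X 2).filter (fun u => u = 0) = {0} := by
      ext u
      simp only [mem_filter, mem_singleton]
      constructor
      · exact fun h => h.2
      · rintro rfl
        exact ⟨h.zero_mem 2, rfl⟩
    rw [h1, sum_singleton]
    refine le_trans ?_ hX2
    exact_mod_cast card_le_card (filter_subset _ _)
  -- tail
  set S0 := (X 2).filter (fun u => ¬ u = 0) with hS0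
  have htail : ((∑ u ∈ S0.filter (fun u => 2 ^ I ≤ κ u), orth X u : ℕ) : ℝ) ≤
      (K : ℝ) ^ 5 * n ^ 2 / 2 ^ I := by
    push_cast
    calc ∑ u ∈ S0.filter (fun u => 2 ^ I ≤ κ u), (orth X u : ℝ)
        ≤ ∑ u ∈ S0.filter (fun u => 2 ^ I ≤ κ u), (K : ℝ) ^ 3 * n / 2 ^ I := by
          apply sum_le_sum
          intro u hu
          have h1 : (2 : ℝ) ^ I ≤ κ u := by exact_mod_cast (mem_filter.1 hu).2
          rw [le_div_iff₀ (by positivity)]
          calc (orth X u : ℝ) * 2 ^ I ≤ (orth X u : ℝ) * κ u :=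
                mul_le_mul_of_nonneg_left h1 (by (clear * -; positivity))
            _ ≤ _ := horth u
      _ = ((S0.filter (fun u => 2 ^ I ≤ κ u)).card : ℝ) * ((K : ℝ) ^ 3 * n / 2 ^ I) := by
          rw [sum_const, nsmul_eq_mul]
      _ ≤ ((K : ℝ) ^ 2 * n) * ((K : ℝ) ^ 3 * n / 2 ^ I) := by
          apply mul_le_mul_of_nonneg_right _ (by (clear * - hK hn1; positivity))
          refine le_trans ?_ hX2
          exact_mod_cast card_le_card ((filter_subset _ _).trans (filter_subset _ _))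
      _ = _ := by ring
  -- dyadic pieces
  set S1 := S0.filter (fun u => ¬ 2 ^ I ≤ κ u) with hS1
  have hpiece : ∀ i ∈ range I, ((∑ u ∈ S1.filter (fun u => Nat.log 2 (κ u) = i), orth X u : ℕ) : ℝ) ≤
      ((2 * A * r * K ^ 3 + K ^ 4) * n) * r ^ i := by
    intro i _
    set N := S1.filter (fun u => Nat.log 2 (κ u) = i) with hN
    have hN2 : N ⊆ X 2 := (filter_subset _ _).trans ((filter_subset _ _).trans (filter_subset _ _))
    have hN0 : ∀ u ∈ N, u ≠ 0 := by
      intro u hu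
      exact (mem_filter.1 (mem_filter.1 (mem_filter.1 hu).1).1).2
    have hNlo : ∀ u ∈ N, 2 ^ i ≤ κ u := by
      intro u hu
      rw [← (mem_filter.1 hu).2]
      exact Nat.pow_log_le_self 2 (by have := hκ1 u; omega)
    have hNhi : ∀ u ∈ N, κ u ≤ 2 ^ (i + 1) := by
      intro u hu
      rw [← (mem_filter.1 hu).2]
      exact (Nat.lt_pow_succ_log_self (by norm_num) _).le
    obtain ⟨y₀, hy₀⟩ := near_le h hd hG (Nat.one_le_two_pow (n := i + 1)) N hN2 hN0 hNhi
    have h1 : ((N.filter (fun u => u ∉ Submodule.span ℝ {y₀})).card : ℝ) ≤ A * (2 * r) ^ (i + 1) := by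
      have h2 : ((N.filter (fun u => u ∉ Submodule.span ℝ {y₀})).card : ℝ) ^ 2 ≤
          A * (2 ^ (i + 1)) ^ d := by
        rw [hA]
        exact_mod_cast hy₀
      have h3 : ((2 : ℝ) ^ (i + 1)) ^ d = ((2 * r) ^ (i + 1)) ^ 2 := by
        have h4 : (2 * r) ^ 2 = 2 ^ d := by
          obtain ⟨m, rfl⟩ : ∃ m, d = m + 2 := ⟨d - 2, by omega⟩
          rw [mul_pow, hr, Nat.add_sub_cancel]
          ring
        calc ((2 : ℝ) ^ (i + 1)) ^ d = (2 ^ d) ^ (i + 1) := pow_right_comm _ _ _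
          _ = ((2 * r) ^ 2) ^ (i + 1) := by rw [h4]
          _ = ((2 * r) ^ (i + 1)) ^ 2 := pow_right_comm _ _ _
      have h5 : ((N.filter (fun u => u ∉ Submodule.span ℝ {y₀})).card : ℝ) ^ 2 ≤
          (A * (2 * r) ^ (i + 1)) ^ 2 := by
        refine h2.trans ?_
        rw [h3, mul_pow A]
        have h6 : A ≤ A ^ 2 := by nlinarith only [hA1]
        exact mul_le_mul_of_nonneg_right h6 (by positivity)
      exact (pow_le_pow_iff_left₀ (by (clear * -; positivity)) (by (clear * - hC hK hr1; positivity)) (by norm_num)).1 h5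
    have hfar : ((∑ u ∈ N.filter (fun u => u ∉ Submodule.span ℝ {y₀}), orth X u : ℕ) : ℝ) ≤
        2 * A * r * K ^ 3 * n * r ^ i := by
      push_cast
      calc ∑ u ∈ N.filter (fun u => u ∉ Submodule.span ℝ {y₀}), (orth X u : ℝ)
          ≤ ∑ u ∈ N.filter (fun u => u ∉ Submodule.span ℝ {y₀}), (K : ℝ) ^ 3 * n / 2 ^ i := by
            apply sum_le_sum
            intro u hu
            have h1 : (2 : ℝ) ^ i ≤ κ u := by exact_mod_cast hNlo u (mem_filter.1 hu).1
            rw [le_div_iff₀ (by positivity)]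
            calc (orth X u : ℝ) * 2 ^ i ≤ (orth X u : ℝ) * κ u :=
                  mul_le_mul_of_nonneg_left h1 (by (clear * -; positivity))
              _ ≤ _ := horth u
        _ = ((N.filter (fun u => u ∉ Submodule.span ℝ {y₀})).card : ℝ) *
              ((K : ℝ) ^ 3 * n / 2 ^ i) := by
            rw [sum_const, nsmul_eq_mul]
        _ ≤ (A * (2 * r) ^ (i + 1)) * ((K : ℝ) ^ 3 * n / 2 ^ i) :=
            mul_le_mul_of_nonneg_right h1 (by (clear * - hK hn1; positivity))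
        _ = _ := by
            rw [mul_pow, pow_succ 2 i, pow_succ r i]
            field_simp
    have hline : ((∑ u ∈ N.filter (fun u => ¬ u ∉ Submodule.span ℝ {y₀}), orth X u : ℕ) : ℝ) ≤
        K ^ 4 * n * r ^ i := by
      have h2 := line_sum h N hN2 hN0 y₀
      have h3 : N.filter (fun u => ¬ u ∉ Submodule.span ℝ {y₀}) =
          N.filter (fun u => u ∈ Submodule.span ℝ {y₀}) := by
        apply filter_congr
        intro u _
        rw [not_not]
      rw [h3]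
      have h4 : ((∑ u ∈ N.filter (fun u => u ∈ Submodule.span ℝ {y₀}), orth X u : ℕ) : ℝ) ≤
          K ^ 4 * n := by
        rw [hn]
        exact_mod_cast h2
      have h5 : (1 : ℝ) ≤ r ^ i := one_le_pow₀ (by linarith only [hr1])
      have h6 : 0 ≤ (K : ℝ) ^ 4 * n := by (clear * - hK hn1; positivity)
      nlinarith only [h4, h5]
    rw [← sum_filter_add_sum_filter_not N (fun u => u ∉ Submodule.span ℝ {y₀})]
    push_cast at hfar hline ⊢
    calc _ ≤ 2 * A * r * K ^ 3 * n * r ^ i + K ^ 4 * n * r ^ i := add_le_add hfar hline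
      _ = _ := by ring
  have hmain : ((∑ u ∈ S1, orth X u : ℕ) : ℝ) ≤
      ((2 * A * r * K ^ 3 + K ^ 4) * n) * (3 * r ^ I) := by
    have h1 : ∑ u ∈ S1, orth X u =
        ∑ i ∈ range I, ∑ u ∈ S1.filter (fun u => Nat.log 2 (κ u) = i), orth X u := by
      rw [sum_fiberwise_of_maps_to]
      intro u hu
      have h2 : κ u < 2 ^ I := not_le.1 (mem_filter.1 hu).2
      rw [mem_range]
      exact Nat.log_lt_of_lt_pow (by have := hκ1 u; omega) h2
    rw [h1]
    push_cast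
    calc ∑ i ∈ range I, ∑ u ∈ S1.filter (fun u => Nat.log 2 (κ u) = i), (orth X u : ℝ)
        ≤ ∑ i ∈ range I, ((2 * A * r * K ^ 3 + K ^ 4) * n) * r ^ i := by
          apply sum_le_sum
          intro i hi
          have := hpiece i hi
          push_cast at this
          exact this
      _ = ((2 * A * r * K ^ 3 + K ^ 4) * n) * ∑ i ∈ range I, r ^ i := by rw [mul_sum]
      _ ≤ _ := by
          apply mul_le_mul_of_nonneg_left (geom_bound r hr1 I)
          (clear * - hC hK hn1 hr1; positivity)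
  rw [← sum_filter_add_sum_filter_not (X 2) (fun u => u = 0),
    ← sum_filter_add_sum_filter_not ((X 2).filter (fun u => ¬ u = 0)) (fun u => 2 ^ I ≤ κ u)]
  push_cast at hz htail hmain ⊢
  calc _ ≤ (K : ℝ) ^ 2 * n + ((K : ℝ) ^ 5 * n ^ 2 / 2 ^ I +
        ((2 * A * r * K ^ 3 + K ^ 4) * n) * (3 * r ^ I)) :=
        add_le_add hz (add_le_add htail hmain)
    _ = _ := by ring

end Vale.Agent.P054K
end

section

namespace Vale.Agent.P054K

open Finset Module
open scoped Pointwise Classical RealInnerProductSpace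

variable {E : Type*} [NormedAddCommGroup E] [InnerProductSpace ℝ E] [FiniteDimensional ℝ E]

open Filt

/-- The number of orthogonal pairs in `X 2`. -/
theorem perp_bound (E : Type*) [NormedAddCommGroup E] [InnerProductSpace ℝ E]
    [FiniteDimensional ℝ E] (d : ℕ) (hd3 : 3 ≤ d) (hd : finrank ℝ E ≤ d) :
    ∃ C e : ℕ, 1 ≤ C ∧ ∀ (K : ℕ) (X : ℕ → Finset E), Filt K X →
      ((∑ u ∈ X 2, orth X u : ℕ) : ℝ) ≤ C * K ^ e * ((X 1).card : ℝ) ^ (2 - 2 / (d : ℝ)) := by
  obtain ⟨C, e, hC, hG⟩ := main_lemma (E := E) d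
  refine ⟨3 + 3 * (80 * C * 2 ^ d + 1), 4 * e + 9, by omega, ?_⟩
  intro K X h
  have hK : (1 : ℝ) ≤ K := by exact_mod_cast h.K_pos
  have hC' : (1 : ℝ) ≤ C := by exact_mod_cast hC
  have hn1 : (1 : ℝ) ≤ ((X 1).card : ℝ) := by exact_mod_cast h.card_pos 1
  set n : ℝ := ((X 1).card : ℝ) with hn
  have hn0 : 0 < n := by linarith only [hn1]
  have hdR : (3 : ℝ) ≤ d := by exact_mod_cast hd3
  have hd0 : (0 : ℝ) < d := by linarith only [hdR]
  have hx1 : 1 ≤ n ^ (2 / (d : ℝ)) := Real.one_le_rpow hn1 (by positivity)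
  obtain ⟨I, hI1, hI2⟩ := exists_nat_pow_near hx1 (by norm_num : (1 : ℝ) < 2)
  set r : ℝ := Real.sqrt (2 ^ (d - 2)) with hr
  have hr0 : 0 ≤ r := Real.sqrt_nonneg _
  have hr2 : r ^ 2 = 2 ^ (d - 2) := Real.sq_sqrt (by positivity)
  have hr1 : 1 ≤ r := by
    have : (1 : ℝ) ≤ 2 ^ (d - 2) := one_le_pow₀ (by norm_num)
    nlinarith only [hr2, this, hr0]
  have hrd : r ≤ 2 ^ d := by
    have h1 : r ≤ r ^ 2 := by nlinarith only [hr1]
    refine h1.trans ?_
    rw [hr2]
    exact pow_le_pow_right₀ (by norm_num) (by omega)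
  have hrI : r ^ I ≤ n ^ (1 - 2 / (d : ℝ)) := by
    have h1 : (r ^ I) ^ 2 ≤ (n ^ (1 - 2 / (d : ℝ))) ^ 2 := by
      calc (r ^ I) ^ 2 = (r ^ 2) ^ I := pow_right_comm _ _ _
        _ = ((2 : ℝ) ^ (d - 2)) ^ I := by rw [hr2]
        _ = ((2 : ℝ) ^ I) ^ (d - 2) := pow_right_comm _ _ _
        _ ≤ (n ^ (2 / (d : ℝ))) ^ (d - 2) := pow_le_pow_left₀ (by positivity) hI1 _
        _ = (n ^ (1 - 2 / (d : ℝ))) ^ 2 := by
          rw [← Real.rpow_natCast, ← Real.rpow_natCast, ← Real.rpow_mul hn0.le,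
            ← Real.rpow_mul hn0.le]
          congr 1
          push_cast [Nat.cast_sub (by omega : 2 ≤ d)]
          field_simp
    exact (pow_le_pow_iff_left₀ (by positivity) (by (clear * - hn1; positivity)) (by norm_num)).1 h1
  have hsum := perp_sum_le h hd hd3 hC hG I r hr0 hr2
  rw [← hn] at hsum
  set m : ℝ := n ^ (2 - 2 / (d : ℝ)) with hm
  have hm0 : 0 < m := Real.rpow_pos_of_pos hn0 _
  -- three terms
  have t1 : (K : ℝ) ^ 2 * n ≤ K ^ (4 * e + 9) * m := by
    have h1 : n ≤ m := by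
      calc n = n ^ (1 : ℝ) := (Real.rpow_one n).symm
        _ ≤ m := by
          apply Real.rpow_le_rpow_of_exponent_le hn1
          have : 2 / (d : ℝ) ≤ 1 := by
            rw [div_le_one hd0]; linarith only [hdR]
          linarith only [this]
    have h2 : (K : ℝ) ^ 2 ≤ K ^ (4 * e + 9) := pow_le_pow_right₀ hK (by omega)
    exact mul_le_mul h2 h1 hn0.le (by positivity)
  have t2 : (K : ℝ) ^ 5 * n ^ 2 / 2 ^ I ≤ 2 * (K ^ (4 * e + 9) * m) := by
    have h2 : (K : ℝ) ^ 5 ≤ K ^ (4 * e + 9) := pow_le_pow_right₀ hK (by omega)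
    have h3 : n ^ 2 ≤ 2 * m * 2 ^ I := by
      have h4 : m * n ^ (2 / (d : ℝ)) = n ^ 2 := by
        rw [hm, ← Real.rpow_add hn0, ← Real.rpow_natCast]
        congr 1
        push_cast
        ring
      calc n ^ 2 = m * n ^ (2 / (d : ℝ)) := h4.symm
        _ ≤ m * 2 ^ (I + 1) := mul_le_mul_of_nonneg_left hI2.le hm0.le
        _ = _ := by ring
    rw [div_le_iff₀ (by positivity)]
    calc (K : ℝ) ^ 5 * n ^ 2 ≤ K ^ (4 * e + 9) * (2 * m * 2 ^ I) :=
          mul_le_mul h2 h3 (by (clear * - hn1; positivity)) (by positivity)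
      _ = _ := by ring
  have t3 : 3 * (2 * (40 * C * K ^ (4 * e + 6)) * r * K ^ 3 + K ^ 4) * n * r ^ I ≤
      3 * (80 * C * 2 ^ d + 1) * (K ^ (4 * e + 9) * m) := by
    have h2 : (K : ℝ) ^ 4 ≤ K ^ (4 * e + 9) := pow_le_pow_right₀ hK (by (clear * -; omega))
    have h3 : n * r ^ I ≤ m := by
      calc n * r ^ I ≤ n * n ^ (1 - 2 / (d : ℝ)) := mul_le_mul_of_nonneg_left hrI hn0.le
        _ = m := by
          nth_rewrite 1 [← Real.rpow_one n]
          rw [hm, ← Real.rpow_add hn0]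
          congr 1
          ring
    have h4 : 2 * (40 * C * (K : ℝ) ^ (4 * e + 6)) * r * K ^ 3 + K ^ 4 ≤
        (80 * C * 2 ^ d + 1) * K ^ (4 * e + 9) := by
      have h5 : 2 * (40 * C * (K : ℝ) ^ (4 * e + 6)) * r * K ^ 3 =
          80 * C * K ^ (4 * e + 9) * r := by ring
      have h6 : 80 * C * (K : ℝ) ^ (4 * e + 9) * r ≤ 80 * C * K ^ (4 * e + 9) * 2 ^ d :=
        mul_le_mul_of_nonneg_left hrd (by positivity)
      rw [h5]
      linarith only [h2, h6]
    calc 3 * (2 * (40 * C * (K : ℝ) ^ (4 * e + 6)) * r * K ^ 3 + K ^ 4) * n * r ^ I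
        = 3 * (2 * (40 * C * (K : ℝ) ^ (4 * e + 6)) * r * K ^ 3 + K ^ 4) * (n * r ^ I) := by ring
      _ ≤ 3 * ((80 * C * 2 ^ d + 1) * K ^ (4 * e + 9)) * m := by
          apply mul_le_mul _ h3 (by (clear * - hn1; positivity)) (by positivity)
          linarith only [h4]
      _ = _ := by ring
  calc ((∑ u ∈ X 2, orth X u : ℕ) : ℝ) ≤ _ := hsum
    _ ≤ K ^ (4 * e + 9) * m + 2 * (K ^ (4 * e + 9) * m) +
        3 * (80 * C * 2 ^ d + 1) * (K ^ (4 * e + 9) * m) := add_le_add (add_le_add t1 t2) t3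
    _ = _ := by push_cast; ring

omit [FiniteDimensional ℝ E] in
/-- Cauchy–Schwarz: few norms force many orthogonal pairs. -/
lemma sq_card_le {K : ℕ} {X : ℕ → Finset E} (h : Filt K X) :
    (X 1).card ^ 2 ≤ ((X 1).image (fun x => ‖x‖)).card * ∑ u ∈ X 2, orth X u := by
  set D := (X 1).image (fun x => ‖x‖) with hD
  set fib : ℝ → Finset E := fun t => (X 1).filter (fun x => ‖x‖ = t) with hfib
  have h1 : (X 1).card = ∑ t ∈ D, (fib t).card := card_eq_sum_card_image _ _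
  have h2 : (∑ t ∈ D, (fib t).card) ^ 2 ≤ D.card * ∑ t ∈ D, (fib t).card ^ 2 := by
    have := sq_sum_le_card_mul_sum_sq (s := D) (f := fun t => ((fib t).card : ℝ))
    exact_mod_cast this
  have h3 : ∑ t ∈ D, (fib t).card ^ 2 ≤ ∑ u ∈ X 2, orth X u := by
    have h4 : ∑ t ∈ D, (fib t).card ^ 2 = (D.sigma (fun t => fib t ×ˢ fib t)).card := by
      rw [card_sigma]
      apply sum_congr rfl
      intro t _
      rw [card_product, sq]
    have h5 : ∑ u ∈ X 2, orth X u =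
        ((X 2).sigma (fun u => (X 2).filter (fun v => ip u v = 0))).card := by
      rw [card_sigma]
      rfl
    rw [h4, h5]
    apply card_le_card_of_injOn (fun p => ⟨p.2.1 - p.2.2, p.2.1 + p.2.2⟩)
    · rintro ⟨t, a, b⟩ hp
      simp only [coe_sigma, Set.mem_sigma_iff, mem_coe, coe_product, Set.mem_prod, hfib,
        mem_filter] at hp ⊢
      obtain ⟨ht, ⟨ha, hat⟩, hb, hbt⟩ := hp
      refine ⟨h.sub_mem 1 1 ha hb, h.add_mem 1 1 a ha b hb, ?_⟩
      rw [ip_apply, inner_sub_left, inner_add_right, inner_add_right, real_inner_comm b a,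
        real_inner_self_eq_norm_sq, real_inner_self_eq_norm_sq, hat, hbt]
      ring
    · rintro ⟨t, a, b⟩ hp ⟨t', a', b'⟩ hp' heq
      simp only [coe_sigma, Set.mem_sigma_iff, mem_coe, coe_product, Set.mem_prod, hfib,
        mem_filter] at hp hp'
      simp only [Sigma.mk.injEq, heq_eq_eq] at heq
      obtain ⟨e1, e2⟩ := heq
      have ha : a = a' := by
        have h6 : (2 : ℝ) • a = (2 : ℝ) • a' := by
          calc (2 : ℝ) • a = (a - b) + (a + b) := by rw [two_smul]; abel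
            _ = (a' - b') + (a' + b') := by rw [e1, e2]
            _ = (2 : ℝ) • a' := by rw [two_smul]; abel
        exact smul_right_injective E (by norm_num : (2 : ℝ) ≠ 0) h6
      subst ha
      have hb : b = b' := by simpa only [add_right_inj] using e2
      subst hb
      have ht : t = t' := by
        rw [← hp.2.1.2, ← hp'.2.1.2]
      subst ht
      rfl
  calc (X 1).card ^ 2 = (∑ t ∈ D, (fib t).card) ^ 2 := by rw [← h1]
    _ ≤ _ := h2
    _ ≤ _ := Nat.mul_le_mul_left _ h3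

/-- Lower bound for the number of norms. -/
theorem norms_bound (E : Type*) [NormedAddCommGroup E] [InnerProductSpace ℝ E]
    [FiniteDimensional ℝ E] (d : ℕ) (hd3 : 3 ≤ d) (hd : finrank ℝ E ≤ d) :
    ∃ C e : ℕ, 1 ≤ C ∧ ∀ (K : ℕ) (X : ℕ → Finset E), Filt K X →
      ((X 1).card : ℝ) ^ (2 / (d : ℝ)) ≤
        C * K ^ e * (((X 1).image (fun x => ‖x‖)).card : ℝ) := by
  obtain ⟨C, e, hC, hG⟩ := perp_bound E d hd3 hd
  refine ⟨C, e, hC, ?_⟩
  intro K X h
  have h1 := hG K X h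
  have hn1 : (1 : ℝ) ≤ ((X 1).card : ℝ) := by exact_mod_cast h.card_pos 1
  have h2 : ((X 1).card : ℝ) ^ 2 ≤ (((X 1).image (fun x => ‖x‖)).card : ℝ) *
      ((∑ u ∈ X 2, orth X u : ℕ) : ℝ) := by exact_mod_cast sq_card_le h
  set n : ℝ := ((X 1).card : ℝ) with hn
  have hn0 : 0 < n := by linarith only [hn1]
  set m : ℝ := n ^ (2 - 2 / (d : ℝ)) with hm
  have hm0 : 0 < m := Real.rpow_pos_of_pos hn0 _
  have h4 : m * n ^ (2 / (d : ℝ)) = n ^ 2 := by
    rw [hm, ← Real.rpow_add hn0, ← Real.rpow_natCast]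
    congr 1
    push_cast
    ring
  have h5 : m * n ^ (2 / (d : ℝ)) ≤ m * (C * K ^ e * (((X 1).image (fun x => ‖x‖)).card : ℝ)) := by
    rw [h4]
    calc n ^ 2 ≤ _ := h2
      _ ≤ (((X 1).image (fun x => ‖x‖)).card : ℝ) * (C * K ^ e * m) :=
        mul_le_mul_of_nonneg_left h1 (by (clear * -; positivity))
      _ = _ := by ring
  exact le_of_mul_le_mul_left h5 hm0

end Vale.Agent.P054K
end

section

namespace Vale.Agent.P054K

open Finset Module
open scoped Pointwise Classical RealInnerProductSpace NNRat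

section group

variable {E : Type*} [AddCommGroup E] [Module ℝ E]

/-- The filtration `jP - jP`. -/
noncomputable def dfilt (P : Finset E) (j : ℕ) : Finset E := j • P - j • P

lemma filt_of_card (P : Finset E) (hP : P.Nonempty) (K : ℕ)
    (hc : ∀ j, (j • P - j • P).card ≤ K ^ j * P.card) : Filt K (dfilt P) where
  zero_mem := by
    intro j
    obtain ⟨x, hx⟩ := hP.nsmul (n := j)
    have := sub_mem_sub hx hx
    rwa [sub_self] at this
  neg_mem := by
    intro j x hx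
    obtain ⟨a, ha, b, hb, rfl⟩ := mem_sub.1 hx
    rw [neg_sub]
    exact sub_mem_sub hb ha
  add_mem := by
    intro i j x hx y hy
    obtain ⟨a, ha, b, hb, rfl⟩ := mem_sub.1 hx
    obtain ⟨a', ha', b', hb', rfl⟩ := mem_sub.1 hy
    have h1 : a - b + (a' - b') = (a + a') - (b + b') := by abel
    rw [h1]
    unfold dfilt
    rw [add_nsmul]
    exact sub_mem_sub (add_mem_add ha ha') (add_mem_add hb hb')
  card_le := by
    intro j _
    refine (hc j).trans (Nat.mul_le_mul_left _ ?_)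
    obtain ⟨x, hx⟩ := hP
    have h1 : P.image (fun y => y - x) ⊆ dfilt P 1 := by
      intro z hz
      obtain ⟨y, hy, rfl⟩ := mem_image.1 hz
      unfold dfilt
      rw [one_nsmul]
      exact sub_mem_sub hy hx
    calc P.card = (P.image (fun y => y - x)).card := by
          rw [card_image_of_injective]
          intro a b hab
          simpa using hab
      _ ≤ _ := card_le_card h1

lemma filt_of_sub (P : Finset E) (hP : P.Nonempty) (K : ℕ) (hK : (P - P).card ≤ K * P.card) :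
    Filt (K ^ 2) (dfilt P) := by
  apply filt_of_card P hP
  intro j
  have h1 := pluennecke_ruzsa_inequality_nsmul_sub_nsmul_sub hP P j j
  have hP0 : (0 : ℚ≥0) < P.card := by exact_mod_cast hP.card_pos
  have h2 : ((P - P).card / P.card : ℚ≥0) ≤ K := by
    rw [div_le_iff₀ hP0]
    exact_mod_cast hK
  have h3 : ((j • P - j • P).card : ℚ≥0) ≤ (K : ℚ≥0) ^ (j + j) * P.card :=
    h1.trans (mul_le_mul_of_nonneg_right (pow_le_pow_left₀ (by positivity) h2 _) hP0.le)
  have h4 : (j • P - j • P).card ≤ K ^ (j + j) * P.card := by exact_mod_cast h3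
  rwa [← two_mul, pow_mul] at h4

end group

variable {E : Type*} [NormedAddCommGroup E] [InnerProductSpace ℝ E]

/-- The number of distinct nonzero distances. -/
noncomputable def numDist (P : Finset E) : ℕ := (P.offDiag.image (fun p => dist p.1 p.2)).card

lemma norms_le (P : Finset E) (hP : 2 ≤ P.card) :
    ((dfilt P 1).image (fun x => ‖x‖)).card ≤ 2 * numDist P := by
  have h1 : (dfilt P 1).image (fun x => ‖x‖) ⊆
      insert 0 (P.offDiag.image (fun p => dist p.1 p.2)) := by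
    intro t ht
    obtain ⟨x, hx, rfl⟩ := mem_image.1 ht
    unfold dfilt at hx
    rw [one_nsmul] at hx
    obtain ⟨a, ha, b, hb, rfl⟩ := mem_sub.1 hx
    rw [mem_insert]
    by_cases hab : a = b
    · left
      rw [hab, sub_self, norm_zero]
    · right
      exact mem_image.2 ⟨(a, b), mem_offDiag.2 ⟨ha, hb, hab⟩, dist_eq_norm a b⟩
  have h2 : 1 ≤ numDist P := by
    obtain ⟨a, ha, b, hb, hab⟩ := one_lt_card.1 (by omega : 1 < P.card)
    have hmem : (a, b) ∈ P.offDiag := mem_offDiag.2 ⟨ha, hb, hab⟩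
    exact Finset.card_pos.2 ⟨_, mem_image_of_mem _ hmem⟩
  have h3 := (card_le_card h1).trans (card_insert_le _ _)
  unfold numDist at h2 ⊢
  omega

lemma numDist_mono {P Q : Finset E} (h : P ⊆ Q) : numDist P ≤ numDist Q := by
  apply card_le_card
  apply image_subset_image
  intro p hp
  rw [mem_offDiag] at hp ⊢
  exact ⟨h hp.1, h hp.2.1, hp.2.2⟩

/-- Distances of sets of small difference set, in terms of the difference set. -/
theorem dist_of_sub (E : Type*) [NormedAddCommGroup E] [InnerProductSpace ℝ E]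
    [FiniteDimensional ℝ E] (d : ℕ) (hd3 : 3 ≤ d) (hd : finrank ℝ E ≤ d) :
    ∃ C e : ℕ, 1 ≤ C ∧ ∀ (K : ℕ) (P : Finset E), 2 ≤ P.card → (P - P).card ≤ K * P.card →
      ((P - P).card : ℝ) ^ (2 / (d : ℝ)) ≤ C * K ^ e * (numDist P : ℝ) := by
  obtain ⟨C, e, hC, hG⟩ := norms_bound E d hd3 hd
  refine ⟨2 * C, 2 * e, by omega, ?_⟩
  intro K P hP hK
  have hPne : P.Nonempty := Finset.card_pos.1 (by omega)
  have h1 := hG (K ^ 2) (dfilt P) (filt_of_sub P hPne K hK)
  have h2 : (((dfilt P 1).image (fun x => ‖x‖)).card : ℝ) ≤ 2 * numDist P := by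
    exact_mod_cast norms_le P hP
  have h3 : dfilt P 1 = P - P := by unfold dfilt; rw [one_nsmul]
  rw [h3] at h1 h2
  calc ((P - P).card : ℝ) ^ (2 / (d : ℝ)) ≤ _ := h1
    _ ≤ C * ((K ^ 2 : ℕ) : ℝ) ^ e * (2 * numDist P) :=
      mul_le_mul_of_nonneg_left h2 (by (clear * - hC; positivity))
    _ = _ := by push_cast; ring

end Vale.Agent.P054K
end

section

/-!
A Balog–Szemerédi–Gowers theorem with polynomial bounds:
if `|A|^3 ≤ K E(A)` then some `A' ⊆ A` has `|A| ≤ 8 K |A'|` and `|A' - A'| ≤ 2^24 K^10 |A'|`.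
-/

namespace Vale.Agent.P054K.BSG

open Finset
open scoped Pointwise

variable {G : Type*} [AddCommGroup G] [DecidableEq G]

/-- Number of representations of `u` as `s - t`. -/
def rep (S T : Finset G) (u : G) : ℕ := ((S ×ˢ T).filter (fun p => p.1 - p.2 = u)).card

lemma rep_mul_le (S T V : Finset G) (t : ℝ) (h : ∀ v ∈ V, t ≤ rep S T v) :
    (V.card : ℝ) * t ≤ (S.card : ℝ) * T.card := by
  have h1 : ∑ v ∈ V, rep S T v ≤ (S ×ˢ T).card := by
    unfold rep
    rw [sum_card_fiberwise_eq_card_filter]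
    exact card_le_card (filter_subset _ _)
  have h2 : (V.card : ℝ) * t ≤ ∑ v ∈ V, (rep S T v : ℝ) := by
    rw [← nsmul_eq_mul]
    exact card_nsmul_le_sum V _ t h
  calc (V.card : ℝ) * t ≤ ∑ v ∈ V, (rep S T v : ℝ) := h2
    _ ≤ ((S ×ˢ T).card : ℝ) := by exact_mod_cast h1
    _ = _ := by rw [card_product]; push_cast; ring

lemma rep_le (A : Finset G) (u : G) : rep A A u ≤ A.card := by
  unfold rep
  apply card_le_card_of_injOn (fun p => p.1)
  · intro p hp
    exact (mem_product.1 (mem_filter.1 (mem_coe.1 hp)).1).1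
  · intro p hp q hq h
    have h1 := (mem_filter.1 (mem_coe.1 hp)).2
    have h2 := (mem_filter.1 (mem_coe.1 hq)).2
    have h3 : p.1 = q.1 := h
    have h4 : p.2 = q.2 := by
      rw [h3, ← h2] at h1
      exact sub_right_injective h1
    exact Prod.ext h3 h4

lemma le_rep (S T : Finset G) (u : G) (B : Finset G) (f g : G → G)
    (hf : ∀ b ∈ B, f b ∈ S) (hg : ∀ b ∈ B, g b ∈ T) (hfg : ∀ b ∈ B, f b - g b = u)
    (hinj : Function.Injective f) : B.card ≤ rep S T u := by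
  unfold rep
  apply card_le_card_of_injOn (fun b => (f b, g b))
  · intro b hb
    exact mem_coe.2 (mem_filter.2 ⟨mem_product.2 ⟨hf b hb, hg b hb⟩, hfg b hb⟩)
  · intro b _ c _ h
    exact hinj (Prod.ext_iff.1 h).1

lemma energy_eq (A : Finset G) :
    A.addEnergy A = ∑ p ∈ A ×ˢ A, rep A A (p.1 - p.2) := by
  have h1 : A.addEnergy A = ((A ×ˢ A).sigma (fun p => (A ×ˢ A).filter
      (fun q => q.1 - q.2 = p.1 - p.2))).card := by
    unfold addEnergy
    apply card_bij' (fun x _ => (⟨x.1, (x.2.2, x.2.1)⟩ : Σ _ : G × G, G × G))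
      (fun y _ => (y.1, (y.2.2, y.2.1)))
    · rintro ⟨⟨a, b⟩, c, d⟩ hx
      simp only [mem_filter, mem_product, mem_sigma] at hx ⊢
      obtain ⟨⟨⟨ha, hb⟩, hc, hd⟩, he⟩ := hx
      refine ⟨⟨ha, hb⟩, ⟨hd, hc⟩, ?_⟩
      rw [sub_eq_sub_iff_add_eq_add, add_comm d b, he.symm]
    · rintro ⟨⟨a, b⟩, c, d⟩ hx
      simp only [mem_filter, mem_product, mem_sigma] at hx ⊢
      obtain ⟨⟨ha, hb⟩, ⟨hc, hd⟩, he⟩ := hx
      refine ⟨⟨⟨ha, hb⟩, hd, hc⟩, ?_⟩
      rw [sub_eq_sub_iff_add_eq_add] at he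
      rw [← he, add_comm]
    · rintro ⟨⟨a, b⟩, c, d⟩ _
      rfl
    · rintro ⟨⟨a, b⟩, c, d⟩ _
      rfl
  rw [h1, card_sigma]
  rfl

/-- The popular differences. -/
noncomputable def pop (S : Finset G) (t : ℝ) : Finset G :=
  (S - S).filter (fun u => t ≤ rep S S u)

lemma mem_pop {S : Finset G} {t : ℝ} (ht : 0 < t) {u : G} : u ∈ pop S t ↔ t ≤ rep S S u := by
  unfold pop
  rw [mem_filter]
  constructor
  · exact fun h => h.2
  · intro h
    refine ⟨?_, h⟩
    have h1 : 0 < rep S S u := by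
      have : (0 : ℝ) < rep S S u := lt_of_lt_of_le ht h
      exact_mod_cast this
    obtain ⟨p, hp⟩ := Finset.card_pos.1 h1
    obtain ⟨hp1, hp2⟩ := mem_filter.1 hp
    rw [← hp2]
    exact sub_mem_sub (mem_product.1 hp1).1 (mem_product.1 hp1).2

lemma card_pop (S : Finset G) (t : ℝ) : ((pop S t).card : ℝ) * t ≤ (S.card : ℝ) ^ 2 := by
  rw [sq]
  apply rep_mul_le
  intro v hv
  exact (mem_filter.1 hv).2

/-- Number of edges of the popularity graph. -/
lemma edges (A : Finset G) (hA : A.Nonempty) (K : ℝ) (hK : 0 < K)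
    (hE : (A.card : ℝ) ^ 3 ≤ K * A.addEnergy A) :
    (A.card : ℝ) ^ 2 / (2 * K) ≤
      (((A ×ˢ A).filter (fun p => p.1 - p.2 ∈ pop A (A.card / (2 * K)))).card : ℝ) := by
  set n : ℝ := (A.card : ℝ) with hn
  have hn0 : 0 < n := by rw [hn]; exact_mod_cast hA.card_pos
  have ht : 0 < n / (2 * K) := by positivity
  set D := pop A (n / (2 * K)) with hD
  have h1 : (A.addEnergy A : ℝ) ≤
      n * (((A ×ˢ A).filter (fun p => p.1 - p.2 ∈ D)).card : ℝ) + n ^ 2 * (n / (2 * K)) := by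
    rw [energy_eq, ← sum_filter_add_sum_filter_not (A ×ˢ A) (fun p => p.1 - p.2 ∈ D)]
    push_cast
    apply add_le_add
    · calc ∑ p ∈ (A ×ˢ A).filter (fun p => p.1 - p.2 ∈ D), (rep A A (p.1 - p.2) : ℝ)
          ≤ ∑ p ∈ (A ×ˢ A).filter (fun p => p.1 - p.2 ∈ D), n := by
            apply sum_le_sum
            intro p _
            rw [hn]
            exact_mod_cast rep_le A _
        _ = _ := by rw [sum_const, nsmul_eq_mul]; ring
    · calc ∑ p ∈ (A ×ˢ A).filter (fun p => ¬ p.1 - p.2 ∈ D), (rep A A (p.1 - p.2) : ℝ)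
          ≤ ∑ p ∈ (A ×ˢ A).filter (fun p => ¬ p.1 - p.2 ∈ D), n / (2 * K) := by
            apply sum_le_sum
            intro p hp
            have h2 := (mem_filter.1 hp).2
            rw [hD, mem_pop ht] at h2
            exact (not_le.1 h2).le
        _ = (((A ×ˢ A).filter (fun p => ¬ p.1 - p.2 ∈ D)).card : ℝ) * (n / (2 * K)) := by
            rw [sum_const, nsmul_eq_mul]
        _ ≤ n ^ 2 * (n / (2 * K)) := by
            apply mul_le_mul_of_nonneg_right _ ht.le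
            have : ((A ×ˢ A).filter (fun p => ¬ p.1 - p.2 ∈ D)).card ≤ A.card * A.card := by
              rw [← card_product]
              exact card_le_card (filter_subset _ _)
            rw [hn, sq]
            exact_mod_cast this
  have h2 : n ^ 3 ≤ K * (n * (((A ×ˢ A).filter (fun p => p.1 - p.2 ∈ D)).card : ℝ) +
      n ^ 2 * (n / (2 * K))) := hE.trans (mul_le_mul_of_nonneg_left h1 hK.le)
  have h3 : K * (n ^ 2 * (n / (2 * K))) = n ^ 3 / 2 := by field_simp
  rw [mul_add, h3] at h2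
  have h4 : n * (n ^ 2 / (2 * K)) ≤
      n * (((A ×ˢ A).filter (fun p => p.1 - p.2 ∈ D)).card : ℝ) := by
    have h5 : n ^ 3 / 2 ≤ K * (n * (((A ×ˢ A).filter (fun p => p.1 - p.2 ∈ D)).card : ℝ)) := by
      linarith only [h2]
    have h6 : n * (n ^ 2 / (2 * K)) = (n ^ 3 / 2) / K := by field_simp
    rw [h6, div_le_iff₀ hK]
    linarith only [h2]
  exact le_of_mul_le_mul_left h4 hn0

/-- The graph lemma: a dense relation has a large set of vertices most pairs of which have many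
common neighbours. -/
lemma graph_lemma (A : Finset G) (hA : A.Nonempty) (adj : G → G → Prop) [∀ a b, Decidable (adj a b)]
    (α : ℝ) (hα : 0 ≤ α)
    (he : α * (A.card : ℝ) ^ 2 ≤ (((A ×ˢ A).filter (fun p => adj p.1 p.2)).card : ℝ)) :
    ∃ A' ⊆ A, α ^ 2 * (A.card : ℝ) ^ 2 / 2 ≤ (A'.card : ℝ) ^ 2 ∧
      16 * (((A' ×ˢ A').filter (fun p => ((A.filter (fun b => adj p.1 b ∧ adj p.2 b)).card : ℝ) <
        α ^ 2 / 32 * A.card)).card : ℝ) ≤ (A'.card : ℝ) ^ 2 := by
  set n : ℝ := (A.card : ℝ) with hn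
  have hn0 : 0 < n := by rw [hn]; exact_mod_cast hA.card_pos
  set N : G → Finset G := fun b => A.filter (fun a => adj a b) with hN
  set bad : G × G → Prop := fun p => ((A.filter (fun b => adj p.1 b ∧ adj p.2 b)).card : ℝ) <
        α ^ 2 / 32 * n with hbad
  -- second moment
  have h1 : α * n ^ 2 ≤ ∑ b ∈ A, ((N b).card : ℝ) := by
    refine he.trans (le_of_eq ?_)
    have h2 : ((A ×ˢ A).filter (fun p => adj p.1 p.2)).card = ∑ b ∈ A, (N b).card := by
      rw [card_filter, sum_product_right]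
      apply sum_congr rfl
      intro b _
      rw [hN, card_filter]
    rw [h2]
    push_cast
    rfl
  have h2 : α ^ 2 * n ^ 3 ≤ ∑ b ∈ A, ((N b).card : ℝ) ^ 2 := by
    have h3 := sq_sum_le_card_mul_sum_sq (s := A) (f := fun b => ((N b).card : ℝ))
    rw [← hn] at h3
    have h4 : (α * n ^ 2) ^ 2 ≤ (∑ b ∈ A, ((N b).card : ℝ)) ^ 2 :=
      pow_le_pow_left₀ (by (clear * - hA hα; positivity)) h1 2
    have h5 : n * (α ^ 2 * n ^ 3) ≤ n * ∑ b ∈ A, ((N b).card : ℝ) ^ 2 := by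
      calc n * (α ^ 2 * n ^ 3) = (α * n ^ 2) ^ 2 := by ring
        _ ≤ _ := h4.trans h3
    exact le_of_mul_le_mul_left h5 hn0
  -- bad pairs
  have h3 : ∑ b ∈ A, ((((N b) ×ˢ (N b)).filter bad).card : ℝ) ≤ α ^ 2 / 32 * n ^ 3 := by
    have h4 : ∑ b ∈ A, (((N b) ×ˢ (N b)).filter bad).card =
        ∑ p ∈ (A ×ˢ A).filter bad, (A.filter (fun b => adj p.1 b ∧ adj p.2 b)).card := by
      have h5 : ∀ b ∈ A, ((N b) ×ˢ (N b)).filter bad =
          ((A ×ˢ A).filter bad).filter (fun p => adj p.1 b ∧ adj p.2 b) := by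
        intro b _
        ext p
        simp only [hN, mem_filter, mem_product]
        (clear * -; tauto)
      rw [sum_congr rfl (fun b hb => by rw [h5 b hb])]
      exact (sum_card_bipartiteAbove_eq_sum_card_bipartiteBelow
        (fun (p : G × G) b => adj p.1 b ∧ adj p.2 b)).symm
    have h6 : (∑ b ∈ A, ((((N b) ×ˢ (N b)).filter bad).card : ℝ)) =
        ∑ p ∈ (A ×ˢ A).filter bad, ((A.filter (fun b => adj p.1 b ∧ adj p.2 b)).card : ℝ) := by
      exact_mod_cast h4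
    rw [h6]
    calc ∑ p ∈ (A ×ˢ A).filter bad, ((A.filter (fun b => adj p.1 b ∧ adj p.2 b)).card : ℝ)
        ≤ ∑ p ∈ (A ×ˢ A).filter bad, α ^ 2 / 32 * n := by
          apply sum_le_sum
          intro p hp
          exact (mem_filter.1 hp).2.le
      _ = (((A ×ˢ A).filter bad).card : ℝ) * (α ^ 2 / 32 * n) := by rw [sum_const, nsmul_eq_mul]
      _ ≤ n ^ 2 * (α ^ 2 / 32 * n) := by
          apply mul_le_mul_of_nonneg_right _ (by (clear * - hA; positivity))
          have : ((A ×ˢ A).filter bad).card ≤ A.card * A.card := by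
            rw [← card_product]
            exact card_le_card (filter_subset _ _)
          calc (((A ×ˢ A).filter bad).card : ℝ) ≤ ((A.card * A.card : ℕ) : ℝ) := by
                exact_mod_cast this
            _ = n ^ 2 := by rw [hn]; push_cast; ring
      _ = _ := by ring
  have h4 : ∑ b ∈ A, (α ^ 2 * n ^ 2 / 2) ≤
      ∑ b ∈ A, (((N b).card : ℝ) ^ 2 - 16 * ((((N b) ×ˢ (N b)).filter bad).card : ℝ)) := by
    rw [sum_const, nsmul_eq_mul, ← hn, sum_sub_distrib, ← mul_sum]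
    linarith only [h2, h3]
  obtain ⟨b, _, hb⟩ := exists_le_of_sum_le hA h4
  have h5 : (0 : ℝ) ≤ ((((N b) ×ˢ (N b)).filter bad).card : ℝ) := by (clear * -; positivity)
  have h6 : 0 ≤ α ^ 2 * n ^ 2 / 2 := by (clear * - hA; positivity)
  refine ⟨N b, filter_subset _ _, ?_, ?_⟩
  · linarith only [hb]
  · have h7 : 16 * ((((N b) ×ˢ (N b)).filter bad).card : ℝ) ≤ ((N b).card : ℝ) ^ 2 := by linarith only [hb, h6]
    exact h7

/-- **Balog–Szemerédi–Gowers theorem** (difference set version, polynomial bounds). -/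
theorem bsg (A : Finset G) (hA : A.Nonempty) (K : ℝ) (hK : 0 < K)
    (hE : (A.card : ℝ) ^ 3 ≤ K * A.addEnergy A) :
    ∃ A' ⊆ A, (A.card : ℝ) ≤ 8 * K * A'.card ∧
      ((A' - A').card : ℝ) ≤ 2 ^ 24 * K ^ 10 * A'.card := by
  have hE' := edges A hA K hK hE
  set n : ℝ := (A.card : ℝ) with hn
  have hn0 : 0 < n := by rw [hn]; exact_mod_cast hA.card_pos
  have ht : 0 < n / (2 * K) := by positivity
  set D := pop A (n / (2 * K)) with hD
  set α : ℝ := 1 / (2 * K) with hα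
  have hα0 : 0 < α := by positivity
  have he : α * n ^ 2 ≤ (((A ×ˢ A).filter (fun p => p.1 - p.2 ∈ D)).card : ℝ) := by
    refine le_trans (le_of_eq ?_) hE'
    rw [hα]
    ring
  obtain ⟨A₁, hA₁, h1, h2⟩ := graph_lemma A hA (fun a b => a - b ∈ D) α hα0.le he
  rw [← hn] at h1 h2
  set t : ℝ := α ^ 2 / 32 * n with htdef
  have ht0 : 0 < t := by (clear * - hA hK; positivity)
  set m : ℝ := (A₁.card : ℝ) with hm
  have hm0 : 0 ≤ m := by (clear * -; positivity)
  have hmlow : α * n / 2 ≤ m := by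
    have h3 : (α * n / 2) ^ 2 ≤ m ^ 2 := by
      refine le_trans ?_ h1
      have : 0 ≤ α ^ 2 * n ^ 2 := by (clear * - hA hK; positivity)
      nlinarith only []
    exact (pow_le_pow_iff_left₀ (by (clear * - hA hK; positivity)) hm0 (by norm_num)).1 h3
  have hmpos : 0 < m := lt_of_lt_of_le (by (clear * - hA hK; positivity)) hmlow
  set cod : G → G → ℝ := fun a c => ((A.filter (fun b => a - b ∈ D ∧ c - b ∈ D)).card : ℝ)
    with hcod
  set bd : G → ℕ := fun a => (A₁.filter (fun c => cod a c < t)).card with hbd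
  have hbdsum : 16 * ∑ a ∈ A₁, (bd a : ℝ) ≤ m ^ 2 := by
    have h3 : ((A₁ ×ˢ A₁).filter (fun p => ((A.filter (fun b => p.1 - b ∈ D ∧ p.2 - b ∈ D)).card : ℝ)
        < t)).card = ∑ a ∈ A₁, bd a := by
      rw [card_filter, sum_product]
      apply sum_congr rfl
      intro a _
      exact (card_filter (fun c => cod a c < t) A₁).symm
    rw [h3] at h2
    push_cast at h2
    exact h2
  set A₂ := A₁.filter (fun a => 4 * (bd a : ℝ) ≤ m) with hA₂
  have hA₂card : 3 / 4 * m ≤ (A₂.card : ℝ) := by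
    have h3 : A₂.card + (A₁.filter (fun a => ¬ 4 * (bd a : ℝ) ≤ m)).card = A₁.card :=
      card_filter_add_card_filter_not _
    have h4 : ((A₁.filter (fun a => ¬ 4 * (bd a : ℝ) ≤ m)).card : ℝ) * (m / 4) ≤
        ∑ a ∈ A₁, (bd a : ℝ) := by
      calc ((A₁.filter (fun a => ¬ 4 * (bd a : ℝ) ≤ m)).card : ℝ) * (m / 4)
          = ∑ a ∈ A₁.filter (fun a => ¬ 4 * (bd a : ℝ) ≤ m), m / 4 := by
            rw [sum_const, nsmul_eq_mul]
        _ ≤ ∑ a ∈ A₁.filter (fun a => ¬ 4 * (bd a : ℝ) ≤ m), (bd a : ℝ) := by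
            apply sum_le_sum
            intro a ha
            have := not_le.1 (mem_filter.1 ha).2
            linarith only [this]
        _ ≤ _ := by
            apply sum_le_sum_of_subset_of_nonneg (filter_subset _ _)
            intro a _ _
            (clear * -; positivity)
    have h5 : ((A₁.filter (fun a => ¬ 4 * (bd a : ℝ) ≤ m)).card : ℝ) ≤ m / 4 := by
      have h6 : ((A₁.filter (fun a => ¬ 4 * (bd a : ℝ) ≤ m)).card : ℝ) * m ≤ m / 4 * m := by
        linarith only [hbdsum, h4]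
      exact le_of_mul_le_mul_right h6 hmpos
    have h7 : (A₂.card : ℝ) + ((A₁.filter (fun a => ¬ 4 * (bd a : ℝ) ≤ m)).card : ℝ) = m := by
      have h8 := congrArg (fun k : ℕ => (k : ℝ)) h3
      simp only [Nat.cast_add] at h8
      exact h8
    linarith only [h5, h7]
  set D₂ := pop D t with hD₂
  -- good pairs have popular differences
  have hgood : ∀ a c : G, t ≤ cod a c → a - c ∈ D₂ := by
    intro a c h
    rw [hD₂, mem_pop ht0]
    refine h.trans ?_
    have := le_rep D D (a - c) (A.filter (fun b => a - b ∈ D ∧ c - b ∈ D)) (fun b => a - b)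
      (fun b => c - b) (fun b hb => (mem_filter.1 hb).2.1) (fun b hb => (mem_filter.1 hb).2.2)
      (fun b _ => by abel) sub_right_injective
    have h9 : cod a c ≤ ((rep D D (a - c) : ℕ) : ℝ) := Nat.cast_le.2 this
    exact h9
  have hrep : ∀ v ∈ A₂ - A₂, m / 2 ≤ rep D₂ D₂ v := by
    intro v hv
    obtain ⟨a, ha, a', ha', rfl⟩ := mem_sub.1 hv
    obtain ⟨haA, hab⟩ := mem_filter.1 ha
    obtain ⟨haA', hab'⟩ := mem_filter.1 ha'
    set B := A₁.filter (fun c => t ≤ cod a c ∧ t ≤ cod a' c) with hB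
    have h3 : m / 2 ≤ (B.card : ℝ) := by
      have hsub : A₁ ⊆ (B ∪ A₁.filter (fun c => cod a c < t)) ∪ A₁.filter (fun c => cod a' c < t) := by
        intro c hc
        rw [mem_union, mem_union]
        by_cases h4 : t ≤ cod a c
        · by_cases h5 : t ≤ cod a' c
          · exact Or.inl (Or.inl (mem_filter.2 ⟨hc, h4, h5⟩))
          · exact Or.inr (mem_filter.2 ⟨hc, not_le.1 h5⟩)
        · exact Or.inl (Or.inr (mem_filter.2 ⟨hc, not_le.1 h4⟩))
      have h4 : A₁.card ≤ B.card + bd a + bd a' :=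
        (card_le_card hsub).trans ((card_union_le _ _).trans
          (Nat.add_le_add_right (card_union_le _ _) _))
      have h5 : m ≤ (B.card : ℝ) + bd a + bd a' := by
        rw [hm]
        exact_mod_cast h4
      linarith only [hab, hab', h5]
    refine h3.trans ?_
    have := le_rep D₂ D₂ (a - a') B (fun c => a - c) (fun c => a' - c)
      (fun c hc => hgood a c (mem_filter.1 hc).2.1) (fun c hc => hgood a' c (mem_filter.1 hc).2.2)
      (fun c _ => by abel) sub_right_injective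
    exact_mod_cast this
  have c1 : (D.card : ℝ) ≤ 2 * K * n := by
    have h3 := card_pop A (n / (2 * K))
    rw [← hD, ← hn] at h3
    have h4 : (D.card : ℝ) * n ≤ 2 * K * n * n := by
      have h5 : (D.card : ℝ) * n = (D.card : ℝ) * (n / (2 * K)) * (2 * K) := by (clear * - hK hn0; field_simp)
      rw [h5]
      calc (D.card : ℝ) * (n / (2 * K)) * (2 * K) ≤ n ^ 2 * (2 * K) :=
            mul_le_mul_of_nonneg_right h3 (by positivity)
        _ = _ := by ring
    exact le_of_mul_le_mul_right h4 hn0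
  have c2 : (D₂.card : ℝ) ≤ 512 * K ^ 4 * n := by
    have h3 := card_pop D t
    rw [← hD₂] at h3
    have h4 : (D₂.card : ℝ) * t ≤ (2 * K * n) ^ 2 :=
      h3.trans (pow_le_pow_left₀ (by (clear * -; positivity)) c1 2)
    have h5 : t = n / (128 * K ^ 2) := by
      rw [htdef, hα]
      field_simp
      norm_num
    rw [h5] at h4
    have h6 : (D₂.card : ℝ) * n ≤ 512 * K ^ 4 * n * n := by
      have h7 : (D₂.card : ℝ) * n = (D₂.card : ℝ) * (n / (128 * K ^ 2)) * (128 * K ^ 2) := by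
        (clear * - hK hn0; field_simp)
      rw [h7]
      calc (D₂.card : ℝ) * (n / (128 * K ^ 2)) * (128 * K ^ 2) ≤ (2 * K * n) ^ 2 * (128 * K ^ 2) :=
            mul_le_mul_of_nonneg_right h4 (by positivity)
        _ = _ := by ring
    exact le_of_mul_le_mul_right h6 hn0
  have c3 := rep_mul_le D₂ D₂ (A₂ - A₂) (m / 2) hrep
  have hmn : n ≤ 4 * K * m := by
    have h3 : α * n / 2 = n / (4 * K) := by rw [hα]; field_simp; norm_num
    rw [h3, div_le_iff₀ (by positivity)] at hmlow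
    linarith only [hmlow]
  refine ⟨A₂, (filter_subset _ _).trans hA₁, ?_, ?_⟩
  · nlinarith only [hmn, hK, hA₂card]
  · have h3 : ((A₂ - A₂).card : ℝ) * (m / 2) ≤ (512 * K ^ 4 * n) ^ 2 := by
      refine c3.trans ?_
      rw [← sq]
      exact pow_le_pow_left₀ (by (clear * -; positivity)) c2 2
    have h4 : (512 * K ^ 4 * n) ^ 2 ≤ (2 ^ 23 * K ^ 10 * m) * (m / 2) := by
      have h5 : n ^ 2 ≤ (4 * K * m) ^ 2 := pow_le_pow_left₀ hn0.le hmn 2
      calc (512 * K ^ 4 * n) ^ 2 = 2 ^ 18 * K ^ 8 * n ^ 2 := by ring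
        _ ≤ 2 ^ 18 * K ^ 8 * (4 * K * m) ^ 2 := mul_le_mul_of_nonneg_left h5 (by positivity)
        _ = _ := by ring
    have h5 : ((A₂ - A₂).card : ℝ) ≤ 2 ^ 23 * K ^ 10 * m :=
      le_of_mul_le_mul_right (h3.trans h4) (by (clear * - hmpos; positivity))
    have h6 : m ≤ 2 * (A₂.card : ℝ) := by linarith only [hA₂card]
    calc ((A₂ - A₂).card : ℝ) ≤ 2 ^ 23 * K ^ 10 * m := h5
      _ ≤ 2 ^ 23 * K ^ 10 * (2 * (A₂.card : ℝ)) := mul_le_mul_of_nonneg_left h6 (by positivity)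
      _ = _ := by ring

end Vale.Agent.P054K.BSG
end

section

namespace Vale.Agent.P054K

open Finset Module
open scoped Pointwise

lemma addEnergy_le {G : Type*} [AddCommGroup G] [DecidableEq G] (A : Finset G) :
    A.addEnergy A ≤ A.card ^ 3 := by
  rw [BSG.energy_eq]
  calc ∑ p ∈ A ×ˢ A, BSG.rep A A (p.1 - p.2) ≤ ∑ p ∈ A ×ˢ A, A.card :=
        sum_le_sum (fun p _ => BSG.rep_le A _)
    _ = A.card ^ 3 := by rw [sum_const, card_product, smul_eq_mul]; ring

/-- Distances and additive energy, with arbitrary decidability instances. -/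
theorem dist_of_energy_inst (E : Type*) [NormedAddCommGroup E] [InnerProductSpace ℝ E]
    [FiniteDimensional ℝ E] [instE : DecidableEq E] (d : ℕ) (hd3 : 3 ≤ d)
    (hd : finrank ℝ E ≤ d) :
    ∃ (c : ℝ) (e : ℕ), 0 < c ∧ ∀ (P : Finset E), 2 ≤ P.card →
      c * ((P.addEnergy P : ℝ) / (P.card : ℝ) ^ 3) ^ e * (P.card : ℝ) ^ (2 / (d : ℝ)) ≤
        (((P.offDiag).image (fun p => dist p.1 p.2)).card : ℝ) := by
  obtain rfl : instE = fun a b => Classical.propDecidable (a = b) := Subsingleton.elim _ _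
  classical
  have hinst : (Real.decidableEq : DecidableEq ℝ) = fun a b => Classical.propDecidable (a = b) :=
    Subsingleton.elim _ _
  obtain ⟨C, e, hC, hG⟩ := dist_of_sub E d hd3 hd
  have hC' : (1 : ℝ) ≤ C := by exact_mod_cast hC
  refine ⟨1 / (8 * C * 2 ^ (25 * e)), 10 * e + 1, by positivity, ?_⟩
  intro P hP
  have hPne : P.Nonempty := Finset.card_pos.1 (by omega)
  set n : ℝ := (P.card : ℝ) with hn
  have hn2 : (2 : ℝ) ≤ n := by rw [hn]; exact_mod_cast hP
  have hn0 : 0 < n := by linarith only [hn2]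
  have hdR : (3 : ℝ) ≤ d := by exact_mod_cast hd3
  have hd0 : (0 : ℝ) < d := by linarith only [hdR]
  have hE0 : (0 : ℝ) < P.addEnergy P := by exact_mod_cast addEnergy_self_pos hPne
  have hEle : (P.addEnergy P : ℝ) ≤ n ^ 3 := by
    rw [hn]
    exact_mod_cast addEnergy_le P
  set K : ℝ := n ^ 3 / P.addEnergy P with hKdef
  have hK1 : 1 ≤ K := by
    rw [hKdef, le_div_iff₀ hE0]
    linarith only [hEle]
  have hK0 : 0 < K := by linarith only [hK1]
  have hKinv : (P.addEnergy P : ℝ) / n ^ 3 = 1 / K := by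
    rw [hKdef, one_div_div]
  have hnum : (((P.offDiag).image (fun p => dist p.1 p.2)).card : ℝ) = (numDist P : ℝ) := by
    unfold numDist
    rw [hinst]
  have hmain : n ^ (2 / (d : ℝ)) ≤
      (8 * C * 2 ^ (25 * e)) * K ^ (10 * e + 1) * (numDist P : ℝ) := by
    have hexp0 : 0 ≤ 2 / (d : ℝ) := by positivity
    have hexp1 : 2 / (d : ℝ) ≤ 1 := by
      rw [div_le_one hd0]; linarith only [hdR]
    obtain ⟨A, hAP, h1, h2⟩ := BSG.bsg P hPne K hK0 (by
      rw [hKdef, div_mul_cancel₀ _ hE0.ne'])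
    rw [← hn] at h1
    -- the number of distances of `P` is at least one
    have hnd1 : (1 : ℝ) ≤ (numDist P : ℝ) := by
      have h3 := norms_le P hP
      have h4 : 0 < ((dfilt P 1).image (fun x => ‖x‖)).card := by
        apply Finset.card_pos.2
        apply Finset.Nonempty.image
        obtain ⟨x, hx⟩ := hPne
        refine ⟨x - x, ?_⟩
        unfold dfilt
        rw [one_nsmul]
        exact sub_mem_sub hx hx
      have h5 : 1 ≤ numDist P := by omega
      exact_mod_cast h5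
    have hpow1 : (1 : ℝ) ≤ 2 ^ (25 * e) := one_le_pow₀ (by norm_num)
    have hKpow : (1 : ℝ) ≤ K ^ (10 * e) := one_le_pow₀ hK1
    rcases Nat.lt_or_ge A.card 2 with hlt | hge
    · have h3 : (A.card : ℝ) ≤ 1 := by
        have : A.card ≤ 1 := by omega
        exact_mod_cast this
      have h4 : n ≤ 8 * K := by
        have : 8 * K * (A.card : ℝ) ≤ 8 * K * 1 := mul_le_mul_of_nonneg_left h3 (by (clear * - hPne hE0; positivity))
        linarith only [h1, this]
      calc n ^ (2 / (d : ℝ)) ≤ n ^ (1 : ℝ) :=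
            Real.rpow_le_rpow_of_exponent_le (by linarith only [hn2]) hexp1
        _ = n := Real.rpow_one n
        _ ≤ 8 * K := h4
        _ = (8 * 1 * 1) * (1 * K) * 1 := by ring
        _ ≤ (8 * C * 2 ^ (25 * e)) * (K ^ (10 * e) * K) * (numDist P : ℝ) := by
            (clear * - hC hC' hPne hE0 hnd1 hpow1 hKpow; gcongr)
        _ = _ := by rw [pow_succ]
    · set k : ℕ := ⌈(2 : ℝ) ^ 24 * K ^ 10⌉₊ with hk
      have hk1 : (k : ℝ) ≤ 2 ^ 25 * K ^ 10 := by
        have h3 := (Nat.ceil_lt_add_one (by (clear * - hPne hE0; positivity) : 0 ≤ (2 : ℝ) ^ 24 * K ^ 10)).le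
        have h4 : (1 : ℝ) ≤ K ^ 10 := one_le_pow₀ hK1
        rw [hk]
        linarith only [h3, h4]
      have hk2 : (A - A).card ≤ k * A.card := by
        have h3 : ((A - A).card : ℝ) ≤ (k : ℝ) * A.card :=
          h2.trans (mul_le_mul_of_nonneg_right (Nat.le_ceil _) (by (clear * - hge; positivity)))
        exact_mod_cast h3
      have h3 := hG k A hge hk2
      have hAne : A.Nonempty := Finset.card_pos.1 (by omega)
      have h4 : n ≤ 8 * K * ((A - A).card : ℝ) := by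
        have h5 : (A.card : ℝ) ≤ ((A - A).card : ℝ) := by
          exact_mod_cast card_le_card_sub_left hAne
        exact h1.trans (mul_le_mul_of_nonneg_left h5 (by (clear * - hPne hE0; positivity)))
      have h5 : n ^ (2 / (d : ℝ)) ≤ 8 * K * ((A - A).card : ℝ) ^ (2 / (d : ℝ)) := by
        calc n ^ (2 / (d : ℝ)) ≤ (8 * K * ((A - A).card : ℝ)) ^ (2 / (d : ℝ)) :=
              Real.rpow_le_rpow hn0.le h4 hexp0
          _ = (8 * K) ^ (2 / (d : ℝ)) * ((A - A).card : ℝ) ^ (2 / (d : ℝ)) :=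
              Real.mul_rpow (by (clear * - hPne hE0; positivity)) (by (clear * - hAne; positivity))
          _ ≤ (8 * K) * ((A - A).card : ℝ) ^ (2 / (d : ℝ)) := by
              apply mul_le_mul_of_nonneg_right _ (by (clear * - hAne; positivity))
              calc (8 * K) ^ (2 / (d : ℝ)) ≤ (8 * K) ^ (1 : ℝ) :=
                    Real.rpow_le_rpow_of_exponent_le (by linarith only [hK1]) hexp1
                _ = 8 * K := Real.rpow_one _
      have h6 : (numDist A : ℝ) ≤ numDist P := by exact_mod_cast numDist_mono hAP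
      calc n ^ (2 / (d : ℝ)) ≤ 8 * K * ((A - A).card : ℝ) ^ (2 / (d : ℝ)) := h5
        _ ≤ 8 * K * (C * (k : ℝ) ^ e * (numDist A : ℝ)) :=
            mul_le_mul_of_nonneg_left h3 (by (clear * - hPne hE0; positivity))
        _ ≤ 8 * K * (C * (2 ^ 25 * K ^ 10) ^ e * (numDist P : ℝ)) := by
            (clear * - hC hPne hE0 hk1 h6; gcongr)
        _ = _ := by rw [mul_pow, ← pow_mul, ← pow_mul]; ring
  have hKe : 0 < K ^ (10 * e + 1) := by (clear * - hPne hE0; positivity)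
  rw [hnum, hKinv, one_div, one_div, inv_pow]
  have h7 : ((8 * C * 2 ^ (25 * e) : ℝ))⁻¹ * (K ^ (10 * e + 1))⁻¹ * n ^ (2 / (d : ℝ)) =
      n ^ (2 / (d : ℝ)) / ((8 * C * 2 ^ (25 * e)) * K ^ (10 * e + 1)) := by
    field_simp
  rw [h7, div_le_iff₀ (by (clear * - hC hPne hE0; positivity))]
  linarith only [hmain]

end Vale.Agent.P054K
end
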